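/-
R326/RProg: the stack language of `Lib.PolyTime.Prog` extended by recursive calls with constant-time
frames, its timed big-step semantics and its compilation to `Turing.FinTM2`.  Author: helper92.
-/
import Crest.Agent.Lib.PolyTime.More

set_option autoImplicit false
set_option linter.unusedSimpArgs false

namespace Crest.Agent.R326

open Function Turing Crest.Agent.Lib.PolyTime

/-- Structured programs over Boolean stacks with recursion.  `call` runs the current environment on
the content of register `0` in a fresh frame; `fix b` runs `b`, with environment `b`, likewise. -/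
inductive RProg : Type
  | skip : RProg
  | push : ℕ → Bool → RProg
  | seq : RProg → RProg → RProg
  | case : ℕ → RProg → RProg → RProg → RProg
  | loop : ℕ → RProg → RProg → RProg
  | call : RProg
  | fix : RProg → RProg

/-- `RExec env p S S' t`: in environment `env`, program `p` leads from `S` to `S'` within `t` steps. -/
inductive RExec : RProg → RProg → Store → Store → ℕ → Prop
  | skip (env : RProg) (S : Store) : RExec env .skip S S 1
  | push (env : RProg) (k : ℕ) (b : Bool) (S : Store) :
      RExec env (.push k b) S (update S k (b :: S k)) 1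
  | seq {env p q : RProg} {S S' S'' : Store} {t t' : ℕ} :
      RExec env p S S' t → RExec env q S' S'' t' → RExec env (.seq p q) S S'' (t + t')
  | caseNil {env : RProg} {k : ℕ} {p q r : RProg} {S S' : Store} {t : ℕ} :
      S k = [] → RExec env p S S' t → RExec env (.case k p q r) S S' (t + 1)
  | caseFalse {env : RProg} {k : ℕ} {p q r : RProg} {S S' : Store} {t : ℕ} {l : List Bool} :
      S k = false :: l → RExec env q (update S k l) S' t → RExec env (.case k p q r) S S' (t + 1)
  | caseTrue {env : RProg} {k : ℕ} {p q r : RProg} {S S' : Store} {t : ℕ} {l : List Bool} :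
      S k = true :: l → RExec env r (update S k l) S' t → RExec env (.case k p q r) S S' (t + 1)
  | loopNil {env : RProg} {k : ℕ} {q r : RProg} {S : Store} :
      S k = [] → RExec env (.loop k q r) S S 1
  | loopFalse {env : RProg} {k : ℕ} {q r : RProg} {S S' S'' : Store} {t t' : ℕ} {l : List Bool} :
      S k = false :: l → RExec env q (update S k l) S' t → RExec env (.loop k q r) S' S'' t' →
      RExec env (.loop k q r) S S'' (t + t' + 1)
  | loopTrue {env : RProg} {k : ℕ} {q r : RProg} {S S' S'' : Store} {t t' : ℕ} {l : List Bool} :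
      S k = true :: l → RExec env r (update S k l) S' t → RExec env (.loop k q r) S' S'' t' →
      RExec env (.loop k q r) S S'' (t + t' + 1)
  | call {env : RProg} {S : Store} {y : List Bool} {t : ℕ} :
      RExec env env (single (S 0)) (single y) t → RExec env .call S (update S 0 y) (t + 2)
  | fix {env b : RProg} {S : Store} {y : List Bool} {t : ℕ} :
      RExec b b (single (S 0)) (single y) t → RExec env (.fix b) S (update S 0 y) (t + 2)
  | mono {env p : RProg} {S S' : Store} {t t' : ℕ} :
      RExec env p S S' t → t ≤ t' → RExec env p S S' t'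

theorem RExec.of_eq {env p : RProg} {S S' S'' : Store} {t t' : ℕ} (h : RExec env p S S' t)
    (e : S' = S'') (ht : t ≤ t') : RExec env p S S'' t' := e ▸ h.mono ht

theorem RExec.of_eq' {env p : RProg} {S₀ S S' : Store} {t : ℕ} (h : RExec env p S S' t)
    (e : S₀ = S) : RExec env p S₀ S' t := e ▸ h

/-- Embedding of call-free programs. -/
def emb : Prog → RProg
  | .skip => .skip
  | .push k b => .push k b
  | .seq p q => .seq (emb p) (emb q)
  | .case k p q r => .case k (emb p) (emb q) (emb r)
  | .loop k q r => .loop k (emb q) (emb r)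

theorem RExec.ofExec {p : Prog} {S S' : Store} {t : ℕ} (h : Exec p S S' t) (env : RProg) :
    RExec env (emb p) S S' t := by
  induction h with
  | skip S => exact .skip _ _
  | push k b S => exact .push _ _ _ _
  | seq _ _ ih1 ih2 => exact .seq ih1 ih2
  | caseNil h _ ih => exact .caseNil h ih
  | caseFalse h _ ih => exact .caseFalse h ih
  | caseTrue h _ ih => exact .caseTrue h ih
  | loopNil h => exact .loopNil h
  | loopFalse h _ _ ih1 ih2 => exact .loopFalse h ih1 ih2
  | loopTrue h _ _ ih1 ih2 => exact .loopTrue h ih1 ih2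
  | mono _ h ih => exact .mono ih h

/-! ### Compilation -/

/-- One more than the largest stack index used. -/
def RProg.bound : RProg → ℕ
  | .skip => 0
  | .push k _ => k + 1
  | .seq p q => max p.bound q.bound
  | .case k p q r => max (k + 1) (max p.bound (max q.bound r.bound))
  | .loop k q r => max (k + 1) (max q.bound r.bound)
  | .call => 0
  | .fix b => b.bound

/-- Program points. -/
def RProg.Lab : RProg → Type
  | .skip => Unit
  | .push _ _ => Unit
  | .seq p q => p.Lab ⊕ q.Lab
  | .case _ p q r => Unit ⊕ p.Lab ⊕ q.Lab ⊕ r.Lab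
  | .loop _ q r => Unit ⊕ q.Lab ⊕ r.Lab
  | .call => Bool
  | .fix b => Bool ⊕ b.Lab

/-- Finitely many program points. -/
@[reducible] def RProg.labFintype : (p : RProg) → Fintype p.Lab
  | .skip => inferInstanceAs (Fintype Unit)
  | .push _ _ => inferInstanceAs (Fintype Unit)
  | .seq p q =>
    letI := p.labFintype; letI := q.labFintype
    inferInstanceAs (Fintype (p.Lab ⊕ q.Lab))
  | .case _ p q r =>
    letI := p.labFintype; letI := q.labFintype; letI := r.labFintype
    inferInstanceAs (Fintype (Unit ⊕ p.Lab ⊕ q.Lab ⊕ r.Lab))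
  | .loop _ q r =>
    letI := q.labFintype; letI := r.labFintype
    inferInstanceAs (Fintype (Unit ⊕ q.Lab ⊕ r.Lab))
  | .call => inferInstanceAs (Fintype Bool)
  | .fix b =>
    letI := b.labFintype
    inferInstanceAs (Fintype (Bool ⊕ b.Lab))

/-- The entry point. -/
def RProg.entry : (p : RProg) → p.Lab
  | .skip => ()
  | .push _ _ => ()
  | .seq p _ => Sum.inl p.entry
  | .case _ _ _ _ => Sum.inl ()
  | .loop _ _ _ => Sum.inl ()
  | .call => false
  | .fix _ => Sum.inl false

/-- Stack names: input (`inl 0`), output (`inl 1`), return addresses (`inl 2`), registers. -/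
abbrev RK (N : ℕ) : Type := Fin 3 ⊕ Fin (N + 1)

/-- Stack alphabets. -/
@[reducible] def RG (N : ℕ) (G Λ : Type) : RK N → Type
  | .inl ⟨0, _⟩ => G
  | .inl ⟨1, _⟩ => Bool
  | .inl ⟨_ + 2, _⟩ => Λ
  | .inr _ => Option Bool

/-- Internal states. -/
abbrev RSt (G Λ : Type) : Type := Option Bool × Option G × Option Λ

/-- Statements of the compiled machine. -/
abbrev RStmt (N : ℕ) (G Λ : Type) : Type := TM2.Stmt (RG N G Λ) Λ (RSt G Λ)

/-- Machine stacks. -/
def rstk (N : ℕ) {G Λ : Type} (inp : List G) (out : List Bool) (ret : List Λ)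
    (R : Fin (N + 1) → List (Option Bool)) : ∀ k : RK N, List (RG N G Λ k)
  | .inl ⟨0, _⟩ => inp
  | .inl ⟨1, _⟩ => out
  | .inl ⟨_ + 2, _⟩ => ret
  | .inr i => R i

section stk
variable {N : ℕ} {G Λ : Type} (inp : List G) (out : List Bool) (ret : List Λ)
  (R : Fin (N + 1) → List (Option Bool))

theorem update_rstk_reg (i : Fin (N + 1)) (l : List (Option Bool)) :
    update (rstk N inp out ret R) (.inr i) l = rstk N inp out ret (update R i l) := by
  funext j
  rcases j with j | j
  · rw [update_of_ne (by simp)]
    fin_cases j <;> rfl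
  · by_cases h : j = i
    · subst h; rw [update_self]; simp [rstk]
    · rw [update_of_ne (by simpa using h)]; simp [rstk, update_of_ne h]

theorem update_rstk_inp (l : List G) :
    update (rstk N inp out ret R) (.inl 0) l = rstk N l out ret R := by
  funext j
  rcases j with j | j
  · fin_cases j
    · exact update_self ..
    · exact update_of_ne (by simp) ..
    · exact update_of_ne (by simp) ..
  · exact update_of_ne (by simp) ..

theorem update_rstk_out (l : List Bool) :
    update (rstk N inp out ret R) (.inl 1) l = rstk N inp l ret R := by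
  funext j
  rcases j with j | j
  · fin_cases j
    · exact update_of_ne (by simp) ..
    · exact update_self ..
    · exact update_of_ne (by simp) ..
  · exact update_of_ne (by simp) ..

theorem update_rstk_ret (l : List Λ) :
    update (rstk N inp out ret R) (.inl 2) l = rstk N inp out l R := by
  funext j
  rcases j with j | j
  · fin_cases j
    · exact update_of_ne (by simp) ..
    · exact update_of_ne (by simp) ..
    · exact update_self ..
  · exact update_of_ne (by simp) ..

end stk

/-- Registers: the visible store on top of the saved frames. -/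
def regs {N : ℕ} (S : Store) (base : Fin (N + 1) → List (Option Bool)) :
    Fin (N + 1) → List (Option Bool) := fun i => (S i).map some ++ base i

/-- The saved frames start with a marker; nothing is saved below register `0`. -/
def BaseOK {N : ℕ} (base : Fin (N + 1) → List (Option Bool)) : Prop :=
  base 0 = [] ∧ ∀ i, (base i).head?.join = none

theorem regs_reg {N k : ℕ} (S : Store) (base : Fin (N + 1) → List (Option Bool)) (hk : k < N + 1) :
    regs S base (reg N k) = (S k).map some ++ base (reg N k) := by
  simp [regs, reg, Nat.mod_eq_of_lt hk]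

theorem update_regs {N k : ℕ} (S : Store) (base : Fin (N + 1) → List (Option Bool))
    (hk : k < N + 1) (l : List Bool) :
    update (regs S base) (reg N k) (l.map some ++ base (reg N k)) = regs (update S k l) base := by
  funext i
  by_cases h : i = reg N k
  · subst h; rw [update_self, regs_reg _ _ hk, update_self]
  · rw [update_of_ne h]
    have : (i : ℕ) ≠ k := by
      intro e; apply h; apply Fin.ext; simp [reg, Nat.mod_eq_of_lt hk, e]
    simp [regs, update_of_ne this]

/-- Push a marker on the listed registers. -/
def marks {N : ℕ} {G Λ : Type} (l : List (Fin (N + 1))) (q : RStmt N G Λ) : RStmt N G Λ :=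
  l.foldr (fun i s => TM2.Stmt.push (.inr i) (fun _ => none) s) q

/-- Pop the listed registers once. -/
def unmarks {N : ℕ} {G Λ : Type} (l : List (Fin (N + 1))) (q : RStmt N G Λ) : RStmt N G Λ :=
  l.foldr (fun i s => TM2.Stmt.pop (.inr i) (fun v _ => v) s) q

theorem stepAux_marks {N : ℕ} {G Λ : Type} (inp : List G) (out : List Bool) (ret : List Λ)
    (q : RStmt N G Λ) (v : RSt G Λ) (l : List (Fin (N + 1))) (hl : l.Nodup) :
    ∀ R : Fin (N + 1) → List (Option Bool), TM2.stepAux (marks l q) v (rstk N inp out ret R) =
      TM2.stepAux q v (rstk N inp out ret fun i => if i ∈ l then none :: R i else R i) := by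
  induction l with
  | nil => intro R; simp [marks]
  | cons j l ih =>
    intro R
    have hj := (List.nodup_cons.mp hl).1
    show TM2.stepAux (marks l q) v (update (rstk N inp out ret R) (.inr j) (none :: R j)) = _
    rw [update_rstk_reg, ih (List.nodup_cons.mp hl).2]
    congr 2
    funext i
    by_cases h : i = j
    · subst h; simp [hj]
    · simp [h]

theorem stepAux_unmarks {N : ℕ} {G Λ : Type} (inp : List G) (out : List Bool) (ret : List Λ)
    (q : RStmt N G Λ) (v : RSt G Λ) (l : List (Fin (N + 1))) (hl : l.Nodup) :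
    ∀ R : Fin (N + 1) → List (Option Bool), TM2.stepAux (unmarks l q) v (rstk N inp out ret R) =
      TM2.stepAux q v (rstk N inp out ret fun i => if i ∈ l then (R i).tail else R i) := by
  induction l with
  | nil => intro R; simp [unmarks]
  | cons j l ih =>
    intro R
    have hj := (List.nodup_cons.mp hl).1
    show TM2.stepAux (unmarks l q) v (update (rstk N inp out ret R) (.inr j) (R j).tail) = _
    rw [update_rstk_reg, ih (List.nodup_cons.mp hl).2]
    congr 2
    funext i
    by_cases h : i = j
    · subst h; simp [hj]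
    · simp [h]

/-- The registers other than `0`. -/
def nzRegs (N : ℕ) : List (Fin (N + 1)) := (List.finRange N).map Fin.succ

theorem nzRegs_nodup (N : ℕ) : (nzRegs N).Nodup :=
  (List.nodup_finRange N).map (Fin.succ_injective N)

theorem mem_nzRegs {N : ℕ} (i : Fin (N + 1)) : i ∈ nzRegs N ↔ i ≠ 0 := by
  cases i using Fin.cases <;> simp [nzRegs]

/-- Open a frame, record the return address and jump. -/
def callStmt {N : ℕ} {G Λ : Type} (back target : Λ) : RStmt N G Λ :=
  marks (nzRegs N) (TM2.Stmt.push (.inl 2) (fun _ => back) (TM2.Stmt.goto fun _ => target))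

/-- Jump to the recorded return address. -/
def retStmt {N : ℕ} {G Λ : Type} (dflt : Λ) : RStmt N G Λ :=
  TM2.Stmt.pop (.inl 2) (fun v a => (v.1, v.2.1, a)) (TM2.Stmt.goto fun v => v.2.2.getD dflt)

/-- Look at register `k`: if nothing is visible continue with `e`, else pop and jump. -/
def testStmt {N : ℕ} {G Λ : Type} (k : ℕ) (e : RStmt N G Λ) (lf lt : Λ) : RStmt N G Λ :=
  TM2.Stmt.peek (.inr (reg N k)) (fun v a => (a.join, v.2))
    (TM2.Stmt.branch (fun v => v.1.isNone) e
      (TM2.Stmt.pop (.inr (reg N k)) (fun v _ => v)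
        (TM2.Stmt.goto fun v => if v.1 = some true then lt else lf)))

theorem testStmt_nil {N : ℕ} {G Λ : Type} (inp : List G) (out : List Bool) (ret : List Λ) {k : ℕ}
    (hk : k < N + 1) (e : RStmt N G Λ) (lf lt : Λ) (v : RSt G Λ) {S : Store}
    {base : Fin (N + 1) → List (Option Bool)} (hb : BaseOK base) (h : S k = []) :
    TM2.stepAux (testStmt k e lf lt) v (rstk N inp out ret (regs S base)) =
      TM2.stepAux e (none, v.2) (rstk N inp out ret (regs S base)) := by
  have e1 : (rstk N inp out ret (regs S base) (.inr (reg N k))).head?.join = none := by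
    show (regs S base (reg N k)).head?.join = none
    rw [regs_reg _ _ hk, h]; exact hb.2 _
  simp only [testStmt, TM2.stepAux, e1, Option.isNone_none, cond_true]

theorem testStmt_cons {N : ℕ} {G Λ : Type} (inp : List G) (out : List Bool) (ret : List Λ) {k : ℕ}
    (hk : k < N + 1) (e : RStmt N G Λ) (lf lt : Λ) (v : RSt G Λ) {S : Store}
    (base : Fin (N + 1) → List (Option Bool)) {b : Bool} {l : List Bool} (h : S k = b :: l) :
    TM2.stepAux (testStmt k e lf lt) v (rstk N inp out ret (regs S base)) =
      ⟨some (if b = true then lt else lf), (some b, v.2),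
        rstk N inp out ret (regs (update S k l) base)⟩ := by
  have e0 : rstk N inp out ret (regs S base) (.inr (reg N k)) =
      some b :: (l.map some ++ base (reg N k)) := by
    show regs S base (reg N k) = _
    rw [regs_reg _ _ hk, h]; rfl
  simp only [testStmt, TM2.stepAux, e0, List.head?_cons, Option.join_some, Option.isNone_some,
    cond_false, List.tail_cons]
  rw [update_rstk_reg, update_regs _ _ hk]
  simp

/-- The statements of the compiled program; `cont` is what to do on exit, `ee` the entry of the
environment. -/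
def rcode (N : ℕ) (G Λ : Type) : (p : RProg) → (p.Lab → Λ) → RStmt N G Λ → Λ → p.Lab → RStmt N G Λ
  | .skip, _, cont, _ => fun _ => cont
  | .push k b, _, cont, _ => fun _ => TM2.Stmt.push (.inr (reg N k)) (fun _ => some b) cont
  | .seq p q, em, cont, ee => fun l =>
    match l with
    | Sum.inl l => rcode N G Λ p (fun x => em (Sum.inl x))
        (TM2.Stmt.goto fun _ => em (Sum.inr q.entry)) ee l
    | Sum.inr l => rcode N G Λ q (fun x => em (Sum.inr x)) cont ee l
  | .case k p q r, em, cont, ee => fun l =>
    match l with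
    | Sum.inl _ => testStmt k (TM2.Stmt.goto fun _ => em (Sum.inr (Sum.inl p.entry)))
        (em (Sum.inr (Sum.inr (Sum.inl q.entry)))) (em (Sum.inr (Sum.inr (Sum.inr r.entry))))
    | Sum.inr (Sum.inl l) => rcode N G Λ p (fun x => em (Sum.inr (Sum.inl x))) cont ee l
    | Sum.inr (Sum.inr (Sum.inl l)) =>
        rcode N G Λ q (fun x => em (Sum.inr (Sum.inr (Sum.inl x)))) cont ee l
    | Sum.inr (Sum.inr (Sum.inr l)) =>
        rcode N G Λ r (fun x => em (Sum.inr (Sum.inr (Sum.inr x)))) cont ee l
  | .loop k q r, em, cont, ee => fun l =>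
    match l with
    | Sum.inl _ => testStmt k cont (em (Sum.inr (Sum.inl q.entry))) (em (Sum.inr (Sum.inr r.entry)))
    | Sum.inr (Sum.inl l) => rcode N G Λ q (fun x => em (Sum.inr (Sum.inl x)))
        (TM2.Stmt.goto fun _ => em (Sum.inl ())) ee l
    | Sum.inr (Sum.inr l) => rcode N G Λ r (fun x => em (Sum.inr (Sum.inr x)))
        (TM2.Stmt.goto fun _ => em (Sum.inl ())) ee l
  | .call, em, cont, ee => fun l =>
    match l with
    | false => callStmt (em true) ee
    | true => unmarks (nzRegs N) cont
  | .fix b, em, cont, _ => fun l =>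
    match l with
    | Sum.inl false => callStmt (em (Sum.inl true)) (em (Sum.inr b.entry))
    | Sum.inl true => unmarks (nzRegs N) cont
    | Sum.inr l => rcode N G Λ b (fun x => em (Sum.inr x)) (retStmt (em (Sum.inr b.entry)))
        (em (Sum.inr b.entry)) l

/-- `n` steps of the machine `M` lead from `a` to `b`. -/
def RSteps {N : ℕ} {G Λ : Type} (M : Λ → RStmt N G Λ)
    (a b : TM2.Cfg (RG N G Λ) Λ (RSt G Λ)) (n : ℕ) : Prop :=
  (flip bind (TM2.step M))^[n] (some a) = some b

theorem RSteps.trans {N : ℕ} {G Λ : Type} {M : Λ → RStmt N G Λ}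
    {a b c : TM2.Cfg (RG N G Λ) Λ (RSt G Λ)} {m n : ℕ} (h1 : RSteps M a b m) (h2 : RSteps M b c n) :
    RSteps M a c (m + n) := by
  unfold RSteps at *
  rw [Nat.add_comm m n, iterate_add_apply, h1, h2]

theorem RSteps.one {N : ℕ} {G Λ : Type} (M : Λ → RStmt N G Λ) (l : Λ) (v : RSt G Λ)
    (T : ∀ k : RK N, List (RG N G Λ k)) :
    RSteps M ⟨some l, v, T⟩ (TM2.stepAux (M l) v T) 1 := rfl

/-- A frame is opened, the body runs, the frame is closed. -/
theorem frame_steps {N : ℕ} {G Λ : Type} (M : Λ → RStmt N G Λ) (inp : List G) (out : List Bool)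
    {S : Store} {y : List Bool} {t : ℕ} (l0 l1 le dflt : Λ) (cont : RStmt N G Λ)
    (h0 : M l0 = callStmt l1 le) (h1 : M l1 = unmarks (nzRegs N) cont)
    (ih : ∀ (ret : List Λ) (base : Fin (N + 1) → List (Option Bool)), BaseOK base →
      ∀ v : RSt G Λ, ∃ (v' : RSt G Λ) (n : ℕ), n ≤ t ∧
        RSteps M ⟨some le, v, rstk N inp out ret (regs (single (S 0)) base)⟩
          (TM2.stepAux (retStmt dflt) v' (rstk N inp out ret (regs (single y) base))) n)
    (ret : List Λ) (base : Fin (N + 1) → List (Option Bool)) (hb : BaseOK base) (v : RSt G Λ) :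
    ∃ (v' : RSt G Λ) (n : ℕ), n ≤ t + 2 ∧
      RSteps M ⟨some l0, v, rstk N inp out ret (regs S base)⟩
        (TM2.stepAux cont v' (rstk N inp out ret (regs (update S 0 y) base))) n := by
  let base' : Fin (N + 1) → List (Option Bool) := fun i =>
    if i = 0 then [] else none :: regs S base i
  have hb' : BaseOK base' := ⟨by simp [base'], fun i => by
    by_cases h : i = 0 <;> simp [base', h]⟩
  have s0 := RSteps.one M l0 v (rstk N inp out ret (regs S base))
  rw [h0, callStmt, stepAux_marks _ _ _ _ _ _ (nzRegs_nodup N)] at s0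
  simp only [TM2.stepAux] at s0
  rw [update_rstk_ret] at s0
  have e1 : (fun i => if i ∈ nzRegs N then none :: regs S base i else regs S base i) =
      regs (single (S 0)) base' := by
    funext i
    by_cases h : i = 0
    · subst h; simp [mem_nzRegs, regs, base', single, hb.1]
    · have : (i : ℕ) ≠ 0 := fun e => h (Fin.ext e)
      simp [mem_nzRegs, h, regs, base', single, update_of_ne this]
  rw [e1] at s0
  obtain ⟨v1, n1, hn1, s1⟩ := ih (l1 :: ret) base' hb' v
  simp only [retStmt, TM2.stepAux] at s1
  rw [update_rstk_ret] at s1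
  have s2 := RSteps.one M l1 (v1.1, v1.2.1, some l1) (rstk N inp out ret (regs (single y) base'))
  rw [h1, stepAux_unmarks _ _ _ _ _ _ (nzRegs_nodup N)] at s2
  have e2 : (fun i => if i ∈ nzRegs N then (regs (single y) base' i).tail
      else regs (single y) base' i) = regs (update S 0 y) base := by
    funext i
    by_cases h : i = 0
    · subst h; simp [mem_nzRegs, regs, base', single, hb.1]
    · have : (i : ℕ) ≠ 0 := fun e => h (Fin.ext e)
      simp [mem_nzRegs, h, regs, base', single, update_of_ne this]
  rw [e2] at s2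
  exact ⟨_, 1 + n1 + 1, by omega, (s0.trans s1).trans s2⟩

theorem rcompile_correct {N : ℕ} {G Λ : Type} (M : Λ → RStmt N G Λ) (inp : List G)
    (out : List Bool) {env p : RProg} {S S' : Store} {t : ℕ} (h : RExec env p S S' t) :
    p.bound ≤ N + 1 → env.bound ≤ N + 1 → ∀ (em : p.Lab → Λ) (cont : RStmt N G Λ)
      (emE : env.Lab → Λ),
      (∀ l, M (em l) = rcode N G Λ p em cont (emE env.entry) l) →
      (∀ l, M (emE l) = rcode N G Λ env emE (retStmt (emE env.entry)) (emE env.entry) l) →
      ∀ (ret : List Λ) (base : Fin (N + 1) → List (Option Bool)), BaseOK base →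
      ∀ v : RSt G Λ, ∃ (v' : RSt G Λ) (n : ℕ), n ≤ t ∧
        RSteps M ⟨some (em p.entry), v, rstk N inp out ret (regs S base)⟩
          (TM2.stepAux cont v' (rstk N inp out ret (regs S' base))) n := by
  induction h with
  | skip env S =>
    intro _ _ em cont emE hM _ ret base _ v
    refine ⟨v, 1, le_rfl, ?_⟩
    have := RSteps.one M (em ()) v (rstk N inp out ret (regs S base))
    rw [hM ()] at this
    exact this
  | push env k b S =>
    intro hb _ em cont emE hM _ ret base _ v
    refine ⟨v, 1, le_rfl, ?_⟩
    have := RSteps.one M (em ()) v (rstk N inp out ret (regs S base))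
    rw [hM ()] at this
    have hk : k < N + 1 := hb
    simp only [rcode, TM2.stepAux] at this
    rw [update_rstk_reg] at this
    have e : (some b :: rstk N inp out ret (regs S base) (.inr (reg N k)) : List (Option Bool)) =
        (b :: S k).map some ++ base (reg N k) := by
      show some b :: regs S base (reg N k) = _
      rw [regs_reg _ _ hk]; rfl
    rw [e, update_regs _ _ hk] at this
    exact this
  | @seq env p q S S' S'' t t' _ _ ih1 ih2 =>
    intro hb he em cont emE hM hE ret base hB v
    have hb1 : p.bound ≤ N + 1 := le_trans (le_max_left _ _) hb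
    have hb2 : q.bound ≤ N + 1 := le_trans (le_max_right _ _) hb
    obtain ⟨v1, n1, hn1, h1⟩ := ih1 hb1 he (fun x => em (Sum.inl x))
      (TM2.Stmt.goto fun _ => em (Sum.inr q.entry)) emE (fun l => hM (Sum.inl l)) hE ret base hB v
    obtain ⟨v2, n2, hn2, h2⟩ := ih2 hb2 he (fun x => em (Sum.inr x)) cont emE
      (fun l => hM (Sum.inr l)) hE ret base hB v1
    exact ⟨v2, n1 + n2, by omega, h1.trans h2⟩
  | @caseNil env k p q r S S' t hl _ ih =>
    intro hb he em cont emE hM hE ret base hB v
    simp only [RProg.bound, max_le_iff] at hb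
    have h0 := RSteps.one M (em (Sum.inl ())) v (rstk N inp out ret (regs S base))
    rw [hM (Sum.inl ())] at h0
    simp only [rcode] at h0
    rw [testStmt_nil _ _ _ hb.1 _ _ _ _ hB hl] at h0
    obtain ⟨v1, n1, hn1, h1⟩ := ih hb.2.1 he (fun x => em (Sum.inr (Sum.inl x))) cont emE
      (fun l => hM (Sum.inr (Sum.inl l))) hE ret base hB (none, v.2)
    exact ⟨v1, 1 + n1, by omega, h0.trans h1⟩
  | @caseFalse env k p q r S S' t l hl _ ih =>
    intro hb he em cont emE hM hE ret base hB v
    simp only [RProg.bound, max_le_iff] at hb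
    have h0 := RSteps.one M (em (Sum.inl ())) v (rstk N inp out ret (regs S base))
    rw [hM (Sum.inl ())] at h0
    simp only [rcode] at h0
    rw [testStmt_cons _ _ _ hb.1 _ _ _ _ base hl] at h0
    obtain ⟨v1, n1, hn1, h1⟩ := ih hb.2.2.1 he (fun x => em (Sum.inr (Sum.inr (Sum.inl x)))) cont
      emE (fun l => hM (Sum.inr (Sum.inr (Sum.inl l)))) hE ret base hB (some false, v.2)
    exact ⟨v1, 1 + n1, by omega, h0.trans h1⟩
  | @caseTrue env k p q r S S' t l hl _ ih =>
    intro hb he em cont emE hM hE ret base hB v
    simp only [RProg.bound, max_le_iff] at hb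
    have h0 := RSteps.one M (em (Sum.inl ())) v (rstk N inp out ret (regs S base))
    rw [hM (Sum.inl ())] at h0
    simp only [rcode] at h0
    rw [testStmt_cons _ _ _ hb.1 _ _ _ _ base hl] at h0
    obtain ⟨v1, n1, hn1, h1⟩ := ih hb.2.2.2 he (fun x => em (Sum.inr (Sum.inr (Sum.inr x)))) cont
      emE (fun l => hM (Sum.inr (Sum.inr (Sum.inr l)))) hE ret base hB (some true, v.2)
    exact ⟨v1, 1 + n1, by omega, h0.trans h1⟩
  | @loopNil env k q r S hl =>
    intro hb he em cont emE hM hE ret base hB v
    simp only [RProg.bound, max_le_iff] at hb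
    have h0 := RSteps.one M (em (Sum.inl ())) v (rstk N inp out ret (regs S base))
    rw [hM (Sum.inl ())] at h0
    simp only [rcode] at h0
    rw [testStmt_nil _ _ _ hb.1 _ _ _ _ hB hl] at h0
    exact ⟨(none, v.2), 1, le_rfl, h0⟩
  | @loopFalse env k q r S S' S'' t t' l hl _ _ ih1 ih2 =>
    intro hb he em cont emE hM hE ret base hB v
    have hb' := hb
    simp only [RProg.bound, max_le_iff] at hb
    have h0 := RSteps.one M (em (Sum.inl ())) v (rstk N inp out ret (regs S base))
    rw [hM (Sum.inl ())] at h0
    simp only [rcode] at h0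
    rw [testStmt_cons _ _ _ hb.1 _ _ _ _ base hl] at h0
    obtain ⟨v1, n1, hn1, h1⟩ := ih1 hb.2.1 he (fun x => em (Sum.inr (Sum.inl x)))
      (TM2.Stmt.goto fun _ => em (Sum.inl ())) emE (fun l => hM (Sum.inr (Sum.inl l))) hE ret base
      hB (some false, v.2)
    obtain ⟨v2, n2, hn2, h2⟩ := ih2 hb' he em cont emE hM hE ret base hB v1
    exact ⟨v2, 1 + n1 + n2, by omega, (h0.trans h1).trans h2⟩
  | @loopTrue env k q r S S' S'' t t' l hl _ _ ih1 ih2 =>
    intro hb he em cont emE hM hE ret base hB v
    have hb' := hb
    simp only [RProg.bound, max_le_iff] at hb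
    have h0 := RSteps.one M (em (Sum.inl ())) v (rstk N inp out ret (regs S base))
    rw [hM (Sum.inl ())] at h0
    simp only [rcode] at h0
    rw [testStmt_cons _ _ _ hb.1 _ _ _ _ base hl] at h0
    obtain ⟨v1, n1, hn1, h1⟩ := ih1 hb.2.2 he (fun x => em (Sum.inr (Sum.inr x)))
      (TM2.Stmt.goto fun _ => em (Sum.inl ())) emE (fun l => hM (Sum.inr (Sum.inr l))) hE ret base
      hB (some true, v.2)
    obtain ⟨v2, n2, hn2, h2⟩ := ih2 hb' he em cont emE hM hE ret base hB v1
    exact ⟨v2, 1 + n1 + n2, by omega, (h0.trans h1).trans h2⟩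
  | @call env S y t _ ih =>
    intro _ he em cont emE hM hE ret base hB v
    exact frame_steps M inp out (em false) (em true) (emE env.entry) (emE env.entry) cont
      (hM false) (hM true) (ih he he emE _ emE hE hE) ret base hB v
  | @fix env b S y t _ ih =>
    intro hb _ em cont emE hM _ ret base hB v
    exact frame_steps M inp out (em (.inl false)) (em (.inl true)) (em (.inr b.entry))
      (em (.inr b.entry)) cont (hM (.inl false)) (hM (.inl true))
      (ih hb hb (fun x => em (.inr x)) _ (fun x => em (.inr x)) (fun l => hM (.inr l))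
        (fun l => hM (.inr l))) ret base hB v
  | mono _ hle ih =>
    intro hb he em cont emE hM hE ret base hB v
    obtain ⟨v1, n1, hn1, h1⟩ := ih hb he em cont emE hM hE ret base hB v
    exact ⟨v1, n1, by omega, h1⟩

/-! ### The top-level machine -/

/-- Labels of the top-level machine: read, write, the (trivial) environment, the program. -/
abbrev TopLab (P : RProg) : Type := Fin 3 ⊕ P.Lab

/-- Statements of the top-level machine. -/
def rtopCode (G : Type) (c1 c2 : G → Bool) (P : RProg) :
    TopLab P → RStmt P.bound G (TopLab P)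
  | .inl ⟨0, _⟩ => TM2.Stmt.pop (.inl 0) (fun v a => (v.1, a, v.2.2))
      (TM2.Stmt.branch (fun v => v.2.1.isNone) (TM2.Stmt.goto fun _ => .inr P.entry)
        (TM2.Stmt.push (.inr 0) (fun v => v.2.1.map c1)
          (TM2.Stmt.push (.inr 0) (fun v => v.2.1.map c2) (TM2.Stmt.goto fun _ => .inl 0))))
  | .inl ⟨1, _⟩ => TM2.Stmt.pop (.inr 0) (fun v a => (a.join, v.2))
      (TM2.Stmt.branch (fun v => v.1.isNone)
        (TM2.Stmt.load (fun _ => (none, none, none)) TM2.Stmt.halt)
        (TM2.Stmt.push (.inl 1) (fun v => v.1.getD false) (TM2.Stmt.goto fun _ => .inl 1)))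
  | .inl ⟨_ + 2, _⟩ => retStmt (.inl 2)
  | .inr l => rcode P.bound G (TopLab P) P .inr (TM2.Stmt.goto fun _ => .inl 1) (.inl 2) l

/-- The top-level machine. -/
def rtopTM (G : Type) [Fintype G] (c1 c2 : G → Bool) (P : RProg) : FinTM2 :=
  letI := P.labFintype
  { K := RK P.bound
    k₀ := .inl 0
    k₁ := .inl 1
    Γ := RG P.bound G (TopLab P)
    Λ := TopLab P
    main := .inl 0
    σ := RSt G (TopLab P)
    initialState := (none, none, none)
    Γk₀Fin := inferInstanceAs (Fintype G)
    m := rtopCode G c1 c2 P }

theorem regs_single {N : ℕ} (x : List Bool) :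
    regs (N := N) (single x) (fun _ => []) =
      update (fun _ : Fin (N + 1) => ([] : List (Option Bool))) 0 (x.map some) := by
  funext i
  by_cases h : i = 0
  · subst h; simp [regs, single]
  · have : (i : ℕ) ≠ 0 := fun e => h (Fin.ext e)
    simp [regs, single, update_of_ne this, update_of_ne h]

theorem rread_steps (G : Type) (c1 c2 : G → Bool) (P : RProg) (inp : List G) :
    ∀ (x : List Bool) (v : RSt G (TopLab P)), ∃ v' : RSt G (TopLab P),
      RSteps (rtopCode G c1 c2 P)
        ⟨some (.inl 0), v, rstk P.bound inp [] [] (update (fun _ => []) 0 (x.map some))⟩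
        ⟨some (.inr P.entry), v', rstk P.bound [] [] [] (update (fun _ => []) 0
          (((inp.flatMap fun g => [c1 g, c2 g]).reverse ++ x).map some))⟩
        (inp.length + 1) := by
  induction inp with
  | nil =>
    intro x v
    refine ⟨(v.1, none, v.2.2), ?_⟩
    have h0 := RSteps.one (rtopCode G c1 c2 P) (.inl 0) v
      (rstk P.bound [] [] [] (update (fun _ => []) 0 (x.map some)))
    simp only [rtopCode, TM2.stepAux] at h0
    rw [update_rstk_inp] at h0
    exact h0
  | cons g inp ih =>
    intro x v
    have h0 := RSteps.one (rtopCode G c1 c2 P) (.inl 0) v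
      (rstk P.bound (g :: inp) [] [] (update (fun _ => []) 0 (x.map some)))
    simp only [rtopCode, TM2.stepAux] at h0
    rw [update_rstk_inp] at h0
    have e1 : (rstk P.bound (g :: inp) [] ([] : List (TopLab P))
      (update (fun _ => []) 0 (x.map some)) (.inl 0)).head? = some g := rfl
    have e2 : (rstk P.bound (g :: inp) [] ([] : List (TopLab P))
      (update (fun _ => []) 0 (x.map some)) (.inl 0)).tail = inp := rfl
    rw [e1, e2] at h0
    simp only [Option.isNone_some, cond_false, Option.map_some] at h0
    rw [update_rstk_reg, update_rstk_reg] at h0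
    simp only [rstk, update_self, update_idem] at h0
    obtain ⟨v', h1⟩ := ih (c2 g :: c1 g :: x) (v.1, some g, v.2.2)
    refine ⟨v', ?_⟩
    have := RSteps.trans h0 h1
    have e4 : ((g :: inp).flatMap fun g => [c1 g, c2 g]).reverse ++ x =
        (inp.flatMap fun g => [c1 g, c2 g]).reverse ++ c2 g :: c1 g :: x := by simp
    rw [e4, List.length_cons, Nat.add_comm (inp.length + 1) 1]
    exact this

theorem rwrite_steps (G : Type) (c1 c2 : G → Bool) (P : RProg) (y : List Bool) :
    ∀ (out : List Bool) (v : RSt G (TopLab P)),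
      RSteps (rtopCode G c1 c2 P)
        ⟨some (.inl 1), v, rstk P.bound [] out [] (update (fun _ => []) 0 (y.map some))⟩
        ⟨none, (none, none, none), rstk P.bound [] (y.reverse ++ out) [] (fun _ => [])⟩
        (y.length + 1) := by
  induction y with
  | nil =>
    intro out v
    have h0 := RSteps.one (rtopCode G c1 c2 P) (.inl 1) v
      (rstk P.bound [] out [] (update (fun _ => []) 0 (([] : List Bool).map some)))
    simp only [rtopCode, TM2.stepAux] at h0
    rw [update_rstk_reg] at h0
    simpa [rstk] using h0
  | cons b y ih =>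
    intro out v
    have h0 := RSteps.one (rtopCode G c1 c2 P) (.inl 1) v
      (rstk P.bound [] out [] (update (fun _ => []) 0 ((b :: y).map some)))
    simp only [rtopCode, TM2.stepAux] at h0
    rw [update_rstk_reg] at h0
    simp only [rstk, update_self, update_idem, List.map_cons, List.head?_cons, Option.join_some,
      Option.isNone_some, cond_false, List.tail_cons, Option.getD_some] at h0
    rw [update_rstk_out] at h0
    have := RSteps.trans h0 (ih (b :: out) (some b, v.2))
    rw [List.length_cons, Nat.add_comm (y.length + 1) 1, List.reverse_cons, List.append_assoc]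
    exact this

theorem rtopTM_outputs (G : Type) [Fintype G] (c1 c2 : G → Bool) (P : RProg) (inp : List G)
    (y : List Bool) (t : ℕ)
    (h : RExec .skip P (single (inp.flatMap fun g => [c1 g, c2 g]).reverse) (single y.reverse) t) :
    Nonempty (TM2OutputsInTime (rtopTM G c1 c2 P) inp (some y)
      (t + inp.length + y.length + 2)) := by
  obtain ⟨v1, h1⟩ := rread_steps G c1 c2 P inp [] (none, none, none)
  rw [List.append_nil, ← regs_single ((inp.flatMap fun g => [c1 g, c2 g]).reverse)] at h1
  obtain ⟨v2, n, hn, h2⟩ := rcompile_correct (N := P.bound) (rtopCode G c1 c2 P) ([] : List G) [] h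
    (Nat.le_succ _) (Nat.zero_le _) .inr (TM2.Stmt.goto fun _ => .inl 1) (fun _ => .inl 2)
    (fun _ => rfl) (fun _ => rfl) [] (fun _ => []) ⟨rfl, fun _ => rfl⟩ v1
  simp only [TM2.stepAux] at h2
  rw [regs_single y.reverse] at h2
  have h3 := (h1.trans h2).trans (rwrite_steps G c1 c2 P y.reverse [] v2)
  refine ⟨⟨⟨inp.length + 1 + n + (y.reverse.length + 1), ?_⟩, by simp; omega⟩⟩
  have ei : initList (rtopTM G c1 c2 P) inp =
      (⟨some (.inl 0), (none, none, none),
        rstk P.bound inp [] [] (update (fun _ => []) 0 (([] : List Bool).map some))⟩ :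
        TM2.Cfg (RG P.bound G (TopLab P)) (TopLab P) (RSt G (TopLab P))) := by
    simp only [initList, rtopTM]
    congr 1
    funext k
    rcases k with k | k
    · fin_cases k <;> simp [rstk]
    · simp [rstk]
  have eh : haltList (rtopTM G c1 c2 P) y =
      (⟨none, (none, none, none), rstk P.bound [] (y.reverse.reverse ++ []) [] (fun _ => [])⟩ :
        TM2.Cfg (RG P.bound G (TopLab P)) (TopLab P) (RSt G (TopLab P))) := by
    simp only [haltList, rtopTM]
    congr 1
    funext k
    rcases k with k | k
    · fin_cases k <;> simp [rstk]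
    · simp [rstk]
  show (flip bind (rtopTM G c1 c2 P).step)^[inp.length + 1 + n + (y.reverse.length + 1)]
    (some (initList (rtopTM G c1 c2 P) inp)) = some (haltList (rtopTM G c1 c2 P) y)
  rw [ei, eh]
  exact h3

/-- The compiled machine with its alphabets. -/
def rtopAux (G : Type) [Fintype G] (c1 c2 : G → Bool) (P : RProg) : TM2ComputableAux G Bool where
  tm := rtopTM G c1 c2 P
  inputAlphabet := Equiv.refl G
  outputAlphabet := Equiv.refl Bool

/-- The bridge: the program gets the reversed two-bits-per-symbol transcription of the input and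
leaves the reversed output. -/
theorem timeBoundComputable_of_rexec {α β G : Type} [Fintype G] (ea : α → List G)
    (eb : β → List Bool) (f : α → β) (c1 c2 : G → Bool) (P : RProg) (T : ℕ → ℕ)
    (h : ∀ a, ∃ t, RExec .skip P (single ((ea a).flatMap fun g => [c1 g, c2 g]).reverse)
      (single (eb (f a)).reverse) t ∧
      t + (ea a).length + (eb (f a)).length + 2 ≤ T (ea a).length) :
    Crest.DTime.TimeBoundComputable ea eb f T := by
  refine ⟨⟨rtopAux G c1 c2 P, T, fun a => ?_⟩, fun _ => le_rfl⟩
  have h1 := (h a).choose_spec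
  have := (rtopTM_outputs G c1 c2 P (ea a) (eb (f a)) _ h1.1).some
  have e1 : List.map (rtopAux G c1 c2 P).inputAlphabet.invFun (ea a) = ea a := List.map_id _
  have e2 : List.map (rtopAux G c1 c2 P).outputAlphabet.invFun (eb (f a)) = eb (f a) :=
    List.map_id _
  rw [e1, e2]
  exact ⟨this.toEvalsTo, this.steps_le_m.trans h1.2⟩

end Crest.Agent.R326
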