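/-
R326/RC: timed computations on tree codes by programs with recursion.  Author: helper92.
-/
import Crest.Agent.R326.RProg

set_option autoImplicit false
set_option linter.unusedSimpArgs false

namespace Crest.Agent.R326

open Function Crest.Agent.Lib.PolyTime

/-! ### Call-free helper programs on arbitrary registers -/

/-- One round of the subtree mover from `a` to `d` with counter `c`. -/
def treeBodyG (a c d : ℕ) : Prog :=
  .case a .skip (.push d false) (.seq (.push d true) (.seq (.push c true) (.push c true)))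

theorem exec_treeLoopG {a c d : ℕ} (hac : a ≠ c) (had : a ≠ d) (hcd : c ≠ d) (t : Tr) :
    ∀ (S S'' : Store) (rest cs : List Bool) (τ : ℕ),
    S a = t.bits ++ rest → S c = true :: cs →
    Exec (.loop c (treeBodyG a c d) (treeBodyG a c d))
      (update (update (update S a rest) c cs) d (t.bits.reverse ++ S d)) S'' τ →
    Exec (.loop c (treeBodyG a c d) (treeBodyG a c d)) S S'' (τ + 5 * t.size) := by
  have hca := hac.symm
  have hda := had.symm
  have hdc := hcd.symm
  induction t with
  | nil =>
    intro S S'' rest cs τ h0 h1 h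
    have hb : Exec (treeBodyG a c d) (update S c cs) _ _ :=
      Exec.caseFalse (l := rest) (by simpa [Tr.bits, hac] using h0) (Exec.push _ _ _)
    refine (Exec.loopTrue h1 hb (h.of_eq' ?_)).mono (by simp; omega)
    simp only [Tr.bits]; store_eq
  | cons x y iha ihb =>
    intro S S'' rest cs τ h0 h1 h
    have hb : Exec (treeBodyG a c d) (update S c cs) _ _ :=
      Exec.caseTrue (l := x.bits ++ y.bits ++ rest) (by simpa [Tr.bits, hac] using h0)
        ((Exec.push _ _ _).seq ((Exec.push _ _ _).seq (Exec.push _ _ _)))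
    refine (Exec.loopTrue h1 hb (t' := τ + 5 * y.size + 5 * x.size) ?_).mono (by simp; omega)
    refine iha _ _ (y.bits ++ rest) (true :: cs) _ (by simp [*]) (by simp [*]) ?_
    refine ihb _ _ rest cs _ (by simp [*]) (by simp [*]) (h.of_eq' ?_)
    simp only [Tr.bits]; store_eq

/-- Move the first subtree of register `a` (reversed) onto register `d`; `c` is scratch. -/
def moveTreeG (a c d : ℕ) : Prog :=
  .seq (.push c true) (.loop c (treeBodyG a c d) (treeBodyG a c d))

theorem exec_moveTreeG {a c d : ℕ} (hac : a ≠ c) (had : a ≠ d) (hcd : c ≠ d) (t : Tr) (S : Store)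
    (rest : List Bool) (h0 : S a = t.bits ++ rest) (h1 : S c = []) :
    Exec (moveTreeG a c d) S (update (update S a rest) d (t.bits.reverse ++ S d))
      (5 * t.size + 2) := by
  have hca := hac.symm
  have hda := had.symm
  have hdc := hcd.symm
  have h := exec_treeLoopG hac had hcd t (update S c (true :: S c)) _ rest [] 1
    (by simpa [hac] using h0) (by simp [h1]) (Exec.loopNil (by simp [*]))
  exact ((Exec.push _ _ _).seq h).of_eq (by store_eq) (by omega)

/-- Pair the tree in register `0` with the first subtree of register `r`. -/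
def fetchP (r : ℕ) : Prog :=
  .seq (moveP 0 1) (.seq (moveTreeG r 2 3) (.seq (moveP 3 0) (.seq (moveP 1 0) (.push 0 true))))

theorem exec_fetch {r : ℕ} (hr : 4 ≤ r) (s b : Tr) (rest : List Bool) (S : Store)
    (h0 : S 0 = s.bits) (hb : S r = b.bits ++ rest) (h1 : S 1 = []) (h2 : S 2 = []) (h3 : S 3 = []) :
    Exec (fetchP r) S (update (update S 0 (Tr.cons s b).bits) r rest)
      (4 * s.size + 7 * b.size + 6) := by
  have r0 : r ≠ 0 := by omega
  have r1 : r ≠ 1 := by omega
  have r2 : r ≠ 2 := by omega
  have r3 : r ≠ 3 := by omega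
  have s1 := exec_move (a := 0) (b := 1) (by omega) _ S h0
  have s2 := exec_moveTreeG (a := r) (c := 2) (d := 3) r2 r3 (by omega) b _ rest
    (show (update (update S 0 []) 1 (s.bits.reverse ++ S 1)) r = _ by simp [*]) (by simp [*])
  have s3 := exec_move (a := 3) (b := 0) (by omega) b.bits.reverse _
    (show (update (update (update (update S 0 []) 1 (s.bits.reverse ++ S 1)) r rest) 3
      (b.bits.reverse ++ update (update S 0 []) 1 (s.bits.reverse ++ S 1) 3)) 3 = _ by simp [*])
  refine (s1.seq (s2.seq (s3.seq ((exec_move (a := 1) (b := 0) (by omega) s.bits.reverse _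
    (by simp [r1.symm, h1])).seq (Exec.push _ _ _))))).of_eq ?_ (by simp; omega)
  simp only [Tr.bits]; store_eq

/-- Split the pair in register `0`, writing `true` and the second part (reversed) on `r`. -/
def emitP (r : ℕ) : Prog :=
  .seq (popP 0) (.seq (moveTreeG 0 2 1) (.seq (.push r true) (.seq (moveP 0 r) (moveP 1 0))))

theorem exec_emit {r : ℕ} (hr : 4 ≤ r) (s c : Tr) (S : Store)
    (h0 : S 0 = (Tr.cons s c).bits) (h1 : S 1 = []) (h2 : S 2 = []) :
    Exec (emitP r) S (update (update S 0 s.bits) r (c.bits.reverse ++ true :: S r))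
      (7 * s.size + 2 * c.size + 7) := by
  have r0 : r ≠ 0 := by omega
  have r1 : r ≠ 1 := by omega
  have r2 : r ≠ 2 := by omega
  have s1 := exec_pop 0 S true _ h0
  have s2 := exec_moveTreeG (a := 0) (c := 2) (d := 1) (by omega) (by omega) (by omega) s
    (update S 0 (s.bits ++ c.bits)) c.bits (by simp) (by simp [*])
  refine (s1.seq (s2.seq ((Exec.push _ _ _).seq ((exec_move (a := 0) (b := r) r0.symm c.bits _
    (by simp [r0.symm])).seq (exec_move (a := 1) (b := 0) (by omega) s.bits.reverse _
    (by simp [r1.symm, h1])))))).of_eq ?_ (by simp; omega)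
  store_eq

/-- Split the pair in register `0`, storing the second part in register `r`. -/
def stashP (r : ℕ) : Prog :=
  .seq (popP 0) (.seq (moveTreeG 0 2 1) (.seq (moveP 0 3) (.seq (moveP 3 r) (moveP 1 0))))

theorem exec_stash {r : ℕ} (hr : 4 ≤ r) (s c : Tr) (S : Store)
    (h0 : S 0 = (Tr.cons s c).bits) (h1 : S 1 = []) (h2 : S 2 = []) (h3 : S 3 = []) :
    Exec (stashP r) S (update (update S 0 s.bits) r (c.bits ++ S r))
      (7 * s.size + 4 * c.size + 7) := by
  have r0 : r ≠ 0 := by omega
  have r1 : r ≠ 1 := by omega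
  have r2 : r ≠ 2 := by omega
  have r3 : r ≠ 3 := by omega
  have s1 := exec_pop 0 S true _ h0
  have s2 := exec_moveTreeG (a := 0) (c := 2) (d := 1) (by omega) (by omega) (by omega) s
    (update S 0 (s.bits ++ c.bits)) c.bits (by simp) (by simp [*])
  refine (s1.seq (s2.seq ((exec_move (a := 0) (b := 3) (by omega) c.bits _
    (by simp)).seq ((exec_move (a := 3) (b := r) r3.symm c.bits.reverse _
    (by simp [h3])).seq (exec_move (a := 1) (b := 0) (by omega) s.bits.reverse _
    (by simp [r1.symm, h1])))))).of_eq ?_ (by simp; omega)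
  store_eq

/-- Pair the tree in register `0` with the reversed code stored in register `r`. -/
def unstashP (r : ℕ) : Prog :=
  .seq (moveP 0 1) (.seq (moveP r 0) (.seq (moveP 1 0) (.push 0 true)))

theorem exec_unstash {r : ℕ} (hr : 4 ≤ r) (s c : Tr) (S : Store)
    (h0 : S 0 = s.bits) (hc : S r = c.bits.reverse) (h1 : S 1 = []) :
    Exec (unstashP r) S (update (update S 0 (Tr.cons s c).bits) r [])
      (4 * s.size + 2 * c.size + 4) := by
  have r0 : r ≠ 0 := by omega
  have r1 : r ≠ 1 := by omega
  have s1 := exec_move (a := 0) (b := 1) (by omega) _ S h0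
  refine (s1.seq ((exec_move (a := r) (b := 0) r0 c.bits.reverse _ (by simp [*])).seq
    ((exec_move (a := 1) (b := 0) (by omega) s.bits.reverse _
    (by simp [r1.symm, h1])).seq (Exec.push _ _ _)))).of_eq ?_ (by simp; omega)
  simp only [Tr.bits]; store_eq

/-! ### Timed computations -/

/-- `P` maps `x` to `y` in register `0` within `t` steps, with scratch registers below `n`. -/
def RRuns (env P : RProg) (n : ℕ) (x y : List Bool) (t : ℕ) : Prop :=
  ∀ S : Store, S 0 = x → (∀ k, 0 < k → k < n → S k = []) → RExec env P S (update S 0 y) t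

theorem RRuns.mono {env P : RProg} {n n' : ℕ} {x y : List Bool} {t t' : ℕ}
    (h : RRuns env P n x y t) (hn : n ≤ n') (ht : t ≤ t') : RRuns env P n' x y t' :=
  fun S h0 h1 => (h S h0 fun k hk hk' => h1 k hk (by omega)).mono ht

theorem RRuns.seq {env P Q : RProg} {n : ℕ} {x y z : List Bool} {t t' : ℕ}
    (h : RRuns env P n x y t) (h' : RRuns env Q n y z t') :
    RRuns env (.seq P Q) n x z (t + t') := by
  intro S h0 h1
  have := h' (update S 0 y) (by simp) (fun k hk hk' => by
    rw [update_of_ne (by omega)]; exact h1 k hk hk')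
  rw [update_idem] at this
  exact (h S h0 h1).seq this

theorem RRuns.ofRuns {P : Prog} {n : ℕ} {x y : List Bool} {t : ℕ} (h : Runs P n x y t)
    (env : RProg) : RRuns env (emb P) n x y t := fun S h0 h1 => RExec.ofExec (h S h0 h1) env

theorem RRuns.toSingle {env P : RProg} {n : ℕ} {x y : List Bool} {t : ℕ}
    (h : RRuns env P n x y t) : RExec env P (single x) (single y) t := by
  have := h (single x) (by simp [single]) (fun k hk _ => by
    simp [single, update_of_ne (Nat.pos_iff_ne_zero.mp hk)])
  simpa [single] using this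

/-- `RC o ea eb t`: one program maps the code `ea a` to the code `eb a` within `t a` steps in the
environment `o a`, for every index `a`. -/
def RC {α : Type} (o : α → RProg) (ea eb : α → Tr) (t : α → ℝ) : Prop :=
  ∃ (P : RProg) (n : ℕ), ∀ a, ∃ τ : ℕ, (τ : ℝ) ≤ t a ∧ RRuns (o a) P n (ea a).bits (eb a).bits τ

/-- The environment `env`, called on `x`, returns `y` within `T` steps. -/
def Handles (env : RProg) (x y : Tr) (T : ℝ) : Prop :=
  ∃ τ : ℕ, (τ : ℝ) ≤ T ∧ RExec env env (single x.bits) (single y.bits) τ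

theorem Handles.mono {env : RProg} {x y : Tr} {T T' : ℝ} (h : Handles env x y T) (hT : T ≤ T') :
    Handles env x y T' := by
  obtain ⟨τ, h1, h2⟩ := h
  exact ⟨τ, h1.trans hT, h2⟩

/-- A closed algorithm maps `ea a` to `eb a` within `T a` steps. -/
def AlgT {α : Type} (ea eb : α → Tr) (T : α → ℝ) : Prop :=
  ∃ P : RProg, ∀ a, Handles P (ea a) (eb a) (T a)

namespace RC

variable {α β : Type} {o : α → RProg}

theorem mono {ea eb : α → Tr} {t t' : α → ℝ} (h : RC o ea eb t) (ht : ∀ a, t a ≤ t' a) :
    RC o ea eb t' := by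
  obtain ⟨P, n, h⟩ := h
  refine ⟨P, n, fun a => ?_⟩
  obtain ⟨τ, h1, h2⟩ := h a
  exact ⟨τ, h1.trans (ht a), h2⟩

theorem congr {ea eb ea' eb' : α → Tr} {t : α → ℝ} (h : RC o ea eb t) (h1 : ∀ a, ea' a = ea a)
    (h2 : ∀ a, eb' a = eb a) : RC o ea' eb' t := by
  rw [funext h1, funext h2]; exact h

theorem reindex {ea eb : α → Tr} {t : α → ℝ} (h : RC o ea eb t) (φ : β → α) :
    RC (fun b => o (φ b)) (fun b => ea (φ b)) (fun b => eb (φ b)) (fun b => t (φ b)) := by
  obtain ⟨P, n, h⟩ := h
  exact ⟨P, n, fun b => h (φ b)⟩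

theorem ofTC {ea eb : α → Tr} {t : α → ℕ} (h : TC ea eb t) (o : α → RProg) :
    RC o ea eb (fun a => t a) := by
  obtain ⟨P, n, h⟩ := h
  exact ⟨emb P, n, fun a => ⟨t a, le_rfl, RRuns.ofRuns (h a) _⟩⟩

theorem nonneg {ea eb : α → Tr} {t : α → ℝ} (h : RC o ea eb t) (a : α) : 0 ≤ t a := by
  obtain ⟨P, n, h⟩ := h
  obtain ⟨τ, h1, -⟩ := h a
  exact (Nat.cast_nonneg τ).trans h1

theorem comp {e1 e2 e3 : α → Tr} {t t' : α → ℝ} (h : RC o e1 e2 t) (h' : RC o e2 e3 t') :
    RC o e1 e3 (fun a => t a + t' a) := by
  obtain ⟨P, n, h⟩ := h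
  obtain ⟨Q, m, h'⟩ := h'
  refine ⟨.seq P Q, max n m, fun a => ?_⟩
  obtain ⟨τ, h1, h2⟩ := h a
  obtain ⟨τ', h1', h2'⟩ := h' a
  exact ⟨τ + τ', by push_cast; linarith,
    (h2.mono (le_max_left _ _) le_rfl).seq (h2'.mono (le_max_right _ _) le_rfl)⟩

/-- Work on the first component of a pair, leaving the second alone. -/
theorem first {e f : α → Tr} (g : α → Tr) {t : α → ℝ} (h : RC o e f t) :
    RC o (fun a => Tr.cons (e a) (g a)) (fun a => Tr.cons (f a) (g a))
      (fun a => t a + 7 * (e a).size + 4 * (f a).size + 10 * (g a).size + 13) := by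
  obtain ⟨P, n, h⟩ := h
  obtain ⟨r, hr4, hrn⟩ : ∃ r, 4 ≤ r ∧ n ≤ r := ⟨n + 4, by omega, by omega⟩
  refine ⟨.seq (emb (stashP r)) (.seq P (emb (.seq (moveP r (r + 1)) (unstashP (r + 1))))),
    r + 2, fun a => ?_⟩
  obtain ⟨τ, h1, h2⟩ := h a
  refine ⟨τ + 7 * (e a).size + 4 * (f a).size + 10 * (g a).size + 13, by push_cast; linarith,
    fun S h0 hS => ?_⟩
  have e1 : S 1 = [] := hS 1 (by omega) (by omega)
  have e2 : S 2 = [] := hS 2 (by omega) (by omega)
  have e3 : S 3 = [] := hS 3 (by omega) (by omega)
  have er : S r = [] := hS r (by omega) (by omega)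
  have er' : S (r + 1) = [] := hS (r + 1) (by omega) (by omega)
  have r0 : r ≠ 0 := by omega
  have r1 : r ≠ 1 := by omega
  have s1 := exec_stash hr4 (e a) (g a) S h0 e1 e2 e3
  have s2 := h2 (update (update S 0 (e a).bits) r ((g a).bits ++ S r)) (by simp [r0.symm])
    (fun k hk hk' => by
      rw [update_of_ne (by omega), update_of_ne (by omega)]; exact hS k hk (by omega))
  have s3 := exec_move (a := r) (b := r + 1) (by omega) (g a).bits
    (update (update (update S 0 (e a).bits) r ((g a).bits ++ S r)) 0 (f a).bits) (by simp [*])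
  refine ((RExec.ofExec s1 _).seq (s2.seq (RExec.ofExec (s3.seq
    (exec_unstash (r := r + 1) (by omega) (f a) (g a) _ (by simp [r0.symm]) (by simp [*])
      (by rw [update_of_ne (by omega)]; simp [r1.symm, r0.symm, e1]))) _))).of_eq (by store_eq)
      (by simp; omega)

theorem dup (e : α → Tr) (o : α → RProg) :
    RC o e (fun a => Tr.cons (e a) (e a)) (fun a => 15 * (e a).size + 10) :=
  (ofTC ((TC.id e).pair (TC.id e)) o).mono fun a => by push_cast; linarith

theorem swap (f g : α → Tr) (o : α → RProg) :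
    RC o (fun a => Tr.cons (f a) (g a)) (fun a => Tr.cons (g a) (f a))
      (fun a => 25 * ((f a).size + (g a).size) + 29) :=
  (ofTC ((TC.snd f g).pair (TC.fst f g)) o).mono fun a => by simp; linarith

theorem pair {e f g : α → Tr} {t t' : α → ℝ} (h : RC o e f t) (h' : RC o e g t') :
    RC o e (fun a => Tr.cons (f a) (g a))
      (fun a => t a + t' a + 100 * ((e a).size + (f a).size + (g a).size + 1)) := by
  refine (((((dup e o).comp (h'.first e)).comp (swap g e o)).comp (h.first g))).mono fun a => ?_
  have := (Nat.cast_nonneg (e a).size : (0 : ℝ) ≤ _)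
  have := (Nat.cast_nonneg (f a).size : (0 : ℝ) ≤ _)
  have := (Nat.cast_nonneg (g a).size : (0 : ℝ) ≤ _)
  linarith

/-- Branch on a Boolean tag; each branch only has to work on its part of the domain. -/
theorem cond {e out : α → Tr} (tag : α → Bool) {t : α → ℝ}
    (h1 : RC (fun a : {a // tag a = true} => o a.1) (fun a => e a.1) (fun a => out a.1)
      (fun a => t a.1))
    (h2 : RC (fun a : {a // tag a = false} => o a.1) (fun a => e a.1) (fun a => out a.1)
      (fun a => t a.1)) :
    RC o (fun a => Tr.cons (Tr.ofBool (tag a)) (e a)) out (fun a => t a + 7) := by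
  obtain ⟨P, n, h1⟩ := h1
  obtain ⟨Q, m, h2⟩ := h2
  refine ⟨.seq (emb (popP 0)) (.case 0 .skip Q (.seq (emb (popP 0)) (.seq (emb (popP 0)) P))),
    max n m, fun a => ?_⟩
  cases ht : tag a with
  | false =>
    obtain ⟨τ, k1, k2⟩ := h2 ⟨a, ht⟩
    refine ⟨τ + 7, by push_cast; linarith, fun S h0 hS => ?_⟩
    have s1 := exec_pop 0 S true _ h0
    rw [ht] at s1
    have s2 := k2 (update (update S 0 ((Tr.ofBool false).bits ++ (e a).bits)) 0 (e a).bits)
      (by simp) (fun k hk hk' => by
        rw [update_of_ne (by omega), update_of_ne (by omega)]; exact hS k hk (by omega))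
    exact ((RExec.ofExec s1 _).seq (RExec.caseFalse (by simp [Tr.ofBool, Tr.bits]) s2)).of_eq
      (by simp) (by omega)
  | true =>
    obtain ⟨τ, k1, k2⟩ := h1 ⟨a, ht⟩
    refine ⟨τ + 7, by push_cast; linarith, fun S h0 hS => ?_⟩
    have s1 := exec_pop 0 S true _ h0
    rw [ht] at s1
    have s2 := exec_pop 0 (update (update S 0 ((Tr.ofBool true).bits ++ (e a).bits)) 0
      (false :: false :: (e a).bits)) false (false :: (e a).bits) (by simp)
    have s3 := exec_pop 0 (update (update (update S 0 ((Tr.ofBool true).bits ++ (e a).bits)) 0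
      (false :: false :: (e a).bits)) 0 (false :: (e a).bits)) false (e a).bits (by simp)
    have s4 := k2 (update (update (update (update S 0
      ((Tr.ofBool true).bits ++ (e a).bits)) 0 (false :: false :: (e a).bits)) 0
      (false :: (e a).bits)) 0 (e a).bits) (by simp) (fun k hk hk' => by
        rw [update_of_ne (by omega), update_of_ne (by omega), update_of_ne (by omega),
          update_of_ne (by omega)]
        exact hS k hk (by omega))
    exact ((RExec.ofExec s1 _).seq (RExec.caseTrue (by simp [Tr.ofBool, Tr.bits])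
      ((RExec.ofExec s2 _).seq ((RExec.ofExec s3 _).seq s4)))).of_eq (by simp) (by omega)

/-- Call the environment. -/
theorem call {ea eb : α → Tr} {T : α → ℝ} (h : ∀ a, Handles (o a) (ea a) (eb a) (T a)) :
    RC o ea eb (fun a => T a + 2) := by
  refine ⟨.call, 0, fun a => ?_⟩
  obtain ⟨τ, h1, h2⟩ := h a
  exact ⟨τ + 2, by push_cast; linarith, fun S h0 _ => RExec.call (h0 ▸ h2)⟩

/-- Run a closed algorithm. -/
theorem alg {ea eb : α → Tr} {T : α → ℝ} (h : AlgT ea eb T) (o : α → RProg) :
    RC o ea eb (fun a => T a + 2) := by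
  obtain ⟨P, h⟩ := h
  refine ⟨.fix P, 0, fun a => ?_⟩
  obtain ⟨τ, h1, h2⟩ := h a
  exact ⟨τ + 2, by push_cast; linarith, fun S h0 _ => RExec.fix (h0 ▸ h2)⟩

/-- The accumulating map: the body maps (state `i`, item `i`) to (state `i + 1`, result `i`). -/
theorem mapAccum (n : α → ℕ) (s b c : α → ℕ → Tr) (τ : α → ℕ → ℝ)
    (h : RC (fun p : (a : α) × Fin (n a) => o p.1) (fun p => Tr.cons (s p.1 p.2) (b p.1 p.2))
      (fun p => Tr.cons (s p.1 (p.2 + 1)) (c p.1 p.2)) (fun p => τ p.1 p.2)) :
    RC o (fun a => Tr.cons (s a 0) (Tr.ofList ((List.range (n a)).map (b a))))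
      (fun a => Tr.cons (s a (n a)) (Tr.ofList ((List.range (n a)).map (c a))))
      (fun a => (∑ i ∈ Finset.range (n a), (τ a i + 4 * (s a i).size + 7 * (b a i).size +
          7 * (s a (i + 1)).size + 2 * (c a i).size + 14)) +
        7 * (s a 0).size + 4 * (Tr.ofList ((List.range (n a)).map (b a))).size +
        4 * (s a (n a)).size + 2 * (Tr.ofList ((List.range (n a)).map (c a))).size + 15) := by
  obtain ⟨P, m, h⟩ := h
  obtain ⟨r, hr4, hrn⟩ : ∃ r, 4 ≤ r ∧ m ≤ r := ⟨m + 4, by omega, by omega⟩
  let body : RProg := .seq (emb (fetchP r)) (.seq P (emb (emitP (r + 1))))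
  choose τ' hτ hrun using h
  refine ⟨.seq (emb (stashP r)) (.seq (.loop r .skip body) (.seq (.push (r + 1) false)
    (emb (unstashP (r + 1))))), r + 2, fun a => ?_⟩
  let θ : ℕ → ℕ := fun i => if hi : i < n a then τ' ⟨a, ⟨i, hi⟩⟩ + 4 * (s a i).size +
    7 * (b a i).size + 7 * (s a (i + 1)).size + 2 * (c a i).size + 14 else 0
  refine ⟨(∑ i ∈ Finset.range (n a), θ i) + 7 * (s a 0).size +
    4 * (Tr.ofList ((List.range (n a)).map (b a))).size + 4 * (s a (n a)).size +
    2 * (Tr.ofList ((List.range (n a)).map (c a))).size + 15, ?_, fun S h0 hS => ?_⟩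
  · push_cast
    gcongr with i hi
    have hi' := Finset.mem_range.mp hi
    have := hτ ⟨a, ⟨i, hi'⟩⟩
    simp only [θ, hi', dite_true]
    push_cast
    linarith
  have r0 : r ≠ 0 := by omega
  have r1 : r ≠ 1 := by omega
  have er : S r = [] := hS r (by omega) (by omega)
  have er' : S (r + 1) = [] := hS (r + 1) (by omega) (by omega)
  let mk : List Bool → List Bool → List Bool → Store := fun x y z =>
    update (update (update S 0 x) r y) (r + 1) z
  have mk0 : ∀ x y z, mk x y z 0 = x := fun x y z => by
    simp only [mk]; rw [update_of_ne (by omega), update_of_ne (by omega), update_self]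
  have mk1 : ∀ x y z, mk x y z r = y := fun x y z => by
    simp only [mk]; rw [update_of_ne (by omega), update_self]
  have mk2 : ∀ x y z, mk x y z (r + 1) = z := fun x y z => by simp only [mk]; rw [update_self]
  have mkf : ∀ x y z k, 0 < k → k < r → mk x y z k = [] := fun x y z k hk hk' => by
    simp only [mk]
    rw [update_of_ne (by omega), update_of_ne (by omega), update_of_ne (by omega)]
    exact hS k hk (by omega)
  have u0 : ∀ x y z w, update (mk x y z) 0 w = mk w y z := fun x y z w => by
    simp only [mk]; store_eq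
  have u1 : ∀ x y z w, update (mk x y z) r w = mk x w z := fun x y z w => by
    simp only [mk]; store_eq
  have u2 : ∀ x y z w, update (mk x y z) (r + 1) w = mk x y w := fun x y z w => by
    simp only [mk]; store_eq
  have key : ∀ j i, i + j = n a → ∀ acc : List Bool,
      RExec (o a) (.loop r .skip body)
        (mk (s a i).bits (Tr.ofList ((List.range' i j).map (b a))).bits acc)
        (mk (s a (n a)).bits []
          (((List.range' i j).flatMap fun k => true :: (c a k).bits).reverse ++ acc))
        ((∑ k ∈ Finset.Ico i (n a), θ k) + 3) := by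
    intro j
    induction j with
    | zero =>
      intro i hi acc
      have hi' : i = n a := by omega
      subst hi'
      refine (RExec.loopFalse (l := []) (mk1 _ _ _) (RExec.skip _ _)
        (RExec.loopNil (by simp))).of_eq ?_ (by simp)
      simp [u1]
    | succ j ih =>
      intro i hi acc
      have hlt : i < n a := by omega
      have s1 := exec_fetch hr4 (s a i) (b a i) (Tr.ofList ((List.range' (i + 1) j).map (b a))).bits
        (mk (s a i).bits ((b a i).bits ++ (Tr.ofList ((List.range' (i + 1) j).map (b a))).bits) acc)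
        (mk0 _ _ _) (mk1 _ _ _) (mkf _ _ _ _ (by omega) (by omega))
        (mkf _ _ _ _ (by omega) (by omega)) (mkf _ _ _ _ (by omega) (by omega))
      rw [u0, u1] at s1
      have s2 := hrun ⟨a, ⟨i, hlt⟩⟩ _ (mk0 (Tr.cons (s a i) (b a i)).bits
        (Tr.ofList ((List.range' (i + 1) j).map (b a))).bits acc)
        (fun k hk hk' => mkf _ _ _ k hk (by omega))
      rw [u0] at s2
      have s3 := exec_emit (r := r + 1) (by omega) (s a (i + 1)) (c a i) _
        (mk0 _ (Tr.ofList ((List.range' (i + 1) j).map (b a))).bits acc)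
        (mkf _ _ _ _ (by omega) (by omega)) (mkf _ _ _ _ (by omega) (by omega))
      rw [u0, u2, mk2] at s3
      have hb : RExec (o a) body (update (mk (s a i).bits
          (Tr.ofList ((List.range' i (j + 1)).map (b a))).bits acc) r
          ((b a i).bits ++ (Tr.ofList ((List.range' (i + 1) j).map (b a))).bits)) _ _ :=
        ((RExec.ofExec s1 _).seq (s2.seq (RExec.ofExec s3 _))).of_eq' (u1 _ _ _ _)
      refine (RExec.loopTrue (by rw [mk1]; rfl) hb (ih (i + 1) (by omega) _)).of_eq ?_ ?_
      · simp [List.range'_succ]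
      · rw [Finset.sum_eq_sum_Ico_succ_bot hlt]
        simp only [θ, hlt, dite_true]
        omega
  have s0 := exec_stash hr4 (s a 0) (Tr.ofList ((List.range (n a)).map (b a))) S h0
    (hS 1 (by omega) (by omega)) (hS 2 (by omega) (by omega)) (hS 3 (by omega) (by omega))
  have e0 : update (update S 0 (s a 0).bits) r
      ((Tr.ofList ((List.range (n a)).map (b a))).bits ++ S r) =
      mk (s a 0).bits (Tr.ofList ((List.range' 0 (n a)).map (b a))).bits [] := by
    simp only [mk, er, ← er', List.append_nil, List.range_eq_range']; store_eq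
  rw [e0] at s0
  have s1 := key (n a) 0 (by omega) []
  have s2 := RExec.push (o a) (r + 1) false (mk (s a (n a)).bits []
    (((List.range' 0 (n a)).flatMap fun k => true :: (c a k).bits).reverse ++ []))
  rw [u2, mk2] at s2
  have ebits : ∀ l : List ℕ, (Tr.ofList (l.map (c a))).bits =
      (l.flatMap fun k => true :: (c a k).bits) ++ [false] := by
    intro l
    induction l with
    | nil => rfl
    | cons k l ih => simp [Tr.ofList, Tr.bits, ih]
  have s3 := exec_unstash (r := r + 1) (by omega) (s a (n a))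
    (Tr.ofList ((List.range (n a)).map (c a))) _
    (mk0 (s a (n a)).bits [] (false :: (((List.range' 0 (n a)).flatMap
      fun k => true :: (c a k).bits).reverse ++ [])))
    (by rw [mk2, ebits, List.range_eq_range']; simp) (mkf _ _ _ _ (by omega) (by omega))
  refine ((RExec.ofExec s0 _).seq (s1.seq (s2.seq (RExec.ofExec s3 _)))).of_eq ?_ ?_
  · rw [u0, u2]; simp only [mk]; store_eq
  · simp only [Finset.range_eq_Ico]; omega

/-- Do-while loop: the body maps state `i` to (continue?, state `i + 1`); the flag is `true`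
exactly for `i < N a`. -/
theorem doWhile (s : α → ℕ → Tr) (N : α → ℕ) (τ : α → ℕ → ℝ)
    (h : RC (fun p : (a : α) × Fin (N a + 1) => o p.1) (fun p => s p.1 p.2)
      (fun p => Tr.cons (Tr.ofBool (decide (p.2.1 < N p.1))) (s p.1 (p.2 + 1)))
      (fun p => τ p.1 p.2)) :
    RC o (fun a => s a 0) (fun a => s a (N a + 1))
      (fun a => (∑ i ∈ Finset.range (N a + 1), (τ a i + 9)) + 2) := by
  obtain ⟨P, n, h⟩ := h
  choose τ' hτ hrun using h
  obtain ⟨r, hr0, hrn⟩ : ∃ r, 0 < r ∧ n ≤ r := ⟨n + 1, by omega, by omega⟩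
  let body : RProg := .seq P (emb (.seq (popP 0) (.case 0 .skip .skip
    (.seq (popP 0) (.seq (popP 0) (.push r true))))))
  refine ⟨.seq (.push r true) (.loop r body body), r + 1, fun a => ?_⟩
  let θ : ℕ → ℕ := fun i => if hi : i < N a + 1 then τ' ⟨a, ⟨i, hi⟩⟩ + 9 else 0
  refine ⟨(∑ i ∈ Finset.range (N a + 1), θ i) + 2, ?_, fun S h0 hS => ?_⟩
  · push_cast
    gcongr with i hi
    have hi' := Finset.mem_range.mp hi
    have := hτ ⟨a, ⟨i, hi'⟩⟩
    simp only [θ, hi', dite_true]
    push_cast
    linarith
  have er : S r = [] := hS r hr0 (by omega)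
  let mk : List Bool → List Bool → Store := fun x y => update (update S 0 x) r y
  have mk0 : ∀ x y, mk x y 0 = x := fun x y => by
    simp only [mk]; rw [update_of_ne (by omega), update_self]
  have mk1 : ∀ x y, mk x y r = y := fun x y => by simp only [mk]; rw [update_self]
  have mkf : ∀ x y k, 0 < k → k < r → mk x y k = [] := fun x y k hk hk' => by
    simp only [mk]
    rw [update_of_ne (by omega), update_of_ne (by omega)]
    exact hS k hk (by omega)
  have u0 : ∀ x y w, update (mk x y) 0 w = mk w y := fun x y w => by simp only [mk]; store_eq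
  have u1 : ∀ x y w, update (mk x y) r w = mk x w := fun x y w => by simp only [mk]; store_eq
  have key : ∀ j i, i + j = N a →
      RExec (o a) (.loop r body body) (mk (s a i).bits [true]) (mk (s a (N a + 1)).bits [])
        ((∑ i' ∈ Finset.Ico i (N a + 1), θ i') + 1) := by
    intro j
    induction j with
    | zero =>
      intro i hi
      have hi' : i = N a := by omega
      subst hi'
      have s1 := (hrun ⟨a, ⟨N a, Nat.lt_succ_self _⟩⟩ (mk (s a (N a)).bits []) (mk0 _ _)
        (fun k hk hk' => mkf _ _ k hk (by omega)))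
      simp only [lt_irrefl, decide_false, u0] at s1
      have s2 := exec_pop 0 _ true _ (mk0 (Tr.cons (Tr.ofBool false) (s a (N a + 1))).bits [])
      rw [u0] at s2
      have s3 : Exec (.case 0 .skip .skip (.seq (popP 0) (.seq (popP 0) (.push r true))))
          (mk ((Tr.ofBool false).bits ++ (s a (N a + 1)).bits) []) _ _ :=
        Exec.caseFalse (l := (s a (N a + 1)).bits) (by simp [mk0, Tr.ofBool, Tr.bits])
          (Exec.skip _)
      rw [u0] at s3
      have hb : RExec (o a) body (update (mk (s a (N a)).bits [true]) r []) _ _ :=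
        (s1.seq (RExec.ofExec (s2.seq s3) _)).of_eq' (u1 _ _ _)
      exact (RExec.loopTrue (mk1 _ _) hb (RExec.loopNil (mk1 _ _))).mono (by simp [θ])
    | succ j ih =>
      intro i hi
      have hlt : i < N a := by omega
      have s1 := (hrun ⟨a, ⟨i, by omega⟩⟩ (mk (s a i).bits []) (mk0 _ _)
        (fun k hk hk' => mkf _ _ k hk (by omega)))
      simp only [hlt, decide_true, u0] at s1
      have s2 := exec_pop 0 _ true _ (mk0 (Tr.cons (Tr.ofBool true) (s a (i + 1))).bits [])
      rw [u0] at s2
      have s4 := exec_pop 0 _ false _ (mk0 (false :: false :: (s a (i + 1)).bits) [])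
      rw [u0] at s4
      have s5 := exec_pop 0 _ false _ (mk0 (false :: (s a (i + 1)).bits) [])
      rw [u0] at s5
      have s6 := Exec.push r true (mk (s a (i + 1)).bits [])
      rw [mk1, u1] at s6
      have s3 : Exec (.case 0 .skip .skip (.seq (popP 0) (.seq (popP 0) (.push r true))))
          (mk ((Tr.ofBool true).bits ++ (s a (i + 1)).bits) []) _ _ :=
        Exec.caseTrue (l := false :: false :: (s a (i + 1)).bits)
          (by simp [mk0, Tr.ofBool, Tr.bits]) ((s4.seq (s5.seq s6)).of_eq' (u0 _ _ _))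
      have hb : RExec (o a) body (update (mk (s a i).bits [true]) r []) _ _ :=
        (s1.seq (RExec.ofExec (s2.seq s3) _)).of_eq' (u1 _ _ _)
      refine (RExec.loopTrue (mk1 _ _) hb (ih (i + 1) (by omega))).mono ?_
      rw [Finset.sum_eq_sum_Ico_succ_bot (by omega : i < N a + 1)]
      have : i < N a + 1 := by omega
      simp only [θ, this, dite_true]
      omega
  have s0 : RExec (o a) (.push r true) S (mk (s a 0).bits [true]) 1 :=
    (RExec.push _ r true S).of_eq (by simp only [mk, er, ← h0]; store_eq) le_rfl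
  refine (s0.seq (key (N a) 0 (by omega))).of_eq ?_ ?_
  · simp only [mk]; store_eq
  · simp only [Finset.range_eq_Ico]; omega

end RC

/-- The index type of a recursive body: a ghost time bound `T`, a task and an environment that
handles all tasks of smaller measure within `T`. -/
structure FixIdx {α : Type} (ea : α → Tr) (Post : α → Tr → Prop) (μ : α → ℕ) where
  /-- the time bound assumed for smaller tasks -/
  T : α → ℝ
  /-- the current task -/
  a : α
  /-- the environment -/
  env : RProg
  /-- smaller tasks are handled -/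
  h : ∀ a', μ a' < μ a → ∃ y, Post a' y ∧ Handles env (ea a') y (T a')

/-- The recursion theorem. -/
theorem AlgT.fix {α : Type} (ea : α → Tr) (Post : α → Tr → Prop) (μ : α → ℕ)
    (t : (α → ℝ) → α → ℝ) (y : FixIdx ea Post μ → Tr) (hy : ∀ p, Post p.a (y p))
    (body : RC (fun p : FixIdx ea Post μ => p.env) (fun p => ea p.a) y (fun p => t p.T p.a))
    (T : α → ℝ) (hT : ∀ a, t T a ≤ T a) : ∃ eb : α → Tr, (∀ a, Post a (eb a)) ∧ AlgT ea eb T := by
  obtain ⟨P, n, h⟩ := body
  have key : ∀ a, ∃ z, Post a z ∧ Handles P (ea a) z (T a) := by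
    intro a
    induction hm : μ a using Nat.strong_induction_on generalizing a with
    | _ m ih =>
      let p : FixIdx ea Post μ := ⟨T, a, P, fun a' ha' => ih (μ a') (hm ▸ ha') a' rfl⟩
      obtain ⟨τ, h1, h2⟩ := h p
      exact ⟨y p, hy p, τ, h1.trans (hT a), h2.toSingle⟩
  choose eb h1 h2 using key
  exact ⟨eb, h1, P, h2⟩

theorem AlgT.mono {α : Type} {ea eb : α → Tr} {T T' : α → ℝ} (h : AlgT ea eb T)
    (hT : ∀ a, T a ≤ T' a) : AlgT ea eb T' := by
  obtain ⟨P, h⟩ := h
  exact ⟨P, fun a => (h a).mono (hT a)⟩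

theorem AlgT.reindex {α β : Type} {ea eb : α → Tr} {T : α → ℝ} (h : AlgT ea eb T) (φ : β → α) :
    AlgT (fun b => ea (φ b)) (fun b => eb (φ b)) (fun b => T (φ b)) := by
  obtain ⟨P, h⟩ := h
  exact ⟨P, fun b => h (φ b)⟩

/-- A computation that works in every environment is a closed algorithm. -/
theorem AlgT.ofRC {α : Type} {ea eb : α → Tr} {T : α → ℝ}
    (h : RC (fun p : RProg × α => p.1) (fun p => ea p.2) (fun p => eb p.2) (fun p => T p.2)) :
    AlgT ea eb T := by
  obtain ⟨P, n, h⟩ := h
  refine ⟨P, fun a => ?_⟩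
  obtain ⟨τ, h1, h2⟩ := h (P, a)
  exact ⟨τ, h1, h2.toSingle⟩

/-- From a closed algorithm on tree codes to a machine. -/
theorem timeBoundComputable_of_algT {α β G : Type} [Fintype G] (ea : α → List G)
    (eb : β → List Bool) (f : α → β) (c1 c2 : G → Bool) (t : α → ℝ) (T : ℕ → ℕ)
    (h : AlgT (fun a => bitsTr ((ea a).flatMap fun g => [c1 g, c2 g]).reverse)
      (fun a => bitsTr (eb (f a)).reverse) t)
    (hT : ∀ a, t a + 15 * (ea a).length + 10 * (eb (f a)).length + 11 ≤ T (ea a).length) :
    Crest.DTime.TimeBoundComputable ea eb f T := by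
  obtain ⟨P, n, h⟩ := RC.alg h (fun _ => .skip)
  refine timeBoundComputable_of_rexec ea eb f c1 c2 (.seq (emb inP) (.seq P (emb outP))) T
    fun a => ?_
  obtain ⟨τ, h1, h2⟩ := h a
  have r := ((RRuns.ofRuns (runs_inP ((ea a).flatMap fun g => [c1 g, c2 g]).reverse) _).mono
    (le_max_right n 2) le_rfl).seq ((h2.mono (le_max_left n 2) le_rfl).seq
      ((RRuns.ofRuns (runs_outP (eb (f a)).reverse) _).mono (le_max_right n 2) le_rfl))
  refine ⟨_, r.toSingle, ?_⟩
  have hl : ((ea a).flatMap fun g => [c1 g, c2 g]).reverse.length = 2 * (ea a).length := by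
    simp [List.length_flatMap, Nat.mul_comm]
  have := hT a
  rw [hl, List.length_reverse]
  have h3 : ((τ + 15 * (ea a).length + 10 * (eb (f a)).length + 9 : ℕ) : ℝ) ≤
      (T (ea a).length : ℝ) := by push_cast; linarith
  have h4 := Nat.cast_le.mp h3
  omega

end Crest.Agent.R326
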