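/-
R326/Prim: linear-time list primitives on tree codes (reverse, zip, flatten, chunks).
Author: helper92.
-/
import Crest.Agent.R326.RC

set_option autoImplicit false
set_option linter.unusedSimpArgs false

namespace Crest.Agent.R326

open Function Crest.Agent.Lib.PolyTime

/-- The code of the items of a list, without the terminator. -/
def items (l : List Tr) : List Bool := l.flatMap fun t => true :: t.bits

@[simp] theorem items_nil : items [] = [] := rfl
@[simp] theorem items_cons (t : Tr) (l : List Tr) : items (t :: l) = true :: (t.bits ++ items l) := by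
  simp [items]
@[simp] theorem items_append (l m : List Tr) : items (l ++ m) = items l ++ items m := by
  simp [items]

theorem bits_ofList (l : List Tr) : (Tr.ofList l).bits = items l ++ [false] := by
  induction l with
  | nil => rfl
  | cons t l ih => simp [Tr.ofList, Tr.bits, ih]

theorem size_ofList (l : List Tr) : (Tr.ofList l).size = (items l).length + 1 := by
  rw [← Tr.length_bits, bits_ofList]; simp

theorem tc_reverse {α : Type} (l : α → List Tr) :
    TC (fun a => Tr.ofList (l a)) (fun a => Tr.ofList (l a).reverse)
      (fun a => 12 * (Tr.ofList (l a)).size + 6) := by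
  let body : Prog := .seq (moveTreeG 0 1 2) (.seq (moveP 2 3) (.push 3 true))
  have key : ∀ (m : List Tr) (S : Store), S 0 = items m ++ [false] → S 1 = [] → S 2 = [] →
      Exec (.loop 0 .skip body) S (update (update S 0 []) 3 (items m.reverse ++ S 3))
        (8 * (items m).length + 3) := by
    intro m
    induction m with
    | nil =>
      intro S h0 h1 h2
      exact (Exec.loopFalse (l := []) h0 (Exec.skip _) (Exec.loopNil (by simp))).of_eq
        (by simp) (by simp)
    | cons t m ih =>
      intro S h0 h1 h2
      have s1 := exec_moveTreeG (a := 0) (c := 1) (d := 2) (by omega) (by omega) (by omega) t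
        (update S 0 (t.bits ++ (items m ++ [false]))) (items m ++ [false]) (by simp) (by simp [h1])
      have s2 := s1.seq ((exec_move (a := 2) (b := 3) (by omega) t.bits.reverse _
        (by simp [h2])).seq (Exec.push 3 true _))
      refine (Exec.loopTrue (by simpa using h0) s2 (ih _ (by simp) (by simp [h1])
        (by simp))).of_eq (by store_eq) ?_
      have := t.size_pos
      simp; omega
  refine ⟨.seq (.push 3 false) (.seq (.loop 0 .skip body) (.seq (moveP 3 2) (moveP 2 0))), 4,
    fun a S h0 hS => ?_⟩
  have e1 : S 1 = [] := hS 1 (by omega) (by omega)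
  have e2 : S 2 = [] := hS 2 (by omega) (by omega)
  have e3 : S 3 = [] := hS 3 (by omega) (by omega)
  rw [bits_ofList] at h0
  refine ((Exec.push 3 false S).seq ((key (l a) _ (by simpa using h0) (by simp [e1])
    (by simp [e2])).seq ((exec_move (a := 3) (b := 2) (by omega)
      (items (l a).reverse ++ [false]) _ (by simp [e3])).seq
    (exec_move (a := 2) (b := 0) (by omega) (items (l a).reverse ++ [false]).reverse _
      (by simp [e2]))))).of_eq ?_ ?_
  · rw [bits_ofList]; store_eq
  · have : (items (l a).reverse).length = (items (l a)).length := by
      simp [items, List.length_flatMap, List.sum_reverse]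
    simp [size_ofList, this]; omega

theorem tc_zip {α : Type} (l m : α → List Tr) :
    TC (fun a => Tr.cons (Tr.ofList (l a)) (Tr.ofList (m a)))
      (fun a => Tr.ofList (List.zipWith Tr.cons (l a) (m a)))
      (fun a => 20 * ((Tr.ofList (l a)).size + (Tr.ofList (m a)).size) + 20) := by
  let body : Prog := .case 0 .skip (clearP 4)
    (.seq (.push 3 true) (.seq (.push 3 true) (.seq (moveTreeG 4 2 3) (moveTreeG 0 2 3))))
  have key : ∀ (x y : List Tr) (S : Store), S 4 = items x ++ [false] → S 0 = items y ++ [false] →
      S 2 = [] → ∃ rest : List Bool, rest.length ≤ (items y).length + 1 ∧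
      Exec (.loop 4 .skip body) S (update (update (update S 4 []) 0 rest) 3
        ((items (List.zipWith Tr.cons x y)).reverse ++ S 3))
        (8 * ((items x).length + (items y).length) + 6) := by
    intro x
    induction x with
    | nil =>
      intro y S h4 h0 h2
      refine ⟨S 0, by simp [h0], (Exec.loopFalse (l := []) h4 (Exec.skip _)
        (Exec.loopNil (by simp))).of_eq (by store_eq) (by omega)⟩
    | cons t x ih =>
      intro y S h4 h0 h2
      cases y with
      | nil =>
        have s1 : Exec body (update S 4 (t.bits ++ (items x ++ [false]))) _ _ :=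
          Exec.caseFalse (l := []) (by simpa using h0)
            (exec_clear 4 (t.bits ++ (items x ++ [false])) _ (by simp))
        refine ⟨[], by simp, (Exec.loopTrue (by simpa using h4) s1
          (Exec.loopNil (by simp))).of_eq (by store_eq) ?_⟩
        simp; omega
      | cons u y =>
        have s1 : Exec body (update S 4 (t.bits ++ (items x ++ [false]))) _ _ :=
          Exec.caseTrue (l := u.bits ++ (items y ++ [false])) (by simpa using h0)
            ((Exec.push 3 true _).seq ((Exec.push 3 true _).seq
              ((exec_moveTreeG (a := 4) (c := 2) (d := 3) (by omega) (by omega) (by omega) t _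
                (items x ++ [false]) (by simp) (by simp [h2])).seq
              (exec_moveTreeG (a := 0) (c := 2) (d := 3) (by omega) (by omega) (by omega) u _
                (items y ++ [false]) (by simp) (by simp [h2])))))
        obtain ⟨rest, hr, s2⟩ := ih y _ (by simp : _root_.id (update (update (update (update (update
          (update (update (update S 4 (t.bits ++ (items x ++ [false]))) 0
          (u.bits ++ (items y ++ [false]))) 3 (true :: S 3)) 3 (true :: true :: S 3)) 4
          (items x ++ [false])) 3 (t.bits.reverse ++ true :: true :: S 3)) 0 (items y ++ [false])) 3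
          (u.bits.reverse ++ (t.bits.reverse ++ true :: true :: S 3))) 4 = _) (by simp)
          (by simp [h2])
        refine ⟨rest, by simp; omega, (Exec.loopTrue (by simpa using h4) s1
          (s2.of_eq' (by simp))).of_eq ?_ ?_⟩
        · simp only [_root_.id, List.zipWith_cons_cons, items_cons, Tr.bits]; store_eq
        · simp; omega
  refine ⟨.seq (.seq (popP 0) (.seq (moveTreeG 0 2 1) (moveP 1 4))) (.seq (.loop 4 .skip body)
    (.seq (clearP 0) (.seq (.push 3 false) (moveP 3 0)))), 5, fun a S h0 hS => ?_⟩
  have e1 : S 1 = [] := hS 1 (by omega) (by omega)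
  have e2 : S 2 = [] := hS 2 (by omega) (by omega)
  have e3 : S 3 = [] := hS 3 (by omega) (by omega)
  have e4 : S 4 = [] := hS 4 (by omega) (by omega)
  have s1 := exec_pop 0 S true _ h0
  have s2 := exec_moveTreeG (a := 0) (c := 2) (d := 1) (by omega) (by omega) (by omega)
    (Tr.ofList (l a)) (update S 0 ((Tr.ofList (l a)).bits ++ (Tr.ofList (m a)).bits))
    (Tr.ofList (m a)).bits (by simp) (by simp [e2])
  have s3 := s1.seq (s2.seq (exec_move (a := 1) (b := 4) (by omega) (Tr.ofList (l a)).bits.reverse _
    (by simp [e1])))
  obtain ⟨rest, hr, s4⟩ := key (l a) (m a) (update (update S 0 (Tr.ofList (m a)).bits) 4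
    (Tr.ofList (l a)).bits) (by simp [bits_ofList]) (by simp [bits_ofList]) (by simp [e2])
  have hz : (items (List.zipWith Tr.cons (l a) (m a))).length ≤
      (items (l a)).length + (items (m a)).length := by
    generalize l a = x
    generalize m a = y
    induction x generalizing y with
    | nil => simp
    | cons t x ih => cases y with
      | nil => simp
      | cons u y => have := ih y; simp; omega
  have s5 := s4.seq ((exec_clear 0 rest _ (by simp)).seq ((Exec.push 3 false _).seq
    (exec_move (a := 3) (b := 0) (by omega)
      (false :: (items (List.zipWith Tr.cons (l a) (m a))).reverse) _ (by simp [e3]))))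
  have s6 : Exec (.seq (popP 0) (.seq (moveTreeG 0 2 1) (moveP 1 4))) S
      (update (update S 0 (Tr.ofList (m a)).bits) 4 (Tr.ofList (l a)).bits) _ :=
    s3.of_eq (by store_eq) le_rfl
  refine (s6.seq s5).of_eq ?_ ?_
  · simp only [bits_ofList (List.zipWith _ _ _)]; store_eq
  · simp [size_ofList]; omega

theorem tc_flatten {α : Type} (L : α → List (List Tr)) :
    TC (fun a => Tr.ofList ((L a).map Tr.ofList)) (fun a => Tr.ofList (L a).flatten)
      (fun a => 12 * (Tr.ofList ((L a).map Tr.ofList)).size + 8) := by
  let ib : Prog := .case 0 .skip .skip
    (.seq (.push 3 true) (.seq (moveTreeG 0 2 3) (.push 1 true)))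
  have inner : ∀ (x : List Tr) (rest : List Bool) (S : Store), S 0 = items x ++ false :: rest →
      S 1 = [true] → S 2 = [] →
      Exec (.loop 1 ib ib) S (update (update (update S 0 rest) 1 []) 3 ((items x).reverse ++ S 3))
        (8 * (items x).length + 4) := by
    intro x
    induction x with
    | nil =>
      intro rest S h0 h1 h2
      have s1 : Exec ib (update S 1 []) _ _ :=
        Exec.caseFalse (l := rest) (by simpa using h0) (Exec.skip _)
      exact (Exec.loopTrue h1 s1 (Exec.loopNil (by simp))).of_eq (by store_eq) (by simp)
    | cons t x ih =>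
      intro rest S h0 h1 h2
      have s1 : Exec ib (update S 1 []) _ _ :=
        Exec.caseTrue (l := t.bits ++ (items x ++ false :: rest)) (by simpa using h0)
          ((Exec.push 3 true _).seq ((exec_moveTreeG (a := 0) (c := 2) (d := 3) (by omega)
            (by omega) (by omega) t _ (items x ++ false :: rest) (by simp) (by simp [h2])).seq
            (Exec.push 1 true _)))
      refine (Exec.loopTrue h1 s1 (ih rest _ (by simp) (by simp) (by simp [h2]))).of_eq
        (by store_eq) ?_
      have := t.size_pos
      simp; omega
  let ob : Prog := .seq (.push 1 true) (.loop 1 ib ib)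
  have outer : ∀ (X : List (List Tr)) (S : Store), S 0 = items (X.map Tr.ofList) ++ [false] →
      S 1 = [] → S 2 = [] →
      Exec (.loop 0 .skip ob) S (update (update S 0 []) 3 ((items X.flatten).reverse ++ S 3))
        (8 * (items (X.map Tr.ofList)).length + 3) := by
    intro X
    induction X with
    | nil =>
      intro S h0 h1 h2
      exact (Exec.loopFalse (l := []) h0 (Exec.skip _) (Exec.loopNil (by simp))).of_eq
        (by simp) (by simp)
    | cons x X ih =>
      intro S h0 h1 h2
      have s1 : Exec ob (update S 0 (items x ++ false :: (items (X.map Tr.ofList) ++ [false]))) _ _ :=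
        (Exec.push 1 true _).seq (inner x (items (X.map Tr.ofList) ++ [false]) _ (by simp)
          (by simp [h1]) (by simp [h2]))
      refine (Exec.loopTrue (by simpa [bits_ofList] using h0) s1
        (ih _ (by simp) (by simp) (by simp [h2]))).of_eq (by store_eq) ?_
      simp [size_ofList]; omega
  refine ⟨.seq (.loop 0 .skip ob) (.seq (.push 3 false) (moveP 3 0)), 4, fun a S h0 hS => ?_⟩
  have e1 : S 1 = [] := hS 1 (by omega) (by omega)
  have e2 : S 2 = [] := hS 2 (by omega) (by omega)
  have e3 : S 3 = [] := hS 3 (by omega) (by omega)
  rw [bits_ofList] at h0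
  have hz : (items (L a).flatten).length ≤ (items ((L a).map Tr.ofList)).length := by
    generalize L a = X
    induction X with
    | nil => simp
    | cons x X ih => simp [size_ofList] at ih ⊢; omega
  refine ((outer (L a) S h0 e1 e2).seq ((Exec.push 3 false _).seq
    (exec_move (a := 3) (b := 0) (by omega) (false :: (items (L a).flatten).reverse) _
      (by simp [e3])))).of_eq ?_ ?_
  · simp only [bits_ofList (List.flatten _)]; store_eq
  · simp [size_ofList]; omega

theorem tc_chunks {α : Type} (g : α → ℕ) (L : α → List (List Tr)) (hg : ∀ a, 0 < g a)
    (hL : ∀ a, ∀ x ∈ L a, x.length = g a) :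
    TC (fun a => Tr.cons (Tr.ofList (List.replicate (g a) Tr.nil)) (Tr.ofList (L a).flatten))
      (fun a => Tr.ofList ((L a).map Tr.ofList))
      (fun a => 30 * ((Tr.ofList (List.replicate (g a) Tr.nil)).size +
        (Tr.ofList (L a).flatten).size) + 20) := by
  let ib : Prog := .seq (.push 5 true) (.seq (popP 0) (.seq (.push 3 true) (moveTreeG 0 2 3)))
  have inner : ∀ (x : List Tr) (rest : List Bool) (S : Store), S 0 = items x ++ rest →
      S 4 = items (List.replicate x.length Tr.nil) ++ [false] → S 2 = [] →
      Exec (.loop 4 (.push 5 false) ib) S (update (update (update (update S 0 rest) 4 []) 5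
        ((items (List.replicate x.length Tr.nil) ++ [false]).reverse ++ S 5)) 3
        ((items x).reverse ++ S 3)) (9 * (items x).length + 3) := by
    intro x
    induction x with
    | nil =>
      intro rest S h0 h4 h2
      exact (Exec.loopFalse (l := []) h4 (Exec.push 5 false _) (Exec.loopNil (by simp))).of_eq
        (by store_eq) (by simp)
    | cons t x ih =>
      intro rest S h0 h4 h2
      have s1 : Exec ib (update S 4 (false :: (items (List.replicate x.length Tr.nil) ++ [false])))
          _ _ :=
        (Exec.push 5 true _).seq ((exec_pop 0 _ true (t.bits ++ (items x ++ rest))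
          (by simpa using h0)).seq ((Exec.push 3 true _).seq
          (exec_moveTreeG (a := 0) (c := 2) (d := 3) (by omega) (by omega) (by omega) t _
            (items x ++ rest) (by simp) (by simp [h2]))))
      refine (Exec.loopTrue (by simpa [List.replicate_succ, Tr.bits] using h4) s1
        (Exec.loopFalse (l := items (List.replicate x.length Tr.nil) ++ [false]) (by simp)
          (Exec.push 5 false _) (ih rest _ (by simp) (by simp) (by simp [h2])))).of_eq ?_ ?_
      · simp only [List.length_cons, List.replicate_succ, items_cons, Tr.bits]; store_eq
      · have := t.size_pos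
        simp; omega
  let ob : Prog := .seq (.push 0 true) (.seq (.push 3 true) (.seq (.loop 4 (.push 5 false) ib)
    (.seq (.push 3 false) (moveP 5 4))))
  have hrep : ∀ k, (items (List.replicate k Tr.nil)).length = 2 * k := by
    intro k
    induction k with
    | zero => rfl
    | succ k ih => simp [List.replicate_succ, ih]; omega
  have hit : ∀ x : List Tr, 2 * x.length ≤ (items x).length := by
    intro x
    induction x with
    | nil => simp
    | cons t x ih => have := t.size_pos; simp; omega
  have outer : ∀ (k : ℕ), 0 < k → ∀ (X : List (List Tr)), (∀ x ∈ X, x.length = k) → ∀ (S : Store),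
      S 0 = items X.flatten ++ [false] → S 4 = items (List.replicate k Tr.nil) ++ [false] →
      S 2 = [] → S 5 = [] →
      Exec (.loop 0 .skip ob) S
        (update (update S 0 []) 3 ((items (X.map Tr.ofList)).reverse ++ S 3))
        (16 * (items X.flatten).length + 3) := by
    intro k hk X
    induction X with
    | nil =>
      intro _ S h0 h4 h2 h5
      exact (Exec.loopFalse (l := []) h0 (Exec.skip _) (Exec.loopNil (by simp))).of_eq
        (by simp) (by simp)
    | cons x X ih =>
      intro hX S h0 h4 h2 h5
      have hx : x.length = k := hX x (by simp)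
      obtain ⟨w, hw⟩ : ∃ w, items x = true :: w := by
        cases x with
        | nil => simp at hx; omega
        | cons t x => exact ⟨_, items_cons _ _⟩
      have s1 : Exec ob (update S 0 (w ++ (items X.flatten ++ [false]))) _ _ :=
        (Exec.push 0 true _).seq ((Exec.push 3 true _).seq
          ((inner x (items X.flatten ++ [false]) _ (by simp [hw]) (by simp [hx, h4])
            (by simp [h2])).seq ((Exec.push 3 false _).seq
          (exec_move (a := 5) (b := 4) (by omega)
            (items (List.replicate x.length Tr.nil) ++ [false]).reverse _ (by simp [h5])))))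
      refine (Exec.loopTrue (by simpa [hw] using h0) s1
        (ih (fun y hy => hX y (by simp [hy])) _ (by simp) (by simp [hx]) (by simp [h2])
          (by simp))).of_eq ?_ ?_
      · simp only [List.map_cons, items_cons, bits_ofList, hx]; store_eq
      · have := hit x
        simp [hrep]; omega
  refine ⟨.seq (.seq (popP 0) (.seq (moveTreeG 0 2 1) (moveP 1 4))) (.seq (.loop 0 .skip ob)
    (.seq (clearP 4) (.seq (.push 3 false) (moveP 3 0)))), 6, fun a S h0 hS => ?_⟩
  have e1 : S 1 = [] := hS 1 (by omega) (by omega)
  have e2 : S 2 = [] := hS 2 (by omega) (by omega)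
  have e3 : S 3 = [] := hS 3 (by omega) (by omega)
  have e4 : S 4 = [] := hS 4 (by omega) (by omega)
  have e5 : S 5 = [] := hS 5 (by omega) (by omega)
  have s1 := exec_pop 0 S true _ h0
  have s2 := exec_moveTreeG (a := 0) (c := 2) (d := 1) (by omega) (by omega) (by omega)
    (Tr.ofList (List.replicate (g a) Tr.nil)) (update S 0
      ((Tr.ofList (List.replicate (g a) Tr.nil)).bits ++ (Tr.ofList (L a).flatten).bits))
    (Tr.ofList (L a).flatten).bits (by simp) (by simp [e2])
  have s3 := s1.seq (s2.seq (exec_move (a := 1) (b := 4) (by omega)
    (Tr.ofList (List.replicate (g a) Tr.nil)).bits.reverse _ (by simp [e1])))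
  have s6 : Exec (.seq (popP 0) (.seq (moveTreeG 0 2 1) (moveP 1 4))) S
      (update (update S 0 (Tr.ofList (L a).flatten).bits) 4
        (Tr.ofList (List.replicate (g a) Tr.nil)).bits) _ :=
    s3.of_eq (by store_eq) le_rfl
  have s4 := outer (g a) (hg a) (L a) (hL a) (update (update S 0 (Tr.ofList (L a).flatten).bits) 4
    (Tr.ofList (List.replicate (g a) Tr.nil)).bits) (by simp [bits_ofList]) (by simp [bits_ofList])
    (by simp [e2]) (by simp [e5])
  have hz : (items ((L a).map Tr.ofList)).length ≤ 2 * (items (L a).flatten).length := by
    have h1 := hL a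
    generalize L a = X at h1
    induction X with
    | nil => simp
    | cons x X ih =>
      have := ih fun y hy => h1 y (by simp [hy])
      have h2 := h1 x (by simp)
      have := hit x
      have := hg a
      simp [size_ofList] at *; omega
  have s5 := s4.seq ((exec_clear 4 (Tr.ofList (List.replicate (g a) Tr.nil)).bits _ (by simp)).seq
    ((Exec.push 3 false _).seq (exec_move (a := 3) (b := 0) (by omega)
      (false :: (items ((L a).map Tr.ofList)).reverse) _ (by simp [e3]))))
  refine (s6.seq s5).of_eq ?_ ?_
  · simp only [bits_ofList (List.map _ _)]; store_eq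
  · simp [size_ofList]; omega

end Crest.Agent.R326
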