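/-
R326/Cp: the cost calculus.  `Cp 𝔅 x y ex`: one program computes `y a` from `x a` in time
`O(F a) + ex a`, with output size `O(V a)`.  `L` is the case `ex = 0`; `S` adds smallness.
Author: helper92.
-/
import Crest.Agent.R326.Prim

set_option autoImplicit false
set_option linter.unusedSimpArgs false

namespace Crest.Agent.R326

open Function Crest.Agent.Lib.PolyTime

/-! ### Big-O on families -/

/-- `f = O(g)` for natural-number valued families. -/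
def OLe {α : Type} (f g : α → ℕ) : Prop := ∃ c : ℕ, ∀ a, f a ≤ c * g a

/-- `f = O(g)` for real valued families. -/
def RLe {α : Type} (f g : α → ℝ) : Prop := ∃ c : ℝ, 0 ≤ c ∧ ∀ a, f a ≤ c * g a

@[inherit_doc] scoped infix:50 " ≼ " => OLe
@[inherit_doc] scoped infix:50 " ≲ " => RLe

namespace OLe
variable {α β : Type} {f g h f' g' : α → ℕ}

theorem of_le (H : ∀ a, f a ≤ g a) : f ≼ g := ⟨1, fun a => by simpa using H a⟩
theorem refl (f : α → ℕ) : f ≼ f := of_le fun _ => le_rfl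
theorem trans (H : f ≼ g) (H' : g ≼ h) : f ≼ h := by
  obtain ⟨c, H⟩ := H
  obtain ⟨c', H'⟩ := H'
  exact ⟨c * c', fun a => (H a).trans (by rw [mul_assoc]; exact Nat.mul_le_mul_left _ (H' a))⟩
theorem mono_left (H : g ≼ h) (H' : ∀ a, f a ≤ g a) : f ≼ h := (of_le H').trans H
theorem mono_right (H : f ≼ g) (H' : ∀ a, g a ≤ h a) : f ≼ h := H.trans (of_le H')
theorem add (H : f ≼ h) (H' : g ≼ h) : (fun a => f a + g a) ≼ h := by
  obtain ⟨c, H⟩ := H
  obtain ⟨c', H'⟩ := H'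
  exact ⟨c + c', fun a => by rw [add_mul]; exact Nat.add_le_add (H a) (H' a)⟩
theorem mul (H : f ≼ g) (H' : f' ≼ g') : (fun a => f a * f' a) ≼ fun a => g a * g' a := by
  obtain ⟨c, H⟩ := H
  obtain ⟨c', H'⟩ := H'
  exact ⟨c * c', fun a => (Nat.mul_le_mul (H a) (H' a)).trans (le_of_eq (by ring))⟩
theorem const_mul (H : f ≼ g) (k : ℕ) : (fun a => k * f a) ≼ g := by
  obtain ⟨c, H⟩ := H
  exact ⟨k * c, fun a => by rw [mul_assoc]; exact Nat.mul_le_mul_left _ (H a)⟩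
theorem mul_const (H : f ≼ g) (k : ℕ) : (fun a => f a * k) ≼ g :=
  (H.const_mul k).mono_left fun _ => le_of_eq (mul_comm _ _)
theorem const (H : ∀ a, 1 ≤ g a) (k : ℕ) : (fun _ => k) ≼ g :=
  ⟨k, fun a => Nat.le_mul_of_pos_right _ (H a)⟩
theorem comp (H : f ≼ g) (φ : β → α) : (fun b => f (φ b)) ≼ fun b => g (φ b) := by
  obtain ⟨c, H⟩ := H
  exact ⟨c, fun b => H (φ b)⟩
theorem pos (H : f ≼ g) (a : α) (h : 0 < f a) : 1 ≤ g a := by
  obtain ⟨c, H⟩ := H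
  have := H a
  rcases Nat.eq_zero_or_pos (g a) with h0 | h0
  · rw [h0] at this; omega
  · exact h0
theorem add_const (H : f ≼ g) (H1 : ∀ a, 1 ≤ g a) (k : ℕ) : (fun a => f a + k) ≼ g :=
  H.add (const H1 k)
theorem toR (H : f ≼ g) : (fun a => (f a : ℝ)) ≲ fun a => (g a : ℝ) := by
  obtain ⟨c, H⟩ := H
  exact ⟨c, Nat.cast_nonneg c, fun a => by dsimp only; exact_mod_cast H a⟩
/-- Summation over a dependent range. -/
theorem sum {n : α → ℕ} {u v : α → ℕ → ℕ}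
    (H : (fun p : (a : α) × Fin (n a) => u p.1 p.2) ≼ fun p => v p.1 p.2) :
    (fun a => ∑ i ∈ Finset.range (n a), u a i) ≼ fun a => ∑ i ∈ Finset.range (n a), v a i := by
  obtain ⟨c, H⟩ := H
  refine ⟨c, fun a => ?_⟩
  rw [Finset.mul_sum]
  exact Finset.sum_le_sum fun i hi => H ⟨a, ⟨i, Finset.mem_range.mp hi⟩⟩
end OLe

namespace RLe
variable {α β : Type} {f g h f' g' : α → ℝ}

theorem of_le (H : ∀ a, f a ≤ g a) : f ≲ g := ⟨1, zero_le_one, fun a => by simpa using H a⟩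
theorem refl (f : α → ℝ) : f ≲ f := of_le fun _ => le_rfl
theorem trans (H : f ≲ g) (H' : g ≲ h) : f ≲ h := by
  obtain ⟨c, hc, H⟩ := H
  obtain ⟨c', hc', H'⟩ := H'
  exact ⟨c * c', mul_nonneg hc hc', fun a => (H a).trans
    (by rw [mul_assoc]; exact mul_le_mul_of_nonneg_left (H' a) hc)⟩
theorem mono_left (H : g ≲ h) (H' : ∀ a, f a ≤ g a) : f ≲ h := (of_le H').trans H
theorem mono_right (H : f ≲ g) (H' : ∀ a, g a ≤ h a) : f ≲ h := H.trans (of_le H')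
theorem add (H : f ≲ h) (H' : g ≲ h) : (fun a => f a + g a) ≲ h := by
  obtain ⟨c, hc, H⟩ := H
  obtain ⟨c', hc', H'⟩ := H'
  exact ⟨c + c', add_nonneg hc hc', fun a => by rw [add_mul]; exact add_le_add (H a) (H' a)⟩
theorem mul (H : f ≲ g) (H' : f' ≲ g') (h1 : ∀ a, 0 ≤ f' a) (h2 : ∀ a, 0 ≤ g a) :
    (fun a => f a * f' a) ≲ fun a => g a * g' a := by
  obtain ⟨c, hc, H⟩ := H
  obtain ⟨c', hc', H'⟩ := H'
  exact ⟨c * c', mul_nonneg hc hc', fun a =>
    (mul_le_mul (H a) (H' a) (h1 a) (mul_nonneg hc (h2 a))).trans (le_of_eq (by ring))⟩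
theorem mul_left (H : f ≲ g) (k : α → ℝ) (hk : ∀ a, 0 ≤ k a) :
    (fun a => k a * f a) ≲ fun a => k a * g a := by
  obtain ⟨c, hc, H⟩ := H
  exact ⟨c, hc, fun a => (mul_le_mul_of_nonneg_left (H a) (hk a)).trans (le_of_eq (by ring))⟩
theorem mul_right (H : f ≲ g) (k : α → ℝ) (hk : ∀ a, 0 ≤ k a) :
    (fun a => f a * k a) ≲ fun a => g a * k a := by
  obtain ⟨c, hc, H⟩ := H
  exact ⟨c, hc, fun a => (mul_le_mul_of_nonneg_right (H a) (hk a)).trans (le_of_eq (by ring))⟩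
theorem const_mul (H : f ≲ g) (k : ℝ) (hk : 0 ≤ k) : (fun a => k * f a) ≲ g := by
  obtain ⟨c, hc, H⟩ := H
  exact ⟨k * c, mul_nonneg hk hc, fun a => by
    rw [mul_assoc]; exact mul_le_mul_of_nonneg_left (H a) hk⟩
theorem const (H : ∀ a, 1 ≤ g a) (k : ℝ) : (fun _ => k) ≲ g :=
  ⟨|k|, abs_nonneg k, fun a => (le_abs_self k).trans (le_mul_of_one_le_right (abs_nonneg k) (H a))⟩
theorem comp (H : f ≲ g) (φ : β → α) : (fun b => f (φ b)) ≲ fun b => g (φ b) := by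
  obtain ⟨c, hc, H⟩ := H
  exact ⟨c, hc, fun b => H (φ b)⟩
theorem zero (hg : ∀ a, 0 ≤ g a) : (fun _ => (0 : ℝ)) ≲ g := of_le hg
/-- Summation over a dependent range. -/
theorem sum {n : α → ℕ} {u v : α → ℕ → ℝ}
    (H : (fun p : (a : α) × Fin (n a) => u p.1 p.2) ≲ fun p => v p.1 p.2) :
    (fun a => ∑ i ∈ Finset.range (n a), u a i) ≲ fun a => ∑ i ∈ Finset.range (n a), v a i := by
  obtain ⟨c, hc, H⟩ := H
  refine ⟨c, hc, fun a => ?_⟩
  rw [Finset.mul_sum]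
  exact Finset.sum_le_sum fun i hi => H ⟨a, ⟨i, Finset.mem_range.mp hi⟩⟩
end RLe

/-- The size of a family of values. -/
abbrev sz {α X : Type} [Enc X] (x : α → X) : α → ℕ := fun a => esize (x a)

theorem sz_one_le {α X : Type} [Enc X] {x : α → X} {V : α → ℕ} (h : sz x ≼ V) (a : α) : 1 ≤ V a :=
  h.pos a (esize_pos _)

theorem sz_pair {α X Y : Type} [Enc X] [Enc Y] {x : α → X} {y : α → Y} {V : α → ℕ} (hx : sz x ≼ V)
    (hy : sz y ≼ V) : sz (fun a => (x a, y a)) ≼ V :=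
  ((hx.add hy).add_const (sz_one_le hx) 1).mono_left fun _ => le_rfl

theorem sz_fst {α X Y : Type} [Enc X] [Enc Y] {x : α → X × Y} {V : α → ℕ} (h : sz x ≼ V) :
    sz (fun a => (x a).1) ≼ V := h.mono_left fun a => by simp only [sz, esize_prod (x a)]; omega

theorem sz_snd {α X Y : Type} [Enc X] [Enc Y] {x : α → X × Y} {V : α → ℕ} (h : sz x ≼ V) :
    sz (fun a => (x a).2) ≼ V := h.mono_left fun a => by simp only [sz, esize_prod (x a)]; omega

/-- A bit list of length `O(V)` has size `O(V)`. -/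
theorem sz_bits {α : Type} {D : α → List Bool} {V : α → ℕ} (h : (fun a => (D a).length) ≼ V)
    (h1 : ∀ a, 1 ≤ V a) : sz D ≼ V :=
  ((h.const_mul 4).add_const h1 1).mono_left fun a => esize_boolList_le (D a)

theorem length_of_sz {α X : Type} [Enc X] {l : α → List X} {V : α → ℕ} (h : sz l ≼ V) :
    (fun a => (l a).length) ≼ V := h.mono_left fun a => (length_lt_esize (l a)).le

/-! ### Budgets and the calculus -/

/-- A budget: environment, size budget `V`, time budget `F ≥ V`. -/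
structure Bud (α : Type) where
  /-- the environment that answers calls -/
  o : α → RProg
  /-- the size budget -/
  V : α → ℕ
  /-- the time budget -/
  F : α → ℝ
  /-- the time budget dominates the size budget -/
  hVF : ∀ a, (V a : ℝ) ≤ F a

/-- Restrict a budget along a map of index types. -/
@[reducible] def Bud.comap {α β : Type} (𝔅 : Bud α) (φ : β → α) : Bud β :=
  ⟨fun b => 𝔅.o (φ b), fun b => 𝔅.V (φ b), fun b => 𝔅.F (φ b), fun b => 𝔅.hVF (φ b)⟩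

/-- A budget for sub-tasks, in the same environments. -/
@[reducible] def Bud.sub {α β : Type} (𝔅 : Bud α) (φ : β → α) (V : β → ℕ) (F : β → ℝ)
    (h : ∀ b, (V b : ℝ) ≤ F b) : Bud β := ⟨fun b => 𝔅.o (φ b), V, F, h⟩

/-- A linear budget for sub-tasks. -/
@[reducible] def Bud.lin {α β : Type} (𝔅 : Bud α) (φ : β → α) (V : β → ℕ) : Bud β :=
  ⟨fun b => 𝔅.o (φ b), V, fun b => V b, fun _ => le_rfl⟩

/-- `y` is computed from `x` in time `O(F) + ex` and has size `O(V)`. -/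
def Cp {α X Y : Type} [Enc X] [Enc Y] (𝔅 : Bud α) (x : α → X) (y : α → Y) (ex : α → ℝ) : Prop :=
  sz x ≼ 𝔅.V → sz y ≼ 𝔅.V ∧ ∃ c : ℝ, 0 ≤ c ∧
    RC 𝔅.o (fun a => enc (x a)) (fun a => enc (y a)) (fun a => c * 𝔅.F a + ex a)

/-- `y` is computed from `x` in time `O(F)` and has size `O(V)`. -/
@[fun_prop] def L {α X Y : Type} [Enc X] [Enc Y] (𝔅 : Bud α) (x : α → X) (y : α → Y) : Prop :=
  Cp 𝔅 x y fun _ => 0

/-- Every polynomial in the size of `p` is `O(g)`. -/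
def SmIn {α P : Type} [Enc P] (g : α → ℕ) (p : α → P) : Prop :=
  ∀ k : ℕ, (fun a => (esize (p a) + 1) ^ k) ≼ g

/-- `p` is computed from `x` within the budget and is small. -/
@[fun_prop] def S {α X Y : Type} [Enc X] [Enc Y] (𝔅 : Bud α) (x : α → X) (p : α → Y) : Prop :=
  L 𝔅 x p ∧ SmIn 𝔅.V p

/-- A linear-time function. -/
def LT {β γ : Type} [Enc β] [Enc γ] (f : β → γ) : Prop :=
  ∀ (α X : Type) [Enc X] (𝔅 : Bud α) (x : α → X) (g : α → β), L 𝔅 x g → L 𝔅 x fun a => f (g a)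

/-- A closed algorithm maps `x a` to `y a` within `T a` steps. -/
def Alg {α X Y : Type} [Enc X] [Enc Y] (x : α → X) (y : α → Y) (T : α → ℝ) : Prop :=
  AlgT (fun a => enc (x a)) (fun a => enc (y a)) T

section calculus
variable {α β X Y Z W : Type} [Enc X] [Enc Y] [Enc Z] [Enc W] {𝔅 : Bud α}

theorem Bud.one_le_F {x : α → X} (hx : sz x ≼ 𝔅.V) (a : α) : 1 ≤ 𝔅.F a :=
  le_trans (by exact_mod_cast sz_one_le hx a) (𝔅.hVF a)

theorem Bud.toF {f : α → ℕ} (h : f ≼ 𝔅.V) : (fun a => (f a : ℝ)) ≲ 𝔅.F :=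
  h.toR.mono_right 𝔅.hVF

/-- Introduction rule. -/
theorem Cp.intro {x : α → X} {y : α → Y} {ex : α → ℝ}
    (h : sz x ≼ 𝔅.V → sz y ≼ 𝔅.V ∧ ∃ t u : α → ℝ,
      RC 𝔅.o (fun a => enc (x a)) (fun a => enc (y a)) t ∧ u ≲ 𝔅.F ∧ ∀ a, t a ≤ u a + ex a) :
    Cp 𝔅 x y ex := fun hx => by
  obtain ⟨h1, t, u, h2, ⟨c, hc, h3⟩, h4⟩ := h hx
  exact ⟨h1, c, hc, h2.mono fun a => by linarith [h3 a, h4 a]⟩

/-- One may assume that the input has size `O(V)`. -/
theorem Cp.with_sz {x : α → X} {y : α → Y} {ex : α → ℝ} (h : sz x ≼ 𝔅.V → Cp 𝔅 x y ex) :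
    Cp 𝔅 x y ex := fun hx => h hx hx

theorem L.with_sz {x : α → X} {y : α → Y} (h : sz x ≼ 𝔅.V → L 𝔅 x y) : L 𝔅 x y :=
  Cp.with_sz h

theorem Cp.size_le {x : α → X} {y : α → Y} {ex : α → ℝ} (h : Cp 𝔅 x y ex) (hx : sz x ≼ 𝔅.V) :
    sz y ≼ 𝔅.V := (h hx).1

theorem L.size_le {x : α → X} {y : α → Y} (h : L 𝔅 x y) (hx : sz x ≼ 𝔅.V) : sz y ≼ 𝔅.V := (h hx).1

theorem Cp.mono {x : α → X} {y : α → Y} {ex ex' : α → ℝ} (h : Cp 𝔅 x y ex)
    (he : ∀ a, ex a ≤ ex' a) : Cp 𝔅 x y ex' := fun hx => by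
  obtain ⟨h1, c, hc, h2⟩ := h hx
  exact ⟨h1, c, hc, h2.mono fun a => by linarith [he a]⟩

/-- Absorb a part of the exact cost that is `O(F)`. -/
theorem Cp.absorb {x : α → X} {y : α → Y} {ex ex' u : α → ℝ} (h : Cp 𝔅 x y ex) (hu : u ≲ 𝔅.F)
    (he : ∀ a, ex a ≤ u a + ex' a) : Cp 𝔅 x y ex' := fun hx => by
  obtain ⟨h1, c, hc, h2⟩ := h hx
  obtain ⟨c', hc', h3⟩ := hu
  exact ⟨h1, c + c', add_nonneg hc hc', h2.mono fun a => by linarith [he a, h3 a]⟩

theorem Cp.toL {x : α → X} {y : α → Y} {ex : α → ℝ} (h : Cp 𝔅 x y ex) (hu : ex ≲ 𝔅.F) :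
    L 𝔅 x y := h.absorb hu fun _ => by simp

theorem L.toCp {x : α → X} {y : α → Y} {ex : α → ℝ} (h : L 𝔅 x y) (he : ∀ a, 0 ≤ ex a) :
    Cp 𝔅 x y ex := Cp.mono h he

theorem Cp.congr {x : α → X} {y y' : α → Y} {ex : α → ℝ} (h : Cp 𝔅 x y ex) (e : ∀ a, y a = y' a) :
    Cp 𝔅 x y' ex := funext e ▸ h

theorem L.congr {x : α → X} {y y' : α → Y} (h : L 𝔅 x y) (e : ∀ a, y a = y' a) : L 𝔅 x y' :=
  funext e ▸ h

/-- Same output codes. -/
theorem Cp.of_enc_eq {x : α → X} {y : α → Y} {z : α → Z} {ex : α → ℝ} (h : Cp 𝔅 x y ex)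
    (e : ∀ a, enc (z a) = enc (y a)) : Cp 𝔅 x z ex := fun hx => by
  obtain ⟨h1, c, hc, h2⟩ := h hx
  exact ⟨h1.mono_left fun a => le_of_eq (congrArg Tr.size (e a)), c, hc,
    h2.congr (fun _ => rfl) e⟩

theorem L.of_enc_eq {x : α → X} {y : α → Y} {z : α → Z} (h : L 𝔅 x y)
    (e : ∀ a, enc (z a) = enc (y a)) : L 𝔅 x z := Cp.of_enc_eq h e

/-- Enlarge the time budget. -/
theorem Cp.mono_F {𝔅' : Bud α} {x : α → X} {y : α → Y} {ex : α → ℝ} (h : Cp 𝔅' x y ex)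
    (ho : 𝔅'.o = 𝔅.o) (hV : 𝔅'.V ≼ 𝔅.V) (hx' : sz x ≼ 𝔅'.V) (hF : 𝔅'.F ≲ 𝔅.F) :
    Cp 𝔅 x y ex := Cp.intro fun _ => by
  obtain ⟨h1, c, hc, h2⟩ := h hx'
  exact ⟨h1.trans hV, _, _, ho ▸ h2, hF.const_mul c hc, fun _ => le_rfl⟩

theorem Cp.reindex {x : α → X} {y : α → Y} {ex : α → ℝ} (h : Cp 𝔅 x y ex) (hx : sz x ≼ 𝔅.V)
    (φ : β → α) : Cp (𝔅.comap φ) (fun b => x (φ b)) (fun b => y (φ b)) (fun b => ex (φ b)) :=
  fun _ => by
    obtain ⟨h1, c, hc, h2⟩ := h hx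
    exact ⟨h1.comp φ, c, hc, h2.reindex φ⟩

theorem L.reindex {x : α → X} {y : α → Y} (h : L 𝔅 x y) (hx : sz x ≼ 𝔅.V) (φ : β → α) :
    L (𝔅.comap φ) (fun b => x (φ b)) (fun b => y (φ b)) := Cp.reindex h hx φ

theorem L.ofTC {x : α → X} {y : α → Y} {t : α → ℕ}
    (h : TC (fun a => enc (x a)) (fun a => enc (y a)) t) (ht : sz x ≼ 𝔅.V → t ≼ 𝔅.V) :
    L 𝔅 x y := Cp.intro fun hx =>
  ⟨(hx.add (ht hx)).mono_left fun a => h.size_le a, _, _, RC.ofTC h _, Bud.toF (ht hx),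
    fun _ => by simp⟩

theorem L.refl (𝔅 : Bud α) (x : α → X) : L 𝔅 x x :=
  L.ofTC (TC.id _) fun hx => OLe.const (sz_one_le hx) 1

theorem Cp.comp {x : α → X} {y : α → Y} {z : α → Z} {ex ex' : α → ℝ} (h : Cp 𝔅 x y ex)
    (h' : Cp 𝔅 y z ex') : Cp 𝔅 x z fun a => ex a + ex' a := fun hx => by
  obtain ⟨h1, c, hc, h2⟩ := h hx
  obtain ⟨h3, c', hc', h4⟩ := h' h1
  exact ⟨h3, c + c', add_nonneg hc hc', (h2.comp h4).mono fun a => by ring_nf; rfl⟩

theorem L.cp {x : α → X} {y : α → Y} {z : α → Z} {ex : α → ℝ} (h : L 𝔅 x y) (h' : Cp 𝔅 y z ex) :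
    Cp 𝔅 x z ex := (Cp.comp h h').mono fun _ => by simp

theorem Cp.l {x : α → X} {y : α → Y} {z : α → Z} {ex : α → ℝ} (h : Cp 𝔅 x y ex) (h' : L 𝔅 y z) :
    Cp 𝔅 x z ex := (Cp.comp h h').mono fun _ => by simp

theorem L.comp {x : α → X} {y : α → Y} {z : α → Z} (h : L 𝔅 x y) (h' : L 𝔅 y z) : L 𝔅 x z :=
  h.cp h'

theorem Cp.pair {x : α → X} {y : α → Y} {z : α → Z} {ex ex' : α → ℝ} (h : Cp 𝔅 x y ex)
    (h' : Cp 𝔅 x z ex') : Cp 𝔅 x (fun a => (y a, z a)) fun a => ex a + ex' a :=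
  Cp.intro fun hx => by
    obtain ⟨h1, c, hc, h2⟩ := h hx
    obtain ⟨h3, c', hc', h4⟩ := h' hx
    refine ⟨sz_pair h1 h3, _, fun a => c * 𝔅.F a + c' * 𝔅.F a +
      ((100 * (esize (x a) + esize (y a) + esize (z a) + 1) : ℕ) : ℝ), h2.pair h4, ?_, fun a => ?_⟩
    · exact (((RLe.refl _).const_mul c hc).add ((RLe.refl _).const_mul c' hc')).add
        (Bud.toF ((((hx.add h1).add h3).add_const (sz_one_le hx) 1).const_mul 100))
    · simp only [esize]; push_cast; linarith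

@[fun_prop] theorem L.pair {x : α → X} {y : α → Y} {z : α → Z} (h : L 𝔅 x y) (h' : L 𝔅 x z) :
    L 𝔅 x fun a => (y a, z a) := (Cp.pair h h').mono fun _ => by simp

theorem Cp.pairL {x : α → X} {y : α → Y} {z : α → Z} {ex : α → ℝ} (h : Cp 𝔅 x y ex)
    (h' : L 𝔅 x z) : Cp 𝔅 x (fun a => (y a, z a)) ex := (Cp.pair h h').mono fun _ => by simp

theorem L.pairCp {x : α → X} {y : α → Y} {z : α → Z} {ex : α → ℝ} (h : L 𝔅 x y)
    (h' : Cp 𝔅 x z ex) : Cp 𝔅 x (fun a => (y a, z a)) ex := (Cp.pair h h').mono fun _ => by simp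

/-- The `let` rule. -/
theorem Cp.bind {x : α → X} {y : α → Y} {z : α → Z} {ex ex' : α → ℝ} (h : Cp 𝔅 x y ex)
    (h' : Cp 𝔅 (fun a => (x a, y a)) z ex') : Cp 𝔅 x z fun a => ex a + ex' a :=
  ((L.refl 𝔅 x).pairCp h).comp h'

@[fun_prop] theorem L.fst {x : α → X} {y : α → Y × Z} (h : L 𝔅 x y) : L 𝔅 x fun a => (y a).1 :=
  h.comp (L.ofTC (TC.fst (fun a => enc (y a).1) fun a => enc (y a).2) fun hy => hy.const_mul 7)

@[fun_prop] theorem L.snd {x : α → X} {y : α → Y × Z} (h : L 𝔅 x y) : L 𝔅 x fun a => (y a).2 :=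
  h.comp (L.ofTC (TC.snd (fun a => enc (y a).1) fun a => enc (y a).2) fun hy => hy.const_mul 7)

/-- The first component of the input. -/
theorem L.in1 (𝔅 : Bud α) (x : α → X) (y : α → Y) : L 𝔅 (fun a => (x a, y a)) x :=
  (L.refl 𝔅 _).fst

/-- The second component of the input. -/
theorem L.in2 (𝔅 : Bud α) (x : α → X) (y : α → Y) : L 𝔅 (fun a => (x a, y a)) y :=
  (L.refl 𝔅 _).snd

/-- Keep the parameter while transforming the data. -/
theorem Cp.keep {p : α → X} {D : α → Y} {D' : α → Z} {ex : α → ℝ}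
    (h : Cp 𝔅 (fun a => (p a, D a)) D' ex) :
    Cp 𝔅 (fun a => (p a, D a)) (fun a => (p a, D' a)) ex := (L.in1 𝔅 p D).pairCp h

/-- Chain two parametrised steps. -/
theorem Cp.chain {p : α → X} {D : α → Y} {D' : α → Z} {D'' : α → W} {ex ex' : α → ℝ}
    (h : Cp 𝔅 (fun a => (p a, D a)) D' ex) (h' : Cp 𝔅 (fun a => (p a, D' a)) D'' ex') :
    Cp 𝔅 (fun a => (p a, D a)) D'' fun a => ex a + ex' a := h.keep.comp h'

theorem L.const_tr (𝔅 : Bud α) (x : α → X) (c : Tr) : L 𝔅 x fun _ => c := by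
  induction c with
  | nil =>
    exact L.ofTC (TC.nil _) fun hx => (hx.const_mul 2).add_const (sz_one_le hx) 2
  | cons s t ihs iht => exact (ihs.pair iht).of_enc_eq fun _ => rfl

@[fun_prop] theorem L.const {x : α → X} (c : Y) : L 𝔅 x fun _ => c :=
  (L.const_tr 𝔅 x (enc c)).of_enc_eq fun _ => rfl

theorem LT.l {f : Y → Z} (hf : LT f) {x : α → X} {g : α → Y} (h : L 𝔅 x g) :
    L 𝔅 x fun a => f (g a) := hf _ _ _ _ _ h

theorem LT.cp {f : Y → Z} (hf : LT f) {x : α → X} {g : α → Y} {ex : α → ℝ} (h : Cp 𝔅 x g ex) :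
    Cp 𝔅 x (fun a => f (g a)) ex := h.l (hf.l (L.refl _ _))

theorem LT.comp {f : Y → Z} {g : X → Y} (hf : LT f) (hg : LT g) : LT fun b => f (g b) :=
  fun _ _ _ _ _ _ h => hf.l (hg.l h)

/-- Branch on a Boolean; each branch only has to work on its part of the family. -/
theorem Cp.cond_sub {x : α → X} {y : α → Y} {ex : α → ℝ} (c : α → Bool) (hc : L 𝔅 x c)
    (h1 : Cp (𝔅.comap (Subtype.val : {a // c a = true} → α)) (fun a => x a.1) (fun a => y a.1)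
      fun a => ex a.1)
    (h2 : Cp (𝔅.comap (Subtype.val : {a // c a = false} → α)) (fun a => x a.1) (fun a => y a.1)
      fun a => ex a.1) : Cp 𝔅 x y ex := Cp.with_sz fun hx => by
  refine (hc.pair (L.refl 𝔅 x)).cp (Cp.intro fun _ => ?_)
  obtain ⟨⟨k1, s1⟩, c1, hc1, r1⟩ := h1 (hx.comp _)
  obtain ⟨⟨k2, s2⟩, c2, hc2, r2⟩ := h2 (hx.comp _)
  have hF := Bud.one_le_F hx
  refine ⟨⟨k1 + k2, fun a => ?_⟩, _, fun a => (c1 + c2) * 𝔅.F a + 7,
    RC.cond (t := fun a => (c1 + c2) * 𝔅.F a + ex a) c (r1.mono fun a => ?_) (r2.mono fun a => ?_),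
    ((RLe.refl _).const_mul _ (add_nonneg hc1 hc2)).add (RLe.const hF 7), fun a => by linarith⟩
  · cases hca : c a
    · have := s2 ⟨a, hca⟩
      simp only [add_mul, sz] at this ⊢; omega
    · have := s1 ⟨a, hca⟩
      simp only [add_mul, sz] at this ⊢; omega
  · have := hF a.1
    nlinarith
  · have := hF a.1
    nlinarith

/-- Case distinction on a decidable predicate. -/
theorem Cp.cases {x : α → X} {y : α → Y} {ex : α → ℝ} (c : α → Prop) [∀ a, Decidable (c a)]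
    (hc : L 𝔅 x fun a => decide (c a))
    (h1 : Cp (𝔅.comap (Subtype.val : {a // c a} → α)) (fun a => x a.1) (fun a => y a.1)
      fun a => ex a.1)
    (h2 : Cp (𝔅.comap (Subtype.val : {a // ¬ c a} → α)) (fun a => x a.1) (fun a => y a.1)
      fun a => ex a.1) : Cp 𝔅 x y ex := Cp.with_sz fun hx =>
  Cp.cond_sub _ hc
    (h1.reindex (hx.comp _) fun a : {a // decide (c a) = true} => ⟨a.1, by simpa using a.2⟩)
    (h2.reindex (hx.comp _) fun a : {a // decide (c a) = false} => ⟨a.1, by simpa using a.2⟩)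

@[fun_prop] theorem L.cond {x : α → X} {c : α → Bool} {y z : α → Y} (hc : L 𝔅 x c) (hy : L 𝔅 x y)
    (hz : L 𝔅 x z) : L 𝔅 x fun a => cond (c a) (y a) (z a) := L.with_sz fun hx =>
  Cp.cond_sub c hc ((hy.reindex hx _).congr fun a => by simp [a.2])
    ((hz.reindex hx _).congr fun a => by simp [a.2])

theorem L.ite' {x : α → X} {c : α → Prop} [∀ a, Decidable (c a)] {y z : α → Y}
    (hc : L 𝔅 x fun a => decide (c a)) (hy : L 𝔅 x y) (hz : L 𝔅 x z) :
    L 𝔅 x fun a => if c a then y a else z a :=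
  (hc.cond hy hz).congr fun a => by by_cases h : c a <;> simp [h]

/-- Case distinction on a value from a fixed finite list. -/
theorem Cp.finCases [DecidableEq Z] {x : α → X} {y : α → Y} {ex : α → ℝ} (c : α → Z)
    (vals : List Z) (hv : ∀ a, c a ∈ vals) (hc : ∀ v, L 𝔅 x fun a => decide (c a = v))
    (h : ∀ v ∈ vals, Cp (𝔅.comap (Subtype.val : {a // c a = v} → α)) (fun a => x a.1)
      (fun a => y a.1) fun a => ex a.1) : Cp 𝔅 x y ex := by
  induction vals generalizing α with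
  | nil =>
    intro _
    refine ⟨⟨0, fun a => by simpa using hv a⟩, 0, le_rfl, .skip, 0, fun a => by simpa using hv a⟩
  | cons v vals ih =>
    refine Cp.with_sz fun hx => Cp.cases (fun a => c a = v) (hc v) (h v (by simp)) ?_
    refine ih (fun a => c a.1) (fun a => (List.mem_cons.mp (hv a.1)).resolve_left a.2)
      (fun w => (hc w).reindex hx _) fun w hw => ?_
    exact (h w (by simp [hw])).reindex (hx.comp _)
      fun a : {a : {a // ¬ c a = v} // c a.1 = w} => ⟨a.1.1, a.2⟩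

/-! ### Calls, closed algorithms, recursion -/

theorem Cp.call {x : α → X} {y : α → Y} {T : α → ℝ}
    (h : ∀ a, Handles (𝔅.o a) (enc (x a)) (enc (y a)) (T a)) (hy : sz y ≼ 𝔅.V) : Cp 𝔅 x y T :=
  Cp.intro fun hx => ⟨hy, _, fun _ => 2, RC.call h, RLe.const (Bud.one_le_F hx) 2,
    fun _ => by linarith⟩

theorem Alg.cp {x : β → X} {y : β → Y} {T : β → ℝ} (h : Alg x y T) (𝔅 : Bud α) (φ : α → β)
    (hy : sz (fun a => y (φ a)) ≼ 𝔅.V) :
    Cp 𝔅 (fun a => x (φ a)) (fun a => y (φ a)) fun a => T (φ a) :=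
  Cp.intro fun hx => ⟨hy, _, fun _ => 2, RC.alg (AlgT.reindex h φ) _,
    RLe.const (Bud.one_le_F hx) 2, fun _ => by linarith⟩

theorem Alg.l {x : β → X} {y : β → Y} {T : β → ℝ} (h : Alg x y T) (𝔅 : Bud α) (φ : α → β)
    (hy : sz (fun a => y (φ a)) ≼ 𝔅.V) (hT : (fun a => T (φ a)) ≲ 𝔅.F) :
    L 𝔅 (fun a => x (φ a)) fun a => y (φ a) := (h.cp 𝔅 φ hy).toL hT

theorem Alg.mono {x : α → X} {y : α → Y} {T T' : α → ℝ} (h : Alg x y T) (hT : ∀ a, T a ≤ T' a) :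
    Alg x y T' := AlgT.mono h hT

/-- The index type of a recursive body.  Time bounds only depend on the class `cl a` of a task. -/
structure RecIdx {α X Y κ : Type} [Enc X] [Enc Y] (x : α → X) (Post : α → Y → Prop) (μ : α → ℕ)
    (cl : α → κ) where
  /-- the time bound assumed for smaller tasks -/
  T : κ → ℝ
  /-- the time bound is nonnegative -/
  hT : ∀ c, 0 ≤ T c
  /-- the current task -/
  a : α
  /-- the environment -/
  env : RProg
  /-- smaller tasks are handled -/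
  h : ∀ a', μ a' < μ a → ∃ y, Post a' y ∧ Handles env (enc (x a')) (enc y) (T (cl a'))

/-- The budget of a recursive body. -/
@[reducible] def recBud {κ : Type} {x : α → X} {Post : α → Y → Prop} {μ : α → ℕ} {cl : α → κ}
    (V : α → ℕ) (F : α → ℝ) (hVF : ∀ a, (V a : ℝ) ≤ F a) : Bud (RecIdx x Post μ cl) :=
  ⟨fun p => p.env, fun p => V p.a, fun p => F p.a, fun p => hVF p.a⟩

/-- The recursion theorem: a body that costs `O(F) + E T` given bounds `T` for the smaller tasks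
yields an algorithm for every `T ≥ 0` satisfying the recurrence. -/
theorem Alg.fix {κ : Type} (x : α → X) (Post : α → Y → Prop) (μ : α → ℕ) (cl : α → κ) (V : α → ℕ)
    (F : α → ℝ) (hVF : ∀ a, (V a : ℝ) ≤ F a) (hx : sz x ≼ V) (E : (κ → ℝ) → α → ℝ)
    (y : RecIdx x Post μ cl → Y) (hy : ∀ p, Post p.a (y p))
    (body : Cp (recBud V F hVF) (fun p => x p.a) y fun p => E p.T p.a) :
    ∃ c : ℝ, 0 ≤ c ∧ ∀ T : κ → ℝ, (∀ k, 0 ≤ T k) → (∀ a, c * F a + E T a ≤ T (cl a)) →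
      ∃ y' : α → Y, (∀ a, Post a (y' a)) ∧ Alg x y' fun a => T (cl a) := by
  obtain ⟨-, c, hc, P, n, h⟩ := body (hx.comp _)
  refine ⟨c, hc, fun T hT0 hT => ?_⟩
  have key : ∀ a, ∃ z, Post a z ∧ Handles P (enc (x a)) (enc z) (T (cl a)) := by
    intro a
    induction hm : μ a using Nat.strong_induction_on generalizing a with
    | _ m ih =>
      let p : RecIdx x Post μ cl := ⟨T, hT0, a, P, fun a' ha' => ih (μ a') (hm ▸ ha') a' rfl⟩
      obtain ⟨τ, h1, h2⟩ := h p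
      exact ⟨y p, hy p, τ, h1.trans (hT a), h2.toSingle⟩
  choose y' h1 h2 using key
  exact ⟨y', h1, P, h2⟩

/-- Inside a recursive body: call the environment on a family of smaller tasks. -/
theorem RecIdx.call {κ γ : Type} {x : β → X} {Post : β → Y → Prop} {μ : β → ℕ} {cl : β → κ}
    (𝔅 : Bud γ) (φ : γ → RecIdx x Post μ cl) (ho : ∀ c, 𝔅.o c = (φ c).env) (t : γ → β)
    (ht : ∀ c, μ (t c) < μ (φ c).a)
    (hy : ∀ y : γ → Y, (∀ c, Post (t c) (y c)) → sz y ≼ 𝔅.V) :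
    ∃ y : γ → Y, (∀ c, Post (t c) (y c)) ∧
      Cp 𝔅 (fun c => x (t c)) y fun c => (φ c).T (cl (t c)) := by
  choose y h1 h2 using fun c => (φ c).h (t c) (ht c)
  exact ⟨y, h1, Cp.call (fun c => ho c ▸ h2 c) (hy y h1)⟩

/-- A computation within a budget, in every environment, is a closed algorithm. -/
theorem Alg.ofL (x : α → X) (y : α → Y) (V : α → ℕ) (F : α → ℝ) (hVF : ∀ a, (V a : ℝ) ≤ F a)
    (hx : sz x ≼ V)
    (h : L (⟨fun p => p.1, fun p => V p.2, fun p => F p.2, fun p => hVF p.2⟩ : Bud (RProg × α))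
      (fun p => x p.2) fun p => y p.2) : ∃ c : ℝ, 0 ≤ c ∧ Alg x y fun a => c * F a := by
  obtain ⟨-, c, hc, h⟩ := h (hx.comp _)
  exact ⟨c, hc, AlgT.ofRC (h.mono fun _ => by simp)⟩

/-! ### Smallness and polynomial time -/

theorem SmIn.mono {g g' : α → ℕ} {p : α → X} (h : SmIn g p) (hg : g ≼ g') : SmIn g' p :=
  fun k => (h k).trans hg

theorem SmIn.comp {g : α → ℕ} {p : α → X} (h : SmIn g p) (φ : β → α) :
    SmIn (fun b => g (φ b)) fun b => p (φ b) := fun k => (h k).comp φ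

theorem SmIn.one_le {g : α → ℕ} {p : α → X} (h : SmIn g p) (a : α) : 1 ≤ g a :=
  (h 0).pos a (by simp)

theorem SmIn.size_le {g : α → ℕ} {p : α → X} (h : SmIn g p) : sz p ≼ g :=
  (h 1).mono_left fun _ => by simp

/-- Smallness only depends on a polynomial bound on the size. -/
theorem SmIn.of_poly {g : α → ℕ} {p : α → X} {q : α → Y} (h : SmIn g p) (k : ℕ)
    (hk : ∀ a, esize (q a) ≤ (esize (p a) + 1) ^ k) : SmIn g q := fun j =>
  (h ((k + 1) * j)).mono_left fun a => by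
    rw [pow_mul]
    refine Nat.pow_le_pow_left ?_ j
    have := hk a
    have h1 := esize_pos (p a)
    have h2 : 0 < (esize (p a) + 1) ^ k := by positivity
    rw [pow_succ]; nlinarith

theorem SmIn.of_le {g : α → ℕ} {p : α → X} {q : α → Y} (h : SmIn g p)
    (hk : ∀ a, esize (q a) ≤ esize (p a)) : SmIn g q :=
  h.of_poly 1 fun a => by have := hk a; simp; omega

theorem SmIn.pb {g : α → ℕ} {p : α → X} (h : SmIn g p) {t : X → ℕ} (ht : PB t) :
    (fun a => t (p a)) ≼ g := by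
  obtain ⟨k, ht⟩ := ht
  exact (h k).mono_left fun a => ht _

theorem SmIn.pt {g : α → ℕ} {p : α → X} (h : SmIn g p) {f : X → Y} (hf : PT f) :
    SmIn g fun a => f (p a) := by
  obtain ⟨k, hk⟩ := PB.esize hf
  exact h.of_poly k fun a => hk _

theorem SmIn.pair {g : α → ℕ} {p : α → X} {q : α → Y} (h : SmIn g p) (h' : SmIn g q) :
    SmIn g fun a => (p a, q a) := fun k =>
  (((h k).add (h' k)).const_mul (2 ^ k)).mono_left fun a => by
    rw [esize_pair]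
    rcases le_total (esize (p a)) (esize (q a)) with hh | hh
    · calc _ ≤ (2 * (esize (q a) + 1)) ^ k := Nat.pow_le_pow_left (by omega) k
        _ ≤ _ := by rw [mul_pow]; exact Nat.mul_le_mul_left _ (Nat.le_add_left _ _)
    · calc _ ≤ (2 * (esize (p a) + 1)) ^ k := Nat.pow_le_pow_left (by omega) k
        _ ≤ _ := by rw [mul_pow]; exact Nat.mul_le_mul_left _ (Nat.le_add_right _ _)

theorem SmIn.const {g : α → ℕ} (h : ∀ a, 1 ≤ g a) (c : X) : SmIn g fun _ => c :=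
  fun _ => OLe.const h _

/-- A smaller number is small. -/
theorem SmIn.nat_le {g m n : α → ℕ} (h : SmIn g n) (hmn : ∀ a, m a ≤ n a) : SmIn g m :=
  h.of_le fun a => esize_nat_mono (hmn a)

theorem pow_size_le (k : ℕ) : ∃ c : ℕ, ∀ n : ℕ, 1 ≤ n → (6 * n.size + 2) ^ k ≤ c * n := by
  refine ⟨2 * 14 ^ k * k.factorial * 2 ^ k, fun n hn => ?_⟩
  have h1 : 2 ^ (n.size - 1) ≤ n := by
    have := Nat.size_pos.mpr hn
    exact Nat.lt_size.mp (by omega)
  generalize hs : n.size - 1 = s at h1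
  have h2 : 6 * n.size + 2 ≤ 14 * (s + 1) := by omega
  have h3 : (s + 1) ^ k ≤ k.factorial * 2 ^ (s + k) := by
    have e1 := Nat.pow_succ_le_ascFactorial (s + 1) k
    rw [Nat.ascFactorial_eq_factorial_mul_choose] at e1
    exact e1.trans (Nat.mul_le_mul_left _ (Nat.choose_le_two_pow _ _))
  calc (6 * n.size + 2) ^ k ≤ (14 * (s + 1)) ^ k := Nat.pow_le_pow_left h2 k
    _ = 14 ^ k * (s + 1) ^ k := mul_pow _ _ _
    _ ≤ 14 ^ k * (k.factorial * 2 ^ (s + k)) := Nat.mul_le_mul_left _ h3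
    _ = (14 ^ k * k.factorial * 2 ^ k) * 2 ^ s := by ring
    _ ≤ (14 ^ k * k.factorial * 2 ^ k) * n := Nat.mul_le_mul_left _ h1
    _ ≤ _ := by gcongr; nlinarith [Nat.zero_le (14 ^ k)]

/-- A positive number is small relative to itself. -/
theorem SmIn.self {g : α → ℕ} (h : ∀ a, 1 ≤ g a) : SmIn g g := fun k => by
  obtain ⟨c, hc⟩ := pow_size_le k
  exact ⟨c, fun a => by dsimp only; rw [esize_nat]; exact hc _ (h a)⟩

/-- A number `O(g)` is small relative to `g`. -/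
theorem SmIn.of_ole {g n : α → ℕ} (h : ∀ a, 1 ≤ g a) (hn : n ≼ g) : SmIn g n := by
  obtain ⟨c, hc⟩ := hn
  exact (((SmIn.const h c).pair (SmIn.self h)).pt
    (f := fun q : ℕ × ℕ => q.1 * q.2) (by fun_prop)).nat_le hc

/-- A number whose length is polynomial in the length of `g` is small relative to `g`. -/
theorem SmIn.of_size {g n : α → ℕ} (h : ∀ a, 1 ≤ g a) (k : ℕ)
    (hn : ∀ a, (n a).size ≤ ((g a).size + 1) ^ k) : SmIn g n :=
  (SmIn.self h).of_poly (k + 3) fun a => by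
    have h1 := hn a
    have h2 : ((g a).size + 1) ^ k ≤ (esize (g a) + 1) ^ k :=
      Nat.pow_le_pow_left (by have := size_lt_esize (g a); omega) k
    have h3 : 1 ≤ (g a).size := Nat.size_pos.mpr (h a)
    have h4 : 7 ≤ esize (g a) := by rw [esize_nat]; omega
    have h5 : 1 ≤ (esize (g a) + 1) ^ k := Nat.one_le_pow _ _ (by omega)
    have h6 : 8 ^ 3 ≤ (esize (g a) + 1) ^ 3 := Nat.pow_le_pow_left (by omega) 3
    rw [esize_nat, pow_add]; nlinarith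

theorem L.pt {x : α → X} {p : α → Y} {f : Y → Z} (h : L 𝔅 x p) (hs : SmIn 𝔅.V p) (hf : PT f) :
    L 𝔅 x fun a => f (p a) := by
  obtain ⟨t, ht, hf⟩ := hf
  exact h.comp (L.ofTC (hf.reindex p) fun _ => hs.pb ht)

theorem S.l {x : α → X} {p : α → Y} (h : S 𝔅 x p) : L 𝔅 x p := h.1
theorem S.sm {x : α → X} {p : α → Y} (h : S 𝔅 x p) : SmIn 𝔅.V p := h.2

theorem S.pt {x : α → X} {p : α → Y} (h : S 𝔅 x p) {f : Y → Z} (hf : PT f) :
    S 𝔅 x fun a => f (p a) := ⟨h.1.pt h.2 hf, h.2.pt hf⟩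

@[fun_prop] theorem S.pair {x : α → X} {p : α → Y} {q : α → Z} (h : S 𝔅 x p) (h' : S 𝔅 x q) :
    S 𝔅 x fun a => (p a, q a) := ⟨h.1.pair h'.1, h.2.pair h'.2⟩

theorem S.congr {x : α → X} {p q : α → Y} (h : S 𝔅 x p) (e : ∀ a, p a = q a) : S 𝔅 x q :=
  funext e ▸ h

theorem S.reindex {x : α → X} {p : α → Y} (h : S 𝔅 x p) (hx : sz x ≼ 𝔅.V) (φ : β → α) :
    S (𝔅.comap φ) (fun b => x (φ b)) fun b => p (φ b) := ⟨h.1.reindex hx φ, h.2.comp φ⟩

theorem S.of_l {x : α → X} {y : α → Y} {p : α → Z} (h : L 𝔅 x y) (h' : S 𝔅 y p) : S 𝔅 x p :=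
  ⟨h.comp h'.1, h'.2⟩

/-- A constant, given any small value. -/
theorem S.const {x : α → X} {p : α → Y} (h : S 𝔅 x p) (c : Z) : S 𝔅 x fun _ => c :=
  h.pt (PT.const c)

theorem S.pt2 {x : α → X} {p : α → Y} {q : α → Z} (h : S 𝔅 x p) (h' : S 𝔅 x q) {f : Y → Z → W}
    (hf : PT fun r : Y × Z => f r.1 r.2) : S 𝔅 x fun a => f (p a) (q a) := (h.pair h').pt hf

@[fun_prop] theorem S.fst {x : α → X} {p : α → Y × Z} (h : S 𝔅 x p) : S 𝔅 x fun a => (p a).1 :=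
  h.pt PT.fst'
@[fun_prop] theorem S.snd {x : α → X} {p : α → Y × Z} (h : S 𝔅 x p) : S 𝔅 x fun a => (p a).2 :=
  h.pt PT.snd'

section nat
variable {x : α → X} {m n : α → ℕ}
@[fun_prop] theorem S.add (h : S 𝔅 x m) (h' : S 𝔅 x n) : S 𝔅 x fun a => m a + n a :=
  h.pt2 h' (by fun_prop)
@[fun_prop] theorem S.mul (h : S 𝔅 x m) (h' : S 𝔅 x n) : S 𝔅 x fun a => m a * n a :=
  h.pt2 h' (by fun_prop)
@[fun_prop] theorem S.sub (h : S 𝔅 x m) (h' : S 𝔅 x n) : S 𝔅 x fun a => m a - n a :=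
  h.pt2 h' (by fun_prop)
@[fun_prop] theorem S.div (h : S 𝔅 x m) (h' : S 𝔅 x n) : S 𝔅 x fun a => m a / n a :=
  h.pt2 h' (by fun_prop)
@[fun_prop] theorem S.mod (h : S 𝔅 x m) (h' : S 𝔅 x n) : S 𝔅 x fun a => m a % n a :=
  h.pt2 h' (by fun_prop)
theorem S.pow_const (h : S 𝔅 x m) (k : ℕ) : S 𝔅 x fun a => m a ^ k :=
  h.pt (f := fun u => u ^ k) (by fun_prop)
theorem S.lt (h : S 𝔅 x m) (h' : S 𝔅 x n) : S 𝔅 x fun a => decide (m a < n a) :=
  h.pt2 h' (f := fun u v => decide (u < v)) (by fun_prop)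
theorem S.le (h : S 𝔅 x m) (h' : S 𝔅 x n) : S 𝔅 x fun a => decide (m a ≤ n a) :=
  h.pt2 h' (f := fun u v => decide (u ≤ v)) (by fun_prop)
theorem S.eq (h : S 𝔅 x m) (h' : S 𝔅 x n) : S 𝔅 x fun a => decide (m a = n a) :=
  h.pt2 h' (f := fun u v => decide (u = v)) (by fun_prop)
end nat

/-- A function on a finite type is linear-time. -/
theorem LT.of_finite [Finite Y] (f : Y → Z) : LT f := fun _ _ _ 𝔅 x g h => L.with_sz fun hx => by
  refine h.pt (fun k => ?_) (PT.of_finite f)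
  obtain ⟨M, hM⟩ := (Set.finite_range fun y : Y => (esize y + 1) ^ k).bddAbove
  exact (OLe.const (sz_one_le hx) M).mono_left fun a => hM ⟨g a, rfl⟩

theorem L.finite [Finite Y] {x : α → X} {g : α → Y} (h : L 𝔅 x g) (f : Y → Z) :
    L 𝔅 x fun a => f (g a) := (LT.of_finite f).l h

end calculus

end Crest.Agent.R326
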