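/-
R326/Lin: loops and linear-time list operations in the cost calculus.  Author: helper92.
-/
import Crest.Agent.R326.Cp

set_option autoImplicit false
set_option linter.unusedSimpArgs false
set_option linter.unusedSectionVars false

namespace Crest.Agent.R326

open Function Crest.Agent.Lib.PolyTime

variable {α β X Y Z W P σ : Type} [Enc X] [Enc Y] [Enc Z] [Enc W] [Enc P] [Enc σ] {𝔅 : Bud α}

theorem enc_list (l : List Y) : enc l = Tr.ofList (l.map enc) := rfl

theorem sum_map_range {M : Type} [AddCommMonoid M] (n : ℕ) (f : ℕ → M) :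
    ((List.range n).map f).sum = ∑ i ∈ Finset.range n, f i := by
  induction n with
  | zero => simp
  | succ n ih => simp [List.range_succ, Finset.sum_range_succ, ih]

theorem esize_map_range (n : ℕ) (c : ℕ → Y) :
    esize ((List.range n).map c) = (∑ i ∈ Finset.range n, (esize (c i) + 1)) + 1 := by
  rw [esize_list, List.map_map, sum_map_range]
  rfl

/-- Replace the input by an equal one. -/
theorem Cp.of_in {x x' : α → X} {y : α → Y} {ex : α → ℝ} (h : Cp 𝔅 x y ex) (e : ∀ a, x a = x' a) :
    Cp 𝔅 x' y ex := funext e ▸ h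

/-! ### Loops -/

/-- The accumulating map: the body maps (state `i`, item `i`) to (state `i + 1`, result `i`). -/
theorem Cp.mapAccum (n : α → ℕ) (s : α → ℕ → σ) (b : α → ℕ → Y) (c : α → ℕ → Z)
    (V' : α → ℕ → ℕ) (F' ex' : α → ℕ → ℝ) (hVF : ∀ a i, (V' a i : ℝ) ≤ F' a i)
    (hin : sz (fun q : (a : α) × Fin (n a) => (s q.1 q.2, b q.1 q.2)) ≼ fun q => V' q.1 q.2)
    (body : Cp (𝔅.sub (fun q : (a : α) × Fin (n a) => q.1) (fun q => V' q.1 q.2)
      (fun q => F' q.1 q.2) fun q => hVF q.1 q.2) (fun q => (s q.1 q.2, b q.1 q.2))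
      (fun q => (s q.1 (q.2 + 1), c q.1 q.2)) fun q => ex' q.1 q.2)
    (hF : (fun a => ∑ i ∈ Finset.range (n a), F' a i) ≲ 𝔅.F)
    (hout : sz (fun a => (s a 0, (List.range (n a)).map (b a))) ≼ 𝔅.V →
      sz (fun a => (s a (n a), (List.range (n a)).map (c a))) ≼ 𝔅.V) :
    Cp 𝔅 (fun a => (s a 0, (List.range (n a)).map (b a)))
      (fun a => (s a (n a), (List.range (n a)).map (c a)))
      fun a => ∑ i ∈ Finset.range (n a), ex' a i := Cp.intro fun hx => by
  obtain ⟨h1, k, hk, h2⟩ := body hin
  have h3 := RC.mapAccum n (fun a i => enc (s a i)) (fun a i => enc (b a i))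
    (fun a i => enc (c a i)) (fun a i => k * F' a i + ex' a i) h2
  have hy := hout hx
  refine ⟨hy, _, fun a => (∑ i ∈ Finset.range (n a), (k * F' a i +
    ((14 * esize (s a i, b a i) + 7 * esize (s a (i + 1), c a i) : ℕ) : ℝ))) +
    ((15 * esize (s a 0, (List.range (n a)).map (b a)) +
      4 * esize (s a (n a), (List.range (n a)).map (c a)) : ℕ) : ℝ),
    h3.congr (fun a => congrArg (Tr.cons _) (by rw [enc_list, List.map_map]; rfl))
      (fun a => congrArg (Tr.cons _) (by rw [enc_list, List.map_map]; rfl)), ?_, fun a => ?_⟩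
  · refine RLe.add (RLe.trans (RLe.sum ?_) hF) (Bud.toF ((hx.const_mul 15).add (hy.const_mul 4)))
    exact ((RLe.refl _).const_mul k hk).add
      (((hin.const_mul 14).add (h1.const_mul 7)).toR.mono_right fun q => hVF q.1 q.2)
  · have e1 : (Tr.ofList ((List.range (n a)).map fun i => enc (b a i))).size =
        esize ((List.range (n a)).map (b a)) := by
      simp [esize, enc_list, List.map_map, Function.comp_def]
    have e2 : (Tr.ofList ((List.range (n a)).map fun i => enc (c a i))).size =
        esize ((List.range (n a)).map (c a)) := by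
      simp [esize, enc_list, List.map_map, Function.comp_def]
    rw [e1, e2]
    dsimp only
    have e3 : ∑ i ∈ Finset.range (n a), (k * F' a i + ex' a i + 4 * ((enc (s a i)).size : ℝ) +
        7 * (enc (b a i)).size + 7 * (enc (s a (i + 1))).size + 2 * (enc (c a i)).size + 14) ≤
        ∑ i ∈ Finset.range (n a), (k * F' a i +
          ((14 * esize (s a i, b a i) + 7 * esize (s a (i + 1), c a i) : ℕ) : ℝ) + ex' a i) := by
      refine Finset.sum_le_sum fun i _ => ?_
      simp only [esize_pair]
      simp only [esize]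
      push_cast
      have := (Nat.cast_nonneg (enc (s a i)).size : (0 : ℝ) ≤ _)
      have := (Nat.cast_nonneg (enc (b a i)).size : (0 : ℝ) ≤ _)
      have := (Nat.cast_nonneg (enc (c a i)).size : (0 : ℝ) ≤ _)
      linarith
    simp only [esize_pair]
    have := (Nat.cast_nonneg (esize (s a 0)) : (0 : ℝ) ≤ _)
    have := (Nat.cast_nonneg (esize ((List.range (n a)).map (b a))) : (0 : ℝ) ≤ _)
    have := (Nat.cast_nonneg (esize ((List.range (n a)).map (c a))) : (0 : ℝ) ≤ _)
    have e4 : ((enc (s a 0)).size : ℝ) = esize (s a 0) := rfl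
    have e5 : ((enc (s a (n a))).size : ℝ) = esize (s a (n a)) := rfl
    rw [e4, e5]
    have := esize_pos (s a 0)
    have : (1 : ℝ) ≤ esize (s a 0) := by exact_mod_cast this
    simp only [esize_pair] at e3
    rw [Finset.sum_add_distrib (g := fun i => ex' a i)] at e3
    push_cast at e3 ⊢
    linarith

/-- Index type of one round of a loop with invariant. -/
structure LoopIdx {α σ : Type} (n : α → ℕ) (Inv : α → ℕ → σ → Prop) where
  /-- the outer index -/
  a : α
  /-- the round -/
  i : ℕ
  /-- the state -/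
  s : σ
  /-- the round is executed -/
  hi : i < n a
  /-- the invariant -/
  hs : Inv a i s

/-- A loop over a list of instructions, with an invariant; every round has size budget `V` and
time budget `F' a i`. -/
theorem Cp.loopInv (n : α → ℕ) (ins : α → ℕ → Y) (Inv : α → ℕ → σ → Prop) (s0 : α → σ)
    (h0 : ∀ a, Inv a 0 (s0 a)) (F' ex' : α → ℕ → ℝ) (hVF : ∀ a i, (𝔅.V a : ℝ) ≤ F' a i)
    (nxt : LoopIdx n Inv → σ) (hn : ∀ q, Inv q.a (q.i + 1) (nxt q))
    (hin : sz (fun q : LoopIdx n Inv => (q.s, ins q.a q.i)) ≼ fun q => 𝔅.V q.a)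
    (body : Cp (𝔅.sub (fun q : LoopIdx n Inv => q.a) (fun q => 𝔅.V q.a) (fun q => F' q.a q.i)
      fun q => hVF q.a q.i) (fun q => (q.s, ins q.a q.i)) nxt fun q => ex' q.a q.i)
    (hF : (fun a => ∑ i ∈ Finset.range (n a), F' a i) ≲ 𝔅.F) :
    ∃ s' : α → σ, (∀ a, Inv a (n a) (s' a)) ∧
      Cp 𝔅 (fun a => (s0 a, (List.range (n a)).map (ins a))) s'
        fun a => ∑ i ∈ Finset.range (n a), ex' a i := by
  classical
  let s : α → ℕ → σ := fun a i => Nat.rec (s0 a) (fun i t =>
    if h : i < n a ∧ Inv a i t then nxt ⟨a, i, t, h.1, h.2⟩ else t) i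
  have hs : ∀ a i, i ≤ n a → Inv a i (s a i) := by
    intro a i
    induction i with
    | zero => exact fun _ => h0 a
    | succ i ih =>
      intro hi
      have h : i < n a ∧ Inv a i (s a i) := ⟨hi, ih (by omega)⟩
      show Inv a (i + 1) (if h : i < n a ∧ Inv a i (s a i) then _ else _)
      rw [dif_pos h]
      exact hn ⟨a, i, s a i, h.1, h.2⟩
  let ψ : ((a : α) × Fin (n a)) → LoopIdx n Inv := fun q =>
    ⟨q.1, q.2, s q.1 q.2, q.2.2, hs _ _ q.2.2.le⟩
  have hψ : ∀ q, nxt (ψ q) = s q.1 (q.2 + 1) := fun q => by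
    have h : q.2.1 < n q.1 ∧ Inv q.1 q.2 (s q.1 q.2) := ⟨q.2.2, hs _ _ q.2.2.le⟩
    show _ = if h : q.2.1 < n q.1 ∧ Inv q.1 q.2 (s q.1 q.2) then _ else _
    rw [dif_pos h]
  refine ⟨fun a => s a (n a), fun a => hs a _ le_rfl, ?_⟩
  have hb := (body.reindex hin ψ).congr hψ
  refine (Cp.mapAccum n s ins (fun _ _ => ()) (fun a _ => 𝔅.V a) F' ex' hVF (hin.comp ψ)
    (hb.pairL (L.const ())) hF fun hx => sz_pair ?_ ?_).l (L.refl _ _).fst
  · obtain ⟨c1, h1⟩ := sz_fst hx
    obtain ⟨c2, h2⟩ := hb.size_le (hin.comp ψ)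
    refine ⟨c1 + c2, fun a => ?_⟩
    rw [add_mul]
    rcases Nat.eq_zero_or_pos (n a) with h | h
    · have := h1 a
      simp only [sz, h] at this ⊢; omega
    · have := h2 ⟨a, ⟨n a - 1, by omega⟩⟩
      simp only [sz, Nat.sub_add_cancel h] at this ⊢
      exact this.trans (Nat.le_add_left _ _)
  · refine (sz_snd hx).mono_left fun a => ?_
    simp only [sz, esize_map_range]
    gcongr with i
    exact esize_pos _

/-- Map over a tabulated list, with a parameter. -/
theorem Cp.mapRange (n : α → ℕ) (p : α → P) (b : α → ℕ → Y) (c : α → ℕ → Z)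
    (V' : α → ℕ → ℕ) (F' ex' : α → ℕ → ℝ) (hVF : ∀ a i, (V' a i : ℝ) ≤ F' a i)
    (hin : sz (fun q : (a : α) × Fin (n a) => (p q.1, b q.1 q.2)) ≼ fun q => V' q.1 q.2)
    (body : Cp (𝔅.sub (fun q : (a : α) × Fin (n a) => q.1) (fun q => V' q.1 q.2)
      (fun q => F' q.1 q.2) fun q => hVF q.1 q.2) (fun q => (p q.1, b q.1 q.2))
      (fun q => c q.1 q.2) fun q => ex' q.1 q.2)
    (hF : (fun a => ∑ i ∈ Finset.range (n a), F' a i) ≲ 𝔅.F)
    (hV : (fun a => ∑ i ∈ Finset.range (n a), V' a i) ≼ 𝔅.V) :
    Cp 𝔅 (fun a => (p a, (List.range (n a)).map (b a))) (fun a => (List.range (n a)).map (c a))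
      fun a => ∑ i ∈ Finset.range (n a), ex' a i := by
  refine (Cp.mapAccum n (fun a _ => p a) b c V' F' ex' hVF hin body.keep hF
    fun hx => sz_pair (sz_fst hx) ?_).l (L.refl _ _).snd
  refine (((OLe.sum (u := fun a i => esize (c a i) + 1) (v := V')
    ((body.size_le hin).add_const (sz_one_le hin) 1)).trans hV).add_const
    (sz_one_le hx) 1).mono_left fun a => ?_
  simp only [sz, esize_map_range]; rfl

/-- Map over a tabulated list, with a parameter and the (binary) index. -/
theorem Cp.mapIdxRange (n : α → ℕ) (p : α → P) (b : α → ℕ → Y) (c : α → ℕ → Z)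
    (V' : α → ℕ → ℕ) (F' ex' : α → ℕ → ℝ) (hVF : ∀ a i, (V' a i : ℝ) ≤ F' a i)
    (hin : sz (fun q : (a : α) × Fin (n a) => (p q.1, b q.1 q.2)) ≼ fun q => V' q.1 q.2)
    (hi : SmIn (fun q : (a : α) × Fin (n a) => V' q.1 q.2) fun q => n q.1)
    (body : Cp (𝔅.sub (fun q : (a : α) × Fin (n a) => q.1) (fun q => V' q.1 q.2)
      (fun q => F' q.1 q.2) fun q => hVF q.1 q.2) (fun q => ((p q.1, q.2.1), b q.1 q.2))
      (fun q => c q.1 q.2) fun q => ex' q.1 q.2)
    (hF : (fun a => ∑ i ∈ Finset.range (n a), F' a i) ≲ 𝔅.F)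
    (hV : (fun a => ∑ i ∈ Finset.range (n a), V' a i) ≼ 𝔅.V) :
    Cp 𝔅 (fun a => (p a, (List.range (n a)).map (b a))) (fun a => (List.range (n a)).map (c a))
      fun a => ∑ i ∈ Finset.range (n a), ex' a i := by
  have hi' : SmIn (fun q : (a : α) × Fin (n a) => V' q.1 q.2) fun q => q.2.1 :=
    hi.nat_le fun q => q.2.2.le
  have hin' : sz (fun q : (a : α) × Fin (n a) => ((p q.1, q.2.1), b q.1 q.2)) ≼
      fun q => V' q.1 q.2 := sz_pair (sz_pair (sz_fst hin) hi'.size_le) (sz_snd hin)
  have h1 := L.refl (𝔅.sub (fun q : (a : α) × Fin (n a) => q.1) (fun q => V' q.1 q.2)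
      (fun q => F' q.1 q.2) fun q => hVF q.1 q.2) fun q => ((p q.1, q.2.1), b q.1 q.2)
  have h2 := (h1.fst.fst.pair (h1.fst.snd.pt hi' (f := fun u : ℕ => u + 1)
    (by fun_prop))).pairCp body
  refine Cp.with_sz fun hx => ?_
  have h3 := (Cp.mapAccum n (fun a i => (p a, i)) b c V' F' ex' hVF hin' h2 hF
    fun hx' => sz_pair (sz_pair (sz_fst hx) ?_) ?_).l (L.refl _ _).snd
  · refine L.cp ?_ h3
    have h4 := L.refl 𝔅 fun a => (p a, (List.range (n a)).map (b a))
    exact (h4.fst.pair (L.const 0)).pair h4.snd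
  · refine (((length_of_sz (sz_snd hx)).const_mul 6).add_const (sz_one_le hx) 1).mono_left
      fun a => ?_
    simpa using esize_nat_le_self (n a)
  · refine (((OLe.sum (u := fun a i => esize (c a i) + 1) (v := V')
      ((body.size_le hin').add_const (sz_one_le hin) 1)).trans hV).add_const
      (sz_one_le hx) 1).mono_left fun a => ?_
    simp only [sz, esize_map_range]; rfl

theorem map_getD_range [Inhabited β] (l : List β) :
    (List.range l.length).map (fun i => l.getD i default) = l := by
  refine List.ext_getElem (by simp) fun i h1 h2 => ?_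
  simp [List.getD_eq_getElem?_getD, List.getElem?_eq_getElem h2]

theorem sum_map_eq_range [Inhabited β] {M : Type} [AddCommMonoid M] (l : List β) (f : β → M) :
    (l.map f).sum = ∑ i ∈ Finset.range l.length, f (l.getD i default) := by
  conv_lhs => rw [← map_getD_range l]
  rw [List.map_map, sum_map_range]
  rfl

theorem getD_mem [Inhabited β] (l : List β) {i : ℕ} (h : i < l.length) : l.getD i default ∈ l := by
  simp [List.getD_eq_getElem?_getD, List.getElem?_eq_getElem h]

/-- Map over a list, with a parameter. -/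
theorem Cp.map [Inhabited Y] (p : α → P) (l : α → List Y) (f : α → Y → Z)
    (V' : α → Y → ℕ) (F' ex' : α → Y → ℝ) (hVF : ∀ a b, (V' a b : ℝ) ≤ F' a b)
    (hin : sz (fun q : {q : α × Y // q.2 ∈ l q.1} => (p q.1.1, q.1.2)) ≼ fun q => V' q.1.1 q.1.2)
    (body : Cp (𝔅.sub (fun q : {q : α × Y // q.2 ∈ l q.1} => q.1.1) (fun q => V' q.1.1 q.1.2)
      (fun q => F' q.1.1 q.1.2) fun q => hVF q.1.1 q.1.2) (fun q => (p q.1.1, q.1.2))
      (fun q => f q.1.1 q.1.2) fun q => ex' q.1.1 q.1.2)
    (hF : (fun a => ((l a).map (F' a)).sum) ≲ 𝔅.F)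
    (hV : (fun a => ((l a).map (V' a)).sum) ≼ 𝔅.V) :
    Cp 𝔅 (fun a => (p a, l a)) (fun a => (l a).map (f a)) fun a => ((l a).map (ex' a)).sum := by
  let ψ : ((a : α) × Fin (l a).length) → {q : α × Y // q.2 ∈ l q.1} := fun q =>
    ⟨(q.1, (l q.1).getD q.2 default), getD_mem _ q.2.2⟩
  have h := Cp.mapRange (𝔅 := 𝔅) (fun a => (l a).length) p (fun a i => (l a).getD i default)
    (fun a i => f a ((l a).getD i default)) (fun a i => V' a ((l a).getD i default))
    (fun a i => F' a ((l a).getD i default)) (fun a i => ex' a ((l a).getD i default))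
    (fun a i => hVF _ _) (hin.comp ψ) (body.reindex hin ψ)
    (by simpa only [sum_map_eq_range] using hF) (by simpa only [sum_map_eq_range] using hV)
  simp only [map_getD_range, ← sum_map_eq_range] at h
  refine h.congr fun a => ?_
  conv_rhs => rw [← map_getD_range (l a), List.map_map]
  rfl

/-- Map a linear-time function of a parameter and an item. -/
theorem L.map_par [Inhabited Y] {x : α → X} {p : α → P} {l : α → List Y} {f : P → Y → Z}
    (hf : LT fun q : P × Y => f q.1 q.2) (hp : L 𝔅 x p) (hl : L 𝔅 x l)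
    (hV : (fun a => (l a).length * esize (p a)) ≼ 𝔅.V) :
    L 𝔅 x fun a => (l a).map (f (p a)) := L.with_sz fun hx => by
  have hs : (fun a => ((l a).map fun b => esize (p a, b)).sum) ≼ 𝔅.V := by
    refine (hV.add (hl.size_le hx)).mono_left fun a => ?_
    simp only [sz]
    generalize l a = m
    induction m with
    | nil => simp
    | cons b m ih => simp only [List.map_cons, List.sum_cons, esize_pair, esize_cons,
        List.length_cons, add_mul] at ih ⊢; omega
  refine (hp.pair hl).cp ((Cp.map p l (fun a => f (p a)) (fun a b => esize (p a, b))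
    (fun a b => esize (p a, b)) (fun _ _ => 0) (fun _ _ => le_rfl) (OLe.refl _)
    (hf.l (L.refl _ _)) ?_ hs).mono fun a => by simp)
  refine (Bud.toF hs).mono_left fun a => ?_
  simp [Function.comp_def]

/-- Map a linear-time function. -/
theorem L.map_lt [Inhabited Y] {x : α → X} {l : α → List Y} {f : Y → Z} (hf : LT f)
    (hl : L 𝔅 x l) : L 𝔅 x fun a => (l a).map f := L.with_sz fun hx =>
  L.map_par (f := fun (_ : Unit) b => f b) (fun _ _ _ _ _ _ h => hf.l h.snd) (L.const ()) hl
    ((length_of_sz (hl.size_le hx)).mono_left fun a => by simp)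

theorem LT.map [Inhabited Y] {f : Y → Z} (hf : LT f) : LT fun l : List Y => l.map f :=
  fun _ _ _ _ _ _ h => L.map_lt hf h

/-- Accumulating map from the left. -/
def mapAcc {σ β γ : Type} (f : σ → β → σ × γ) : σ → List β → σ × List γ
  | s, [] => (s, [])
  | s, b :: l => ((mapAcc f (f s b).1 l).1, (f s b).2 :: (mapAcc f (f s b).1 l).2)

@[simp] theorem mapAcc_nil {σ β γ : Type} (f : σ → β → σ × γ) (s : σ) :
    mapAcc f s [] = (s, []) := rfl
@[simp] theorem mapAcc_cons {σ β γ : Type} (f : σ → β → σ × γ) (s : σ) (b : β) (l : List β) :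
    mapAcc f s (b :: l) = ((mapAcc f (f s b).1 l).1, (f s b).2 :: (mapAcc f (f s b).1 l).2) := rfl

@[simp] theorem length_mapAcc {σ β γ : Type} (f : σ → β → σ × γ) (s : σ) (l : List β) :
    (mapAcc f s l).2.length = l.length := by
  induction l generalizing s with
  | nil => rfl
  | cons b l ih => simp [ih]

theorem mapAcc_append {σ β γ : Type} (f : σ → β → σ × γ) (s : σ) (l m : List β) :
    mapAcc f s (l ++ m) = ((mapAcc f (mapAcc f s l).1 m).1,
      (mapAcc f s l).2 ++ (mapAcc f (mapAcc f s l).1 m).2) := by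
  induction l generalizing s with
  | nil => simp
  | cons b l ih => simp [ih]

theorem mapAcc_eq_range {σ β γ : Type} [Inhabited β] (f : σ → β → σ × γ) (s : σ) (l : List β) :
    (mapAcc f s l).2 = (List.range l.length).map fun i =>
      (f (mapAcc f s (l.take i)).1 (l.getD i default)).2 := by
  induction l generalizing s with
  | nil => simp
  | cons b l ih => simp [List.range_succ_eq_map, ih, Function.comp_def]

theorem mapAcc_take_succ {σ β γ : Type} [Inhabited β] (f : σ → β → σ × γ) (s : σ) (l : List β)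
    {i : ℕ} (hi : i < l.length) :
    (mapAcc f s (l.take (i + 1))).1 = (f (mapAcc f s (l.take i)).1 (l.getD i default)).1 := by
  rw [List.take_add_one, mapAcc_append]
  simp [List.getD_eq_getElem?_getD, List.getElem?_eq_getElem hi]

/-- Accumulating map with a linear-time step; the total size of the states must be `O(V)`. -/
theorem L.mapAcc [Inhabited Y] {x : α → X} {s : α → σ} {l : α → List Y} {f : σ → Y → σ × Z}
    (hf : LT fun q : σ × Y => f q.1 q.2) (hs : L 𝔅 x s) (hl : L 𝔅 x l)
    (hV : (fun a => ∑ i ∈ Finset.range (l a).length, esize (mapAcc f (s a) ((l a).take i)).1) ≼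
      𝔅.V) : L 𝔅 x fun a => mapAcc f (s a) (l a) := L.with_sz fun hx => by
  let st : α → ℕ → σ := fun a i => (R326.mapAcc f (s a) ((l a).take i)).1
  have hs' : (fun a => ∑ i ∈ Finset.range (l a).length, esize (st a i, (l a).getD i default)) ≼
      𝔅.V := by
    refine (hV.add (hl.size_le hx)).mono_left fun a => ?_
    simp only [esize_pair, add_assoc, Finset.sum_add_distrib, sz, esize_list (l a),
      sum_map_eq_range]
    exact Nat.add_le_add_left (by omega) _
  have hb := hf.l (L.refl (𝔅.sub (fun q : (a : α) × Fin (l a).length => q.1)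
    (fun q => esize (st q.1 q.2, (l q.1).getD q.2 default))
    (fun q => (esize (st q.1 q.2, (l q.1).getD q.2 default) : ℝ)) fun _ => le_rfl)
    fun q => (st q.1 q.2, (l q.1).getD q.2 default))
  have hb' := hb.congr (y' := fun q => (st q.1 (q.2 + 1),
    (f (st q.1 q.2) ((l q.1).getD q.2 default)).2)) fun q => by
      simp only [st, mapAcc_take_succ f _ _ q.2.2]
  have h := Cp.mapAccum (𝔅 := 𝔅) (fun a => (l a).length) st (fun a i => (l a).getD i default)
    (fun a i => (f (st a i) ((l a).getD i default)).2)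
    (fun a i => esize (st a i, (l a).getD i default))
    (fun a i => esize (st a i, (l a).getD i default)) (fun _ _ => 0) (fun _ _ => le_rfl)
    (OLe.refl _) hb' ((Bud.toF hs').mono_left fun a => by simp) fun hx' => sz_pair ?_ ?_
  · simp only [map_getD_range] at h
    refine ((hs.pair hl).cp (h.mono fun a => by simp)).congr fun a => ?_
    simp only [st, List.take_length, ← mapAcc_eq_range]
  · obtain ⟨c, hc⟩ := hb'.size_le (OLe.refl _)
    obtain ⟨c1, h1⟩ := hs.size_le hx
    obtain ⟨c2, h2⟩ := hs'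
    refine ⟨c1 + c * c2, fun a => ?_⟩
    rcases Nat.eq_zero_or_pos (l a).length with h | h
    · have := h1 a
      simp only [sz, h, st, List.take_zero, mapAcc_nil, add_mul] at this ⊢; omega
    · have h3 := hc ⟨a, ⟨(l a).length - 1, by omega⟩⟩
      have h4 := Finset.single_le_sum (f := fun i => esize (st a i, (l a).getD i default))
        (s := Finset.range (l a).length) (fun _ _ => Nat.zero_le _)
        (Finset.mem_range.mpr (by omega : (l a).length - 1 < _))
      have h5 := Nat.mul_le_mul_left c (h4.trans (h2 a))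
      simp only [sz, Nat.sub_add_cancel h, esize_pair, add_mul, mul_assoc] at h3 h5 ⊢
      omega
  · refine (((OLe.sum (u := fun a i => esize (f (st a i) ((l a).getD i default)).2 + 1)
      (v := fun a i => esize (st a i, (l a).getD i default))
      ((sz_snd (hb'.size_le (OLe.refl _))).add_const
      (fun _ => esize_pos _) 1)).trans hs').add_const (sz_one_le hx) 1).mono_left fun a => ?_
    simp only [sz, esize_map_range]; rfl

/-- Accumulating map with finitely many states. -/
theorem L.mapAcc_fin [Inhabited Y] [Finite σ] {x : α → X} {s : α → σ} {l : α → List Y}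
    {f : σ → Y → σ × Z} (hf : LT fun q : σ × Y => f q.1 q.2) (hs : L 𝔅 x s) (hl : L 𝔅 x l) :
    L 𝔅 x fun a => R326.mapAcc f (s a) (l a) := L.with_sz fun hx => by
  obtain ⟨M, hM⟩ := (Set.finite_range fun y : σ => esize y).bddAbove
  refine L.mapAcc hf hs hl (((length_of_sz (hl.size_le hx)).const_mul M).mono_left fun a => ?_)
  refine (Finset.sum_le_card_nsmul _ _ M fun i _ => hM ⟨_, rfl⟩).trans (by simp [mul_comm])

/-- Iterate a step while a flag is `true`: `N a + 1` rounds. -/
theorem Cp.doWhile (s : α → ℕ → σ) (N : α → ℕ) (V' : α → ℕ → ℕ) (F' ex' : α → ℕ → ℝ)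
    (hVF : ∀ a i, (V' a i : ℝ) ≤ F' a i)
    (hin : sz (fun q : (a : α) × Fin (N a + 1) => s q.1 q.2) ≼ fun q => V' q.1 q.2)
    (body : Cp (𝔅.sub (fun q : (a : α) × Fin (N a + 1) => q.1) (fun q => V' q.1 q.2)
      (fun q => F' q.1 q.2) fun q => hVF q.1 q.2) (fun q => s q.1 q.2)
      (fun q => (decide (q.2.1 < N q.1), s q.1 (q.2 + 1))) fun q => ex' q.1 q.2)
    (hF : (fun a => ∑ i ∈ Finset.range (N a + 1), F' a i) ≲ 𝔅.F)
    (hout : sz (fun a => s a (N a + 1)) ≼ 𝔅.V) :
    Cp 𝔅 (fun a => s a 0) (fun a => s a (N a + 1))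
      fun a => ∑ i ∈ Finset.range (N a + 1), ex' a i := Cp.intro fun hx => by
  obtain ⟨h1, k, hk, h2⟩ := body hin
  have h3 := RC.doWhile (fun a i => enc (s a i)) N (fun a i => k * F' a i + ex' a i) h2
  refine ⟨hout, _, fun a => (∑ i ∈ Finset.range (N a + 1), (k * F' a i + 9)) + 2, h3, ?_,
    fun a => ?_⟩
  · refine RLe.add (RLe.trans (RLe.sum ?_) hF) (RLe.const (Bud.one_le_F hx) 2)
    exact ((RLe.refl _).const_mul k hk).add (RLe.const (fun q : (a : α) × Fin (N a + 1) =>
      le_trans (by exact_mod_cast sz_one_le hin q) (hVF q.1 q.2)) 9)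
  · simp only [Finset.sum_add_distrib]; linarith

/-! ### List operations -/

section lists
variable {x : α → X}

@[fun_prop] theorem L.cons {b : α → Y} {l : α → List Y} (hb : L 𝔅 x b) (hl : L 𝔅 x l) :
    L 𝔅 x fun a => b a :: l a := (hb.pair hl).of_enc_eq fun _ => rfl

@[fun_prop] theorem L.isEmpty {l : α → List Y} (hl : L 𝔅 x l) : L 𝔅 x fun a => (l a).isEmpty := by
  have h : L 𝔅 l fun a => decide (enc (l a) ≠ Tr.nil) :=
    L.ofTC (TC.isCons _) fun hx => (hx.const_mul 2).add_const (sz_one_le hx) 5
  refine ((hl.comp h).finite fun b => !b).congr fun a => ?_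
  cases l a <;> simp [enc_list, Tr.ofList]

theorem L.uncons {b : α → Y} {l : α → List Y} (h : L 𝔅 x fun a => b a :: l a) :
    L 𝔅 x fun a => (b a, l a) := h.of_enc_eq fun _ => rfl

theorem L.headTail {l : α → List Y} {d : α → Y} (hl : L 𝔅 x l) (hd : L 𝔅 x d) :
    L 𝔅 x fun a => ((l a).headD (d a), (l a).tail) := L.with_sz fun hx => by
  refine Cp.cond_sub _ hl.isEmpty ?_ ?_
  · refine L.congr ((hd.reindex hx _).pair (hl.reindex hx _)) fun a => ?_
    have := List.isEmpty_iff.mp a.2
    simp [this]
  · refine L.uncons (L.congr (hl.reindex hx _) fun a => ?_)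
    have := a.2
    cases h : l a.1 with
    | nil => simp [h] at this
    | cons b m => simp

@[fun_prop] theorem L.headD {l : α → List Y} {d : α → Y} (hl : L 𝔅 x l) (hd : L 𝔅 x d) :
    L 𝔅 x fun a => (l a).headD (d a) := (hl.headTail hd).fst

@[fun_prop] theorem L.tail [Inhabited Y] {l : α → List Y} (hl : L 𝔅 x l) :
    L 𝔅 x fun a => (l a).tail := (hl.headTail (L.const default)).snd

theorem L.drop_const [Inhabited Y] {l : α → List Y} (hl : L 𝔅 x l) (k : ℕ) :
    L 𝔅 x fun a => (l a).drop k := by
  induction k with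
  | zero => exact hl
  | succ k ih => exact ih.tail.congr fun a => by simp

/-- An item at a fixed position. -/
theorem L.getD_const [Inhabited Y] {l : α → List Y} {d : α → Y} (hl : L 𝔅 x l) (hd : L 𝔅 x d)
    (k : ℕ) : L 𝔅 x fun a => (l a).getD k (d a) :=
  ((hl.drop_const k).headD hd).congr fun a => by
    simp [List.headD_eq_head?_getD, List.getD_eq_getElem?_getD]

/-- A list of fixed length. -/
theorem L.ofFn {n : ℕ} {f : Fin n → α → Y} (h : ∀ i, L 𝔅 x (f i)) :
    L 𝔅 x fun a => List.ofFn fun i => f i a := by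
  induction n with
  | zero => exact (L.const []).congr fun a => by simp
  | succ n ih => exact ((h 0).cons (ih fun i => h i.succ)).congr fun a => by simp [List.ofFn_succ]

theorem L.map_const {ι : Type} (s : List ι) {f : ι → α → Y} (h : ∀ i ∈ s, L 𝔅 x (f i)) :
    L 𝔅 x fun a => s.map fun i => f i a := by
  induction s with
  | nil => exact L.const []
  | cons i s ih => exact (h i (by simp)).cons (ih fun j hj => h j (by simp [hj]))

@[fun_prop] theorem L.reverse {l : α → List Y} (hl : L 𝔅 x l) : L 𝔅 x fun a => (l a).reverse :=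
  hl.comp (L.ofTC ((tc_reverse fun a => (l a).map enc).congr (fun _ => rfl)
    fun a => by rw [enc_list, List.map_reverse])
    fun hx => (hx.const_mul 12).add_const (sz_one_le hx) 6)

@[fun_prop] theorem L.zip {l : α → List Y} {m : α → List Z} (hl : L 𝔅 x l) (hm : L 𝔅 x m) :
    L 𝔅 x fun a => (l a).zip (m a) :=
  (hl.pair hm).comp (L.ofTC ((tc_zip (fun a => (l a).map enc) fun a => (m a).map enc).congr
    (fun _ => rfl) fun a => by
      rw [enc_list, List.zip, List.map_zipWith, List.zipWith_map]; rfl)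
    fun hx => ((((sz_fst hx).add (sz_snd hx)).const_mul 20).add_const (sz_one_le hx) 20))

@[fun_prop] theorem L.flatten {l : α → List (List Y)} (hl : L 𝔅 x l) :
    L 𝔅 x fun a => (l a).flatten :=
  hl.comp (L.ofTC ((tc_flatten fun a => (l a).map (List.map enc)).congr
    (fun a => by rw [enc_list, List.map_map]; rfl) fun a => by rw [enc_list, List.map_flatten])
    fun hx => by
      refine ((hx.const_mul 12).add_const (sz_one_le hx) 8).mono_left fun a => le_of_eq ?_
      rw [List.map_map]; rfl)

@[fun_prop] theorem L.append {l m : α → List Y} (hl : L 𝔅 x l) (hm : L 𝔅 x m) :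
    L 𝔅 x fun a => l a ++ m a :=
  (hl.cons (hm.cons (L.const []))).flatten.congr fun a => by simp

theorem L.zipWith [Inhabited Y] [Inhabited Z] {l : α → List Y} {m : α → List Z} {f : Y → Z → W}
    (hf : LT fun q : Y × Z => f q.1 q.2) (hl : L 𝔅 x l) (hm : L 𝔅 x m) :
    L 𝔅 x fun a => List.zipWith f (l a) (m a) :=
  ((hl.zip hm).map_lt hf).congr fun a => by simp [List.zip, List.map_zipWith]

theorem L.flatMap_lt [Inhabited Y] {l : α → List Y} {f : Y → List Z} (hf : LT f) (hl : L 𝔅 x l) :
    L 𝔅 x fun a => (l a).flatMap f := (hl.map_lt hf).flatten.congr fun a => by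
  simp [List.flatMap_def]

/-- A number in unary. -/
abbrev un (n : ℕ) : List Unit := List.replicate n ()

theorem esize_un (n : ℕ) : esize (un n) = 2 * n + 1 := by
  rw [esize_list]; simp; omega

theorem sz_un {n V : α → ℕ} (h : n ≼ V) (h1 : ∀ a, 1 ≤ V a) : sz (fun a => un (n a)) ≼ V :=
  ((h.const_mul 2).add_const h1 1).mono_left fun _ => le_of_eq (esize_un _)

/-- The length of a list, in unary. -/
theorem L.un_length [Inhabited Y] {l : α → List Y} (hl : L 𝔅 x l) :
    L 𝔅 x fun a => un (l a).length :=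
  (hl.map_lt (f := fun _ => ()) fun _ _ _ _ _ _ _ => L.const ()).congr fun a => by simp

/-- Binary to unary. -/
theorem L.un {n : α → ℕ} (hn : L 𝔅 x n) (hV : n ≼ 𝔅.V) : L 𝔅 x fun a => un (n a) :=
  L.with_sz fun hx => by
  have h1 := sz_one_le hx
  have hb : L 𝔅 x fun a => (List.range (n a).size).map (n a).testBit :=
    hn.pt (SmIn.of_ole h1 hV) (f := fun m : ℕ => (List.range m.size).map m.testBit) (by fun_prop)
  have hsum : (fun a => ∑ i ∈ Finset.range (n a).size, 2 ^ i) ≼ 𝔅.V := by
    refine (hV.const_mul 2).mono_left fun a => ?_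
    rcases Nat.eq_zero_or_pos (n a) with h | h
    · simp [h]
    · have h2 : 2 ^ ((n a).size - 1) ≤ n a := Nat.lt_size.mp (by
        have := Nat.size_pos.mpr h; omega)
      have h3 := Nat.geomSum_lt (le_refl 2) (s := Finset.range (n a).size) (n := (n a).size)
        fun k hk => Finset.mem_range.mp hk
      obtain ⟨k, hk⟩ : ∃ k, (n a).size = k + 1 := ⟨_, (Nat.sub_add_cancel (Nat.size_pos.mpr h)).symm⟩
      rw [hk] at h2 h3 ⊢
      simp only [Nat.add_sub_cancel, pow_succ] at h2 h3
      omega
  have h := Cp.mapAccum (𝔅 := 𝔅) (fun a => (n a).size)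
    (fun a i => (R326.un (n a % 2 ^ i), R326.un (2 ^ i))) (fun a => (n a).testBit) (fun _ _ => ())
    (fun _ i => 2 ^ i) (fun _ i => ((2 ^ i : ℕ) : ℝ)) (fun _ _ => 0) (fun _ _ => le_rfl) ?_ ?_
    ((Bud.toF hsum).mono_left fun a => by simp) fun _ => ?_
  · have h' : L 𝔅 x _ := ((L.const (R326.un 0, R326.un 1)).pair hb).cp
      ((h.mono fun a => by simp).of_in fun a => by simp [Nat.mod_one])
    refine h'.fst.fst.congr fun a => ?_
    simp [Nat.mod_eq_of_lt (Nat.lt_size_self _)]
  · refine ⟨12, fun q => ?_⟩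
    have := Nat.mod_lt (n q.1) (Nat.two_pow_pos q.2)
    have := esize_bool_le ((n q.1).testBit q.2)
    simp only [sz, esize_pair, esize_un]; omega
  · have h0 := L.refl (𝔅.sub (fun q : (a : α) × Fin (n a).size => q.1) (fun q => 2 ^ q.2.1)
      (fun q => ((2 ^ q.2.1 : ℕ) : ℝ)) fun _ => le_rfl)
      fun q => ((R326.un (n q.1 % 2 ^ q.2.1), R326.un (2 ^ q.2.1)), (n q.1).testBit q.2)
    refine L.congr (((h0.snd.cond (h0.fst.fst.append h0.fst.snd) h0.fst.fst).pair
      (h0.fst.snd.append h0.fst.snd)).pair (L.const ())) fun q => ?_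
    rw [Nat.mod_pow_succ]
    simp only [Nat.testBit_eq_decide_div_mod_eq, List.replicate_append_replicate,
      pow_succ, mul_two]
    rcases Nat.mod_two_eq_zero_or_one (n q.1 / 2 ^ q.2.1) with h | h <;> simp [h]
  · refine sz_pair (sz_pair (sz_un (hV.mono_left fun a => Nat.mod_le _ _) h1) (sz_un ?_ h1)) ?_
    · refine ((hV.const_mul 2).add_const h1 1).mono_left fun a => ?_
      rcases Nat.eq_zero_or_pos (n a) with h | h
      · simp [h]
      · have h2 : 2 ^ ((n a).size - 1) ≤ n a := Nat.lt_size.mp (by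
          have := Nat.size_pos.mpr h; omega)
        obtain ⟨k, hk⟩ : ∃ k, (n a).size = k + 1 :=
          ⟨_, (Nat.sub_add_cancel (Nat.size_pos.mpr h)).symm⟩
        rw [hk] at h2 ⊢
        simp only [Nat.add_sub_cancel, pow_succ] at h2 ⊢
        omega
    · refine ((hV.const_mul 2).add_const h1 1).mono_left fun a => ?_
      have := Nat.size_le.mpr (Nat.lt_two_pow_self (n := n a))
      simp only [sz, List.map_const', List.length_range, esize_un]; omega

theorem S.un {n : α → ℕ} (hn : S 𝔅 x n) (hV : n ≼ 𝔅.V) : L 𝔅 x fun a => un (n a) := hn.1.un hV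

/-- Repeat a value; the count is given in unary. -/
theorem L.replicate {n : α → ℕ} {b : α → Y} (hn : L 𝔅 x fun a => R326.un (n a)) (hb : L 𝔅 x b)
    (hV : (fun a => n a * esize (b a)) ≼ 𝔅.V) : L 𝔅 x fun a => List.replicate (n a) (b a) :=
  (L.map_par (f := fun (v : Y) (_ : Unit) => v) (fun _ _ _ _ _ _ h => h.fst) hb hn
    (by simpa using hV)).congr fun a => by simp

theorem L.replicate_const {n : α → ℕ} (hn : L 𝔅 x fun a => R326.un (n a)) (b : Y) :
    L 𝔅 x fun a => List.replicate (n a) b :=
  (hn.map_lt (f := fun _ => b) fun _ _ _ _ _ _ _ => L.const b).congr fun a => by simp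

theorem L.take [Inhabited Y] {n : α → ℕ} {l : α → List Y} (hn : L 𝔅 x fun a => R326.un (n a))
    (hl : L 𝔅 x l) : L 𝔅 x fun a => (l a).take (n a) :=
  ((hl.zip hn).map_lt (f := Prod.fst) fun _ _ _ _ _ _ h => h.fst).congr fun a => by
    refine List.ext_getElem (by simp [min_comm]) fun i h1 h2 => by simp

theorem L.drop [Inhabited Y] {n : α → ℕ} {l : α → List Y} (hn : L 𝔅 x fun a => R326.un (n a))
    (hl : L 𝔅 x l) : L 𝔅 x fun a => (l a).drop (n a) := by
  have h1 : L 𝔅 x fun a => List.replicate (n a) false ++ List.replicate (l a).length true :=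
    (hn.replicate_const false).append (hl.un_length.replicate_const true)
  refine ((hl.zip h1).flatMap_lt (f := fun q => _root_.cond q.2 [q.1] []) fun _ _ _ _ _ _ h =>
    h.snd.cond (h.fst.cons (L.const [])) (L.const [])).congr fun a => ?_
  have key : ∀ (k : ℕ) (m : List Y) (j : ℕ), m.length ≤ j + k →
      ((m.zip (List.replicate k false ++ List.replicate j true)).flatMap
        fun q => _root_.cond q.2 [q.1] []) = m.drop k := by
    intro k
    induction k with
    | zero =>
      intro m
      induction m with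
      | nil => simp
      | cons b m ih =>
        intro j hj
        obtain ⟨j, rfl⟩ : ∃ j', j = j' + 1 := ⟨j - 1, by simp at hj; omega⟩
        have := ih j (by simpa using hj)
        simp only [List.replicate_zero, List.nil_append, List.drop_zero] at this
        simp [List.replicate_succ, this]
    | succ k ih =>
      intro m j hj
      cases m with
      | nil => simp
      | cons b m =>
        have := ih m j (by simp at hj; omega)
        simp [List.replicate_succ, this]
  exact key _ _ _ (by omega)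

/-- Inverse of `flatten` for blocks of a common positive length. -/
theorem L.unflatten {g : α → ℕ} {B : α → List (List Y)} (hg : L 𝔅 x fun a => R326.un (g a))
    (hl : L 𝔅 x fun a => (B a).flatten) (hpos : ∀ a, 0 < g a)
    (hB : ∀ a, ∀ b ∈ B a, b.length = g a) : L 𝔅 x B :=
  (hg.pair hl).comp (L.ofTC ((tc_chunks g (fun a => (B a).map (List.map enc)) hpos
    (fun a b hb => by
      obtain ⟨b', hb', rfl⟩ := List.mem_map.mp hb
      simpa using hB a b' hb')).congr
    (fun a => by
      show Tr.cons (Tr.ofList _) (Tr.ofList _) = _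
      rw [List.map_flatten, List.map_replicate]; rfl)
    fun a => by rw [enc_list, List.map_map]; rfl)
    fun hx => by
      refine ((((sz_fst hx).add (sz_snd hx)).const_mul 30).add_const (sz_one_le hx) 20).mono_left
        fun a => le_of_eq ?_
      simp only [sz, esize, enc_list, List.map_flatten, List.map_replicate]; rfl)

/-- The `n` consecutive blocks of length `g`. -/
def chunks {β : Type} (g n : ℕ) (l : List β) : List (List β) :=
  (List.range n).map fun i => (l.drop (g * i)).take g

@[simp] theorem length_chunks {β : Type} (g n : ℕ) (l : List β) : (chunks g n l).length = n := by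
  simp [chunks]

theorem flatten_chunks {β : Type} (g n : ℕ) (l : List β) : (chunks g n l).flatten = l.take (g * n) := by
  induction n with
  | zero => simp [chunks]
  | succ n ih =>
    simp only [chunks, List.range_succ, List.map_append, List.flatten_append] at ih ⊢
    rw [ih, mul_add, mul_one, List.take_add]; simp

theorem length_of_mem_chunks {β : Type} {g n : ℕ} {l : List β} (h : g * n ≤ l.length)
    {b : List β} (hb : b ∈ chunks g n l) : b.length = g := by
  obtain ⟨i, hi, rfl⟩ := List.mem_map.mp hb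
  have := Nat.mul_le_mul_left g (Nat.succ_le_of_lt (List.mem_range.mp hi))
  simp only [List.length_take, List.length_drop, Nat.succ_eq_add_one, mul_add] at this ⊢
  omega

theorem L.chunks {g n : α → ℕ} {l : α → List Y} (hg : L 𝔅 x fun a => R326.un (g a))
    (hl : L 𝔅 x l) (hpos : ∀ a, 0 < g a) (hlen : ∀ a, (l a).length = g a * n a) :
    L 𝔅 x fun a => chunks (g a) (n a) (l a) :=
  L.unflatten hg (hl.congr fun a => by rw [flatten_chunks, ← hlen, List.take_length]) hpos
    fun a _ hb => length_of_mem_chunks (hlen a).ge hb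

theorem halve_un (k : ℕ) (b : Bool) :
    mapAcc (fun (s : Bool) (_ : Unit) => (!s, _root_.cond s [()] ([] : List Unit))) b (un k) =
      (xor b (decide (k % 2 = 1)), (mapAcc (fun (s : Bool) (_ : Unit) =>
        (!s, _root_.cond s [()] ([] : List Unit))) b (un k)).2) ∧
    (mapAcc (fun (s : Bool) (_ : Unit) => (!s, _root_.cond s [()] ([] : List Unit))) b
      (un k)).2.flatten = un ((k + b.toNat) / 2) := by
  induction k generalizing b with
  | zero => cases b <;> simp
  | succ k ih =>
    obtain ⟨h1, h2⟩ := ih (!b)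
    rw [un, List.replicate_succ, mapAcc_cons]
    refine ⟨?_, ?_⟩
    · rw [h1]
      rcases Nat.mod_two_eq_zero_or_one k with h | h <;> cases b <;> simp [Nat.add_mod, h]
    · simp only [List.flatten_cons]
      rw [h2]
      cases b
      · simp
      · simp [show (k + 1 + 1) / 2 = k / 2 + 1 by omega, List.replicate_succ]

theorem ofBits_map_testBit (n k : ℕ) : ofBits ((List.range k).map n.testBit) = n % 2 ^ k := by
  induction k generalizing n with
  | zero => simp [Nat.mod_one]
  | succ k ih =>
    rw [List.range_succ_eq_map, List.map_cons, List.map_map, ofBits_cons]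
    have : (n.testBit ∘ Nat.succ) = (n / 2).testBit := by
      funext i; simp [Nat.testBit_succ]
    rw [this, ih, pow_succ', Nat.mod_mul, Nat.bit_val, Nat.testBit_zero]
    rcases Nat.mod_two_eq_zero_or_one n with h | h
    · simp [h]
    · simp [h]; omega

theorem sum_div_two_pow_le (n k : ℕ) : ∑ i ∈ Finset.range k, n / 2 ^ i ≤ 2 * n := by
  induction k generalizing n with
  | zero => simp
  | succ k ih =>
    rw [Finset.sum_range_succ']
    have := ih (n / 2)
    simp only [Nat.div_div_eq_div_mul, ← pow_succ'] at this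
    simp only [pow_zero, Nat.div_one]; omega

/-- Unary to binary. -/
theorem L.of_un {n : α → ℕ} (hn : L 𝔅 x fun a => R326.un (n a)) : L 𝔅 x n := L.with_sz fun hx => by
  have h1 := sz_one_le hx
  have hV : n ≼ 𝔅.V := (length_of_sz (hn.size_le hx)).mono_left fun a => by simp
  have hsm := SmIn.of_ole h1 hV
  have hsum : (fun a => ∑ i ∈ Finset.range ((n a).size + 1), (n a / 2 ^ i + ((n a).size + 1))) ≼
      𝔅.V := by
    refine ((hV.const_mul 2).add (hsm.pb (t := fun m : ℕ => (m.size + 1) * (m.size + 1))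
      (by fun_prop))).mono_left fun a => ?_
    have := sum_div_two_pow_le (n a) ((n a).size + 1)
    rw [Finset.sum_add_distrib, Finset.sum_const, Finset.card_range, smul_eq_mul]; omega
  have hacc : ∀ {γ : Type} (m i : γ → ℕ), sz (fun q => ((List.range (i q)).map (m q).testBit).reverse)
      ≼ fun q => i q + 1 := fun m i => sz_bits (OLe.of_le fun q => by simp) fun q => by omega
  have h := Cp.doWhile (𝔅 := 𝔅)
    (fun a i => (R326.un (n a / 2 ^ i), ((List.range i).map (n a).testBit).reverse))
    (fun a => (n a).size) (fun a i => n a / 2 ^ i + ((n a).size + 1))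
    (fun a i => ((n a / 2 ^ i + ((n a).size + 1) : ℕ) : ℝ)) (fun _ _ => 0) (fun _ _ => le_rfl) ?_ ?_
    ((Bud.toF hsum).mono_left fun a => by simp) ?_
  · have h' : L 𝔅 x _ := (hn.pair (L.const ([] : List Bool))).cp
      ((h.mono fun a => by simp).of_in fun a => by simp)
    refine (h'.snd.pt ?_ (f := fun l : List Bool => ofBits l.reverse) (by fun_prop)).congr
      fun a => ?_
    · refine hsm.of_poly 3 fun a => ?_
      have e1 := esize_boolList_le ((List.range ((n a).size + 1)).map (n a).testBit).reverse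
      have e2 := esize_nat (n a)
      simp only [List.length_reverse, List.length_map, List.length_range] at e1
      refine e1.trans ?_
      rw [e2]; nlinarith [Nat.zero_le ((n a).size ^ 2), Nat.zero_le ((n a).size ^ 3)]
    · simp only [List.reverse_reverse, ofBits_map_testBit]
      exact Nat.mod_eq_of_lt ((Nat.lt_size_self _).trans
        (Nat.pow_lt_pow_right (by norm_num) (Nat.lt_succ_self _)))
  · exact sz_pair (sz_un (OLe.of_le fun q => Nat.le_add_right _ _) fun q => Nat.succ_pos _)
      ((hacc _ _).mono_right fun q => q.2.2.trans_le (Nat.le_add_left _ _))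
  · have h0 := L.refl (𝔅.sub (fun q : (a : α) × Fin ((n a).size + 1) => q.1)
      (fun q => n q.1 / 2 ^ q.2.1 + ((n q.1).size + 1))
      (fun q => ((n q.1 / 2 ^ q.2.1 + ((n q.1).size + 1) : ℕ) : ℝ)) fun _ => le_rfl)
      fun q => (R326.un (n q.1 / 2 ^ q.2.1), ((List.range q.2.1).map (n q.1).testBit).reverse)
    have h2 := L.mapAcc_fin (f := fun (s : Bool) (_ : Unit) =>
      (!s, _root_.cond s [()] ([] : List Unit))) (LT.of_finite _) (L.const false)
      h0.fst
    refine L.congr ((h0.fst.isEmpty.finite fun b => !b).pair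
      (h2.snd.flatten.pair (h2.fst.cons h0.snd))) fun q => ?_
    obtain ⟨k1, k2⟩ := halve_un (n q.1 / 2 ^ q.2.1) false
    simp only [k2]
    rw [k1]
    refine Prod.ext ?_ (Prod.ext ?_ ?_)
    · have : q.2.1 < (n q.1).size ↔ n q.1 / 2 ^ q.2.1 ≠ 0 := by
        rw [Nat.lt_size, Ne, Nat.div_eq_zero_iff_lt (Nat.two_pow_pos _), not_lt]
      by_cases hh : n q.1 / 2 ^ q.2.1 = 0 <;> simp [this, hh]
    · simp [Nat.div_div_eq_div_mul, pow_succ]
    · simp [List.range_succ, Nat.testBit_eq_decide_div_mod_eq]
  · refine sz_pair (sz_un (hV.mono_left fun a => Nat.div_le_self _ _) h1)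
      ((hacc _ _).trans (hsm.pb (t := fun m : ℕ => m.size + 1 + 1) (by fun_prop)))

/-- The length of a list, in binary. -/
theorem S.length [Inhabited Y] {l : α → List Y} (hl : L 𝔅 x l) (hx : sz x ≼ 𝔅.V) :
    S 𝔅 x fun a => (l a).length :=
  ⟨hl.un_length.of_un, SmIn.of_ole (sz_one_le hx) (length_of_sz (hl.size_le hx))⟩

end lists

end Crest.Agent.R326
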