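/-
R326/Impl: specifications with pre- and postconditions in the cost calculus.  Author: helper92.
-/
import Crest.Agent.R326.Lin

set_option autoImplicit false
set_option linter.unusedSimpArgs false
set_option linter.unusedSectionVars false

namespace Crest.Agent.R326

open Function Crest.Agent.Lib.PolyTime

variable {α β X Y Z P Q : Type} [Enc X] [Enc Y] [Enc Z] [Enc P] [Enc Q] {𝔅 : Bud α}

/-- `Impl 𝔅 p Pre Post ex`: one program maps `(p a, D)` to some `D'` with `Post a D D'`, for all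
`a` and all `D` with `Pre a D`, in time `O(F a) + ex a` and with sizes `O(V a)`. -/
def Impl (𝔅 : Bud α) (p : α → P) (Pre : α → X → Prop) (Post : α → X → Y → Prop) (ex : α → ℝ) :
    Prop :=
  ∃ f : {q : α × X // Pre q.1 q.2} → Y, (∀ q, Post q.1.1 q.1.2 (f q)) ∧
    sz (fun q : {q : α × X // Pre q.1 q.2} => (p q.1.1, q.1.2)) ≼ (fun q => 𝔅.V q.1.1) ∧
    Cp (𝔅.comap fun q : {q : α × X // Pre q.1 q.2} => q.1.1) (fun q => (p q.1.1, q.1.2)) f
      fun q => ex q.1.1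

namespace Impl
variable {p : α → P} {Pre Pre' : α → X → Prop} {Post Post' : α → X → Y → Prop} {ex ex' : α → ℝ}

/-- Introduction rule: work with an arbitrary family of admissible inputs. -/
theorem intro (hx : sz (fun q : {q : α × X // Pre q.1 q.2} => (p q.1.1, q.1.2)) ≼
      fun q => 𝔅.V q.1.1)
    (h : ∀ (β : Type) (φ : β → α) (D : β → X), (∀ b, Pre (φ b) (D b)) →
      sz (fun b => (p (φ b), D b)) ≼ (fun b => 𝔅.V (φ b)) →
      ∃ D' : β → Y, (∀ b, Post (φ b) (D b) (D' b)) ∧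
        Cp (𝔅.comap φ) (fun b => (p (φ b), D b)) D' fun b => ex (φ b)) :
    Impl 𝔅 p Pre Post ex := by
  obtain ⟨f, h1, h2⟩ := h _ (fun q : {q : α × X // Pre q.1 q.2} => q.1.1) (fun q => q.1.2)
    (fun q => q.2) hx
  exact ⟨f, h1, hx, h2⟩

theorem size_in (h : Impl 𝔅 p Pre Post ex) :
    sz (fun q : {q : α × X // Pre q.1 q.2} => (p q.1.1, q.1.2)) ≼ fun q => 𝔅.V q.1.1 :=
  h.choose_spec.2.1

/-- Elimination rule for a family of admissible inputs. -/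
theorem apply (h : Impl 𝔅 p Pre Post ex) (φ : β → α) (D : β → X) (hD : ∀ b, Pre (φ b) (D b)) :
    ∃ D' : β → Y, (∀ b, Post (φ b) (D b) (D' b)) ∧
      Cp (𝔅.comap φ) (fun b => (p (φ b), D b)) D' fun b => ex (φ b) := by
  obtain ⟨f, h1, h2, h3⟩ := h
  exact ⟨fun b => f ⟨(φ b, D b), hD b⟩, fun b => h1 ⟨(φ b, D b), hD b⟩,
    h3.reindex h2 fun b => ⟨(φ b, D b), hD b⟩⟩

/-- Use an implementation inside a computation. -/
theorem use (h : Impl 𝔅 p Pre Post ex) (φ : β → α) {x : β → Z} {D : β → X} {e0 : β → ℝ}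
    (hD : ∀ b, Pre (φ b) (D b)) (hp : L (𝔅.comap φ) x fun b => p (φ b))
    (hc : Cp (𝔅.comap φ) x D e0) :
    ∃ D' : β → Y, (∀ b, Post (φ b) (D b) (D' b)) ∧
      Cp (𝔅.comap φ) x D' fun b => e0 b + ex (φ b) := by
  obtain ⟨D', h1, h2⟩ := h.apply φ D hD
  exact ⟨D', h1, (hp.pairCp hc).comp h2⟩

/-- Use a linear implementation inside a linear computation. -/
theorem useL (h : Impl 𝔅 p Pre Post fun _ => 0) (φ : β → α) {x : β → Z} {D : β → X}
    (hD : ∀ b, Pre (φ b) (D b)) (hp : L (𝔅.comap φ) x fun b => p (φ b))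
    (hc : L (𝔅.comap φ) x D) :
    ∃ D' : β → Y, (∀ b, Post (φ b) (D b) (D' b)) ∧ L (𝔅.comap φ) x D' := by
  obtain ⟨D', h1, h2⟩ := h.apply φ D hD
  exact ⟨D', h1, (hp.pair hc).cp h2⟩

theorem reindex (h : Impl 𝔅 p Pre Post ex) (φ : β → α) :
    Impl (𝔅.comap φ) (fun b => p (φ b)) (fun b => Pre (φ b)) (fun b => Post (φ b))
      fun b => ex (φ b) :=
  intro (h.size_in.comp fun q : {q : β × X // Pre (φ q.1) q.2} => ⟨(φ q.1.1, q.1.2), q.2⟩)
    fun _ ψ D hD _ => h.apply (fun c => φ (ψ c)) D hD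

/-- Rule of consequence. -/
theorem mono (h : Impl 𝔅 p Pre Post ex) (h1 : ∀ a D, Pre' a D → Pre a D)
    (h2 : ∀ a D D', Pre' a D → Post a D D' → Post' a D D') (h3 : ∀ a, ex a ≤ ex' a) :
    Impl 𝔅 p Pre' Post' ex' :=
  intro (h.size_in.comp fun q : {q : α × X // Pre' q.1 q.2} => ⟨q.1, h1 _ _ q.2⟩)
    fun _ φ D hD _ => by
      obtain ⟨D', k1, k2⟩ := h.apply φ D fun b => h1 _ _ (hD b)
      exact ⟨D', fun b => h2 _ _ _ (hD b) (k1 b), k2.mono fun b => h3 _⟩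

/-- Absorb a part of the exact cost that is `O(F)`. -/
theorem absorb (h : Impl 𝔅 p Pre Post ex) {u : α → ℝ} (hu : u ≲ 𝔅.F)
    (he : ∀ a, ex a ≤ u a + ex' a) : Impl 𝔅 p Pre Post ex' := by
  obtain ⟨f, h1, h2, h3⟩ := h
  exact ⟨f, h1, h2, h3.absorb (hu.comp _) fun q => he _⟩

/-- Enlarge the budgets. -/
theorem mono_bud {𝔅' : Bud α} (h : Impl 𝔅' p Pre Post ex) (ho : 𝔅'.o = 𝔅.o) (hV : 𝔅'.V ≼ 𝔅.V)
    (hF : 𝔅'.F ≲ 𝔅.F) : Impl 𝔅 p Pre Post ex := by
  obtain ⟨f, h1, h2, h3⟩ := h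
  exact ⟨f, h1, h2.trans (hV.comp _), h3.mono_F (by simp only [ho]) (hV.comp _) h2 (hF.comp _)⟩

theorem comp {Pre2 : α → Y → Prop} {Post2 : α → Y → Z → Prop} (h : Impl 𝔅 p Pre Post ex)
    (h' : Impl 𝔅 p Pre2 Post2 ex') (hm : ∀ a D D', Pre a D → Post a D D' → Pre2 a D') :
    Impl 𝔅 p Pre (fun a D D'' => ∃ D', Post a D D' ∧ Post2 a D' D'') fun a => ex a + ex' a :=
  intro h.size_in fun _ φ D hD _ => by
    obtain ⟨D1, k1, k2⟩ := h.apply φ D hD
    obtain ⟨D2, k3, k4⟩ := h'.apply φ D1 fun b => hm _ _ _ (hD b) (k1 b)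
    exact ⟨D2, fun b => ⟨D1 b, k1 b, k3 b⟩, k2.chain k4⟩

/-- Change of parameters: the old parameter is computed from the new one. -/
theorem pull {p' : α → Q} (h : Impl 𝔅 p Pre Post ex) (hp : L 𝔅 p' p) (hp' : sz p' ≼ 𝔅.V) :
    Impl 𝔅 p' Pre Post ex :=
  intro (sz_pair (hp'.comp _) (by have := sz_snd h.size_in; exact this)) fun _ φ D hD _ => by
    obtain ⟨D', k1, k2⟩ := h.apply φ D hD
    exact ⟨D', k1, (((L.in1 _ _ _).comp (hp.reindex hp' φ)).pair (L.in2 _ _ _)).cp k2⟩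

/-- Change of parameters by a polynomial-time function of a small parameter. -/
theorem pull_pt {p' : α → Q} {g : Q → P} (h : Impl 𝔅 (fun a => g (p' a)) Pre Post ex) (hg : PT g)
    (hp' : SmIn 𝔅.V p') : Impl 𝔅 p' Pre Post ex :=
  h.pull ((L.refl _ _).pt hp' hg) hp'.size_le

/-- Case distinction on a decidable property of the parameter. -/
theorem cases (c : α → Prop) [∀ a, Decidable (c a)] (hp : sz p ≼ 𝔅.V)
    (hc : L 𝔅 p fun a => decide (c a))
    (h1 : Impl (𝔅.comap (Subtype.val : {a // c a} → α)) (fun a => p a.1) (fun a => Pre a.1)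
      (fun a => Post a.1) fun a => ex a.1)
    (h2 : Impl (𝔅.comap (Subtype.val : {a // ¬ c a} → α)) (fun a => p a.1) (fun a => Pre a.1)
      (fun a => Post a.1) fun a => ex a.1) : Impl 𝔅 p Pre Post ex := by
  have hx : sz (fun q : {q : α × X // Pre q.1 q.2} => (p q.1.1, q.1.2)) ≼ fun q => 𝔅.V q.1.1 := by
    obtain ⟨c1, k1⟩ := h1.size_in
    obtain ⟨c2, k2⟩ := h2.size_in
    refine ⟨c1 + c2, fun q => ?_⟩
    by_cases h : c q.1.1
    · have := k1 ⟨(⟨q.1.1, h⟩, q.1.2), q.2⟩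
      simp only [sz, add_mul] at this ⊢; omega
    · have := k2 ⟨(⟨q.1.1, h⟩, q.1.2), q.2⟩
      simp only [sz, add_mul] at this ⊢; omega
  refine intro hx fun γ φ D hD hs => ?_
  obtain ⟨D1, k1, k2⟩ := h1.apply (fun b : {b // c (φ b)} => ⟨φ b.1, b.2⟩) (fun b => D b.1)
    fun b => hD b.1
  obtain ⟨D2, k3, k4⟩ := h2.apply (fun b : {b // ¬ c (φ b)} => ⟨φ b.1, b.2⟩) (fun b => D b.1)
    fun b => hD b.1
  refine ⟨fun b => if h : c (φ b) then D1 ⟨b, h⟩ else D2 ⟨b, h⟩, fun b => ?_,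
    Cp.cases (fun b => c (φ b)) ((L.in1 _ _ _).comp (hc.reindex hp φ))
      (k2.congr fun b => by simp [b.2]) (k4.congr fun b => by simp [b.2])⟩
  by_cases h : c (φ b)
  · simpa [h] using k1 ⟨b, h⟩
  · simpa [h] using k3 ⟨b, h⟩

/-- The identity. -/
theorem id (hx : sz (fun q : {q : α × X // Pre q.1 q.2} => (p q.1.1, q.1.2)) ≼
    fun q => 𝔅.V q.1.1) : Impl 𝔅 p Pre (fun _ D D' => D' = D) fun _ => 0 :=
  intro hx fun _ _ D _ _ => ⟨D, fun _ => rfl, L.in2 _ _ _⟩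

/-- A loop with `n a` rounds; round `j` sees the parameter `(p a, j)` and has time budget
`F' a j`.  `Inv a D₀ j D` is the invariant (initial data `D₀`). -/
theorem loop (n : α → ℕ) (F' e' : α → ℕ → ℝ) (hVF : ∀ a i, (𝔅.V a : ℝ) ≤ F' a i)
    (PreS : α → ℕ → X → Prop) (PostS : α → ℕ → X → X → Prop) (Inv : α → X → ℕ → X → Prop)
    (hp : sz p ≼ 𝔅.V) (hn : L 𝔅 p fun a => List.range (n a))
    (hx : sz (fun q : {q : α × X // Pre q.1 q.2} => (p q.1.1, q.1.2)) ≼ fun q => 𝔅.V q.1.1)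
    (body : Impl (𝔅.sub (fun q : (a : α) × Fin (n a) => q.1) (fun q => 𝔅.V q.1)
      (fun q => F' q.1 q.2) fun q => hVF q.1 q.2) (fun q => (p q.1, q.2.1))
      (fun q => PreS q.1 q.2) (fun q => PostS q.1 q.2) fun q => e' q.1 q.2)
    (hF : (fun a => ∑ i ∈ Finset.range (n a), F' a i) ≲ 𝔅.F)
    (h0 : ∀ a D, Pre a D → Inv a D 0 D)
    (h1 : ∀ a D0 j D, Pre a D0 → j < n a → Inv a D0 j D → PreS a j D)
    (h2 : ∀ a D0 j D D', Pre a D0 → j < n a → Inv a D0 j D → PostS a j D D' →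
      Inv a D0 (j + 1) D') :
    Impl 𝔅 p Pre (fun a D D' => Inv a D (n a) D') fun a => ∑ i ∈ Finset.range (n a), e' a i := by
  refine intro hx fun γ φ D hD hs => ?_
  let I : γ → ℕ → P × X → Prop := fun b j s => s.1 = p (φ b) ∧ Inv (φ b) (D b) j s.2
  let ψ : LoopIdx (fun b => n (φ b)) I → (a : α) × Fin (n a) := fun q => ⟨φ q.a, ⟨q.i, q.hi⟩⟩
  have hpre : ∀ q : LoopIdx (fun b => n (φ b)) I, PreS (φ q.a) q.i q.s.2 := fun q =>
    h1 _ _ _ _ (hD q.a) q.hi q.hs.2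
  obtain ⟨D', k1, k2⟩ := body.apply ψ (fun q => q.s.2) hpre
  have hs1 := body.size_in.comp (fun q : LoopIdx (fun b => n (φ b)) I =>
    (⟨(ψ q, q.s.2), hpre q⟩ : {q : ((a : α) × Fin (n a)) × X // PreS q.1.1 q.1.2 q.2}))
  have hr := L.refl ((𝔅.comap φ).sub (fun q : LoopIdx (fun b => n (φ b)) I => q.a)
    (fun q => 𝔅.V (φ q.a)) (fun q => F' (φ q.a) q.i) fun q => hVF (φ q.a) q.i)
    fun q => (q.s, q.i)
  have hr1 := hr.fst.fst.congr fun q => q.hs.1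
  obtain ⟨s', m1, m2⟩ := Cp.loopInv (𝔅 := 𝔅.comap φ) (fun b => n (φ b)) (fun _ i => i) I
    (fun b => (p (φ b), D b)) (fun b => ⟨rfl, h0 _ _ (hD b)⟩) (fun b => F' (φ b))
    (fun b => e' (φ b)) (fun b i => hVF _ _) (fun q => (p (φ q.a), D' q))
    (fun q => ⟨rfl, h2 _ _ _ _ _ (hD q.a) q.hi q.hs.2 (k1 q)⟩)
    (hs1.mono_left fun q => by
      have := q.hs.1
      simp only [sz, esize_pair, esize_prod q.s, this, ψ]; omega)
    (hr1.pairCp (((hr1.pair hr.snd).pair hr.fst.snd).cp k2)) (hF.comp φ)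
  refine ⟨fun b => (s' b).2, fun b => (m1 b).2, L.cp ?_ (m2.l (L.refl _ _).snd)⟩
  exact (L.refl _ _).pair (((L.in1 _ _ _).comp (hn.reindex hp φ)).congr fun b => by simp)

end Impl

/-- The list of round numbers, for a polynomially bounded number of rounds. -/
theorem L.range_pt {p : α → P} (hp : SmIn 𝔅.V p) {n : P → ℕ} (hn : PT n) (hn' : PB n) :
    L 𝔅 p fun a => List.range (n (p a)) :=
  (L.refl _ _).pt hp (f := fun q => List.range (n q)) (by fun_prop)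

end Crest.Agent.R326
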