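/-
R326/Defs: all definitions shared by the files of row 326 (fast integer multiplication).
Author: helper92.  FROZEN (ask helper92 for changes).

Overview of the algorithm (statement S0503), top-down:
* `Main`      recursion on the length `n`; `Params` chooses `tp n : TP`; `Level` is one level.
* `Level`     pack, CRT permutation, two `d`-dimensional DFTs (`Transform`), pointwise products of
              polynomials by recursive calls (`RingMul`), inverse DFT, CRT back, unpack (`Pack`).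
* `Transform` the DFT of sizes `s 0, …, s (d-1)` in fixed point arithmetic; every dimension runs the
              same straight-line program (`Steps`) of butterflies and diagonal factors; the `d`
              butterflies of one step are done at once by `Cnet` in time `vol * K * d ^ tauE`.
* `Cnet`, `Swap` use the network trick of row 324 (`Net`, `NetSwap`, `NetC`).
* `Gat*`      arrays of bits with mixed radix addresses and linear-time rearrangements.
-/
import Crest.Agent.R326.Impl
import Crest.Agent.R326.Digits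
import Crest.Agent.R324.Design

set_option autoImplicit false
set_option linter.unusedSimpArgs false
set_option linter.unusedSectionVars false

namespace Crest.Agent.R326

open Function Crest.Agent.Lib.PolyTime

/-! ### Bit arrays and layouts -/

/-- Bit arrays. -/
abbrev Arr := List Bool

/-- Bit `j` of an array (`false` beyond the end). -/
abbrev bit (D : Arr) (j : ℕ) : Bool := D.getD j false

/-- Block number `t` of length `g`. -/
def blk (g t : ℕ) (D : Arr) : Arr := (D.drop (g * t)).take g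

/-- Change the block length from `g` to `g'` (cut or fill with zeros); `cnt` blocks are produced. -/
def resp (g g' cnt : ℕ) (D : Arr) : Arr :=
  (List.range (g' * cnt)).map fun j => decide (j % g' < g) && bit D (j % g' + g * (j / g'))

/-- A layout: the address space of an array is a product of `n q` fields with radices `r q k`
(field `0` is innermost, i.e. least significant); it is computed from a parameter `q`. -/
structure Lay (P : Type) [Enc P] where
  /-- number of fields -/
  n : P → ℕ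
  /-- radices -/
  r : P → ℕ → ℕ
  hn : PT n
  hn' : PB n
  hr : PT fun q : P × ℕ => r q.1 q.2

namespace Lay
variable {P Q : Type} [Enc P] [Enc Q] (Λ : Lay P)

/-- number of bits -/
def vol (q : P) : ℕ := wt (Λ.r q) (Λ.n q)
/-- the position of the address `v` -/
def pos (q : P) (v : ℕ → ℕ) : ℕ := R326.pos (Λ.r q) v (Λ.n q)
/-- the address `v` is in range -/
def Val (q : P) (v : ℕ → ℕ) : Prop := R326.Val (Λ.r q) (Λ.n q) v
/-- the digits of the fields `≥ i` (the others are replaced by `0`) as a list -/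
def od (q : P) (i : ℕ) (v : ℕ → ℕ) : List ℕ :=
  (List.range (Λ.n q)).map fun k => if k < i then 0 else v k
/-- the index of the record (field `0` is the position inside a record) -/
def ri (q : P) (v : ℕ → ℕ) : ℕ := rg (Λ.r q) v 1 (Λ.n q - 1)
/-- the number of records -/
def nrec (q : P) : ℕ := rwt (Λ.r q) 1 (Λ.n q - 1)

/-- Change of parameter. -/
@[reducible] def comap (g : Q → P) (hg : PT g) : Lay Q :=
  ⟨fun q => Λ.n (g q), fun q => Λ.r (g q), Λ.hn.comp hg, Λ.hn'.comp hg,
    Λ.hr.comp (g := fun q : Q × ℕ => (g q.1, q.2)) (by fun_prop)⟩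

/-- The layout given by a list of radices. -/
@[reducible] def ofList (f : P → List ℕ) (hf : PT f) : Lay P :=
  ⟨fun q => (f q).length, fun q k => (f q).getD k 1, by fun_prop, by fun_prop, by fun_prop⟩

/-- The layout seen inside a loop (the parameter is extended by the round number). -/
@[reducible] def ext (J : Type) [Enc J] : Lay (P × J) := Λ.comap Prod.fst PT.fst'

end Lay

/-- Standing assumptions on a family of arrays: positive radices, the parameter is small relative
to the weight of field `b` (blocks of the fields `< b` pay for polynomial-time address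
computations), the volume is within the size budget `V`. -/
structure Fam {α P : Type} [Enc P] (V : α → ℕ) (p : α → P) (Λ : Lay P) (b : ℕ) : Prop where
  base : ∀ a, b ≤ Λ.n (p a)
  pos : ∀ a, ∀ k < Λ.n (p a), 0 < Λ.r (p a) k
  small : SmIn (fun a => wt (Λ.r (p a)) b) p
  vol : (fun a => Λ.vol (p a)) ≼ V

/-- Postcondition of a gather: `D'[v] = D[w]` whenever `Rl v w`. -/
def GPost {P : Type} [Enc P] (Λ Λ' : Lay P) (q : P) (Rl : (ℕ → ℕ) → (ℕ → ℕ) → Prop) (D D' : Arr) :
    Prop :=
  D'.length = Λ'.vol q ∧ ∀ v w, Λ'.Val q v → Λ.Val q w → Rl v w →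
    bit D' (Λ'.pos q v) = bit D (Λ.pos q w)

/-- A gather from layout `Λ` to layout `Λ'`: the new bit at `v` is the old bit at `w` whenever
`Rl a v w` (nothing is promised for other addresses). -/
def Gat {α P : Type} [Enc P] (𝔅 : Bud α) (p : α → P) (Λ Λ' : Lay P)
    (Rl : α → (ℕ → ℕ) → (ℕ → ℕ) → Prop) (ex : α → ℝ) : Prop :=
  Impl 𝔅 p (fun a (D : Arr) => D.length = Λ.vol (p a))
    (fun a D D' => GPost Λ Λ' (p a) (Rl a) D D') ex

/-- `v` and `w` agree outside the fields `i, …, i + len - 1`. -/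
def Out (n i len : ℕ) (v w : ℕ → ℕ) : Prop := ∀ k < n, k < i ∨ i + len ≤ k → v k = w k

/-- `B` has many factors `2` (each level of a network recursion uses up `71` of them) and
`V` is at most quasi-polynomial in what is left. -/
def Rich (k e B V : ℕ) : Prop := ∃ E, 2 ^ (E + 71 * e) ∣ B ∧ V.size ≤ (E + 2) ^ k

/-- The exponent of the two network recursions. -/
noncomputable def tauE : ℝ := 1 - 1 / 2 ^ 50

/-- The exponent of the theorem. -/
noncomputable def muE : ℝ := 1 - 1 / 2 ^ 182

/-! ### Networks -/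

/-- `Reach Gen S r T`: from the labelled values `S` one gets those in `T` by `r` moves (adding a
generator to a label) and linear operations at equal labels. -/
inductive Reach (𝕜 : Type) {Lb M : Type} [CommRing 𝕜] [Add Lb] [AddCommGroup M] [Module 𝕜 M]
    (Gen : Lb → Prop) (S : Set (Lb × M)) : ℕ → Set (Lb × M) → Prop
  | base : Reach 𝕜 Gen S 0 S
  | mono {r r' : ℕ} {T T' : Set (Lb × M)} : Reach 𝕜 Gen S r T → r ≤ r' → T' ⊆ T →
      Reach 𝕜 Gen S r' T'
  | move {r : ℕ} {T : Set (Lb × M)} {B Δ : Lb} {z : M} : Reach 𝕜 Gen S r T → (B, z) ∈ T → Gen Δ →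
      Reach 𝕜 Gen S (r + 1) (insert (B + Δ, z) T)
  | zero {r : ℕ} {T : Set (Lb × M)} (B : Lb) : Reach 𝕜 Gen S r T →
      Reach 𝕜 Gen S r (insert (B, 0) T)
  | add {r : ℕ} {T : Set (Lb × M)} {B : Lb} {z z' : M} : Reach 𝕜 Gen S r T → (B, z) ∈ T →
      (B, z') ∈ T → Reach 𝕜 Gen S r (insert (B, z + z') T)
  | smul {r : ℕ} {T : Set (Lb × M)} {B : Lb} {z : M} (c : 𝕜) : Reach 𝕜 Gen S r T → (B, z) ∈ T →
      Reach 𝕜 Gen S r (insert (B, c • z) T)

/-- A network on `W` wires that advances every wire by `one` with only `r` moves. -/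
def NetOK (𝕜 : Type) {Lb : Type} [CommRing 𝕜] [Add Lb] (Gen : Lb → Prop) (one : Lb) (W r : ℕ)
    (start : Fin W → Lb) : Prop :=
  Reach 𝕜 Gen (Set.range fun w => (start w, (Pi.single w 1 : Fin W → 𝕜))) r
    (Set.range fun w => (start w + one, (Pi.single w 1 : Fin W → 𝕜)))

/-- `B` is a sum of at most `r` generators. -/
def RkG {Lb : Type} [AddCommMonoid Lb] (Gen : Lb → Prop) (B : Lb) (r : ℕ) : Prop :=
  ∃ l : List Lb, l.length ≤ r ∧ (∀ Δ ∈ l, Gen Δ) ∧ B = l.sum

/-- The coefficient ring of the labels of the swap network. -/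
abbrev FF := ∀ u : ℕ, ZMod (11 ^ u)

/-- Generators of the swap network: `a bᵀ / N` with integer vectors whose nonzero entries, like
`N`, are prime to `11`. -/
def GenS {ι : Type} (Δ : Matrix ι ι FF) : Prop :=
  ∃ (N : ℕ) (a b : ι → ℤ), N.Coprime 11 ∧ (∀ i, a i = 0 ∨ (a i).natAbs.Coprime 11) ∧
    (∀ i, b i = 0 ∨ (b i).natAbs.Coprime 11) ∧ ∀ i j, (N : FF) * Δ i j = ((a i * b j : ℤ) : FF)

/-- Generators of the butterfly network. -/
def GenC {ι : Type} (Δ : Matrix ι ι (ZMod 2)) : Prop := ∃ w, Δ = R324.tau w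

/-- The scalars of the butterfly network. -/
abbrev Dy := Localization.Away (2 : ℤ)

/-! ### Swaps -/

/-- The layout `[B | Q | A2 | Q | A1]`. -/
@[reducible] def lay5 : Lay (ℕ × ℕ × ℕ × ℕ) :=
  Lay.ofList (fun q => [q.1, q.2.1, q.2.2.1, q.2.1, q.2.2.2]) (by fun_prop)

/-- Exchange of the fields `1` and `3`. -/
def SwR (v w : ℕ → ℕ) : Prop := v 0 = w 0 ∧ v 1 = w 3 ∧ v 2 = w 2 ∧ v 3 = w 1 ∧ v 4 = w 4

/-- Exchange of the fields `i` and `j`. -/
def Sw1 (n i j : ℕ) (v w : ℕ → ℕ) : Prop :=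
  v i = w j ∧ v j = w i ∧ ∀ k < n, k ≠ i → k ≠ j → v k = w k

/-- The shear `x ↦ x + M y` modulo `11 ^ u`, where `y` sits in the fields `iy, …, iy + m - 1` and
`x` in the fields `ix, …, ix + m - 1`. -/
def Shear {m : ℕ} (M : Matrix (Fin m) (Fin m) FF) (u n iy ix : ℕ) (v w : ℕ → ℕ) : Prop :=
  Out n ix m v w ∧ ∀ l : Fin m, ((w (ix + l) : ℕ) : ZMod (11 ^ u)) =
    (v (ix + l) : ℕ) + ∑ k : Fin m, M l k u * ((v (iy + k) : ℕ) : ZMod (11 ^ u))

/-! ### Bit flips and tensor products of butterflies -/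

/-- Radix of a chunk with guard bits. -/
def Gam (K : ℕ) : ℕ := 2 ^ (3 * K)

/-- The used part of a chunk with guard bits. -/
def Gam0 (K : ℕ) : ℕ := 2 ^ (2 * K) * (2 ^ K - 1)

/-- The active chunks `i, …, i + ℓ - 1` and the scratch chunks `iz, …, iz + ℓ - 1` are in the used
range. -/
def Good (K i iz ℓ : ℕ) (v : ℕ → ℕ) : Prop := ∀ g < ℓ, v (i + g) < Gam0 K ∧ v (iz + g) < Gam0 K

/-- Flip bit `j` of the fields in the support of `g`. -/
def flp (j : ℕ) (g : ℕ → ZMod 2) (v : ℕ → ℕ) : ℕ → ℕ :=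
  fun k => if g k = 1 then v k ^^^ 2 ^ j else v k

/-- The product of the operators `α + β π^*`. -/
def Tens {R V : Type} [CommRing R] (α β : R) (πs : List (V → V)) (f : V → R) : V → R :=
  πs.foldr (fun π f v => α * f v + β * f (π v)) f

/-- Butterflies on bit `j` of each of the fields `i, …, i + ℓ - 1`. -/
def Cten {R : Type} [CommRing R] (α β : R) (j i ℓ : ℕ) (f : (ℕ → ℕ) → R) : (ℕ → ℕ) → R :=
  Tens α β ((List.range ℓ).map fun g => flp j (Pi.single (i + g) 1)) f

/-- The vector `u` placed in column `c` of the `m × ℓ` array of fields `i + l * ℓ + c`. -/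
def colv {m : ℕ} (i ℓ : ℕ) (u : Fin m → ZMod 2) (c : ℕ) : ℕ → ZMod 2 :=
  fun k => ∑ l : Fin m, if k = i + l * ℓ + c then u l else 0

/-- The vector `u` placed in all columns. -/
def allv {m : ℕ} (i ℓ : ℕ) (u : Fin m → ZMod 2) : ℕ → ZMod 2 :=
  fun k => ∑ l : Fin m, if i + l * ℓ ≤ k ∧ k < i + (l + 1) * ℓ then u l else 0

/-- Butterflies in direction `w` in every column. -/
def Wten {R : Type} [CommRing R] {m : ℕ} (α β : R) (j i ℓ : ℕ) (w : Fin m → ZMod 2)
    (f : (ℕ → ℕ) → R) : (ℕ → ℕ) → R :=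
  Tens α β ((List.range ℓ).map fun c => flp j (colv i ℓ w c)) f

/-! ### Records: Gaussian integers modulo `2 ^ P - 1` -/

/-- Gaussian integers modulo `2 ^ P - 1`. -/
abbrev RR (P : ℕ) := QuadraticAlgebra (ZMod (2 ^ P - 1)) (-1) 0

/-- Signed value of a word (ones' complement). -/
def sv (P : ℕ) (l : Arr) : ℤ :=
  if 2 ^ (P - 1) ≤ ofBits l then (ofBits l : ℤ) - (2 ^ P - 1) else ofBits l

/-- Record `t` (two words of `P` bits) as an element of `RR P`. -/
def rv (P : ℕ) (D : Arr) (t : ℕ) : RR P :=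
  ⟨(ofBits (blk P (2 * t) D) : ℕ), (ofBits (blk P (2 * t + 1) D) : ℕ)⟩

/-- Record `t` as a Gaussian integer. -/
def gv (P : ℕ) (D : Arr) (t : ℕ) : GaussianInt :=
  ⟨sv P (blk P (2 * t) D), sv P (blk P (2 * t + 1) D)⟩

/-- Record `t` as a complex number. -/
noncomputable def gc (P : ℕ) (D : Arr) (t : ℕ) : ℂ := GaussianInt.toComplex (gv P D t)

/-- The imaginary unit. -/
def iR (P : ℕ) : RR P := ⟨0, 1⟩

/-- One half (for `P ≥ 1`). -/
def hR (P : ℕ) : RR P := ((2 ^ (P - 1) : ℕ) : RR P)

theorem iR_mul_iR (P : ℕ) : iR P * iR P = -1 := by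
  ext <;> simp [iR, QuadraticAlgebra.re_one, QuadraticAlgebra.im_one]

theorem two_mul_hR {P : ℕ} (h : 1 ≤ P) : 2 * hR P = 1 := by
  have h1 : ((2 ^ P - 1 : ℕ) : RR P) = 0 := by
    ext
    · rw [QuadraticAlgebra.re_natCast, ZMod.natCast_self]; rfl
    · rfl
  have h2 : 2 ^ P = (2 ^ P - 1) + 1 := by have := Nat.two_pow_pos P; omega
  have h3 : 2 * 2 ^ (P - 1) = 2 ^ P := by
    rw [← pow_succ']; congr 1; omega
  have h4 := congrArg (Nat.cast : ℕ → RR P) (h3.trans h2)
  rwa [Nat.cast_mul, Nat.cast_add, h1, zero_add, Nat.cast_one, Nat.cast_ofNat] at h4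

/-- Reduction modulo `2 ^ P - 1`. -/
def rho (P : ℕ) : GaussianInt →+* RR P := Zsqrtd.lift ⟨iR P, by simpa using iR_mul_iR P⟩

/-- `(1 + i) / 2`. -/
def aR (P : ℕ) : RR P := hR P * (1 + iR P)

/-- `(1 - i) / 2`. -/
def bR (P : ℕ) : RR P := hR P * (1 - iR P)

/-- `D` consists of `n` records with values `f 0, …, f (n - 1)`. -/
def RArr (P n : ℕ) (D : Arr) (f : ℕ → RR P) : Prop :=
  D.length = 2 * P * n ∧ ∀ t < n, rv P D t = f t

/-- The product of two numbers given by little-endian bit lists of the same length. -/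
def mulBits (x y : Arr) : Arr := (List.range (2 * x.length)).map (ofBits x * ofBits y).testBit

/-- The environment multiplies numbers of `m a` bits within `Tm a` steps. -/
def HM {α : Type} (𝔅 : Bud α) (m : α → ℕ) (Tm : α → ℝ) : Prop :=
  ∀ a (x y : Arr), x.length = m a → y.length = m a →
    Handles (𝔅.o a) (enc (x, y)) (enc (mulBits x y)) (Tm a)

/-- Postcondition of the parallel butterflies. -/
def CPost {P : Type} [Enc P] (Λ : Lay P) (q : P) (Pw K j i iz ℓ : ℕ) (D D' : Arr) : Prop :=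
  D'.length = Λ.vol q ∧ ∀ v, Λ.Val q v → Good K i iz ℓ v →
    rv Pw D' (Λ.ri q v) = Cten (aR Pw) (bR Pw) j i ℓ (fun u => rv Pw D (Λ.ri q u)) v

/-! ### Straight-line programs for the Fourier transform -/

/-- `e^{2 π i t}`. -/
noncomputable def ee (t : ℚ) : ℂ := Complex.exp (2 * Real.pi * Complex.I * t)

/-- Symbolic diagonal values `q * (∑ e(t)) ^ (± 1)`. -/
abbrev DV := ℚ × List ℚ × Bool

/-- The value. -/
noncomputable def DV.val (c : DV) : ℂ :=
  c.1 * (if c.2.2 then ((c.2.1.map ee).sum)⁻¹ else (c.2.1.map ee).sum)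

/-- Inverted sums are not small. -/
def DV.ok (c : DV) : Prop := c.2.2 = true → 1 ≤ ‖(c.2.1.map ee).sum‖

/-- A step: an optional butterfly on bit `j` of the current row, then the diagonal with the given
code. -/
abbrev Atom := Option ℕ × ℕ

/-- A program: phases (row, steps). -/
abbrev FProg := List (ℕ × List Atom)

/-- Parameters of one dimension: `(un (2 h), un K, un R, s, inv)` with `h = 2 ^ (K R)`. -/
abbrev SP := List Unit × List Unit × List Unit × ℕ × Bool

/-- The parameters of one dimension. -/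
def mkSP (K R s : ℕ) (inv : Bool) : SP := (un (2 * 2 ^ (K * R)), un K, un R, s, inv)

/-- One step in one dimension; `c code x` is the diagonal value. -/
noncomputable def atom1 (K : ℕ) (c : ℕ → ℕ → ℂ) (row : ℕ) (at' : Atom) (f : ℕ → ℂ) : ℕ → ℂ :=
  fun x => c at'.2 x * at'.1.elim (f x) fun j =>
    (1 + Complex.I) * f x + (1 - Complex.I) * f (x ^^^ 2 ^ (row * K + j))

/-- Run a program with an arbitrary semantics of steps (first step first). -/
def runP {F : Type} (step : ℕ → Atom → F → F) (prog : FProg) (f : F) : F :=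
  prog.foldl (fun f ph => ph.2.foldl (fun f at' => step ph.1 at' f) f) f

/-- One step in the dimensions `2, …, 2 + d - 1` at once; `c i` belongs to coordinate `2 + i`. -/
noncomputable def atomD (K d : ℕ) (c : ℕ → ℕ → ℕ → ℂ) (row : ℕ) (at' : Atom)
    (F : (ℕ → ℕ) → ℂ) : (ℕ → ℕ) → ℂ :=
  fun y => (∏ i ∈ Finset.range d, c i at'.2 (y (2 + i))) * at'.1.elim (F y) fun j =>
    Cten (1 + Complex.I) (1 - Complex.I) (row * K + j) 2 d F y

/-- Total weight of a program. -/
def FProg.wt (lg : ℕ → ℕ) (prog : FProg) : ℕ :=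
  (prog.map fun ph => (ph.2.map fun at' => lg at'.2 + 2).sum).sum

/-- Kernel of the (inverse) Fourier transform of length `s`. -/
noncomputable def ker (inv : Bool) (s j k : ℕ) : ℂ :=
  if inv then ee (-((j * k : ℕ) : ℚ) / s) / s else ee (((j * k : ℕ) : ℚ) / s)

/-- What a program has to compute in one dimension: on each block `b` of length `h` the transform
of length `s`, where odd blocks are given in reversed order. -/
def Spec1 (h s : ℕ) (inv : Bool) (T : (ℕ → ℂ) → ℕ → ℂ) : Prop :=
  ∀ (f : ℕ → ℂ) (k b : ℕ), k < s → T f (k + h * b) =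
    ∑ j ∈ Finset.range s, ker inv s j k * f ((if Even b then j else s - 1 - j) + h * b)

/-- The data of the programs: `prog (un K, un R)`, diagonal values `dv (mkSP .., code, x)`, and
bounds `lg K R code` on their logarithms. -/
structure ProgOK (c0 : ℕ) (prog : List Unit × List Unit → FProg) (dv : SP × ℕ × ℕ → DV)
    (lg : ℕ → ℕ → ℕ → ℕ) : Prop where
  pt_prog : PT prog
  pt_dv : PT dv
  len : ∀ K R, 1 ≤ K → 1 ≤ R → (prog (un K, un R)).length ≤ c0 * R
  rows : ∀ K R, 1 ≤ K → 1 ≤ R → ∀ ph ∈ prog (un K, un R), ph.1 ≤ R ∧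
    ∀ at' ∈ ph.2, ∀ j, at'.1 = some j → j < K
  wt : ∀ K R, 1 ≤ K → 1 ≤ R → (prog (un K, un R)).wt (lg K R) ≤ c0 * (K * R)
  ok : ∀ K R s inv, 1 ≤ K → 1 ≤ R → 1 ≤ s → s ≤ 2 ^ (K * R) → ∀ code x,
    (dv (mkSP K R s inv, code, x)).ok ∧ ‖(dv (mkSP K R s inv, code, x)).val‖ ≤ 2 ^ lg K R code
  spec : ∀ K R s inv, 1 ≤ K → 1 ≤ R → 1 ≤ s → s ≤ 2 ^ (K * R) → Spec1 (2 ^ (K * R)) s inv
    (runP (atom1 K fun code x => (dv (mkSP K R s inv, code, x)).val) (prog (un K, un R)))

/-- Replace the coordinates `2, …, 2 + d - 1`. -/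
def mrg {d : ℕ} (v : ℕ → ℕ) (J : Fin d → ℕ) : ℕ → ℕ :=
  fun c => if h : 2 ≤ c ∧ c < 2 + d then J ⟨c - 2, by omega⟩ else v c

/-- The `d`-dimensional (inverse) Fourier transform in the coordinates `2, …, 2 + d - 1`. -/
noncomputable def dftD (inv : Bool) (s : ℕ → ℕ) (d : ℕ) (F : (ℕ → ℕ) → ℂ) (v : ℕ → ℕ) : ℂ :=
  ∑ J ∈ Fintype.piFinset fun i : Fin d => Finset.range (s i),
    (∏ i : Fin d, ker inv (s i) (J i) (v (2 + i))) * F (mrg v J)

/-- The coordinates `2 + i` are below `s i`. -/
def InS (s : ℕ → ℕ) (d : ℕ) (v : ℕ → ℕ) : Prop := ∀ i < d, v (2 + i) < s i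

/-! ### Parameters of one level -/

/-- Parameters of the transform. -/
structure TP where
  /-- bits per chunk -/
  K : ℕ
  /-- chunks per dimension -/
  R : ℕ
  /-- number of dimensions -/
  d : ℕ
  /-- word length -/
  P : ℕ
  /-- radix of field `1` in the expanded layout -/
  Zr : ℕ
  /-- precision of the diagonal factors -/
  sh : ℕ
  /-- the lengths -/
  s : List ℕ
  /-- inverse transform? -/
  inv : Bool

namespace TP

/-- the padded length of each dimension -/
def h (t : TP) : ℕ := 2 ^ (t.K * t.R)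

/-- the code of the parameters -/
def tup (t : TP) : (List Unit × List Unit × List Unit × List Unit) ×
    (List Unit × ℕ × List Unit × List ℕ × Bool) :=
  ((un (2 * t.h), un t.K, un t.R, un t.d), (un t.P, t.Zr, un t.sh, t.s, t.inv))

theorem tup_injective : Function.Injective tup := by
  rintro ⟨_, _, _, _, _, _, _, _⟩ ⟨_, _, _, _, _, _, _, _⟩ h
  simp only [tup, un, Prod.mk.injEq, List.replicate_left_inj] at h
  obtain ⟨⟨-, rfl, rfl, rfl⟩, rfl, rfl, rfl, rfl, rfl⟩ := h
  rfl

instance : Enc TP := Enc.ofInj tup tup_injective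

section pt
variable {α : Type} [Enc α] {t : α → TP}
theorem pt_tup (ht : PT t) : PT fun a => (t a).tup := ht.of_enc_eq_out fun _ => rfl
@[fun_prop] theorem pt_K (ht : PT t) : PT fun a => (t a).K :=
  (pt_tup ht).fst.snd.fst.length.of_eq fun _ => by simp [tup]
@[fun_prop] theorem pb_K (ht : PT t) : PB fun a => (t a).K :=
  (PB.length (pt_tup ht).fst.snd.fst).mono fun _ => by simp [tup]
@[fun_prop] theorem pt_R (ht : PT t) : PT fun a => (t a).R :=
  (pt_tup ht).fst.snd.snd.fst.length.of_eq fun _ => by simp [tup]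
@[fun_prop] theorem pb_R (ht : PT t) : PB fun a => (t a).R :=
  (PB.length (pt_tup ht).fst.snd.snd.fst).mono fun _ => by simp [tup]
@[fun_prop] theorem pt_d (ht : PT t) : PT fun a => (t a).d :=
  (pt_tup ht).fst.snd.snd.snd.length.of_eq fun _ => by simp [tup]
@[fun_prop] theorem pb_d (ht : PT t) : PB fun a => (t a).d :=
  (PB.length (pt_tup ht).fst.snd.snd.snd).mono fun _ => by simp [tup]
@[fun_prop] theorem pt_P (ht : PT t) : PT fun a => (t a).P :=
  (pt_tup ht).snd.fst.length.of_eq fun _ => by simp [tup]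
@[fun_prop] theorem pb_P (ht : PT t) : PB fun a => (t a).P :=
  (PB.length (pt_tup ht).snd.fst).mono fun _ => by simp [tup]
@[fun_prop] theorem pt_Zr (ht : PT t) : PT fun a => (t a).Zr := (pt_tup ht).snd.snd.fst
@[fun_prop] theorem pt_sh (ht : PT t) : PT fun a => (t a).sh :=
  (pt_tup ht).snd.snd.snd.fst.length.of_eq fun _ => by simp [tup]
@[fun_prop] theorem pb_sh (ht : PT t) : PB fun a => (t a).sh :=
  (PB.length (pt_tup ht).snd.snd.snd.fst).mono fun _ => by simp [tup]
@[fun_prop] theorem pt_s (ht : PT t) : PT fun a => (t a).s := (pt_tup ht).snd.snd.snd.snd.fst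
@[fun_prop] theorem pt_inv (ht : PT t) : PT fun a => (t a).inv := (pt_tup ht).snd.snd.snd.snd.snd
@[fun_prop] theorem pt_h (ht : PT t) : PT fun a => (t a).h := by
  unfold h; fun_prop
@[fun_prop] theorem pb_h (ht : PT t) : PB fun a => (t a).h :=
  (PB.length (pt_tup ht).fst.fst).mono fun _ => by simp [tup]; omega
end pt

/-- the length of dimension `i` -/
def sf (t : TP) (i : ℕ) : ℕ := t.s.getD i 1

/-- product of the first `j` lengths -/
def S (t : TP) (j : ℕ) : ℕ := wt t.sf j

/-- radix of field `1` in the compact layout -/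
def Zt (t : TP) : ℕ := t.Zr * Gam0 t.K ^ (2 * t.d)

/-- half of it -/
def Zh (t : TP) : ℕ := t.Zt / 2

/-- the parameters of dimension `i` -/
def sp (t : TP) (i : ℕ) : SP := mkSP t.K t.R (t.sf i) t.inv

/-- the same parameters for the inverse transform -/
def rev (t : TP) : TP := { t with inv := true }

/-- the inverse of `S i` modulo `sf i` -/
def nu (t : TP) (i : ℕ) : ℕ :=
  ((List.range t.h).find? fun x => x * t.S i % t.sf i == 1 % t.sf i).getD 0

/-- length of the numbers in the recursive calls for polynomial products -/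
def m2 (t : TP) : ℕ := 3 * t.P * t.Zh

end TP

/-- The compact layout `[2 P | Zt | h × d]`. -/
def layM : Lay TP :=
  ⟨fun t => 2 + t.d, fun t k => if k = 0 then 2 * t.P else if k = 1 then t.Zt else t.h,
    by fun_prop, by fun_prop, by unfold TP.Zt Gam0; fun_prop⟩

/-- The expanded layout `[2 P | Zr | Γ × d | Γ × d | 2 ^ K × (d R)]`: active chunks, scratch
chunks, and the rows `2 + 2 d + i R + ρ` (`ρ < R`) of dimension `i`. -/
def layX : Lay TP :=
  ⟨fun t => 2 + 2 * t.d + t.d * t.R, fun t k => if k = 0 then 2 * t.P else if k = 1 then t.Zr else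
      if k < 2 + 2 * t.d then Gam t.K else 2 ^ t.K,
    by fun_prop, by fun_prop, by unfold Gam; fun_prop⟩

/-- The logical address of the physical address `v` (layout `layX`) while row `ρ` is active, i.e.
exchanged with the low `K` bits of the active chunks (`ρ = R`: nothing is exchanged).  Coordinate
`2 + i` is `k + h b`, where `k < h` is the index in dimension `i`. -/
def logi (t : TP) (ρ : ℕ) (v : ℕ → ℕ) : ℕ → ℕ := fun c =>
  if 2 ≤ c ∧ c < 2 + t.d then
    (∑ σ ∈ Finset.range t.R, (2 ^ t.K) ^ σ *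
      (if σ = ρ then v c % 2 ^ t.K else v (2 + 2 * t.d + (c - 2) * t.R + σ))) +
    t.h * (if ρ < t.R then v (2 + 2 * t.d + (c - 2) * t.R + ρ) + 2 ^ t.K * (v c / 2 ^ t.K) else v c)
  else if 1 ≤ c ∧ c < 2 + 2 * t.d then v c else 0

/-- `D` (layout `layX`, row `ρ` active) approximates `F` up to `2 ^ e`; `F` is at most
`2 ^ (mb + e)`. -/
def Apx (t : TP) (ρ mb e : ℕ) (F : (ℕ → ℕ) → ℂ) (D : Arr) : Prop :=
  D.length = layX.vol t ∧ ∀ v, layX.Val t v → Good t.K 2 (2 + t.d) t.d v →
    ‖gc t.P D (layX.ri t v) - F (logi t ρ v)‖ ≤ 2 ^ e ∧ ‖F (logi t ρ v)‖ ≤ 2 ^ (mb + e)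

/-- Admissible parameters. -/
structure TP.OK (k : ℕ) (t : TP) : Prop where
  hK : 1 ≤ t.K
  hR : 1 ≤ t.R
  hd : 1 ≤ t.d
  hP : 2 ≤ t.P
  hZ : 0 < t.Zr
  hs : ∀ i < t.d, 1 ≤ t.sf i ∧ t.sf i ≤ t.h
  dvd : t.h ∣ t.Zr
  rich : Rich k ((layX.vol t).size.size + t.d.size) (t.Zr / t.h) (layX.vol t)

/-- Admissible families of parameters. -/
structure TFam {α : Type} (V : α → ℕ) (p : α → TP) (k : ℕ) : Prop where
  ok : ∀ a, (p a).OK k
  small : SmIn (fun a => (p a).Zr / (p a).h) p
  vol : (fun a => layX.vol (p a)) ≼ V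

/-- The number of passes over the data (apart from multiplications). -/
noncomputable def TP.cost (t : TP) : ℝ :=
  t.d * ((t.K * t.R + 1 : ℕ) : ℝ) ^ tauE + t.R * t.d * (t.K : ℝ) ^ tauE +
    t.K * t.R * t.K * (t.d : ℝ) ^ tauE

/-- The parameters fit the multiplication of `n`-bit numbers, cut into pieces of `n.size` bits. -/
structure TP.Fit (c0 : ℕ) (t : TP) (n : ℕ) : Prop where
  inv : t.inv = false
  cop : ∀ i < t.d, ∀ j < t.d, i ≠ j → (t.sf i).Coprime (t.sf j)
  big : n ≤ n.size * (t.Zh * (t.S t.d / 2))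
  sm : t.Zh * t.S t.d ≤ 2 ^ n.size
  dim : t.d * (t.K * t.R) ≤ n.size
  hP : t.P = (3 * c0 + 22) * n.size
  hsh : t.sh = (c0 + 11) * n.size

/-- Piece number `t` of `b` bits. -/
def piece (b X t : ℕ) : ℕ := X / 2 ^ (b * t) % 2 ^ b

/-- The time bound per bit. -/
noncomputable def ell (n : ℕ) : ℝ := Real.logb 2 (n + 2) ^ muE

end Crest.Agent.R326
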