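/-
R326/StepsA: operators realized by straight-line programs; the power-of-two Fourier transform.
-/
import Crest.Agent.R326.Defs

set_option autoImplicit false
set_option linter.unusedSimpArgs false
set_option linter.unusedSectionVars false
set_option linter.unusedVariables false

namespace Crest.Agent.R326

open Function Crest.Agent.Lib.PolyTime

theorem ee_add (s t : ℚ) : ee (s + t) = ee s * ee t := by
  unfold ee
  rw [← Complex.exp_add]
  congr 1
  push_cast
  ring

@[simp] theorem ee_zero : ee 0 = 1 := by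
  simp [ee]

theorem ee_int (z : ℤ) : ee z = 1 := by
  unfold ee
  rw [← Complex.exp_int_mul_two_pi_mul_I z]
  congr 1
  push_cast
  ring

@[simp] theorem norm_ee (t : ℚ) : ‖ee t‖ = 1 := by
  unfold ee
  rw [← Complex.norm_exp_ofReal_mul_I (2 * Real.pi * t)]
  congr 2
  push_cast
  ring

theorem ee_quarter : ee (1 / 4) = Complex.I := by
  unfold ee
  refine Eq.trans ?_ Complex.exp_pi_div_two_mul_I
  congr 1
  push_cast
  ring

theorem ee_half : ee (1 / 2) = -1 := by
  unfold ee
  rw [← Complex.exp_pi_mul_I]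
  congr 1
  push_cast
  ring

theorem ee_nat_mul (k : ℕ) (t : ℚ) : ee (k * t) = ee t ^ k := by
  induction k with
  | zero => simp
  | succ k ih => rw [Nat.cast_succ, add_mul, one_mul, ee_add, ih, pow_succ]

theorem ee_eq_one_iff (t : ℚ) : ee t = 1 ↔ ∃ z : ℤ, t = z := by
  constructor
  · intro h
    obtain ⟨n, hn⟩ := Complex.exp_eq_one_iff.1 h
    refine ⟨n, ?_⟩
    have h2 : (2 * Real.pi * Complex.I : ℂ) ≠ 0 := by
      simp [Real.pi_ne_zero, Complex.I_ne_zero]
    have h3 : (t : ℂ) = (n : ℂ) := by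
      apply mul_left_cancel₀ h2
      rw [hn]; ring
    exact_mod_cast h3
  · rintro ⟨z, rfl⟩
    exact ee_int z

theorem ee_neg_mul (t : ℚ) : ee (-t) * ee t = 1 := by
  rw [← ee_add, neg_add_cancel, ee_zero]

theorem ee_sub_quarter (t : ℚ) : ee (t - 1 / 4) = -Complex.I * ee t := by
  have h := ee_add (t - 1 / 4) (1 / 4)
  rw [sub_add_cancel, ee_quarter] at h
  rw [h]
  linear_combination (ee (t - 1 / 4)) * Complex.I_mul_I

/-- Orthogonality. -/
theorem sum_ee {s : ℕ} (hs : 0 < s) (z : ℤ) :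
    ∑ k ∈ Finset.range s, ee ((k * z : ℤ) / s) = if (s : ℤ) ∣ z then (s : ℂ) else 0 := by
  have hs' : (s : ℚ) ≠ 0 := by positivity
  have e : ∀ k : ℕ, ee ((k * z : ℤ) / s) = ee (z / s) ^ k := by
    intro k
    rw [← ee_nat_mul]
    congr 1
    push_cast
    ring
  simp only [e]
  split_ifs with h
  · obtain ⟨m, rfl⟩ := h
    have : ee (((s * m : ℤ) : ℚ) / s) = 1 := by
      rw [← ee_int m]
      congr 1
      push_cast
      field_simp
    rw [this]
    simp
  · have h1 : ee (z / s) ≠ 1 := by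
      intro h1
      obtain ⟨m, hm⟩ := (ee_eq_one_iff _).1 h1
      apply h
      refine ⟨m, ?_⟩
      have : (z : ℚ) = s * m := by rw [← hm]; field_simp
      exact_mod_cast this
    have h2 : ee (z / s) ^ s = 1 := by
      rw [← ee_nat_mul, ← ee_int z]
      congr 1
      field_simp
    have h3 := geom_sum_mul (ee (z / s)) s
    rw [h2, sub_self] at h3
    exact (mul_eq_zero.1 h3).resolve_right (sub_ne_zero.2 h1)

/-- The family of operators `T K R s inv` is realized by a program of weight `O(K R)` with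
`O(R)` phases. -/
def Real1 (T : ℕ → ℕ → ℕ → Bool → (ℕ → ℂ) → ℕ → ℂ) : Prop :=
  ∃ (c0 : ℕ) (prog : List Unit × List Unit → FProg) (dv : SP × ℕ × ℕ → DV) (lg : ℕ → ℕ → ℕ → ℕ),
    PT prog ∧ PT dv ∧ ∀ K R, 1 ≤ K → 1 ≤ R → (prog (un K, un R)).length ≤ c0 * R ∧
      (∀ ph ∈ prog (un K, un R), ph.1 ≤ R ∧ ∀ at' ∈ ph.2, ∀ j, at'.1 = some j → j < K) ∧
      (prog (un K, un R)).wt (lg K R) ≤ c0 * (K * R) ∧
      ∀ s inv, 1 ≤ s → s ≤ 2 ^ (K * R) →
        (∀ code x, (dv (mkSP K R s inv, code, x)).ok ∧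
          ‖(dv (mkSP K R s inv, code, x)).val‖ ≤ 2 ^ lg K R code) ∧
        ∀ f, runP (atom1 K fun code x => (dv (mkSP K R s inv, code, x)).val)
          (prog (un K, un R)) f = T K R s inv f

variable {T T' : ℕ → ℕ → ℕ → Bool → (ℕ → ℂ) → ℕ → ℂ}

theorem Real1.congr (h : Real1 T) (e : ∀ K R s inv, 1 ≤ K → 1 ≤ R → 1 ≤ s → s ≤ 2 ^ (K * R) →
    ∀ f, T K R s inv f = T' K R s inv f) : Real1 T' := by
  obtain ⟨c0, prog, dv, lg, h1, h2, h3⟩ := h
  refine ⟨c0, prog, dv, lg, h1, h2, fun K R hK hR => ?_⟩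
  obtain ⟨a1, a2, a3, a4⟩ := h3 K R hK hR
  refine ⟨a1, a2, a3, fun s inv hs hs' => ⟨(a4 s inv hs hs').1, fun f => ?_⟩⟩
  rw [(a4 s inv hs hs').2, e K R s inv hK hR hs hs']

/-- Recode the diagonal codes of a program. -/
def recode (φ : ℕ → ℕ) (prog : FProg) : FProg :=
  prog.map fun ph => (ph.1, ph.2.map fun at' => (at'.1, φ at'.2))

theorem runP_append {F : Type} (step : ℕ → Atom → F → F) (p q : FProg) (f : F) :
    runP step (p ++ q) f = runP step q (runP step p f) := by
  simp [runP, List.foldl_append]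

theorem runP_recode (K : ℕ) (c : ℕ → ℕ → ℂ) (φ : ℕ → ℕ) (p : FProg) (f : ℕ → ℂ) :
    runP (atom1 K c) (recode φ p) f = runP (atom1 K fun code => c (φ code)) p f := by
  simp only [runP, recode, List.foldl_map]
  rfl

theorem wt_recode (lg : ℕ → ℕ) (φ : ℕ → ℕ) (p : FProg) :
    (recode φ p).wt lg = p.wt fun code => lg (φ code) := by
  simp [FProg.wt, recode, List.map_map, Function.comp_def]

theorem wt_append (lg : ℕ → ℕ) (p q : FProg) : FProg.wt lg (p ++ q) = p.wt lg + q.wt lg := by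
  simp [FProg.wt]

/-- First `T`, then `T'`.  Recipe: recode the steps by `2 * code` and `2 * code + 1`. -/
theorem Real1.comp (h : Real1 T) (h' : Real1 T') :
    Real1 fun K R s inv f => T' K R s inv (T K R s inv f) := by
  obtain ⟨c0, prog, dv, lg, h1, h2, h3⟩ := h
  obtain ⟨c0', prog', dv', lg', h1', h2', h3'⟩ := h'
  refine ⟨c0 + c0', fun u => recode (fun c => 2 * c) (prog u) ++ recode (fun c => 2 * c + 1) (prog' u),
    fun q => if q.2.1 % 2 = 0 then dv (q.1, q.2.1 / 2, q.2.2) else dv' (q.1, q.2.1 / 2, q.2.2),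
    fun K R code => if code % 2 = 0 then lg K R (code / 2) else lg' K R (code / 2),
    by unfold recode; fun_prop, by fun_prop, fun K R hK hR => ?_⟩
  obtain ⟨a1, a2, a3, a4⟩ := h3 K R hK hR
  obtain ⟨b1, b2, b3, b4⟩ := h3' K R hK hR
  have e0 : ∀ c : ℕ, 2 * c % 2 = 0 := fun c => by omega
  have e1 : ∀ c : ℕ, ¬ (2 * c + 1) % 2 = 0 := fun c => by omega
  have e2 : ∀ c : ℕ, 2 * c / 2 = c := fun c => by omega
  have e3 : ∀ c : ℕ, (2 * c + 1) / 2 = c := fun c => by omega
  refine ⟨?_, ?_, ?_, fun s inv hs hs' => ⟨fun code x => ?_, fun f => ?_⟩⟩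
  · simp only [recode, List.length_append, List.length_map, add_mul]
    omega
  · intro ph hph
    simp only [recode, List.mem_append, List.mem_map] at hph
    rcases hph with ⟨p, hp, rfl⟩ | ⟨p, hp, rfl⟩
    · refine ⟨(a2 p hp).1, fun at' hat j hj => ?_⟩
      obtain ⟨a, ha, rfl⟩ := List.mem_map.1 hat
      exact (a2 p hp).2 a ha j hj
    · refine ⟨(b2 p hp).1, fun at' hat j hj => ?_⟩
      obtain ⟨a, ha, rfl⟩ := List.mem_map.1 hat
      exact (b2 p hp).2 a ha j hj
  · rw [wt_append, wt_recode, wt_recode]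
    simp only [e0, e1, e2, e3, if_true, if_false, add_mul]
    exact Nat.add_le_add a3 b3
  · dsimp only
    split_ifs
    · exact (a4 s inv hs hs').1 _ _
    · exact (b4 s inv hs hs').1 _ _
  · rw [runP_append, runP_recode, runP_recode]
    simp only [e0, e1, e2, e3, if_true, if_false]
    rw [(a4 s inv hs hs').2, (b4 s inv hs hs').2]

theorem Real1.diag (c : SP × ℕ → DV) (hc : PT c) (c1 : ℕ)
    (hb : ∀ K R s inv, 1 ≤ K → 1 ≤ R → 1 ≤ s → s ≤ 2 ^ (K * R) → ∀ x,
      (c (mkSP K R s inv, x)).ok ∧ ‖(c (mkSP K R s inv, x)).val‖ ≤ 2 ^ (c1 * (K * R))) :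
    Real1 fun K R s inv f x => (c (mkSP K R s inv, x)).val * f x := by
  refine ⟨c1 + 2, fun _ => [(0, [(none, 0)])], fun q => c (q.1, q.2.2), fun K R _ => c1 * (K * R),
    by fun_prop, by fun_prop, fun K R hK hR => ⟨?_, ?_, ?_, fun s inv hs hs' =>
      ⟨fun _ x => hb K R s inv hK hR hs hs' x, fun f => ?_⟩⟩⟩
  · simp only [List.length_singleton]
    nlinarith
  · simp
  · have : 1 ≤ K * R := Nat.mul_pos hK hR
    simp only [FProg.wt, List.map_cons, List.map_nil, List.sum_cons, List.sum_nil, add_mul]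
    omega
  · rfl

/-- The butterfly between even and odd blocks (row `R`, bit `0`). -/
theorem Real1.top : Real1 fun K R _ _ f x =>
    (1 + Complex.I) * f x + (1 - Complex.I) * f (x ^^^ 2 ^ (K * R)) := by
  refine ⟨2, fun u => [(u.2.length, [(some 0, 0)])], fun _ => (1, [0], false), fun _ _ _ => 0,
    by fun_prop, by fun_prop, fun K R hK hR => ⟨?_, ?_, ?_, fun s inv hs hs' =>
      ⟨fun _ x => ?_, fun f => ?_⟩⟩⟩
  · simp only [List.length_singleton]
    omega
  · simp; omega
  · have : 1 ≤ K * R := Nat.mul_pos hK hR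
    simp only [FProg.wt, List.map_cons, List.map_nil, List.sum_cons, List.sum_nil]
    omega
  · simp [DV.ok, DV.val]
  · funext x
    simp [runP, atom1, DV.val, mul_comm R K]

theorem Real1.progOK (h : Real1 T) (hs : ∀ K R s inv, 1 ≤ K → 1 ≤ R → 1 ≤ s → s ≤ 2 ^ (K * R) →
    Spec1 (2 ^ (K * R)) s inv (T K R s inv)) : ∃ c0 prog dv lg, ProgOK c0 prog dv lg := by
  obtain ⟨c0, prog, dv, lg, h1, h2, h3⟩ := h
  refine ⟨c0, prog, dv, lg, h1, h2, fun K R hK hR => (h3 K R hK hR).1,
    fun K R hK hR => (h3 K R hK hR).2.1, fun K R hK hR => (h3 K R hK hR).2.2.1,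
    fun K R s inv hK hR h4 h5 => ((h3 K R hK hR).2.2.2 s inv h4 h5).1,
    fun K R s inv hK hR h4 h5 f k b hk => ?_⟩
  rw [((h3 K R hK hR).2.2.2 s inv h4 h5).2]
  exact hs K R s inv hK hR h4 h5 f k b hk

namespace Fft

/-- The levels in increasing or decreasing order. -/
def ord (up : Bool) (n : ℕ) : List ℕ := if up then List.range n else (List.range n).reverse

theorem mem_ord {up : Bool} {n t : ℕ} : t ∈ ord up n ↔ t < n := by
  cases up <;> simp [ord]

theorem length_ord (up : Bool) (n : ℕ) : (ord up n).length = n := by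
  cases up <;> simp [ord]

theorem range_mul (K R : ℕ) :
    (List.range R).flatMap (fun ρ => (List.range K).map fun j => ρ * K + j) = List.range (K * R) := by
  induction R with
  | zero => simp
  | succ R ih =>
    rw [List.range_succ, List.flatMap_append, ih, Nat.mul_succ, List.range_add, mul_comm K R]
    simp

theorem ord_mul (up : Bool) (K R : ℕ) :
    (ord up R).flatMap (fun ρ => (ord up K).map fun j => ρ * K + j) = ord up (K * R) := by
  cases up
  · simp only [ord, Bool.false_eq_true, if_false]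
    rw [← range_mul, List.reverse_flatMap]
    simp [Function.comp_def, List.map_reverse]
  · simp only [ord, if_true, range_mul]

/-- One level: diagonal, butterfly on bit `t`, diagonal. -/
noncomputable def Lv (a b : ℕ → ℂ) (t : ℕ) (f : ℕ → ℂ) : ℕ → ℂ := fun x =>
  b x * ((1 + Complex.I) * (a x * f x) + (1 - Complex.I) * (a (x ^^^ 2 ^ t) * f (x ^^^ 2 ^ t)))

theorem levels (up : Bool) (a b : List Unit × ℕ → DV) (ha : PT a) (hb : PT b)
    (ha' : ∀ q, (a q).ok ∧ ‖(a q).val‖ ≤ 1) (hb' : ∀ q, (b q).ok ∧ ‖(b q).val‖ ≤ 1) :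
    Real1 fun K R _ _ f => (ord up (K * R)).foldl
      (fun f t => Lv (fun x => (a (un t, x)).val) (fun x => (b (un t, x)).val) t f) f := by
  refine ⟨4, fun u => (ord up u.2.length).map fun ρ => (ρ, (ord up u.1.length).flatMap fun j =>
      [(none, 2 * (ρ * u.1.length + j)), (some j, 2 * (ρ * u.1.length + j) + 1)]),
    fun q => if q.2.1 % 2 = 0 then
      a (un (min (q.2.1 / 2) (q.1.2.1.length * q.1.2.2.1.length)), q.2.2)
      else b (un (min (q.2.1 / 2) (q.1.2.1.length * q.1.2.2.1.length)), q.2.2),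
    fun _ _ _ => 0, ?_, ?_, fun K R hK hR => ⟨?_, ?_, ?_, fun s inv hs hs' =>
      ⟨fun code x => ?_, fun f => ?_⟩⟩⟩
  · cases up <;> simp only [ord, Bool.false_eq_true, if_false, if_true] <;> fun_prop
  · have h1 : PT fun q : SP × ℕ × ℕ =>
        un (min (q.2.1 / 2) (q.1.2.1.length * q.1.2.2.1.length)) :=
      PT.replicate (by fun_prop) (PB.min_right (by fun_prop)) (by fun_prop)
    exact PT.ite (by fun_prop) (ha.comp (h1.prodMk (by fun_prop))) (hb.comp (h1.prodMk (by fun_prop)))
  · simp only [List.length_map, length_ord, List.length_replicate]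
    omega
  · intro ph hph
    simp only [List.mem_map, mem_ord, List.length_replicate] at hph
    obtain ⟨ρ, hρ, rfl⟩ := hph
    refine ⟨hρ.le, fun at' hat j hj => ?_⟩
    simp only [List.mem_flatMap, mem_ord, List.mem_cons, List.not_mem_nil, or_false] at hat
    obtain ⟨j', hj', rfl | rfl⟩ := hat
    · simp at hj
    · simp only [Option.some.injEq] at hj
      omega
  · have e : ∀ (l : List ℕ) (g : ℕ → List Atom), (∀ j, (g j).length = 2) →
        ((l.flatMap g).map fun _ => 0 + 2).sum = 4 * l.length := by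
      intro l g hg
      rw [List.map_const', List.sum_replicate, List.length_flatMap]
      simp only [hg, List.map_const', List.sum_replicate, smul_eq_mul]
      omega
    simp only [FProg.wt, List.map_map, Function.comp_def, List.length_replicate]
    rw [List.map_congr_left (g := fun _ => 4 * K) fun ρ _ => by
      rw [e _ _ fun _ => rfl, length_ord]]
    rw [List.map_const', List.sum_replicate, length_ord, smul_eq_mul]
    apply le_of_eq; ring
  · dsimp only
    split_ifs
    · simpa using ha' _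
    · simpa using hb' _
  · beta_reduce
    rw [← ord_mul, List.foldl_flatMap]
    simp only [runP, List.foldl_map, List.length_replicate, List.foldl_flatMap, mkSP]
    refine List.foldl_ext _ _ _ fun f ρ hρ => List.foldl_ext _ _ _ fun f j hj => ?_
    rw [mem_ord] at hρ hj
    have h1 : ρ * K + j ≤ K * R := by nlinarith
    have e0 : 2 * (ρ * K + j) % 2 = 0 := by omega
    have e1 : ¬ (2 * (ρ * K + j) + 1) % 2 = 0 := by omega
    have e2 : 2 * (ρ * K + j) / 2 = ρ * K + j := by omega
    have e3 : (2 * (ρ * K + j) + 1) / 2 = ρ * K + j := by omega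
    funext x
    simp only [List.foldl_cons, List.foldl_nil, atom1, Option.elim, e0, e1, e2, e3, if_true, if_false,
      min_eq_left h1, Lv]

theorem xor_block {j N : ℕ} (hj : j < 2 ^ N) (q : ℕ) :
    (j + 2 ^ N * q) ^^^ 2 ^ N = j + 2 ^ N * (q ^^^ 1) := by
  apply Nat.eq_of_testBit_eq
  intro i
  rw [Nat.testBit_xor, add_comm j, add_comm j, Nat.testBit_two_pow_mul_add _ hj,
    Nat.testBit_two_pow_mul_add _ hj, Nat.testBit_two_pow]
  by_cases hi : i < N
  · rw [if_pos hi, if_pos hi]
    simp [hi.ne']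
  · rw [if_neg hi, if_neg hi, Nat.testBit_xor, show (1 : ℕ) = 2 ^ 0 from rfl, Nat.testBit_two_pow]
    congr 1
    apply decide_eq_decide.2
    omega

theorem testBit_block {j N : ℕ} (hj : j < 2 ^ N) (q : ℕ) :
    (j + 2 ^ N * q).testBit N = q.testBit 0 := by
  rw [add_comm j, Nat.testBit_two_pow_mul_add _ hj]
  simp

theorem testBit_xor_self (x t : ℕ) : (x ^^^ 2 ^ t).testBit t = !x.testBit t := by
  rw [Nat.testBit_xor, Nat.testBit_two_pow]
  simp

theorem xor_mod (x t : ℕ) : (x ^^^ 2 ^ t) % 2 ^ t = x % 2 ^ t := by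
  rw [Nat.xor_mod_two_pow]
  simp

/-- The twiddle angle. -/
def tw (t x : ℕ) : ℚ := if x.testBit t then ((x % 2 ^ t : ℕ) : ℚ) / 2 ^ (t + 1) else 0

/-- The quarter angle. -/
def qt (t x : ℕ) : ℚ := if x.testBit t then 1 / 4 else 0

/-- The sign. -/
noncomputable def sg (t x : ℕ) : ℂ := if x.testBit t then -1 else 1

/-- Forward level. -/
noncomputable def LU (t : ℕ) (f : ℕ → ℂ) : ℕ → ℂ := fun x =>
  ee (-tw t x) * (f (x ^^^ 2 ^ t) + sg t x * f x)

/-- Backward level. -/
noncomputable def LV (t : ℕ) (g : ℕ → ℂ) : ℕ → ℂ := fun x =>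
  1 / 2 * (ee (tw t (x ^^^ 2 ^ t)) * g (x ^^^ 2 ^ t) + sg t x * (ee (tw t x) * g x))

theorem LV_LU (t : ℕ) (f : ℕ → ℂ) : LV t (LU t f) = f := by
  funext x
  have h1 := ee_neg_mul (tw t x)
  have h2 := ee_neg_mul (tw t (x ^^^ 2 ^ t))
  simp only [LV, LU, Nat.xor_assoc, Nat.xor_self, Nat.xor_zero, sg, testBit_xor_self]
  cases x.testBit t
  · simp only [Bool.not_false, if_true, Bool.false_eq_true, if_false]
    linear_combination (1 / 2 * (f x - f (x ^^^ 2 ^ t))) * h2 + (1 / 2 * (f x + f (x ^^^ 2 ^ t))) * h1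
  · simp only [Bool.not_true, if_true, Bool.false_eq_true, if_false]
    linear_combination (1 / 2 * (f x + f (x ^^^ 2 ^ t))) * h2 + (1 / 2 * (f x - f (x ^^^ 2 ^ t))) * h1

theorem had (α β : ℕ → ℂ) (t : ℕ) (f : ℕ → ℂ) (x : ℕ) :
    Lv (fun x => ee (qt t x) * α x) (fun x => (1 - Complex.I) / 2 * ee (qt t x) * β x) t f x =
      β x * (α (x ^^^ 2 ^ t) * f (x ^^^ 2 ^ t) + sg t x * (α x * f x)) := by
  simp only [Lv, qt, sg, testBit_xor_self]
  have hI := Complex.I_mul_I
  cases x.testBit t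
  · simp only [Bool.not_false, if_true, Bool.false_eq_true, if_false, ee_zero, ee_quarter]
    linear_combination (β x * (-(1 / 2) * α x * f x +
      (Complex.I / 2 - 1) * α (x ^^^ 2 ^ t) * f (x ^^^ 2 ^ t)) +
        β x * 0) * hI + (β x * α (x ^^^ 2 ^ t) * f (x ^^^ 2 ^ t) * (Complex.I / 2 - Complex.I / 2)) * hI
  · simp only [Bool.not_true, if_true, Bool.false_eq_true, if_false, ee_zero, ee_quarter]
    linear_combination (β x * ((1 - Complex.I * Complex.I / 2) * α x * f x +
      (Complex.I / 2 - 1) * α (x ^^^ 2 ^ t) * f (x ^^^ 2 ^ t))) * hI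

theorem val_one (θ : ℚ) : DV.val (1, [θ], false) = ee θ := by
  simp [DV.val]

theorem val_two (q θ : ℚ) : DV.val (q, [θ, θ - 1 / 4], false) = q * (1 - Complex.I) * ee θ := by
  simp only [DV.val, Bool.false_eq_true, if_false, List.map_cons, List.map_nil, List.sum_cons,
    List.sum_nil, ee_sub_quarter]
  ring

theorem norm_two {q : ℚ} (h0 : 0 ≤ q) (h : q ≤ 1 / 2) (θ : ℚ) :
    ‖DV.val (q, [θ, θ - 1 / 4], false)‖ ≤ 1 := by
  simp only [DV.val, Bool.false_eq_true, if_false, List.map_cons, List.map_nil, List.sum_cons,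
    List.sum_nil, add_zero, norm_mul]
  have h1 : ‖ee θ + ee (θ - 1 / 4)‖ ≤ 2 := by
    refine (norm_add_le _ _).trans ?_
    rw [norm_ee, norm_ee]; norm_num
  have h2 : ‖(q : ℂ)‖ ≤ 1 / 2 := by
    rw [Complex.norm_ratCast, abs_of_nonneg (by exact_mod_cast h0)]
    have : ((q : ℚ) : ℝ) ≤ ((1 / 2 : ℚ) : ℝ) := by exact_mod_cast h
    simpa using this
  nlinarith [norm_nonneg (q : ℂ), norm_nonneg (ee θ + ee (θ - 1 / 4))]

theorem pt_tw : PT fun q : List Unit × ℕ => tw q.1.length q.2 := by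
  unfold tw; fun_prop

theorem pt_qt : PT fun q : List Unit × ℕ => qt q.1.length q.2 := by
  unfold qt; fun_prop

/-- The forward transform. -/
noncomputable def U (N : ℕ) (f : ℕ → ℂ) : ℕ → ℂ := (ord false N).foldl (fun f t => LU t f) f

/-- The backward transform. -/
noncomputable def V (N : ℕ) (f : ℕ → ℂ) : ℕ → ℂ := (ord true N).foldl (fun f t => LV t f) f

theorem U_succ (N : ℕ) (f : ℕ → ℂ) : U (N + 1) f = U N (LU N f) := by
  simp [U, ord, List.range_succ]

theorem V_succ (N : ℕ) (f : ℕ → ℂ) : V (N + 1) f = LV N (V N f) := by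
  simp [V, ord, List.range_succ]

theorem V_U (N : ℕ) (f : ℕ → ℂ) : V N (U N f) = f := by
  induction N generalizing f with
  | zero => rfl
  | succ N ih => rw [U_succ, V_succ, ih, LV_LU]

theorem real_U : Real1 fun K R _ _ => U (K * R) := by
  have h1 := pt_tw
  have h2 := pt_qt
  refine (levels false (fun q => (1, [qt q.1.length q.2], false))
    (fun q => (1 / 2, [qt q.1.length q.2 - tw q.1.length q.2,
      qt q.1.length q.2 - tw q.1.length q.2 - 1 / 4], false)) (by fun_prop) (by fun_prop)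
    (fun q => ⟨by simp [DV.ok], by simp [val_one]⟩)
    (fun q => ⟨by simp [DV.ok], norm_two (by norm_num) le_rfl _⟩)).congr
    fun K R s inv _ _ _ _ f => ?_
  refine List.foldl_ext _ _ _ fun f t _ => ?_
  funext x
  have := had (fun _ => 1) (fun x => ee (-tw t x)) t f x
  simp only [mul_one, one_mul] at this
  rw [LU, ← this]
  simp only [val_one, val_two, List.length_replicate]
  congr 1
  funext y
  rw [sub_eq_add_neg (qt t y), ee_add]
  push_cast
  ring

theorem real_V : Real1 fun K R _ _ => V (K * R) := by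
  have h1 := pt_tw
  have h2 := pt_qt
  refine (levels true (fun q => (1, [qt q.1.length q.2 + tw q.1.length q.2], false))
    (fun q => (1 / 4, [qt q.1.length q.2, qt q.1.length q.2 - 1 / 4], false)) (by fun_prop) (by fun_prop)
    (fun q => ⟨by simp [DV.ok], by simp [val_one]⟩)
    (fun q => ⟨by simp [DV.ok], norm_two (by norm_num) (by norm_num) _⟩)).congr
    fun K R s inv _ _ _ _ f => ?_
  refine List.foldl_ext _ _ _ fun f t _ => ?_
  funext x
  have := had (fun x => ee (tw t x)) (fun _ => 1 / 2) t f x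
  rw [LV, ← this]
  simp only [val_one, val_two, List.length_replicate, ee_add]
  congr 1
  funext y
  push_cast
  ring

/-- Bit reversal. -/
def rev (N k : ℕ) : ℕ := ofBits ((List.range N).reverse.map fun i => k.testBit i)

theorem rev_succ (N k : ℕ) : rev (N + 1) k = 2 * rev N k + (k.testBit N).toNat := by
  simp only [rev, List.range_succ, List.reverse_append, List.reverse_singleton, List.singleton_append,
    List.map_cons, ofBits, List.foldr_cons, Nat.bit_val]

theorem rev_block {k N : ℕ} (hk : k < 2 ^ N) (b : ℕ) : rev N (k + 2 ^ N * b) = rev N k := by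
  unfold rev
  congr 1
  refine List.map_congr_left fun i hi => ?_
  have : i < N := by simpa using hi
  rw [add_comm k, Nat.testBit_two_pow_mul_add _ hk, if_pos this]

theorem U_spec (N : ℕ) (f : ℕ → ℂ) (x : ℕ) : U N f x =
    ∑ j ∈ Finset.range (2 ^ N), ee (-((j * rev N x : ℕ) : ℚ) / 2 ^ N) * f (j + 2 ^ N * (x / 2 ^ N)) := by
  induction N generalizing f with
  | zero => simp [U, ord, rev]
  | succ N ih =>
    rw [U_succ, ih, pow_succ 2 N, mul_two, Finset.sum_range_add, ← Finset.sum_add_distrib]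
    refine Finset.sum_congr rfl fun j hj => ?_
    have hj' : j < 2 ^ N := Finset.mem_range.1 hj
    have hq : x / (2 ^ N + 2 ^ N) = x / 2 ^ N / 2 := by
      rw [Nat.div_div_eq_div_mul, mul_two]
    have hb : x.testBit N = (x / 2 ^ N).testBit 0 := by
      rw [Nat.testBit_div_two_pow, zero_add]
    have hm : (j + 2 ^ N * (x / 2 ^ N)) % 2 ^ N = j := by
      rw [Nat.add_mul_mod_self_left, Nat.mod_eq_of_lt hj']
    rw [hq, rev_succ, hb]
    simp only [LU, tw, sg, xor_block hj', testBit_block hj', hm]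
    generalize x / 2 ^ N = q
    generalize rev N x = p
    have h2 : (2 : ℚ) ^ N ≠ 0 := by positivity
    rcases Nat.even_or_odd' q with ⟨b, rfl | rfl⟩
    · have e1 : (2 * b).testBit 0 = false := by simp
      have e2 : (2 * b) ^^^ 1 = 2 * b + 1 := Nat.xor_one_of_even (even_two_mul b)
      have e3 : 2 * b / 2 = b := by omega
      have e4 : ee (-(((2 ^ N + j) * (2 * p + 0) : ℕ) : ℚ) / 2 ^ (N + 1)) =
          ee (-((j * p : ℕ) : ℚ) / 2 ^ N) := by
        rw [← mul_one (ee (-((j * p : ℕ) : ℚ) / 2 ^ N)), ← ee_int (-p), ← ee_add]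
        congr 1
        push_cast
        field_simp
        ring
      have e5 : ee (-((j * (2 * p + 0) : ℕ) : ℚ) / 2 ^ (N + 1)) = ee (-((j * p : ℕ) : ℚ) / 2 ^ N) := by
        congr 1
        push_cast
        field_simp
        ring
      simp only [e1, e2, e3, Bool.false_eq_true, if_false, neg_zero, ee_zero, Bool.toNat_false, e4, e5]
      rw [show 2 ^ N + j + (2 ^ N + 2 ^ N) * b = j + 2 ^ N * (2 * b + 1) by ring,
        show j + (2 ^ N + 2 ^ N) * b = j + 2 ^ N * (2 * b) by ring]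
      ring
    · have e1 : (2 * b + 1).testBit 0 = true := by simp
      have e2 : (2 * b + 1) ^^^ 1 = 2 * b := by
        rw [Nat.xor_one_of_odd (odd_two_mul_add_one b)]; rfl
      have e3 : (2 * b + 1) / 2 = b := by omega
      have e5 : ee (-((j * (2 * p + 1) : ℕ) : ℚ) / 2 ^ (N + 1)) =
          ee (-((j * p : ℕ) : ℚ) / 2 ^ N) * ee (-((j : ℚ) / 2 ^ (N + 1))) := by
        rw [← ee_add]
        congr 1
        push_cast
        field_simp
        ring
      have e4 : ee (-(((2 ^ N + j) * (2 * p + 1) : ℕ) : ℚ) / 2 ^ (N + 1)) =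
          -(ee (-((j * p : ℕ) : ℚ) / 2 ^ N) * ee (-((j : ℚ) / 2 ^ (N + 1)))) := by
        rw [← e5, ← mul_neg_one (ee _), ← ee_half, ← mul_one (ee (1 / 2)), ← ee_int (-p - 1), ← ee_add,
          ← ee_add]
        congr 1
        push_cast
        field_simp
        ring
      simp only [e1, e2, e3, if_true, Bool.toNat_true, e4, e5]
      rw [show 2 ^ N + j + (2 ^ N + 2 ^ N) * b = j + 2 ^ N * (2 * b + 1) by ring,
        show j + (2 ^ N + 2 ^ N) * b = j + 2 ^ N * (2 * b) by ring]
      ring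

end Fft

/-- The transform of length `2 ^ N` on every block, in place, with permuted output, and its
inverse.  Recipe (decimation in frequency): for `t = N - 1, …, 0` apply on bit `t` the Hadamard
matrix `H = (1 + i)⁻¹ diag(1, i) C' diag(1, i)` (`C'` is the butterfly of `atom1`;
`(1 + i)⁻¹ e(θ) = (e(θ) + e(θ - 1/4)) / 2` is one `DV`) and the twiddle `e(-lo γ / 2 ^ (t + 1))`
(`γ` = bit `t`, `lo = x % 2 ^ t`).  Invariant after the levels `≥ t`: the value at
`lo + 2 ^ t hi + 2 ^ N b` is `∑ j1 < 2 ^ (N - t), f (lo + 2 ^ t j1 + 2 ^ N b) *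
e(-(lo + 2 ^ t j1) rev(hi) / 2 ^ N)` with `rev` the reversal of `N - t` bits.  Level
`t = ρ K + j` is step `j` of the phase with row `ρ`; the code of a step is computed from `t`.
`V` runs the inverse steps in the opposite order. -/
theorem exists_fft : ∃ (π : List Unit × ℕ → ℕ) (U V : ℕ → (ℕ → ℂ) → ℕ → ℂ), PT π ∧
    Real1 (fun K R _ _ => U (K * R)) ∧ Real1 (fun K R _ _ => V (K * R)) ∧
    (∀ N f, V N (U N f) = f) ∧ ∀ N f k b, k < 2 ^ N → U N f (k + 2 ^ N * b) =
      ∑ j ∈ Finset.range (2 ^ N), ee (-((j * π (un N, k) : ℕ) : ℚ) / 2 ^ N) * f (j + 2 ^ N * b) := by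
  refine ⟨fun q => Fft.rev q.1.length q.2, Fft.U, Fft.V, by unfold Fft.rev; fun_prop, Fft.real_U,
    Fft.real_V, Fft.V_U, fun N f k b hk => ?_⟩
  rw [Fft.U_spec, Fft.rev_block hk, Nat.add_mul_div_left _ _ (by positivity), Nat.div_eq_of_lt hk,
    zero_add]
  simp only [List.length_replicate]

end Crest.Agent.R326
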