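/-
R326/Approx: polynomial-time approximation of the diagonal values.
-/
import Crest.Agent.R326.StepsA

set_option autoImplicit false
set_option linter.unusedSimpArgs false
set_option linter.unusedSectionVars false
set_option linter.unusedVariables false

namespace Crest.Agent.R326

open Function Crest.Agent.Lib.PolyTime

/-- a polynomial-time sum over a range, with summand using a polynomially bounded index -/
theorem pt_sum_idx {α : Type} [Enc α] {N : α → ℕ} (hN : PT N) (hN' : PB N) {f : α → ℕ → ℚ}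
    (hf : ∀ j : α × ℕ → ℕ, PT j → PB j → PT fun q : α × ℕ => f q.1 (j q)) :
    PT fun a => ∑ n ∈ Finset.range (N a), f a n := by
  have hj : PT fun q : α × ℕ => min q.2 (N q.1) := PT.nat_min PT.snd' (hN.comp PT.fst')
  have hj' : PB fun q : α × ℕ => min q.2 (N q.1) := PB.min_right (hN'.comp PT.fst')
  refine (PT.sum_range_rat (f := fun a n => f a (min n (N a))) hN hN' (hf _ hj hj')).of_eq
    fun a => Finset.sum_congr rfl fun n hn => ?_
  rw [min_eq_left (Finset.mem_range.1 hn).le]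

/-! ### The number `π` -/

/-- partial sums of the series of `arctan` -/
def atanQ (x : ℚ) (N : ℕ) : ℚ := ∑ n ∈ Finset.range N, (-1) ^ n * x ^ (2 * n + 1) / ((2 * n + 1 : ℕ) : ℚ)

theorem pt_atanQ {α : Type} [Enc α] {x : α → ℚ} {N : α → ℕ} (hx : PT x) (hN : PT N) (hN' : PB N) :
    PT fun a => atanQ (x a) (N a) :=
  pt_sum_idx (f := fun a n => (-1) ^ n * x a ^ (2 * n + 1) / ((2 * n + 1 : ℕ) : ℚ)) hN hN'
    fun j hj hj' => by
      have h1 : PT fun q => 2 * j q + 1 := ((PT.const 2).nat_mul hj).nat_add (PT.const 1)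
      have h2 : PB fun q => 2 * j q + 1 := ((PB.const 2).mul hj').add (PB.const 1)
      exact (((PT.const (-1 : ℚ)).rat_pow hj hj').rat_mul
        ((hx.comp PT.fst').rat_pow h1 h2)).rat_div h1.rat_natCast

theorem atanQ_spec (x : ℚ) (hx : |(x : ℝ)| ≤ 1 / 2) (N : ℕ) :
    |(atanQ x N : ℝ) - Real.arctan x| ≤ 2 / 2 ^ N := by
  have h := norm_sub_le_of_geometric_bound_of_hasSum (r := 1 / 2) (C := 1) (by norm_num)
    (fun n => ?_) (Real.hasSum_arctan (x := (x : ℝ)) (by rw [Real.norm_eq_abs]; linarith)) N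
  · rw [Real.norm_eq_abs] at h
    have e : (atanQ x N : ℝ) = ∑ n ∈ Finset.range N,
        (-1) ^ n * (x : ℝ) ^ (2 * n + 1) / ((2 * n + 1 : ℕ) : ℝ) := by
      simp only [atanQ]; push_cast; rfl
    rw [e]
    refine h.trans (le_of_eq ?_)
    rw [one_div_pow]; ring
  · rw [Real.norm_eq_abs, abs_div, abs_mul, abs_pow, abs_pow, abs_neg, abs_one, one_pow, one_mul,
      one_mul]
    have h1 : (1 : ℝ) ≤ |((2 * n + 1 : ℕ) : ℝ)| := by
      rw [Nat.abs_cast]; exact_mod_cast (by omega : 1 ≤ 2 * n + 1)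
    calc |(x : ℝ)| ^ (2 * n + 1) / |((2 * n + 1 : ℕ) : ℝ)| ≤ |(x : ℝ)| ^ (2 * n + 1) :=
          div_le_self (by positivity) h1
      _ ≤ (1 / 2) ^ (2 * n + 1) := pow_le_pow_left₀ (abs_nonneg _) hx _
      _ ≤ (1 / 2) ^ n := pow_le_pow_of_le_one (by norm_num) (by norm_num) (by omega)

/-- Rational approximations of `π` (e.g. `π / 4 = arctan (1/2) + arctan (1/3)`,
`Real.hasSum_arctan`). -/
theorem exists_apx_pi : ∃ f : List Unit → ℚ, PT f ∧ ∀ p, |(f (un p) : ℝ) - Real.pi| ≤ 1 / 2 ^ p := by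
  refine ⟨fun u => 4 * (atanQ (1 / 2) (u.length + 4) + atanQ (1 / 3) (u.length + 4)), ?_, fun p => ?_⟩
  · have h1 : PT fun u : List Unit => u.length + 4 := by fun_prop
    have h2 : PB fun u : List Unit => u.length + 4 := by fun_prop
    exact (PT.const (4 : ℚ)).rat_mul ((pt_atanQ (PT.const (1 / 2 : ℚ)) h1 h2).rat_add
      (pt_atanQ (PT.const (1 / 3 : ℚ)) h1 h2))
  · have h1 := atanQ_spec (1 / 2) (by push_cast; norm_num [abs_of_pos]) (p + 4)
    have h2 := atanQ_spec (1 / 3) (by push_cast; rw [abs_of_pos] <;> norm_num) (p + 4)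
    have h3 := Real.arctan_inv_2_add_arctan_inv_3
    have e1 : ((1 / 2 : ℚ) : ℝ) = 2⁻¹ := by norm_num
    have e2 : ((1 / 3 : ℚ) : ℝ) = 3⁻¹ := by norm_num
    rw [e1] at h1
    rw [e2] at h2
    have e3 : (2 : ℝ) / 2 ^ (p + 4) = 1 / 2 ^ p / 8 := by rw [pow_add]; field_simp; norm_num
    rw [e3] at h1 h2
    simp only [List.length_replicate]
    push_cast
    rw [abs_le] at h1 h2 ⊢
    constructor <;> linarith [h1.1, h1.2, h2.1, h2.2]

/-! ### Cosine and sine -/

/-- partial sums of the series of `cos` -/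
def cosQ (x : ℚ) (N : ℕ) : ℚ :=
  ∑ n ∈ Finset.range N, (-1) ^ n * x ^ (2 * n) / (((2 * n).factorial : ℕ) : ℚ)

/-- partial sums of the series of `sin` -/
def sinQ (x : ℚ) (N : ℕ) : ℚ :=
  ∑ n ∈ Finset.range N, (-1) ^ n * x ^ (2 * n + 1) / (((2 * n + 1).factorial : ℕ) : ℚ)

theorem pt_cosQ {α : Type} [Enc α] {x : α → ℚ} {N : α → ℕ} (hx : PT x) (hN : PT N) (hN' : PB N) :
    PT fun a => cosQ (x a) (N a) :=
  pt_sum_idx (f := fun a n => (-1) ^ n * x a ^ (2 * n) / (((2 * n).factorial : ℕ) : ℚ)) hN hN'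
    fun j hj hj' => by
      have h1 : PT fun q => 2 * j q := (PT.const 2).nat_mul hj
      have h2 : PB fun q => 2 * j q := (PB.const 2).mul hj'
      exact (((PT.const (-1 : ℚ)).rat_pow hj hj').rat_mul
        ((hx.comp PT.fst').rat_pow h1 h2)).rat_div (h1.factorial h2).rat_natCast

theorem pt_sinQ {α : Type} [Enc α] {x : α → ℚ} {N : α → ℕ} (hx : PT x) (hN : PT N) (hN' : PB N) :
    PT fun a => sinQ (x a) (N a) :=
  pt_sum_idx (f := fun a n => (-1) ^ n * x a ^ (2 * n + 1) / (((2 * n + 1).factorial : ℕ) : ℚ))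
    hN hN' fun j hj hj' => by
      have h1 : PT fun q => 2 * j q + 1 := ((PT.const 2).nat_mul hj).nat_add (PT.const 1)
      have h2 : PB fun q => 2 * j q + 1 := ((PB.const 2).mul hj').add (PB.const 1)
      exact (((PT.const (-1 : ℚ)).rat_pow hj hj').rat_mul
        ((hx.comp PT.fst').rat_pow h1 h2)).rat_div (h1.factorial h2).rat_natCast

theorem pow_div_fact_le {x : ℝ} (hx : |x| ≤ 16) (m n : ℕ) (h : n ≤ m) :
    |x| ^ m / (m.factorial : ℝ) ≤ 2 ^ 64 * (1 / 2) ^ n := by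
  have h1 := Real.pow_div_factorial_le_exp 32 (by norm_num) m
  have h2 : Real.exp 32 ≤ 2 ^ 64 := by
    have h3 : Real.exp 32 = Real.exp 1 ^ 32 := by rw [← Real.exp_nat_mul]; norm_num
    have h4 : Real.exp 1 ≤ 4 := by linarith [Real.exp_one_lt_d9]
    rw [h3]
    calc Real.exp 1 ^ 32 ≤ 4 ^ 32 := pow_le_pow_left₀ (Real.exp_pos 1).le h4 _
      _ = 2 ^ 64 := by norm_num
  have h5 : |x| ^ m ≤ 32 ^ m * (1 / 2) ^ m := by
    rw [← mul_pow]; exact pow_le_pow_left₀ (abs_nonneg _) (by linarith) _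
  have h6 : (1 / 2 : ℝ) ^ m ≤ (1 / 2) ^ n := pow_le_pow_of_le_one (by norm_num) (by norm_num) h
  have h7 : (0 : ℝ) < m.factorial := by positivity
  calc |x| ^ m / (m.factorial : ℝ) ≤ 32 ^ m * (1 / 2) ^ m / (m.factorial : ℝ) := by gcongr
    _ = 32 ^ m / (m.factorial : ℝ) * (1 / 2) ^ m := by ring
    _ ≤ 2 ^ 64 * (1 / 2) ^ n := mul_le_mul (h1.trans h2) h6 (by positivity) (by positivity)

theorem cosQ_spec (x : ℚ) (hx : |(x : ℝ)| ≤ 16) (N : ℕ) :
    |(cosQ x N : ℝ) - Real.cos x| ≤ 2 ^ 65 / 2 ^ N := by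
  have h := norm_sub_le_of_geometric_bound_of_hasSum (r := 1 / 2) (C := 2 ^ 64) (by norm_num)
    (fun n => ?_) (Real.hasSum_cos (x : ℝ)) N
  · rw [Real.norm_eq_abs] at h
    have e : (cosQ x N : ℝ) = ∑ n ∈ Finset.range N,
        (-1) ^ n * (x : ℝ) ^ (2 * n) / (((2 * n).factorial : ℕ) : ℝ) := by
      simp only [cosQ]; push_cast; rfl
    rw [e]
    refine h.trans (le_of_eq ?_)
    rw [one_div_pow]; ring
  · rw [Real.norm_eq_abs, abs_div, abs_mul, abs_pow, abs_pow, abs_neg, abs_one, one_pow, one_mul,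
      Nat.abs_cast]
    exact pow_div_fact_le hx _ _ (by omega)

theorem sinQ_spec (x : ℚ) (hx : |(x : ℝ)| ≤ 16) (N : ℕ) :
    |(sinQ x N : ℝ) - Real.sin x| ≤ 2 ^ 65 / 2 ^ N := by
  have h := norm_sub_le_of_geometric_bound_of_hasSum (r := 1 / 2) (C := 2 ^ 64) (by norm_num)
    (fun n => ?_) (Real.hasSum_sin (x : ℝ)) N
  · rw [Real.norm_eq_abs] at h
    have e : (sinQ x N : ℝ) = ∑ n ∈ Finset.range N,
        (-1) ^ n * (x : ℝ) ^ (2 * n + 1) / (((2 * n + 1).factorial : ℕ) : ℝ) := by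
      simp only [sinQ]; push_cast; rfl
    rw [e]
    refine h.trans (le_of_eq ?_)
    rw [one_div_pow]; ring
  · rw [Real.norm_eq_abs, abs_div, abs_mul, abs_pow, abs_pow, abs_neg, abs_one, one_pow, one_mul,
      Nat.abs_cast]
    exact pow_div_fact_le hx _ _ (by omega)

theorem norm_pair_le (a b : ℝ) : ‖(a : ℂ) + b * Complex.I‖ ≤ |a| + |b| := by
  simpa using Complex.norm_le_abs_re_add_abs_im ((a : ℂ) + b * Complex.I)

theorem ee_eq_fract (t : ℚ) : ee t = (Real.cos (2 * Real.pi * ((t - ⌊t⌋ : ℚ) : ℝ)) : ℂ) +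
    (Real.sin (2 * Real.pi * ((t - ⌊t⌋ : ℚ) : ℝ)) : ℂ) * Complex.I := by
  have h1 : ee t = ee (t - ⌊t⌋) := by
    conv_lhs => rw [show t = (t - ⌊t⌋) + (⌊t⌋ : ℤ) by ring]
    rw [ee_add, ee_int, mul_one]
  rw [h1, ee, Complex.ofReal_cos, Complex.ofReal_sin, ← Complex.exp_mul_I]
  congr 1
  push_cast
  ring

/-- Rational approximations of `e(t)`: reduce `t` modulo `1`, Taylor polynomial of `exp`
(`Complex.exp_bound'` or halve and square), round to a multiple of `2 ^ (-p - 2)`. -/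
theorem exists_apx_ee : ∃ f : List Unit × ℚ → ℚ × ℚ, PT f ∧ ∀ p t,
    ‖((f (un p, t)).1 + (f (un p, t)).2 * Complex.I : ℂ) - ee t‖ ≤ 1 / 2 ^ p := by
  obtain ⟨g, hg, hg'⟩ := exists_apx_pi
  refine ⟨fun a => (cosQ (2 * g (un (a.1.length + 3)) * (a.2 - ⌊a.2⌋)) (a.1.length + 67),
    sinQ (2 * g (un (a.1.length + 3)) * (a.2 - ⌊a.2⌋)) (a.1.length + 67)), ?_, fun p t => ?_⟩
  · have h1 : PT fun a : List Unit × ℚ => a.1.length + 67 := by fun_prop
    have h2 : PB fun a : List Unit × ℚ => a.1.length + 67 := by fun_prop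
    have h3 : PT fun a : List Unit × ℚ => un (a.1.length + 3) := by fun_prop
    have h4 : PT fun a : List Unit × ℚ => 2 * g (un (a.1.length + 3)) * (a.2 - ⌊a.2⌋) :=
      ((PT.const (2 : ℚ)).rat_mul (hg.comp h3)).rat_mul
        (PT.snd'.rat_sub PT.snd'.rat_floor.rat_intCast)
    have h5 := pt_cosQ h4 h1 h2
    have h6 := pt_sinQ h4 h1 h2
    fun_prop
  · simp only [List.length_replicate]
    have h0 : (0 : ℝ) ≤ ((t - ⌊t⌋ : ℚ) : ℝ) := by
      exact_mod_cast sub_nonneg.2 (Int.floor_le t)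
    have h1 : ((t - ⌊t⌋ : ℚ) : ℝ) ≤ 1 := by
      have := Int.lt_floor_add_one t
      exact_mod_cast (by linarith : t - ⌊t⌋ ≤ 1)
    rw [ee_eq_fract]
    generalize (t - ⌊t⌋ : ℚ) = s at h0 h1 ⊢
    have h2 := hg' (p + 3)
    generalize g (un (p + 3)) = π' at h2 ⊢
    have hp : (0 : ℝ) < 1 / 2 ^ p := by positivity
    have hp1 : (1 : ℝ) / 2 ^ p ≤ 1 := by
      rw [div_le_one (by positivity)]; exact one_le_pow₀ (by norm_num)
    have e3 : (1 : ℝ) / 2 ^ (p + 3) = 1 / 2 ^ p / 8 := by rw [pow_add]; field_simp; norm_num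
    have e4 : (2 : ℝ) ^ 65 / 2 ^ (p + 67) = 1 / 2 ^ p / 4 := by rw [pow_add]; field_simp; norm_num
    rw [e3] at h2
    have h3 : |((2 * π' * s : ℚ) : ℝ) - 2 * Real.pi * s| ≤ 1 / 2 ^ p / 4 := by
      have : ((2 * π' * s : ℚ) : ℝ) - 2 * Real.pi * s = 2 * (((π' : ℝ) - Real.pi) * s) := by
        push_cast; ring
      rw [this, abs_mul, abs_mul, abs_two, abs_of_nonneg h0]
      have := mul_le_mul h2 h1 h0 (by positivity)
      linarith
    have h4 : |((2 * π' * s : ℚ) : ℝ)| ≤ 16 := by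
      have h5 : |2 * Real.pi * s| ≤ 8 := by
        rw [abs_of_nonneg (by positivity)]
        nlinarith [Real.pi_le_four, Real.pi_pos]
      have := abs_sub_abs_le_abs_sub ((2 * π' * s : ℚ) : ℝ) (2 * Real.pi * s)
      linarith
    have c1 := cosQ_spec _ h4 (p + 67)
    have s1 := sinQ_spec _ h4 (p + 67)
    rw [e4] at c1 s1
    have c2 := (Real.abs_cos_sub_cos_le _ _).trans h3
    have s2 := (Real.abs_sin_sub_sin_le _ _).trans h3
    have c3 := (abs_sub_le _ _ _).trans (add_le_add c1 c2)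
    have s3 := (abs_sub_le _ _ _).trans (add_le_add s1 s2)
    have key := norm_pair_le ((cosQ (2 * π' * s) (p + 67) : ℝ) - Real.cos (2 * Real.pi * s))
      ((sinQ (2 * π' * s) (p + 67) : ℝ) - Real.sin (2 * Real.pi * s))
    refine le_trans (le_of_eq ?_) (key.trans (by linarith))
    congr 1
    simp only [Complex.ofReal_sub, Complex.ofReal_ratCast]
    ring

/-! ### One value -/

theorem norm_sum_ee_le (l : List ℚ) : ‖(l.map ee).sum‖ ≤ l.length := by
  induction l with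
  | nil => simp
  | cons t l ih =>
    simp only [List.map_cons, List.sum_cons, List.length_cons]
    refine (norm_add_le _ _).trans ?_
    rw [norm_ee]; push_cast; linarith

theorem sum_apx (f : ℚ → ℚ × ℚ) (ε : ℝ)
    (hf : ∀ t, ‖((f t).1 + (f t).2 * Complex.I : ℂ) - ee t‖ ≤ ε) (l : List ℚ) :
    ‖((((l.map fun t => (f t).1).sum : ℚ) : ℂ) + (((l.map fun t => (f t).2).sum : ℚ) : ℂ) * Complex.I) -
      (l.map ee).sum‖ ≤ l.length * ε := by
  induction l with
  | nil => simp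
  | cons t l ih =>
    simp only [List.map_cons, List.sum_cons, List.length_cons]
    have h := add_le_add (hf t) ih
    refine le_trans (le_of_eq ?_) (((norm_add_le _ _).trans h).trans (le_of_eq ?_))
    · congr 1; push_cast; ring
    · push_cast; ring

theorem abs_rat_le (q : ℚ) : |(q : ℝ)| ≤ 2 ^ q.num.natAbs.size := by
  have h1 : |(q : ℝ)| ≤ q.num.natAbs := by
    have h2 : (q : ℝ) = q.num / q.den := by exact_mod_cast (Rat.num_div_den q).symm
    have h3 : (1 : ℝ) ≤ q.den := by exact_mod_cast q.den_pos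
    rw [h2, abs_div, Nat.abs_cast, Nat.cast_natAbs, Int.cast_abs]
    exact div_le_self (abs_nonneg _) h3
  have h4 : (q.num.natAbs : ℝ) ≤ 2 ^ q.num.natAbs.size := by
    exact_mod_cast (Nat.lt_size_self q.num.natAbs).le
  linarith

theorem inv_pair (a b : ℚ) : ((a / (a * a + b * b) : ℚ) : ℂ) + ((-b / (a * a + b * b) : ℚ) : ℂ) *
    Complex.I = ((a : ℂ) + b * Complex.I)⁻¹ := by
  rw [Complex.inv_def]
  have h : Complex.normSq ((a : ℂ) + b * Complex.I) = ((a * a + b * b : ℚ) : ℝ) := by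
    have := Complex.normSq_add_mul_I (a : ℝ) (b : ℝ)
    simp only [Complex.ofReal_ratCast] at this
    rw [this]; push_cast; ring
  rw [h]
  simp only [map_add, map_mul, Complex.conj_I, map_ratCast]
  push_cast
  ring

theorem norm_inv_sub_inv_le {z w : ℂ} {ε : ℝ} (hw : 1 ≤ ‖w‖) (h : ‖z - w‖ ≤ ε) (hε : ε ≤ 1 / 2) :
    ‖z⁻¹ - w⁻¹‖ ≤ 2 * ε := by
  have hz : 1 / 2 ≤ ‖z‖ := by
    have := norm_sub_norm_le w z
    rw [norm_sub_rev] at this
    linarith
  have hz0 : z ≠ 0 := by rintro rfl; simp at hz; linarith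
  have hw0 : w ≠ 0 := by rintro rfl; simp at hw; linarith
  have hε0 : 0 ≤ ε := (norm_nonneg _).trans h
  rw [inv_sub_inv hz0 hw0, norm_div, norm_mul, norm_sub_rev, div_le_iff₀ (by positivity)]
  have : 1 / 2 ≤ ‖z‖ * ‖w‖ := by nlinarith
  nlinarith

/-- the weight of a value -/
def DV.wt (c : DV) : ℕ := c.1.num.natAbs.size + c.2.1.length + 1

/-- Rational approximations of one value. -/
theorem exists_apx_dv : ∃ f : List Unit × DV → ℚ × ℚ, PT f ∧ ∀ p (c : DV), c.ok →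
    ‖((f (un p, c)).1 + (f (un p, c)).2 * Complex.I : ℂ) - c.val‖ ≤ 1 / 2 ^ p := by
  obtain ⟨g, hg, hg'⟩ := exists_apx_ee
  let A : List Unit × DV → ℚ := fun a =>
    (a.2.2.1.map fun t => (g (un (a.1.length + a.2.wt), t)).1).sum
  let B : List Unit × DV → ℚ := fun a =>
    (a.2.2.1.map fun t => (g (un (a.1.length + a.2.wt), t)).2).sum
  have hA : PT A := by simp only [A, DV.wt]; fun_prop
  have hB : PT B := by simp only [B, DV.wt]; fun_prop
  refine ⟨fun a => if a.2.2.2 = true then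
      (a.2.1 * (A a / (A a * A a + B a * B a)), a.2.1 * (-B a / (A a * A a + B a * B a)))
    else (a.2.1 * A a, a.2.1 * B a), by fun_prop, fun p c hc => ?_⟩
  have h1 : ‖((A (un p, c) : ℂ) + (B (un p, c) : ℂ) * Complex.I) - (c.2.1.map ee).sum‖ ≤
      c.2.1.length * (1 / 2 ^ (p + c.wt)) := by
    have := sum_apx (fun t => g (un (p + c.wt), t)) _ (hg' (p + c.wt)) c.2.1
    simpa only [A, B, List.length_replicate] using this
  beta_reduce
  generalize A (un p, c) = a at h1 ⊢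
  generalize B (un p, c) = b at h1 ⊢
  obtain ⟨q, l, i⟩ := c
  simp only [DV.wt, DV.ok, DV.val] at h1 hc ⊢
  have hq := abs_rat_le q
  have hq' : ‖(q : ℂ)‖ = |(q : ℝ)| := by rw [← Complex.ofReal_ratCast, Complex.norm_real]; rfl
  have hl : (l.length : ℝ) ≤ 2 ^ l.length := by exact_mod_cast (Nat.lt_two_pow_self).le
  have h2 : (l.length : ℝ) * (1 / 2 ^ (p + (q.num.natAbs.size + l.length + 1))) ≤
      1 / 2 ^ p / 2 ^ q.num.natAbs.size / 2 := by
    calc (l.length : ℝ) * (1 / 2 ^ (p + (q.num.natAbs.size + l.length + 1))) ≤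
        2 ^ l.length * (1 / 2 ^ (p + (q.num.natAbs.size + l.length + 1))) := by gcongr
      _ = _ := by rw [pow_add, pow_add, pow_add]; field_simp
  have h3 := h1.trans h2
  have hp1 : (1 : ℝ) / 2 ^ p ≤ 1 := by
    rw [div_le_one (by positivity)]; exact one_le_pow₀ (by norm_num)
  have hs1 : (1 : ℝ) ≤ 2 ^ q.num.natAbs.size := one_le_pow₀ (by norm_num)
  have fin : ∀ z w : ℂ, ‖z - w‖ ≤ 1 / 2 ^ p / 2 ^ q.num.natAbs.size →
      ‖q * z - q * w‖ ≤ 1 / 2 ^ p := by
    intro z w h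
    rw [← mul_sub, norm_mul, hq']
    calc |(q : ℝ)| * ‖z - w‖ ≤ 2 ^ q.num.natAbs.size * (1 / 2 ^ p / 2 ^ q.num.natAbs.size) := by
          gcongr
      _ = 1 / 2 ^ p := by field_simp
  cases i with
  | false =>
    simp only [Bool.false_eq_true, if_false]
    refine le_trans (le_of_eq ?_) (fin _ _ (h3.trans (half_le_self (by positivity))))
    congr 1; push_cast; ring
  | true =>
    simp only [if_true]
    have h4 : (1 : ℝ) / 2 ^ p / 2 ^ q.num.natAbs.size ≤ 1 := by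
      rw [div_le_one (by positivity)]; linarith
    have h5 := norm_inv_sub_inv_le (hc rfl) h3 (by linarith)
    refine le_trans (le_of_eq ?_) (fin _ _ (h5.trans (le_of_eq (by ring))))
    rw [← inv_pair]
    congr 1; push_cast; ring

/-! ### Products -/

theorem DV.norm_val_le (c : DV) (hc : c.ok) : ‖c.val‖ + 1 ≤ 2 ^ c.wt := by
  obtain ⟨q, l, i⟩ := c
  simp only [DV.wt, DV.ok, DV.val] at hc ⊢
  have hq := abs_rat_le q
  have hq' : ‖(q : ℂ)‖ = |(q : ℝ)| := by rw [← Complex.ofReal_ratCast, Complex.norm_real]; rfl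
  have hl : (l.length : ℝ) ≤ 2 ^ l.length := by exact_mod_cast (Nat.lt_two_pow_self).le
  have hl1 : (1 : ℝ) ≤ 2 ^ l.length := one_le_pow₀ (by norm_num)
  have hs1 : (1 : ℝ) ≤ 2 ^ q.num.natAbs.size := one_le_pow₀ (by norm_num)
  have h1 : ‖if i = true then ((l.map ee).sum)⁻¹ else (l.map ee).sum‖ ≤ 2 ^ l.length := by
    split_ifs with hi
    · rw [norm_inv]; exact (inv_le_one_of_one_le₀ (hc hi)).trans hl1
    · exact (norm_sum_ee_le l).trans hl
  rw [norm_mul, hq', pow_succ, pow_add]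
  have h2 := mul_le_mul hq h1 (norm_nonneg _) (by positivity)
  nlinarith

/-- rounding to Gaussian integers -/
def rnd (z : ℚ × ℚ) : ℤ × ℤ := (⌊z.1 + 1 / 2⌋, ⌊z.2 + 1 / 2⌋)

theorem abs_floor_half (x : ℚ) : |((⌊x + 1 / 2⌋ : ℤ) : ℝ) - (x : ℝ)| ≤ 1 / 2 := by
  have h1 := Int.floor_le (x + 1 / 2)
  have h2 := Int.lt_floor_add_one (x + 1 / 2)
  have h3 : |((⌊x + 1 / 2⌋ : ℤ) : ℚ) - x| ≤ 1 / 2 := by
    rw [abs_le]; constructor <;> linarith
  have h4 : ((|((⌊x + 1 / 2⌋ : ℤ) : ℚ) - x| : ℚ) : ℝ) ≤ ((1 / 2 : ℚ) : ℝ) := by exact_mod_cast h3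
  simpa using h4

theorem rnd_spec (z : ℚ × ℚ) :
    ‖(((rnd z).1 : ℂ) + (rnd z).2 * Complex.I) - (z.1 + z.2 * Complex.I)‖ ≤ 1 := by
  have key := norm_pair_le (((⌊z.1 + 1 / 2⌋ : ℤ) : ℝ) - (z.1 : ℝ))
    (((⌊z.2 + 1 / 2⌋ : ℤ) : ℝ) - (z.2 : ℝ))
  have h1 := abs_floor_half z.1
  have h2 := abs_floor_half z.2
  refine le_trans (le_of_eq ?_) (key.trans (by linarith))
  congr 1
  simp only [rnd, Complex.ofReal_sub, Complex.ofReal_ratCast, Complex.ofReal_intCast]
  ring

/-- multiplication of Gaussian integers -/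
def gmul (z w : ℤ × ℤ) : ℤ × ℤ := (z.1 * w.1 - z.2 * w.2, z.1 * w.2 + z.2 * w.1)

/-- a pair of integers as a complex number -/
noncomputable def gC (z : ℤ × ℤ) : ℂ := z.1 + z.2 * Complex.I

theorem gC_gmul (z w : ℤ × ℤ) : gC (gmul z w) = gC z * gC w := by
  simp only [gC, gmul]
  push_cast
  linear_combination (-(z.2 : ℂ) * w.2) * Complex.I_mul_I

theorem gC_foldl (l : List (ℤ × ℤ)) (z : ℤ × ℤ) : gC (l.foldl gmul z) = gC z * (l.map gC).prod := by
  induction l generalizing z with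
  | nil => simp
  | cons w l ih => simp only [List.foldl_cons, ih, gC_gmul, List.map_cons, List.prod_cons, mul_assoc]

/-- size of a Gaussian integer -/
def gH (z : ℤ × ℤ) : ℕ := (z.1.natAbs + z.2.natAbs).size

theorem gH_gmul (z w : ℤ × ℤ) : gH (gmul z w) ≤ gH z + gH w := by
  refine (Nat.size_le_size ?_).trans (natSize_mul_le _ _)
  have h1 := Int.natAbs_sub_le (z.1 * w.1) (z.2 * w.2)
  have h2 := Int.natAbs_add_le (z.1 * w.2) (z.2 * w.1)
  simp only [Int.natAbs_mul] at h1 h2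
  simp only [gmul]
  nlinarith

theorem esize_le_gH (z : ℤ × ℤ) : esize z ≤ (gH z + 2) ^ 5 := by
  have h1 := Nat.size_le_size (Nat.le_add_right z.1.natAbs z.2.natAbs)
  have h2 := Nat.size_le_size (Nat.le_add_left z.2.natAbs z.1.natAbs)
  have h3 : 2 ^ 4 ≤ (gH z + 2) ^ 4 := Nat.pow_le_pow_left (by omega) _
  have h4 : esize z ≤ 12 * gH z + 15 := by
    rw [esize_prod, esize_int, esize_int, esize_nat, esize_nat, gH]; omega
  rw [pow_succ]; nlinarith

theorem pt_gprod {α : Type} [Enc α] {l : α → List (ℤ × ℤ)} (hl : PT l) :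
    PT fun a => (l a).foldl gmul (1, 0) :=
  PT.foldl_measure (f := fun _ c x => gmul c x) gH 5 (fun p => gH p.2) hl (by fun_prop)
    (by unfold gmul; fun_prop) (by unfold gH; fun_prop) (PB.const _) esize_le_gH
    fun a c x _ => gH_gmul c x

theorem prod_apx {β : Type} (u v : β → ℂ) (w : β → ℕ) {ε : ℝ} (hε : 0 ≤ ε) (hε1 : ε ≤ 1)
    (l : List β) (h : ∀ c ∈ l, ‖u c - v c‖ ≤ ε ∧ ‖v c‖ + 1 ≤ 2 ^ w c) :
    ‖(l.map v).prod‖ ≤ 2 ^ (l.map w).sum ∧
      ‖(l.map u).prod - (l.map v).prod‖ ≤ ε * l.length * 2 ^ (l.map w).sum := by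
  induction l with
  | nil => simp
  | cons c l ih =>
    obtain ⟨h1, h2⟩ := h c (by simp)
    obtain ⟨h3, h4⟩ := ih fun d hd => h d (by simp [hd])
    simp only [List.map_cons, List.prod_cons, List.sum_cons, List.length_cons, pow_add]
    have h5 : ‖u c‖ ≤ 2 ^ w c := by
      have := norm_sub_norm_le (u c) (v c)
      linarith
    have h6 : (1 : ℝ) ≤ 2 ^ w c := one_le_pow₀ (by norm_num)
    refine ⟨?_, ?_⟩
    · rw [norm_mul]
      exact mul_le_mul (by linarith) h3 (norm_nonneg _) (by positivity)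
    · have e : u c * (l.map u).prod - v c * (l.map v).prod =
          u c * ((l.map u).prod - (l.map v).prod) + (u c - v c) * (l.map v).prod := by ring
      rw [e]
      refine (norm_add_le _ _).trans ?_
      rw [norm_mul, norm_mul]
      have a1 := mul_le_mul h5 h4 (norm_nonneg _) (by positivity)
      have a2 := mul_le_mul h1 h3 (norm_nonneg _) hε
      have a3 : ε * 2 ^ (l.map w).sum ≤ ε * (2 ^ w c * 2 ^ (l.map w).sum) :=
        mul_le_mul_of_nonneg_left (le_mul_of_one_le_left (by positivity) h6) hε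
      push_cast
      nlinarith

/-- Integer approximations of `2 ^ p` times a product of values.  Recipe: every value has norm at
most `2 ^ esize c`; approximate each factor with `p + 2 * esize l + …` bits and multiply exactly
(scale to Gaussian integers, or fold with `PT.foldl_measure`). -/
theorem exists_apx : ∃ apx : List Unit × List DV → ℤ × ℤ, PT apx ∧ ∀ p (l : List DV),
    (∀ c ∈ l, c.ok) → ‖((apx (un p, l)).1 + (apx (un p, l)).2 * Complex.I : ℂ) -
      2 ^ p * (l.map DV.val).prod‖ ≤ 2 := by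
  obtain ⟨g, hg, hg'⟩ := exists_apx_dv
  let s : List Unit × List DV → ℕ := fun a => a.1.length + a.2.length + (a.2.map DV.wt).sum + 1
  have hs : PT s := by
    have : PT fun a : List Unit × List DV => (a.2.map fun c => c.wt).sum := by
      unfold DV.wt; fun_prop
    simp only [s]; fun_prop
  have hs' : PB s := by
    have : PB fun a : List Unit × List DV => (a.2.map fun c => c.wt).sum := by
      unfold DV.wt; fun_prop
    simp only [s]; fun_prop
  let G : List Unit × List DV → DV → ℤ × ℤ := fun a c =>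
    rnd (2 ^ s a * (g (un (s a), c)).1, 2 ^ s a * (g (un (s a), c)).2)
  have hG : PT fun x : (List Unit × List DV) × DV => G x.1 x.2 := by
    simp only [G, rnd]; fun_prop
  let Z : List Unit × List DV → ℤ × ℤ := fun a => (a.2.map (G a)).foldl gmul (1, 0)
  have hZ : PT Z := pt_gprod (by fun_prop)
  refine ⟨fun a => rnd (2 ^ a.1.length * (Z a).1 / (2 ^ s a) ^ a.2.length,
    2 ^ a.1.length * (Z a).2 / (2 ^ s a) ^ a.2.length), by unfold rnd; fun_prop, fun p l hl => ?_⟩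
  simp only [List.length_replicate]
  have hsv : s (un p, l) = p + l.length + (l.map DV.wt).sum + 1 := by
    simp only [s, List.length_replicate]
  have hZv : gC (Z (un p, l)) = (l.map fun c => gC (G (un p, l) c)).prod := by
    simp only [Z, gC_foldl, List.map_map]
    simp [gC, Function.comp_def]
  have hGv : ∀ c ∈ l, ‖gC (G (un p, l) c) / 2 ^ s (un p, l) - c.val‖ ≤ 2 / 2 ^ s (un p, l) := by
    intro c hc
    have h1 := hg' (s (un p, l)) c (hl c hc)
    have h2 := rnd_spec (2 ^ s (un p, l) * (g (un (s (un p, l)), c)).1,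
      2 ^ s (un p, l) * (g (un (s (un p, l)), c)).2)
    simp only [G, gC]
    generalize s (un p, l) = σ at h1 h2 ⊢
    generalize g (un σ, c) = y at h1 h2 ⊢
    generalize rnd (2 ^ σ * y.1, 2 ^ σ * y.2) = r at h2 ⊢
    have e : ((r.1 : ℂ) + r.2 * Complex.I) / 2 ^ σ - c.val =
        (((r.1 : ℂ) + r.2 * Complex.I) - (((2 ^ σ * y.1 : ℚ) : ℂ) + ((2 ^ σ * y.2 : ℚ) : ℂ) *
          Complex.I)) / 2 ^ σ + (((y.1 : ℂ) + y.2 * Complex.I) - c.val) := by
      push_cast; field_simp; ring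
    rw [e]
    refine (norm_add_le _ _).trans ?_
    rw [norm_div, norm_pow, Complex.norm_two]
    have h3 : ‖((r.1 : ℂ) + r.2 * Complex.I) - (((2 ^ σ * y.1 : ℚ) : ℂ) + ((2 ^ σ * y.2 : ℚ) : ℂ) *
          Complex.I)‖ / 2 ^ σ ≤ 1 / 2 ^ σ := by gcongr
    have h4 : (2 : ℝ) / 2 ^ σ = 1 / 2 ^ σ + 1 / 2 ^ σ := by ring
    linarith
  have hε : (2 : ℝ) / 2 ^ s (un p, l) ≤ 1 := by
    rw [div_le_one (by positivity), hsv, pow_succ]
    have : (1 : ℝ) ≤ 2 ^ (p + l.length + (l.map DV.wt).sum) := one_le_pow₀ (by norm_num)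
    linarith
  have hP := (prod_apx (fun c => gC (G (un p, l) c) / 2 ^ s (un p, l)) DV.val DV.wt (by positivity)
    hε l fun c hc => ⟨hGv c hc, c.norm_val_le (hl c hc)⟩).2
  have hQ : (l.map fun c => gC (G (un p, l) c) / 2 ^ s (un p, l)).prod =
      gC (Z (un p, l)) / (2 ^ s (un p, l)) ^ l.length := by
    rw [hZv]
    generalize (2 : ℂ) ^ s (un p, l) = d
    generalize G (un p, l) = G'
    clear * -
    induction l with
    | nil => simp
    | cons c l ih => simp only [List.map_cons, List.prod_cons, List.length_cons, ih, pow_succ]; ring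
  rw [hQ] at hP
  have hR := rnd_spec (2 ^ p * (Z (un p, l)).1 / (2 ^ s (un p, l)) ^ l.length,
    2 ^ p * (Z (un p, l)).2 / (2 ^ s (un p, l)) ^ l.length)
  generalize rnd (2 ^ p * (Z (un p, l)).1 / (2 ^ s (un p, l)) ^ l.length,
    2 ^ p * (Z (un p, l)).2 / (2 ^ s (un p, l)) ^ l.length) = r at hR ⊢
  have hl2 : (l.length : ℝ) ≤ 2 ^ l.length := by exact_mod_cast (Nat.lt_two_pow_self).le
  have hP2 : ‖(2 : ℂ) ^ p * (gC (Z (un p, l)) / (2 ^ s (un p, l)) ^ l.length -
      (l.map DV.val).prod)‖ ≤ 1 := by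
    rw [norm_mul, norm_pow, Complex.norm_two]
    calc (2 : ℝ) ^ p * _ ≤ 2 ^ p * (2 / 2 ^ s (un p, l) * l.length * 2 ^ (l.map DV.wt).sum) := by
          gcongr
      _ ≤ 2 ^ p * (2 / 2 ^ s (un p, l) * 2 ^ l.length * 2 ^ (l.map DV.wt).sum) := by gcongr
      _ = 1 := by rw [hsv, pow_succ, pow_add, pow_add]; field_simp
  refine le_trans (le_of_eq ?_) ((norm_add_le _ _).trans ((add_le_add hR hP2).trans (by norm_num)))
  congr 1
  simp only [gC]
  push_cast
  ring

end Crest.Agent.R326
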