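/-
R326/Frames: products of butterflies, and the operators attached to symmetric matrices over the
field with two elements.
-/
import Crest.Agent.R326.Defs
import Crest.Agent.R324.Frames

set_option autoImplicit false
set_option linter.unusedSimpArgs false
set_option linter.unusedSectionVars false
set_option linter.unusedVariables false

namespace Crest.Agent.R326

open Function Crest.Agent.Lib.PolyTime

section tens
variable {R R' V V' : Type} [CommRing R] [CommRing R'] (α β : R)

@[simp] theorem Tens_nil (f : V → R) : Tens α β [] f = f := rfl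

theorem Tens_cons (π : V → V) (πs : List (V → V)) (f : V → R) (v : V) :
    Tens α β (π :: πs) f v = α * Tens α β πs f v + β * Tens α β πs f (π v) := rfl

theorem Tens_append (πs ρs : List (V → V)) (f : V → R) :
    Tens α β (πs ++ ρs) f = Tens α β πs (Tens α β ρs f) := by
  simp only [Tens, List.foldr_append]

/-- Transport along a map that intertwines the flips on an invariant set. -/
theorem Tens_transport (S : V → Prop) (φ : V → V') {πs : List (V → V)} {πs' : List (V' → V')}
    (h : List.Forall₂ (fun π π' => ∀ v, S v → S (π v) ∧ φ (π v) = π' (φ v)) πs πs') {f : V → R}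
    {F : V' → R} (hf : ∀ v, S v → f v = F (φ v)) {v : V} (hv : S v) :
    Tens α β πs f v = Tens α β πs' F (φ v) := by
  induction h generalizing v with
  | nil => exact hf v hv
  | cons h _ ih => rw [Tens_cons, Tens_cons, ih hv, ih (h v hv).1, (h v hv).2]

theorem Tens_congr (S : V → Prop) {πs : List (V → V)} (h : ∀ π ∈ πs, ∀ v, S v → S (π v))
    {f F : V → R} (hf : ∀ v, S v → f v = F v) {v : V} (hv : S v) :
    Tens α β πs f v = Tens α β πs F v := by
  induction πs generalizing v with
  | nil => exact hf v hv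
  | cons π πs ih =>
    have h' : ∀ ρ ∈ πs, ∀ v, S v → S (ρ v) := fun ρ hρ => h ρ (List.mem_cons_of_mem _ hρ)
    rw [Tens_cons, Tens_cons, ih h' hv, ih h' (h π List.mem_cons_self v hv)]

theorem Tens_perm {πs ρs : List (V → V)} (h : πs.Perm ρs)
    (hc : ∀ π ∈ πs, ∀ ρ ∈ πs, Function.Commute π ρ) (f : V → R) :
    Tens α β πs f = Tens α β ρs f := by
  induction h with
  | nil => rfl
  | cons π _ ih =>
    funext v
    rw [Tens_cons, Tens_cons,
      ih fun a ha b hb => hc a (List.mem_cons_of_mem _ ha) b (List.mem_cons_of_mem _ hb)]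
  | swap π ρ l =>
    funext v
    have := hc π (by simp) ρ (by simp) v
    simp only [Tens_cons, this]
    ring
  | trans h1 _ ih1 ih2 =>
    rw [ih1 hc, ih2 fun a ha b hb => hc a (h1.mem_iff.2 ha) b (h1.mem_iff.2 hb)]

theorem Tens_map (g : R →+* R') (πs : List (V → V)) (f : V → R) (v : V) :
    g (Tens α β πs f v) = Tens (g α) (g β) πs (fun u => g (f u)) v := by
  induction πs generalizing v with
  | nil => rfl
  | cons π πs ih => rw [Tens_cons, Tens_cons, map_add, map_mul, map_mul, ih, ih]

theorem Tens_scale (c : R) (πs : List (V → V)) (f : V → R) (v : V) :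
    Tens (c * α) (c * β) πs f v = c ^ πs.length * Tens α β πs f v := by
  induction πs generalizing v with
  | nil => simp
  | cons π πs ih => rw [Tens_cons, Tens_cons, ih, ih, List.length_cons]; ring

theorem Tens_sub (πs : List (V → V)) (f g : V → R) (v : V) :
    Tens α β πs (fun u => f u - g u) v = Tens α β πs f v - Tens α β πs g v := by
  induction πs generalizing v with
  | nil => rfl
  | cons π πs ih => rw [Tens_cons, Tens_cons, Tens_cons, ih, ih]; ring

theorem Tens_id (h : α + β = 1) {πs : List (V → V)} (hπ : ∀ π ∈ πs, π = id) (f : V → R) :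
    Tens α β πs f = f := by
  induction πs with
  | nil => rfl
  | cons π πs ih =>
    funext v
    rw [Tens_cons, ih fun ρ hρ => hπ ρ (List.mem_cons_of_mem _ hρ), hπ π List.mem_cons_self, id,
      ← add_mul, h, one_mul]

theorem norm_Tens_le (α β : ℂ) (S : V → Prop) {πs : List (V → V)}
    (h : ∀ π ∈ πs, ∀ v, S v → S (π v)) {f : V → ℂ} {M : ℝ} (hf : ∀ v, S v → ‖f v‖ ≤ M) {v : V}
    (hv : S v) : ‖Tens α β πs f v‖ ≤ (‖α‖ + ‖β‖) ^ πs.length * M := by
  induction πs generalizing v with
  | nil => simpa using hf v hv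
  | cons π πs ih =>
    have h' : ∀ ρ ∈ πs, ∀ v, S v → S (ρ v) := fun ρ hρ => h ρ (List.mem_cons_of_mem _ hρ)
    have h1 := ih h' hv
    have h2 := ih h' (h π List.mem_cons_self v hv)
    rw [Tens_cons, List.length_cons]
    calc _ ≤ ‖α‖ * ‖Tens α β πs f v‖ + ‖β‖ * ‖Tens α β πs f (π v)‖ := by
          refine (norm_add_le _ _).trans ?_
          rw [norm_mul, norm_mul]
      _ ≤ ‖α‖ * ((‖α‖ + ‖β‖) ^ πs.length * M) + ‖β‖ * ((‖α‖ + ‖β‖) ^ πs.length * M) := by
          gcongr
      _ = _ := by ring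

end tens

theorem flp_zero (j : ℕ) : flp j 0 = id := by
  funext v k
  simp [flp]

theorem flp_add (j : ℕ) (g g' : ℕ → ZMod 2) (v : ℕ → ℕ) :
    flp j (g + g') v = flp j g (flp j g' v) := by
  funext k
  have h11 : (1 : ZMod 2) + 1 = 0 := by decide
  rcases R324.zmod2_cases (g k) with h | h <;> rcases R324.zmod2_cases (g' k) with h' | h' <;>
    simp [flp, h, h', h11, Nat.xor_assoc]

theorem flp_flp (j : ℕ) (g : ℕ → ZMod 2) (v : ℕ → ℕ) : flp j g (flp j g v) = v := by
  have : g + g = 0 := by
    funext k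
    simp [CharTwo.add_self_eq_zero]
  rw [← flp_add, this, flp_zero, id]

theorem flp_commute (j : ℕ) (g g' : ℕ → ZMod 2) : Function.Commute (flp j g) (flp j g') := by
  intro v
  rw [← flp_add, ← flp_add, add_comm]

theorem flp_single (j k : ℕ) (v : ℕ → ℕ) :
    flp j (Pi.single k 1) v = update v k (v k ^^^ 2 ^ j) := by
  funext l
  by_cases h : l = k
  · subst h
    simp [flp]
  · simp [flp, h]

theorem Cten_add {R : Type} [CommRing R] (α β : R) (j i ℓ ℓ' : ℕ) (f : (ℕ → ℕ) → R) :
    Cten α β j i (ℓ + ℓ') f = Cten α β j (i + ℓ) ℓ' (Cten α β j i ℓ f) := by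
  unfold Cten
  rw [← Tens_append, List.range_add, List.map_append, List.map_map]
  have e : ((fun g => flp j (Pi.single (i + g) 1)) ∘ fun x => ℓ + x) =
      fun g => flp j (Pi.single (i + ℓ + g) 1) := by
    funext g
    simp only [comp, add_assoc]
  rw [e]
  refine Tens_perm α β List.perm_append_comm ?_ f
  intro π hπ ρ hρ
  have key : ∀ σ ∈ (List.range ℓ).map (fun g => flp j (Pi.single (i + g) 1)) ++
      (List.range ℓ').map (fun g => flp j (Pi.single (i + ℓ + g) 1)), ∃ g, σ = flp j g := by
    intro σ hσ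
    rcases List.mem_append.1 hσ with h | h <;>
    · obtain ⟨g, -, rfl⟩ := List.mem_map.1 h
      exact ⟨_, rfl⟩
  obtain ⟨g, rfl⟩ := key π hπ
  obtain ⟨g', rfl⟩ := key ρ hρ
  exact flp_commute j g g'

theorem Cten_one {R : Type} [CommRing R] (α β : R) (j i : ℕ) (f : (ℕ → ℕ) → R) (v : ℕ → ℕ) :
    Cten α β j i 1 f v = α * f v + β * f (update v i (v i ^^^ 2 ^ j)) := by
  simp [Cten, List.range_succ, Tens_cons, flp_single]

section frames
variable {A : Type} [CommRing A]

/-- the sign character with values in a ring -/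
def fsg (A : Type) [CommRing A] (t : ZMod 2) : A := if t = 0 then 1 else -1

theorem fsg_zero : fsg A 0 = 1 := by simp [fsg]

theorem fsg_one : fsg A 1 = -1 := by simp [fsg]

theorem fsg_add (a b : ZMod 2) : fsg A (a + b) = fsg A a * fsg A b := by
  rcases R324.zmod2_cases a with rfl | rfl <;> rcases R324.zmod2_cases b with rfl | rfl <;>
    simp [fsg, R324.one_add_one_zmod2]

theorem fsg_mul_self (a : ZMod 2) : fsg A a * fsg A a = 1 := by
  rw [← fsg_add, CharTwo.add_self_eq_zero, fsg_zero]

theorem fsg_natCast (n : ℕ) : fsg A (n : ZMod 2) = (-1) ^ n := by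
  induction n with
  | zero => simp [fsg_zero]
  | succ n ih => rw [Nat.cast_succ, fsg_add, ih, pow_succ, fsg_one]

variable {ι : Type} [Fintype ι] [DecidableEq ι] {I h : A}

theorem fqf_add (hI : I * I = -1) {B B' : Matrix ι ι (ZMod 2)} (hB : B.IsSymm) (hB' : B'.IsSymm)
    (x : ι → ZMod 2) : I ^ R324.qf (B + B') x =
      fsg A ((fun i => B i i * B' i i) ⬝ᵥ x) * I ^ R324.qf B' x * I ^ R324.qf B x := by
  have h1 : ∀ a b : ZMod 2, b.val + a.val = (a + b).val + 2 * (a * b).val := by decide
  have h2 : R324.qf B' x + R324.qf B x =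
      R324.qf (B + B') x + 2 * R324.qf (Matrix.of fun i j => B i j * B' i j) x := by
    simp only [R324.qf, ← Finset.sum_add_distrib, Finset.mul_sum, Matrix.add_apply,
      Matrix.of_apply]
    refine Finset.sum_congr rfl fun i _ => Finset.sum_congr rfl fun j _ => ?_
    rw [← add_mul, h1]; ring
  have h3 : ((R324.qf (Matrix.of fun i j => B i j * B' i j) x : ℕ) : ZMod 2) =
      (fun i => B i i * B' i i) ⬝ᵥ x := by
    simp only [R324.qf, Nat.cast_sum, Nat.cast_mul, ZMod.natCast_val, ZMod.cast_id', id,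
      Matrix.of_apply]
    rw [R324.sum_symm_char2]
    · refine Finset.sum_congr rfl fun i _ => ?_
      have : ∀ t : ZMod 2, t * t = t := by decide
      rw [this]
    · intro i j
      rw [hB.apply i j, hB'.apply i j, mul_comm (x i)]
  rw [mul_assoc, ← pow_add, h2, pow_add, pow_mul, pow_two, hI, ← fsg_natCast, h3,
    mul_comm (I ^ _), ← mul_assoc, fsg_mul_self, one_mul]

theorem fI_pow_sq (hI : I * I = -1) (hh : 2 * h = 1) (n : ℕ) :
    I ^ (n * n) = h * (1 + I) + h * (1 - I) * (-1) ^ n := by
  have h4 : I ^ 4 = 1 := by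
    have : I ^ 4 = (I * I) * (I * I) := by ring
    rw [this, hI]; ring
  rcases Nat.even_or_odd' n with ⟨k, rfl | rfl⟩
  · have : 2 * k * (2 * k) = 4 * (k * k) := by ring
    rw [this, pow_mul I, h4, one_pow, pow_mul, neg_one_sq, one_pow]
    linear_combination -hh
  · have : (2 * k + 1) * (2 * k + 1) = 4 * (k * k + k) + 1 := by ring
    rw [this, pow_succ I, pow_mul I, h4, one_pow, pow_succ, pow_mul, neg_one_sq, one_pow]
    linear_combination -I * hh

theorem fqf_tau (hI : I * I = -1) (hh : 2 * h = 1) (w x : ι → ZMod 2) :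
    I ^ R324.qf (R324.tau w) x = h * (1 + I) + h * (1 - I) * fsg A (w ⬝ᵥ x) := by
  have h1 : ∀ a b : ZMod 2, (a * b).val = a.val * b.val := by decide
  have h2 : R324.qf (R324.tau w) x =
      (∑ i, (w i).val * (x i).val) * (∑ i, (w i).val * (x i).val) := by
    simp only [R324.qf, R324.tau, Matrix.vecMulVec_apply, h1, Finset.sum_mul_sum]
    refine Finset.sum_congr rfl fun i _ => Finset.sum_congr rfl fun j _ => by ring
  rw [h2, fI_pow_sq hI hh, ← fsg_natCast]
  simp [dotProduct]

theorem fqf_one (hI : I * I = -1) (hh : 2 * h = 1) (x : ι → ZMod 2) :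
    I ^ R324.qf (1 : Matrix ι ι (ZMod 2)) x =
      ∏ i, (h * (1 + I) + h * (1 - I) * fsg A (x i)) := by
  have h1 : R324.qf (1 : Matrix ι ι (ZMod 2)) x = ∑ i, (x i).val := by
    refine Finset.sum_congr rfl fun i _ => ?_
    rw [Finset.sum_eq_single i]
    · have : ∀ t : ZMod 2, (1 : ZMod 2).val * (t.val * t.val) = t.val := by decide
      rw [Matrix.one_apply_eq, this]
    · intro j _ hj
      rw [Matrix.one_apply_ne hj.symm]; simp
    · simp
  rw [h1, ← Finset.prod_pow_eq_pow_sum]
  refine Finset.prod_congr rfl fun i _ => ?_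
  rcases R324.zmod2_cases (x i) with e | e <;> rw [e]
  · rw [fsg_zero, ZMod.val_zero, pow_zero]
    linear_combination -hh
  · have : (1 : ZMod 2).val = 1 := rfl
    rw [fsg_one, this, pow_one]
    linear_combination -I * hh

/-- a complete system of orthogonal idempotents diagonalising a representation of `ι → ZMod 2` -/
theorem exists_idem (hh : 2 * h = 1) (x : (ι → ZMod 2) → A) (x0 : x 0 = 1)
    (xadd : ∀ u v, x (u + v) = x u * x v) :
    ∃ e : (ι → ZMod 2) → A, ∑ ξ, e ξ = 1 ∧ (∀ ξ η, ξ ≠ η → e ξ * e η = 0) ∧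
      ∀ u ξ, x u * e ξ = fsg A (u ⬝ᵥ ξ) * e ξ := by
  have hy : ∀ i, x (Pi.single i 1) * x (Pi.single i 1) = 1 := by
    intro i
    rw [← xadd, R324.vec_add_self, x0]
  refine ⟨fun ξ => ∏ i, h * (1 + fsg A (ξ i) * x (Pi.single i 1)), ?_, ?_, ?_⟩
  · have := Finset.prod_univ_sum (fun _ : ι => (Finset.univ : Finset (ZMod 2)))
      (fun i t => h * (1 + fsg A t * x (Pi.single i 1)))
    rw [Fintype.piFinset_univ] at this
    rw [← this]
    refine Finset.prod_eq_one fun i _ => ?_
    have hs : ∀ f : ZMod 2 → A, ∑ t, f t = f 0 + f 1 := fun f => Fin.sum_univ_two f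
    rw [hs, fsg_zero, fsg_one]
    linear_combination hh
  · intro ξ η hne
    obtain ⟨i, hi⟩ := Function.ne_iff.1 hne
    rw [← Finset.prod_mul_distrib]
    refine Finset.prod_eq_zero (Finset.mem_univ i) ?_
    have := hy i
    rcases R324.zmod2_cases (ξ i) with e | e <;> rcases R324.zmod2_cases (η i) with e' | e'
    · exact absurd (e.trans e'.symm) hi
    · rw [e, e', fsg_zero, fsg_one]
      linear_combination (-h * h) * this
    · rw [e, e', fsg_zero, fsg_one]
      linear_combination (-h * h) * this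
    · exact absurd (e.trans e'.symm) hi
  · intro u ξ
    set E := ∏ i, h * (1 + fsg A (ξ i) * x (Pi.single i 1)) with hE
    have h1 : ∀ i, x (Pi.single i 1) * E = fsg A (ξ i) * E := by
      intro i
      have h2 := fsg_mul_self (A := A) (ξ i)
      have key : x (Pi.single i 1) * (h * (1 + fsg A (ξ i) * x (Pi.single i 1))) =
          fsg A (ξ i) * (h * (1 + fsg A (ξ i) * x (Pi.single i 1))) := by
        linear_combination (h * fsg A (ξ i)) * hy i - (h * x (Pi.single i 1)) * h2
      rw [hE, ← Finset.mul_prod_erase _ _ (Finset.mem_univ i), ← mul_assoc (x _), key, mul_assoc]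
    have h2 : ∀ s : Finset ι, x (∑ i ∈ s, Pi.single i (u i)) * E =
        fsg A (∑ i ∈ s, u i * ξ i) * E := by
      intro s
      induction s using Finset.induction_on with
      | empty => simp [x0, fsg_zero]
      | insert a s ha ih =>
        rw [Finset.sum_insert ha, Finset.sum_insert ha, xadd, fsg_add, mul_assoc, ih,
          mul_left_comm, mul_comm (fsg A (u a * ξ a)), mul_assoc]
        congr 1
        rcases R324.zmod2_cases (u a) with e | e <;> rw [e]
        · simp [x0, fsg_zero]
        · rw [h1, one_mul]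
    have h3 := h2 Finset.univ
    rwa [Finset.univ_sum_single] at h3

end frames

/-- Frames in a commutative ring.  Recipe: the idempotents
`e ξ = ∏ i, h * (1 + sgn (ξ i) * x (single i 1))` are orthogonal with sum `1` and
`x u * e ξ = sgn (u ⬝ᵥ ξ) * e ξ`; so `f ↦ ∑ ξ, f ξ * e ξ` is a ring homomorphism from functions
on `ι → ZMod 2`; put `κ B = ∑ ξ, I ^ R324.qf B ξ * e ξ` and redo `R324.qf_add`, `qf_tau`,
`qf_one` with `I` in place of `Complex.I`. -/
theorem exists_frames {ι A : Type} [Fintype ι] [DecidableEq ι] [CommRing A] (I h : A)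
    (hI : I * I = -1) (hh : 2 * h = 1) (x : (ι → ZMod 2) → A) (x0 : x 0 = 1)
    (xadd : ∀ u v, x (u + v) = x u * x v) :
    ∃ κ : Matrix ι ι (ZMod 2) → A, (∀ B, IsUnit (κ B)) ∧
      (∀ B w, B.IsSymm → κ (B + R324.tau w) =
        x (fun i => B i i * w i) * (h * (1 + I) + h * (1 - I) * x w) * κ B) ∧
      ∀ B, B.IsSymm → κ (B + 1) =
        x (fun i => B i i) * (∏ i, (h * (1 + I) + h * (1 - I) * x (Pi.single i 1))) * κ B := by
  obtain ⟨e, hsum, horth, hx⟩ := exists_idem hh x x0 xadd
  have hext : ∀ a b : A, (∀ ξ, a * e ξ = b * e ξ) → a = b := by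
    intro a b hab
    rw [← mul_one a, ← mul_one b, ← hsum, Finset.mul_sum, Finset.mul_sum]
    exact Finset.sum_congr rfl fun ξ _ => hab ξ
  have hidem : ∀ ξ, e ξ * e ξ = e ξ := by
    intro ξ
    have : e ξ * ∑ η, e η = e ξ * e ξ := by
      rw [Finset.mul_sum, Finset.sum_eq_single ξ]
      · exact fun η _ hη => horth ξ η (Ne.symm hη)
      · simp
    rw [← this, hsum, mul_one]
  have hΦ : ∀ (f : (ι → ZMod 2) → A) ξ, (∑ η, f η * e η) * e ξ = f ξ * e ξ := by
    intro f ξ
    rw [Finset.sum_mul, Finset.sum_eq_single ξ]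
    · rw [mul_assoc, hidem]
    · intro η _ hη
      rw [mul_assoc, horth η ξ hη, mul_zero]
    · simp
  have hmul : ∀ (a b c d : A) ξ, a * e ξ = c * e ξ → b * e ξ = d * e ξ →
      a * b * e ξ = c * d * e ξ := by
    intro a b c d ξ h1 h2
    rw [mul_assoc, h2, mul_left_comm, h1, mul_left_comm, mul_assoc]
  have hlin : ∀ u ξ, (h * (1 + I) + h * (1 - I) * x u) * e ξ =
      (h * (1 + I) + h * (1 - I) * fsg A (u ⬝ᵥ ξ)) * e ξ := by
    intro u ξ
    rw [add_mul, add_mul, mul_assoc (h * (1 - I)), hx, mul_assoc (h * (1 - I))]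
  refine ⟨fun B => ∑ η, I ^ R324.qf B η * e η, fun B => ?_, fun B w hB => ?_, fun B hB => ?_⟩
  · refine IsUnit.of_mul_eq_one (∑ η, (-I) ^ R324.qf B η * e η) (hext _ _ fun ξ => ?_)
    rw [hmul _ _ _ _ ξ (hΦ _ ξ) (hΦ _ ξ), ← mul_pow, mul_neg, hI, neg_neg, one_pow]
  · refine hext _ _ fun ξ => ?_
    have hw : (R324.tau w).IsSymm := (R324.Rk.tau w).isSymm
    have e1 : (fun i => B i i * R324.tau w i i) = fun i => B i i * w i := by
      funext i
      have : ∀ t : ZMod 2, t * t = t := by decide
      simp only [R324.tau, Matrix.vecMulVec_apply, this]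
    rw [hΦ, hmul _ _ _ _ ξ (hmul _ _ _ _ ξ (hx _ ξ) (hlin w ξ)) (hΦ _ ξ), fqf_add hI hB hw,
      fqf_tau hI hh, e1]
  · refine hext _ _ fun ξ => ?_
    have e1 : (fun i => B i i * (1 : Matrix ι ι (ZMod 2)) i i) = fun i => B i i := by
      funext i
      simp
    have h1 : ∀ s : Finset ι, (∏ i ∈ s, (h * (1 + I) + h * (1 - I) * x (Pi.single i 1))) * e ξ =
        (∏ i ∈ s, (h * (1 + I) + h * (1 - I) * fsg A (ξ i))) * e ξ := by
      intro s
      induction s using Finset.induction_on with
      | empty => simp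
      | insert a s ha ih =>
        rw [Finset.prod_insert ha, Finset.prod_insert ha]
        refine hmul _ _ _ _ ξ ?_ ih
        rw [hlin, single_dotProduct, one_mul]
    rw [hΦ, hmul _ _ _ _ ξ (hmul _ _ _ _ ξ (hx _ ξ) (h1 _)) (hΦ _ ξ),
      fqf_add hI hB Matrix.isSymm_one, fqf_one hI hh, e1]

theorem colv_zero {m : ℕ} (i ℓ c : ℕ) : colv i ℓ (0 : Fin m → ZMod 2) c = 0 := by
  funext k
  simp [colv]

theorem colv_add {m : ℕ} (i ℓ c : ℕ) (u v : Fin m → ZMod 2) :
    colv i ℓ (u + v) c = colv i ℓ u c + colv i ℓ v c := by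
  funext k
  simp only [colv, Pi.add_apply, ← Finset.sum_add_distrib]
  refine Finset.sum_congr rfl fun l _ => ?_
  split_ifs <;> simp

theorem colv_single {m : ℕ} (i ℓ c : ℕ) (l : Fin m) :
    colv i ℓ (Pi.single l 1 : Fin m → ZMod 2) c = Pi.single (i + (l * ℓ + c)) 1 := by
  funext k
  simp only [colv]
  rw [Finset.sum_eq_single l]
  · simp [Pi.single_apply, add_assoc]
  · intro l' _ hl
    simp [hl]
  · simp

theorem sum_colv {m : ℕ} (i ℓ : ℕ) (u : Fin m → ZMod 2) :
    ∑ c ∈ Finset.range ℓ, colv i ℓ u c = allv i ℓ u := by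
  funext k
  simp only [Finset.sum_apply, colv, allv]
  rw [Finset.sum_comm]
  refine Finset.sum_congr rfl fun l _ => ?_
  rw [add_mul, one_mul, ← add_assoc]
  generalize i + l * ℓ = a
  split_ifs with hk
  · rw [Finset.sum_eq_single (k - a)]
    · rw [if_pos (by omega)]
    · intro c _ hc
      rw [if_neg (by omega)]
    · intro hc
      exact absurd (Finset.mem_range.2 (by omega)) hc
  · refine Finset.sum_eq_zero fun c hc => ?_
    have := Finset.mem_range.1 hc
    rw [if_neg (by omega)]

theorem prod_range_mul_fin {M : Type} [CommMonoid M] (m ℓ : ℕ) (F : ℕ → M) :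
    ∏ c ∈ Finset.range ℓ, ∏ l : Fin m, F (l * ℓ + c) = ∏ g ∈ Finset.range (m * ℓ), F g := by
  rw [Finset.prod_comm, Fin.prod_univ_eq_prod_range (fun l => ∏ c ∈ Finset.range ℓ, F (l * ℓ + c))]
  induction m with
  | zero => simp
  | succ m ih => rw [Finset.prod_range_succ, ih, add_mul, one_mul, Finset.prod_range_add]

theorem prod_range_eq_list {M : Type} [CommMonoid M] (n : ℕ) (F : ℕ → M) :
    ∏ c ∈ Finset.range n, F c = ((List.range n).map F).prod := by
  induction n with
  | zero => simp
  | succ n ih => rw [Finset.prod_range_succ, ih, List.range_succ]; simp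

/-- the group algebra of the flips acts on functions of the address -/
theorem exists_flp_rep (R : Type) [CommRing R] (j : ℕ) :
    ∃ ρ : AddMonoidAlgebra R (ℕ → ZMod 2) →ₐ[R] Module.End R ((ℕ → ℕ) → R),
      ∀ g f v, ρ (AddMonoidAlgebra.single g 1) f v = f (flp j g v) := by
  let φ : Multiplicative (ℕ → ZMod 2) →* Module.End R ((ℕ → ℕ) → R) :=
    { toFun := fun g => LinearMap.funLeft R R (flp j g.toAdd)
      map_one' := by
        ext f v
        simp [LinearMap.funLeft_apply, flp_zero]
      map_mul' := fun g g' => by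
        refine LinearMap.ext fun f => funext fun v => ?_
        simp only [Module.End.mul_apply, LinearMap.funLeft_apply, toAdd_mul]
        rw [add_comm, flp_add] }
  refine ⟨AddMonoidAlgebra.lift R _ _ φ, fun g f v => ?_⟩
  rw [AddMonoidAlgebra.lift_single, one_smul]
  rfl

/-- The operators of the butterfly network.  Recipe: `A = AddMonoidAlgebra R (ℕ → ZMod 2)` acts on
functions through `g ↦ (· ∘ flp j g)` (`AddMonoidAlgebra.lift`); for each column `c < ℓ` apply
`exists_frames` to `x u = of (colv i ℓ u c)`, and multiply the results; `Tens_perm`. -/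
theorem exists_ops {R : Type} [CommRing R] (I h : R) (hI : I * I = -1) (hh : 2 * h = 1)
    (m j i ℓ : ℕ) :
    ∃ Op Op' : Matrix (Fin m) (Fin m) (ZMod 2) → Module.End R ((ℕ → ℕ) → R),
      (∀ B f, Op B (Op' B f) = f) ∧
      (∀ B w f v, B.IsSymm → Op (B + R324.tau w) f v =
        Wten (h * (1 + I)) (h * (1 - I)) j i ℓ w (Op B f)
          (flp j (allv i ℓ fun l => B l l * w l) v)) ∧
      ∀ B f v, B.IsSymm → Op (B + 1) f v =
        Cten (h * (1 + I)) (h * (1 - I)) j i (m * ℓ) (Op B f)
          (flp j (allv i ℓ fun l => B l l) v) := by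
  obtain ⟨ρ, hρ⟩ := exists_flp_rep R j
  let a : R →+* AddMonoidAlgebra R (ℕ → ZMod 2) := algebraMap R _
  let y : (ℕ → ZMod 2) → AddMonoidAlgebra R (ℕ → ZMod 2) := fun g => AddMonoidAlgebra.single g 1
  have y0 : y 0 = 1 := rfl
  have yadd : ∀ g g', y (g + g') = y g * y g' := by
    intro g g'
    simp only [y, AddMonoidAlgebra.single_mul_single, mul_one]
  have ysum : ∀ (n : ℕ) (g : ℕ → ℕ → ZMod 2),
      ∏ c ∈ Finset.range n, y (g c) = y (∑ c ∈ Finset.range n, g c) := by
    intro n g
    induction n with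
    | zero => simp [y0]
    | succ n ih => rw [Finset.prod_range_succ, Finset.sum_range_succ, ih, yadd]
  have hI' : a I * a I = -1 := by rw [← map_mul, hI, map_neg, map_one]
  have hh' : 2 * a h = 1 := by
    have := congrArg a hh
    rwa [map_mul, map_ofNat, map_one] at this
  choose κ hκu hκt hκo using fun c : ℕ => exists_frames (a I) (a h) hI' hh'
    (fun u : Fin m → ZMod 2 => y (colv i ℓ u c)) (by rw [colv_zero, y0])
    (fun u v => by rw [colv_add, yadd])
  have hu : ∀ B, IsUnit (∏ c ∈ Finset.range ℓ, κ c B) := fun B =>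
    IsUnit.prod_iff.2 fun c _ => hκu c B
  choose κ' hκ' using fun B => (hu B).exists_right_inv
  have hlist : ∀ (l : List ℕ) (g : ℕ → ℕ → ZMod 2) (F : (ℕ → ℕ) → R),
      ρ (l.map fun c => a h * (1 + a I) + a h * (1 - a I) * y (g c)).prod F =
        Tens (h * (1 + I)) (h * (1 - I)) (l.map fun c => flp j (g c)) F := by
    intro l g F
    induction l with
    | nil => simp
    | cons c l ih =>
      funext v
      have e1 : a h * (1 + a I) = a (h * (1 + I)) := by rw [map_mul, map_add, map_one]
      have e2 : a h * (1 - a I) = a (h * (1 - I)) := by rw [map_mul, map_sub, map_one]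
      rw [List.map_cons, List.map_cons, List.prod_cons, map_mul, Module.End.mul_apply, ih,
        Tens_cons, e1, e2, map_add, map_mul ρ, AlgHom.commutes, AlgHom.commutes]
      simp only [LinearMap.add_apply, Module.End.mul_apply, Module.algebraMap_end_apply,
        Pi.add_apply, Pi.smul_apply, smul_eq_mul, y, hρ]
  refine ⟨fun B => ρ (∏ c ∈ Finset.range ℓ, κ c B), fun B => ρ (κ' B), fun B f => ?_,
    fun B w f v hB => ?_, fun B f v hB => ?_⟩
  · rw [← Module.End.mul_apply, ← map_mul, hκ', map_one, Module.End.one_apply]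
  · simp only [hκt _ B w hB, Finset.prod_mul_distrib]
    rw [ysum, sum_colv, map_mul, map_mul, Module.End.mul_apply, Module.End.mul_apply, hρ,
      prod_range_eq_list, hlist]
    rfl
  · simp only [hκo _ B hB, Finset.prod_mul_distrib, colv_single]
    rw [ysum, sum_colv, map_mul, map_mul, Module.End.mul_apply, Module.End.mul_apply, hρ,
      prod_range_mul_fin m ℓ fun g => a h * (1 + a I) + a h * (1 - a I) * y (Pi.single (i + g) 1),
      prod_range_eq_list, hlist]
    rfl

end Crest.Agent.R326
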