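/-
R326/Gat: generic rules for layouts, families, gathers and block loops.  Author: helper92.
-/
import Crest.Agent.R326.Defs

set_option autoImplicit false
set_option linter.unusedSimpArgs false
set_option linter.unusedSectionVars false
set_option linter.unusedVariables false

namespace Crest.Agent.R326

open Function Crest.Agent.Lib.PolyTime

variable {α β P Q J X Y : Type} [Enc P] [Enc Q] [Enc J] [Enc X] [Enc Y] {𝔅 : Bud α} {p : α → P}
  {Λ Λ' Λ'' : Lay P} {V : α → ℕ} {b b' : ℕ}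

/-! ### Polynomial-time address arithmetic -/

/-- Use `min i (Λ.n q)` to get polynomial time for arbitrary `i`. -/
theorem Lay.pt_wt (Λ : Lay P) {g : Q → P} {i : Q → ℕ} (hg : PT g) (hi : PT i) :
    PT fun q => wt (Λ.r (g q)) (min (i q) (Λ.n (g q))) := by
  unfold wt
  exact PT.prod_range_nat (f := fun q k => Λ.r (g q) k) (PT.nat_min hi (Λ.hn.comp hg))
    (PB.min_right (Λ.hn'.comp hg)) (Λ.hr.comp (g := fun z : Q × ℕ => (g z.1, z.2)) (by fun_prop))

theorem Lay.pt_rwt (Λ : Lay P) {g : Q → P} {i len : Q → ℕ} (hg : PT g) (hi : PT i) (hl : PT len) :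
    PT fun q => rwt (Λ.r (g q)) (i q) (min (len q) (Λ.n (g q))) := by
  unfold rwt wt
  exact PT.prod_range_nat (f := fun q k => Λ.r (g q) (i q + k)) (PT.nat_min hl (Λ.hn.comp hg))
    (PB.min_right (Λ.hn'.comp hg))
    (Λ.hr.comp (g := fun z : Q × ℕ => (g z.1, i z.1 + z.2)) (by fun_prop))

@[fun_prop] theorem Lay.pt_vol (Λ : Lay P) {g : Q → P} (hg : PT g) : PT fun q => Λ.vol (g q) := (Λ.pt_wt hg (Λ.hn.comp hg)).of_eq fun q => by simp [Lay.vol]

@[fun_prop] theorem Lay.pt_r (Λ : Lay P) {g : Q → P} {i : Q → ℕ} (hg : PT g) (hi : PT i) :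
    PT fun q => Λ.r (g q) (i q) := Λ.hr.comp (hg.prodMk hi)

@[fun_prop] theorem Lay.pt_n (Λ : Lay P) {g : Q → P} (hg : PT g) : PT fun q => Λ.n (g q) :=
  Λ.hn.comp hg

@[fun_prop] theorem Lay.pb_n (Λ : Lay P) {g : Q → P} (hg : PT g) : PB fun q => Λ.n (g q) :=
  Λ.hn'.comp hg

/-- The value of a range of fields read from a digit list. -/
theorem Lay.pt_rg (Λ : Lay P) {g : Q → P} {i len : Q → ℕ} {l : Q → List ℕ} (hg : PT g) (hi : PT i)
    (hl : PT len) (hv : PT l) :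
    PT fun q => rg (Λ.r (g q)) (fun k => (l q).getD k 0) (i q) (min (len q) (Λ.n (g q))) := by
  have h1 : PT fun z : Q × ℕ => rwt (Λ.r (g z.1)) (i z.1) (min z.2 (Λ.n (g z.1))) *
      (l z.1).getD (i z.1 + z.2) 0 :=
    PT.nat_mul (Λ.pt_rwt (hg.comp PT.fst') (hi.comp PT.fst') PT.snd') (by fun_prop)
  refine (PT.sum_range_nat (f := fun q k => rwt (Λ.r (g q)) (i q) (min k (Λ.n (g q))) *
      (l q).getD (i q + k) 0) (PT.nat_min hl (Λ.hn.comp hg)) (PB.min_right (Λ.hn'.comp hg))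
      h1).of_eq fun q => ?_
  refine Finset.sum_congr rfl fun k hk => ?_
  have := Finset.mem_range.mp hk
  rw [min_eq_left (by omega)]
  rfl

theorem Lay.od_getD (Λ : Lay P) (q : P) {i k : ℕ} (v : ℕ → ℕ) (h1 : i ≤ k) (h2 : k < Λ.n q) :
    (Λ.od q i v).getD k 0 = v k := by
  simp [Lay.od, List.getD_eq_getElem?_getD, h2, Nat.not_lt.mpr h1]

theorem Lay.od_congr (Λ : Lay P) (q : P) {i : ℕ} {v w : ℕ → ℕ}
    (h : ∀ k < Λ.n q, i ≤ k → v k = w k) : Λ.od q i v = Λ.od q i w := by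
  refine List.map_congr_left fun k hk => ?_
  split_ifs with h1
  · rfl
  · exact h k (List.mem_range.mp hk) (by omega)

theorem Lay.Val.pos_lt {q : P} {v : ℕ → ℕ} (h : Λ.Val q v) : Λ.pos q v < Λ.vol q :=
  R326.Val.pos_lt h

theorem Lay.pos_congr (Λ : Lay P) (q : P) {v w : ℕ → ℕ} (h : ∀ k < Λ.n q, v k = w k) :
    Λ.pos q v = Λ.pos q w := R326.pos_congr (fun _ _ => rfl) h

theorem Lay.pos_eq_ri (Λ : Lay P) {q : P} (h : 1 ≤ Λ.n q) (v : ℕ → ℕ) :
    Λ.pos q v = v 0 + Λ.r q 0 * Λ.ri q v := by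
  have := pos_add (Λ.r q) v 1 (Λ.n q - 1)
  rwa [Nat.add_sub_cancel' h, pos_one, wt_one] at this

theorem Lay.vol_eq_nrec (Λ : Lay P) {q : P} (h : 1 ≤ Λ.n q) : Λ.vol q = Λ.r q 0 * Λ.nrec q := by
  have := wt_add (Λ.r q) 1 (Λ.n q - 1)
  rwa [Nat.add_sub_cancel' h, wt_one] at this

theorem Lay.Val.ri_lt {q : P} {v : ℕ → ℕ} (h : Λ.Val q v) (hn : 1 ≤ Λ.n q) :
    Λ.ri q v < Λ.nrec q := R326.Val.rg_lt h (by omega)

theorem Lay.ri_congr (Λ : Lay P) (q : P) {v w : ℕ → ℕ} (h : ∀ k < Λ.n q, 1 ≤ k → v k = w k) :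
    Λ.ri q v = Λ.ri q w := rg_congr (fun _ _ => rfl) fun k hk => h _ (by omega) (by omega)

/-- Every record index comes from an address. -/
theorem Lay.exists_val_ri (Λ : Lay P) {q : P} (hp : ∀ k < Λ.n q, 0 < Λ.r q k) (hn : 1 ≤ Λ.n q)
    {t : ℕ} (ht : t < Λ.nrec q) : ∃ v, Λ.Val q v ∧ Λ.ri q v = t := by
  have h0 := hp 0 hn
  obtain ⟨v, hv, e⟩ := exists_val_pos hp (j := Λ.r q 0 * t) (by
    have := Λ.vol_eq_nrec hn
    rw [Lay.vol] at this
    rw [this]; exact Nat.mul_lt_mul_of_pos_left ht h0)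
  refine ⟨v, hv, ?_⟩
  have h1 := Λ.pos_eq_ri hn v
  rw [Lay.pos, e] at h1
  have h2 := hv 0 hn
  have h3 := congrArg (· / Λ.r q 0) h1
  simp only [Nat.add_mul_div_left _ _ h0, Nat.div_eq_of_lt h2, Nat.mul_div_cancel_left _ h0] at h3
  omega

/-! ### Blocks -/

theorem length_blk {g t : ℕ} {D : Arr} (h : g * (t + 1) ≤ D.length) : (blk g t D).length = g := by
  simp only [blk, List.length_take, List.length_drop, mul_add, mul_one] at h ⊢
  omega

theorem bit_blk {g x : ℕ} (t : ℕ) (D : Arr) (hx : x < g) : bit (blk g t D) x = bit D (x + g * t) := by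
  simp [blk, bit, List.getD_eq_getElem?_getD, List.getElem?_take, hx, add_comm]

theorem arr_ext {D D' : Arr} (h : D.length = D'.length) (h' : ∀ j < D.length, bit D j = bit D' j) :
    D = D' := by
  refine List.ext_getElem h fun j h1 h2 => ?_
  have := h' j h1
  simpa [bit, List.getD_eq_getElem?_getD, List.getElem?_eq_getElem h1,
    List.getElem?_eq_getElem h2] using this

theorem chunks_eq_blk (g n : ℕ) (D : Arr) : chunks g n D = (List.range n).map fun t => blk g t D :=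
  rfl

theorem blk_flatten {g : ℕ} {B : List Arr} (h : ∀ c ∈ B, c.length = g) {t : ℕ} (ht : t < B.length) :
    blk g t B.flatten = B.getD t [] := by
  induction B generalizing t with
  | nil => simp at ht
  | cons c B ih =>
    have hc := h c (by simp)
    cases t with
    | zero => simp [blk, ← hc]
    | succ t =>
      have := ih (fun c' hc' => h c' (by simp [hc'])) (t := t) (by simpa using ht)
      simp only [blk, List.flatten_cons, List.getD_cons_succ] at this ⊢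
      rw [← this, show g * (t + 1) = c.length + g * t by rw [hc]; ring, ← List.drop_drop,
        List.drop_left]

theorem blk_blk {g c t u : ℕ} (D : Arr) (hu : u < c) :
    blk g u (blk (g * c) t D) = blk g (u + c * t) D := by
  have h1 : g * u + g ≤ g * c := by nlinarith
  simp only [blk, List.drop_take, List.drop_drop, List.take_take]
  rw [min_eq_left (by omega)]
  congr 2
  ring

/-- A gather that is uniform in field `0` moves whole records. -/
theorem GPost.blk_eq {q : P} {Rl : (ℕ → ℕ) → (ℕ → ℕ) → Prop} {D D' : Arr} {g : ℕ} {v w : ℕ → ℕ}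
    (h : GPost Λ Λ' q Rl D D') (hD : D.length = Λ.vol q) (hn : 1 ≤ Λ.n q) (hn' : 1 ≤ Λ'.n q)
    (h0 : Λ.r q 0 = g) (h0' : Λ'.r q 0 = g) (hv : Λ'.Val q v) (hw : Λ.Val q w)
    (hR : ∀ x < g, Rl (update v 0 x) (update w 0 x)) :
    blk g (Λ'.ri q v) D' = blk g (Λ.ri q w) D := by
  have e1 : g * (Λ'.ri q v + 1) ≤ D'.length := by
    rw [h.1, Λ'.vol_eq_nrec hn', h0']
    exact Nat.mul_le_mul_left _ (hv.ri_lt hn')
  have e2 : g * (Λ.ri q w + 1) ≤ D.length := by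
    rw [hD, Λ.vol_eq_nrec hn, h0]
    exact Nat.mul_le_mul_left _ (hw.ri_lt hn)
  refine arr_ext (by rw [length_blk e1, length_blk e2]) fun x hx => ?_
  rw [length_blk e1] at hx
  have := h.2 _ _ (R326.Val.update hv (by rw [h0']; exact hx))
    (R326.Val.update hw (by rw [h0]; exact hx)) (hR x hx)
  rw [Λ'.pos_eq_ri hn', Λ.pos_eq_ri hn, update_self, update_self, h0, h0',
    Λ'.ri_congr q (w := v) fun k _ hk => update_of_ne (by omega) _ _,
    Λ.ri_congr q (w := w) fun k _ hk => update_of_ne (by omega) _ _] at this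
  rw [bit_blk _ _ hx, bit_blk _ _ hx, this]

/-! ### Families -/

theorem Fam.wt_pos (hF : Fam V p Λ b) (a : α) {i : ℕ} (hi : i ≤ Λ.n (p a)) :
    0 < wt (Λ.r (p a)) i := R326.wt_pos fun k hk => hF.pos a k (by omega)

theorem Fam.vol_pos (hF : Fam V p Λ b) (a : α) : 0 < Λ.vol (p a) := hF.wt_pos a le_rfl

/-- The parameter is small relative to the weight of every field above the base. -/
theorem Fam.sm_at (hF : Fam V p Λ b) {i : α → ℕ} (h1 : ∀ a, b ≤ i a) (h2 : ∀ a, i a ≤ Λ.n (p a)) :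
    SmIn (fun a => wt (Λ.r (p a)) (i a)) p := hF.small.mono (OLe.of_le fun a =>
  Nat.le_of_dvd (hF.wt_pos a (h2 a)) (wt_dvd _ (h1 a)))

theorem Fam.smV (hF : Fam V p Λ b) : SmIn V p := (hF.sm_at hF.base fun _ => le_rfl).mono hF.vol

theorem Fam.sz_in (hF : Fam V p Λ b) :
    sz (fun q : {q : α × Arr // q.2.length = Λ.vol (p q.1)} => (p q.1.1, q.1.2)) ≼
      fun q => V q.1.1 := sz_pair (hF.smV.size_le.comp _) (sz_bits ((hF.vol.comp
    fun q : {q : α × Arr // q.2.length = Λ.vol (p q.1)} => q.1.1).mono_left fun q => q.2.le)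
    fun q => hF.smV.one_le _)

theorem Fam.mono_base (hF : Fam V p Λ b) (h1 : b ≤ b') (h2 : ∀ a, b' ≤ Λ.n (p a)) :
    Fam V p Λ b' := ⟨h2, hF.pos, hF.sm_at (fun _ => h1) h2, hF.vol⟩

theorem Fam.mono_V {V' : α → ℕ} (hF : Fam V p Λ b) (h : V ≼ V') : Fam V' p Λ b := ⟨hF.base, hF.pos, hF.small, hF.vol.trans h⟩

theorem Fam.reindex (hF : Fam V p Λ b) (φ : β → α) :
    Fam (fun c => V (φ c)) (fun c => p (φ c)) Λ b := ⟨fun _ => hF.base _, fun _ => hF.pos _, hF.small.comp φ, hF.vol.comp φ⟩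

/-- Extend the parameter by a small value. -/
theorem Fam.ext (hF : Fam V p Λ b) (φ : β → α) (j : β → J)
    (hj : SmIn (fun c => wt (Λ.r (p (φ c))) b) j) :
    Fam (fun c => V (φ c)) (fun c => (p (φ c), j c)) (Λ.ext J) b := ⟨fun _ => hF.base _, fun _ => hF.pos _, (hF.small.comp φ).pair hj, hF.vol.comp φ⟩

/-- Extend the parameter by a round number. -/
theorem Fam.ext_lt (hF : Fam V p Λ b) {cnt : P → ℕ} (hc : PT cnt) :
    Fam (fun c : (a : α) × Fin (cnt (p a)) => V c.1) (fun c => (p c.1, c.2.1)) (Λ.ext ℕ) b := hF.ext (fun c : (a : α) × Fin (cnt (p a)) => c.1) _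
    (((hF.small.pt hc).comp _).nat_le fun c => c.2.2.le)

theorem Rich.mono {k e e' B B' N N' : ℕ} (h : Rich k e B N) (he : e' ≤ e) (hB : B ∣ B')
    (hN : N' ≤ N) : Rich k e' B' N' := by
  obtain ⟨E, h1, h2⟩ := h
  exact ⟨E, ((pow_dvd_pow 2 (by omega)).trans h1).trans hB, (Nat.size_le_size hN).trans h2⟩

/-- A bounded enlargement of the volume. -/
theorem Rich.enlarge {k e B N N' c : ℕ} (h : Rich k e B N) (hN : N' ≤ 2 ^ c * N) :
    Rich (k + c + 1) e B N' := by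
  obtain ⟨E, h1, h2⟩ := h
  refine ⟨E, h1, (Nat.size_le_size hN).trans ((natSize_mul_le _ _).trans ?_)⟩
  rw [Nat.size_pow, pow_succ, pow_add]
  have h3 : c + 1 ≤ 2 ^ c := Nat.lt_two_pow_self
  have h4 : 2 ^ c ≤ (E + 2) ^ c := Nat.pow_le_pow_left (by omega) c
  have h5 : 1 ≤ (E + 2) ^ k := Nat.one_le_pow _ _ (by omega)
  generalize (E + 2) ^ k = x at *
  generalize (E + 2) ^ c = y at *
  have h6 : x ≤ x * y := Nat.le_mul_of_pos_right _ (by omega)
  have h7 : y ≤ x * y := Nat.le_mul_of_pos_left _ h5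
  nlinarith

/-- One level of a network recursion. -/
theorem Rich.div {k e B N W : ℕ} (hW : W = 2 ^ 71) (h : Rich k (e + 1) B N) :
    W ∣ B ∧ Rich k e (B / W) N := by
  obtain ⟨E, ⟨c, h1⟩, h2⟩ := h
  have h3 : B = W * (2 ^ (E + 71 * e) * c) := by
    rw [h1, hW, ← mul_assoc, ← pow_add]; congr 2; ring
  have h4 : 0 < W := hW ▸ Nat.two_pow_pos _
  exact ⟨⟨_, h3⟩, E, by rw [h3, Nat.mul_div_cancel_left _ h4]; exact Dvd.intro _ rfl, h2⟩

theorem Rich.smIn {k : ℕ} {e B N : α → ℕ} (h : ∀ a, Rich k (e a) (B a) (N a)) (hB : ∀ a, 0 < B a) :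
    SmIn B N := SmIn.of_size hB k fun a => by
  obtain ⟨E, h1, h2⟩ := h a
  refine h2.trans (Nat.pow_le_pow_left ?_ k)
  have h3 : 2 ^ E ≤ B a := (Nat.pow_le_pow_right (by omega) (by omega)).trans
    (Nat.le_of_dvd (hB a) h1)
  have := Nat.lt_size.mpr h3
  omega

/-! ### Rules for `Impl` -/

/-- An explicit function. -/
theorem Impl.ofL {Pre : α → X → Prop} {Post : α → X → Y → Prop} (f : α → X → Y)
    (hx : sz (fun q : {q : α × X // Pre q.1 q.2} => (p q.1.1, q.1.2)) ≼ fun q => 𝔅.V q.1.1)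
    (hf : L (𝔅.comap fun q : {q : α × X // Pre q.1 q.2} => q.1.1) (fun q => (p q.1.1, q.1.2))
      fun q => f q.1.1 q.1.2)
    (h : ∀ a D, Pre a D → Post a D (f a D)) : Impl 𝔅 p Pre Post fun _ => 0 :=
  ⟨fun q => f q.1.1 q.1.2, fun q => h _ _ q.2, hx, hf⟩

/-- A fixed number of programs on the same input; the results are collected in a list. -/
theorem Impl.fan [Inhabited Y] {Pre : α → X → Prop} (W : ℕ) {Post : ℕ → α → X → Y → Prop}
    (hx : sz (fun q : {q : α × X // Pre q.1 q.2} => (p q.1.1, q.1.2)) ≼ fun q => 𝔅.V q.1.1)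
    (h : ∀ w < W, Impl 𝔅 p Pre (Post w) fun _ => 0) :
    Impl 𝔅 p Pre (fun a D (Ds : List Y) => Ds.length = W ∧ ∀ w < W, Post w a D (Ds.getD w default))
      fun _ => 0 := by
  refine Impl.intro hx fun γ φ D hD hs => ?_
  have key : ∀ w : Fin W, ∃ E : γ → Y, (∀ c, Post w (φ c) (D c) (E c)) ∧
      L (𝔅.comap φ) (fun c => (p (φ c), D c)) E := fun w => (h w w.2).apply φ D hD
  choose E h1 h2 using key
  refine ⟨fun c => List.ofFn fun w => E w c, fun c => ⟨by simp, fun w hw => ?_⟩, L.ofFn h2⟩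
  simpa [List.getD_eq_getElem?_getD, List.getElem?_ofFn, hw] using h1 ⟨w, hw⟩ c

/-- A fixed number of registers, each with its own program. -/
theorem Impl.regs [Inhabited X] [Inhabited Y] (W : ℕ) {Pre : ℕ → α → X → Prop}
    {Post : ℕ → α → X → Y → Prop} (hp : sz p ≼ 𝔅.V)
    (h : ∀ w < W, Impl 𝔅 p (Pre w) (Post w) fun _ => 0) :
    Impl 𝔅 p (fun a (Ds : List X) => Ds.length = W ∧ ∀ w < W, Pre w a (Ds.getD w default))
      (fun a Ds (Ds' : List Y) => Ds'.length = W ∧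
        ∀ w < W, Post w a (Ds.getD w default) (Ds'.getD w default)) fun _ => 0 := by
  have hx : sz (fun q : {q : α × List X // q.2.length = W ∧
      ∀ w < W, Pre w q.1 (q.2.getD w default)} => (p q.1.1, q.1.2)) ≼ fun q => 𝔅.V q.1.1 := by
    refine sz_pair (hp.comp _) ?_
    have h1 : ∀ n ≤ W, (fun q : {q : α × List X // q.2.length = W ∧
        ∀ w < W, Pre w q.1 (q.2.getD w default)} =>
        ∑ i ∈ Finset.range n, (esize (q.1.2.getD i default) + 1)) ≼ fun q => 𝔅.V q.1.1 := by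
      intro n hn
      induction n with
      | zero => exact OLe.of_le fun _ => by simp
      | succ n ih =>
        have h2 := (sz_snd (h n hn).size_in).comp fun q : {q : α × List X // q.2.length = W ∧
          ∀ w < W, Pre w q.1 (q.2.getD w default)} => ⟨(q.1.1, q.1.2.getD n default), q.2.2 n hn⟩
        exact ((ih (by omega)).add (h2.add_const (fun q => sz_one_le hp _) 1)).mono_left
          fun q => by rw [Finset.sum_range_succ]
    refine ((h1 W le_rfl).add_const (fun q => sz_one_le hp _) 1).mono_left fun q => ?_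
    simp only [sz, esize_list q.1.2, sum_map_eq_range, q.2.1]
    rfl
  refine Impl.intro hx fun γ φ D hD hs => ?_
  have key : ∀ w : Fin W, ∃ E : γ → Y, (∀ c, Post w (φ c) ((D c).getD w default) (E c)) ∧
      L (𝔅.comap φ) (fun c => (p (φ c), D c)) E := fun w =>
    (h w w.2).useL φ (fun c => (hD c).2 w w.2) (L.in1 _ _ _)
      ((L.in2 _ _ _).getD_const (L.const _) _)
  choose E h1 h2 using key
  refine ⟨fun c => List.ofFn fun w => E w c, fun c => ⟨by simp, fun w hw => ?_⟩, L.ofFn h2⟩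
  simpa [List.getD_eq_getElem?_getD, List.getElem?_ofFn, hw] using h1 ⟨w, hw⟩ c

/-- A fixed number of steps. -/
theorem Impl.iter (m : ℕ) {Pre : α → X → Prop} (PreS : ℕ → α → X → Prop)
    (PostS : ℕ → α → X → X → Prop) (Inv : ℕ → α → X → X → Prop) (e : ℕ → α → ℝ)
    (hx : sz (fun q : {q : α × X // Pre q.1 q.2} => (p q.1.1, q.1.2)) ≼ fun q => 𝔅.V q.1.1)
    (h : ∀ l < m, Impl 𝔅 p (PreS l) (PostS l) (e l))
    (h0 : ∀ a D, Pre a D → Inv 0 a D D)
    (h1 : ∀ l < m, ∀ a D0 D, Pre a D0 → Inv l a D0 D → PreS l a D)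
    (h2 : ∀ l < m, ∀ a D0 D D', Pre a D0 → Inv l a D0 D → PostS l a D D' → Inv (l + 1) a D0 D') :
    Impl 𝔅 p Pre (Inv m) fun a => ∑ l ∈ Finset.range m, e l a := by
  induction m with
  | zero =>
    exact (Impl.id hx).mono (fun _ _ h => h) (fun a D D' hD e => by rw [e]; exact h0 a D hD)
      fun _ => by simp
  | succ m ih =>
    have ih' := ih (fun l hl => h l (by omega)) (fun l hl => h1 l (by omega))
      fun l hl => h2 l (by omega)
    refine Impl.intro hx fun γ φ D hD hs => ?_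
    obtain ⟨D1, k1, k2⟩ := ih'.apply φ D hD
    obtain ⟨D2, k3, k4⟩ := (h m (by omega)).apply φ D1 fun c => h1 m (by omega) _ _ _ (hD c) (k1 c)
    exact ⟨D2, fun c => h2 m (by omega) _ _ _ _ (hD c) (k1 c) (k3 c),
      (k2.chain k4).mono fun c => by rw [Finset.sum_range_succ]⟩

/-- Blockwise processing; the program for block `t` sees `(p a, t)`.
Recipe: `L.chunks`, `Cp.mapIdxRange`, `L.flatten`. -/
theorem Impl.blocks {g g' cnt : P → ℕ} (hg : PT g) (hc : PT cnt) (V' : α → ℕ) (F' e' : α → ℝ)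
    (hVF : ∀ a, (V' a : ℝ) ≤ F' a) (hsm : SmIn V' p) (hp : SmIn 𝔅.V p) (hg0 : ∀ a, 0 < g (p a))
    (hgV : (fun a => g (p a)) ≼ V') (hgV' : (fun a => g (p a)) ≼ 𝔅.V)
    (hV : (fun a => cnt (p a) * V' a) ≼ 𝔅.V) (hF : (fun a => cnt (p a) * F' a) ≲ 𝔅.F)
    {PreB : α → ℕ → Arr → Prop} {PostB : α → ℕ → Arr → Arr → Prop}
    (body : Impl (𝔅.sub (fun q : (a : α) × Fin (cnt (p a)) => q.1) (fun q => V' q.1)
      (fun q => F' q.1) fun q => hVF q.1) (fun q => (p q.1, q.2.1))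
      (fun q B => B.length = g (p q.1) ∧ PreB q.1 q.2 B)
      (fun q B B' => B'.length = g' (p q.1) ∧ PostB q.1 q.2 B B') fun q => e' q.1) :
    Impl 𝔅 p (fun a D => D.length = g (p a) * cnt (p a) ∧
        ∀ t < cnt (p a), PreB a t (blk (g (p a)) t D))
      (fun a D D' => D'.length = g' (p a) * cnt (p a) ∧
        ∀ t < cnt (p a), PostB a t (blk (g (p a)) t D) (blk (g' (p a)) t D'))
      fun a => cnt (p a) * e' a := by
  have h1V := hp.one_le
  refine Impl.intro (sz_pair (hp.size_le.comp _) (sz_bits ?_ fun q => h1V _)) fun γ φ D hD hs => ?_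
  · refine ((((OLe.refl fun a => cnt (p a)).mul hgV).trans hV).comp
      fun q : {q : α × Arr // _} => q.1.1).mono_left fun q => ?_
    rw [q.2.1, mul_comm]
  let ψ : ((c : γ) × Fin (cnt (p (φ c)))) → (a : α) × Fin (cnt (p a)) := fun q => ⟨φ q.1, q.2⟩
  have hlen : ∀ q : (c : γ) × Fin (cnt (p (φ c))),
      (blk (g (p (φ q.1))) q.2 (D q.1)).length = g (p (φ q.1)) := fun q =>
    length_blk (by rw [(hD q.1).1]; exact Nat.mul_le_mul_left _ q.2.2)
  obtain ⟨E, k1, k2⟩ := body.apply ψ (fun q => blk (g (p (φ q.1))) q.2 (D q.1))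
    fun q => ⟨hlen q, (hD q.1).2 _ q.2.2⟩
  let E' : γ → ℕ → Arr := fun c t => if h : t < cnt (p (φ c)) then E ⟨c, t, h⟩ else []
  have hE : ∀ q : (c : γ) × Fin (cnt (p (φ c))), E' q.1 q.2 = E q := fun q => dif_pos q.2.2
  have h2 := Cp.mapIdxRange (𝔅 := 𝔅.comap φ) (fun c => cnt (p (φ c))) (fun c => p (φ c))
    (fun c t => blk (g (p (φ c))) t (D c)) E' (fun c _ => V' (φ c)) (fun c _ => F' (φ c))
    (fun c _ => e' (φ c)) (fun c _ => hVF _)
    (sz_pair (hsm.size_le.comp fun q : (c : γ) × Fin (cnt (p (φ c))) => φ q.1)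
      (sz_bits ((hgV.comp fun q : (c : γ) × Fin (cnt (p (φ c))) => φ q.1).mono_left
        fun q => (hlen q).le) fun q => hsm.one_le _))
    ((hsm.pt hc).comp fun q : (c : γ) × Fin (cnt (p (φ c))) => φ q.1)
    (k2.congr fun q => (hE q).symm) (by simpa using hF.comp φ) (by simpa using hV.comp φ)
  have hl : ∀ c, ∀ B ∈ (List.range (cnt (p (φ c)))).map (E' c), B.length = g' (p (φ c)) := by
    intro c B hB
    obtain ⟨t, ht, rfl⟩ := List.mem_map.mp hB
    have ht' := List.mem_range.mp ht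
    exact (hE ⟨c, t, ht'⟩).symm ▸ (k1 ⟨c, t, ht'⟩).1
  refine ⟨fun c => ((List.range (cnt (p (φ c)))).map (E' c)).flatten, fun c => ⟨?_, fun t ht => ?_⟩,
    L.cp ?_ ((h2.l (L.refl _ _).flatten).mono fun c => by simp)⟩
  · rw [List.length_flatten, List.map_congr_left (g := fun _ => g' (p (φ c))) (hl c)]
    simp [mul_comm, Function.comp_def]
  · rw [blk_flatten (hl c) (by simpa using ht)]
    have := (k1 ⟨c, t, ht⟩).2
    rw [← hE ⟨c, t, ht⟩] at this
    simpa [List.getD_eq_getElem?_getD, ht] using this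
  · have h3 := L.in1 (𝔅.comap φ) (fun c => p (φ c)) D
    exact h3.pair (L.chunks ((h3.pt (hp.comp φ) hg).un (hgV'.comp φ)) (L.in2 _ _ _)
      (fun c => hg0 _) fun c => (hD c).1)

/-! ### Rules for `Gat` -/

namespace Gat
variable {R R' : α → (ℕ → ℕ) → (ℕ → ℕ) → Prop} {ex ex' : α → ℝ}

theorem id (hF : Fam 𝔅.V p Λ b) :
    Gat 𝔅 p Λ Λ (fun a v w => ∀ k < Λ.n (p a), v k = w k) fun _ => 0 := (Impl.id hF.sz_in).mono (fun _ _ h => h) (fun a D D' hD e =>
    ⟨e ▸ hD, fun v w _ _ h => by rw [e, Λ.pos_congr _ h]⟩) fun _ => le_rfl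

theorem mono (h : Gat 𝔅 p Λ Λ' R ex)
    (hR : ∀ a v w, Λ'.Val (p a) v → Λ.Val (p a) w → R' a v w → R a v w) :
    Gat 𝔅 p Λ Λ' R' ex := Impl.mono h (fun _ _ h => h) (fun a D D' _ e =>
    ⟨e.1, fun v w hv hw h => e.2 v w hv hw (hR a v w hv hw h)⟩) fun _ => le_rfl

theorem mono_ex (h : Gat 𝔅 p Λ Λ' R ex) (he : ∀ a, ex a ≤ ex' a) : Gat 𝔅 p Λ Λ' R ex' := Impl.mono h (fun _ _ h => h) (fun _ _ _ _ e => e) he

theorem absorb (h : Gat 𝔅 p Λ Λ' R ex) (he : ex ≲ 𝔅.F) : Gat 𝔅 p Λ Λ' R fun _ => 0 := Impl.absorb h he fun _ => by simp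

/-- First `h`, then `h'`. -/
theorem comp (h : Gat 𝔅 p Λ Λ' R ex) (h' : Gat 𝔅 p Λ' Λ'' R' ex') :
    Gat 𝔅 p Λ Λ'' (fun a v w => ∃ u, Λ'.Val (p a) u ∧ R' a v u ∧ R a u w) fun a => ex a + ex' a := (Impl.comp h h' fun _ _ _ _ e => e.1).mono (fun _ _ h => h) (fun a D D'' _ e => by
    obtain ⟨D', e1, e2⟩ := e
    refine ⟨e2.1, fun v w hv hw ⟨u, hu, r1, r2⟩ => ?_⟩
    rw [e2.2 v u hv hu r1, e1.2 u w hu hw r2]) fun _ => le_rfl

/-- Composition where the first part is linear. -/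
theorem comp0 (h : Gat 𝔅 p Λ Λ' R fun _ => 0) (h' : Gat 𝔅 p Λ' Λ'' R' ex') :
    Gat 𝔅 p Λ Λ'' (fun a v w => ∃ u, Λ'.Val (p a) u ∧ R' a v u ∧ R a u w) ex' :=
  (h.comp h').mono_ex fun _ => by simp

/-- Composition where the second part is linear. -/
theorem comp1 (h : Gat 𝔅 p Λ Λ' R ex) (h' : Gat 𝔅 p Λ' Λ'' R' fun _ => 0) :
    Gat 𝔅 p Λ Λ'' (fun a v w => ∃ u, Λ'.Val (p a) u ∧ R' a v u ∧ R a u w) ex :=
  (h.comp h').mono_ex fun _ => by simp

theorem reindex (h : Gat 𝔅 p Λ Λ' R ex) (φ : β → α) :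
    Gat (𝔅.comap φ) (fun c => p (φ c)) Λ Λ' (fun c => R (φ c)) fun c => ex (φ c) :=
  Impl.reindex h φ

/-- The same bits under another layout. -/
theorem view (hF : Fam 𝔅.V p Λ b) (hv : ∀ a, Λ'.vol (p a) = Λ.vol (p a)) :
    Gat 𝔅 p Λ Λ' (fun a v w => Λ'.pos (p a) v = Λ.pos (p a) w) fun _ => 0 := (Impl.id hF.sz_in).mono (fun _ _ h => h) (fun a D D' hD e =>
    ⟨e ▸ hD.trans (hv a).symm, fun v w _ _ h => by rw [e, h]⟩) fun _ => le_rfl

/-- Transfer along a change of parameters and layouts that keeps the volumes. -/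
theorem transfer {g : P → Q} {Λ1 Λ1' : Lay Q} (h : Gat 𝔅 (fun a => g (p a)) Λ1 Λ1' R ex) (hg : PT g)
    (hp : SmIn 𝔅.V p) (hv : ∀ a, Λ.vol (p a) = Λ1.vol (g (p a)))
    (hv' : ∀ a, Λ'.vol (p a) = Λ1'.vol (g (p a))) :
    Gat 𝔅 p Λ Λ' (fun a v w => ∃ v1 w1, Λ1'.Val (g (p a)) v1 ∧ Λ1.Val (g (p a)) w1 ∧
      Λ'.pos (p a) v = Λ1'.pos (g (p a)) v1 ∧ Λ.pos (p a) w = Λ1.pos (g (p a)) w1 ∧ R a v1 w1)
      ex := (Impl.pull_pt h hg hp).mono (fun a _ h => h.trans (hv a)) (fun a D D' _ e =>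
    ⟨e.1.trans (hv' a).symm, fun v w _ _ ⟨v1, w1, h1, h2, h3, h4, h5⟩ => by
      rw [h3, h4, e.2 v1 w1 h1 h2 h5]⟩) fun _ => le_rfl

/-- Layouts that agree on the family can be exchanged. -/
theorem congr_lay {Λ1 Λ1' : Lay P} (h : Gat 𝔅 p Λ1 Λ1' R ex) (hn : ∀ a, Λ.n (p a) = Λ1.n (p a))
    (hr : ∀ a, ∀ k < Λ.n (p a), Λ.r (p a) k = Λ1.r (p a) k) (hn' : ∀ a, Λ'.n (p a) = Λ1'.n (p a))
    (hr' : ∀ a, ∀ k < Λ'.n (p a), Λ'.r (p a) k = Λ1'.r (p a) k) : Gat 𝔅 p Λ Λ' R ex := by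
  have e1 : ∀ a, Λ.vol (p a) = Λ1.vol (p a) := fun a => by
    rw [Lay.vol, Lay.vol, ← hn a]; exact wt_congr (hr a)
  have e2 : ∀ a, Λ'.vol (p a) = Λ1'.vol (p a) := fun a => by
    rw [Lay.vol, Lay.vol, ← hn' a]; exact wt_congr (hr' a)
  refine Impl.mono h (fun a _ h => h.trans (e1 a)) (fun a D D' _ e =>
    ⟨e.1.trans (e2 a).symm, fun v w hv hw h => ?_⟩) fun _ => le_rfl
  have := e.2 v w (fun k hk => hr' a k (hn' a ▸ hk) ▸ hv k (hn' a ▸ hk))
    (fun k hk => hr a k (hn a ▸ hk) ▸ hw k (hn a ▸ hk)) h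
  rwa [Lay.pos, Lay.pos, ← hn a, ← hn' a, ← R326.pos_congr (hr a) (fun _ _ => rfl),
    ← R326.pos_congr (hr' a) (fun _ _ => rfl)] at this

/-- Case distinction on the parameter. -/
theorem cases (c : P → Prop) (hc : PT c) (hp : SmIn 𝔅.V p)
    (h1 : Gat (𝔅.comap (Subtype.val : {a // c (p a)} → α)) (fun a => p a.1) Λ Λ' (fun a => R a.1)
      fun a => ex a.1)
    (h2 : Gat (𝔅.comap (Subtype.val : {a // ¬ c (p a)} → α)) (fun a => p a.1) Λ Λ' (fun a => R a.1)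
      fun a => ex a.1) : Gat 𝔅 p Λ Λ' R ex := by
  classical
  exact Impl.cases (fun a => c (p a)) hp.size_le
    ((L.refl _ _).pt hp (f := fun q => decide (c q)) (PT.decide hc)) h1 h2

/-- A fixed number of steps (step `0` is executed first). -/
theorem iter (hF : Fam 𝔅.V p Λ b) (m : ℕ) (Rs Inv : ℕ → α → (ℕ → ℕ) → (ℕ → ℕ) → Prop)
    (h : ∀ l < m, Gat 𝔅 p Λ Λ (Rs l) fun _ => 0)
    (h0 : ∀ a v w, Λ.Val (p a) v → Λ.Val (p a) w → Inv 0 a v w → ∀ k < Λ.n (p a), v k = w k)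
    (hs : ∀ l < m, ∀ a v w, Λ.Val (p a) v → Λ.Val (p a) w → Inv (l + 1) a v w →
      ∃ u, Λ.Val (p a) u ∧ Rs l a v u ∧ Inv l a u w) :
    Gat 𝔅 p Λ Λ (Inv m) fun _ => 0 := by
  induction m with
  | zero => exact (Gat.id hF).mono h0
  | succ m ih =>
    exact ((ih (fun l hl => h l (by omega)) fun l hl => hs l (by omega)).comp0
      (h m (by omega))).mono (hs m (by omega))

/-- A loop with `cnt (p a)` rounds; the layout may depend on the round. -/
theorem loop {Λ : Lay (P × ℕ)} {cnt : P → ℕ} (hc : PT cnt) (hc' : PB cnt) (hp : SmIn 𝔅.V p)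
    (F' : α → ℝ) (hVF : ∀ a, (𝔅.V a : ℝ) ≤ F' a) (hF : (fun a => cnt (p a) * F' a) ≲ 𝔅.F)
    (hvol : (fun a => Λ.vol (p a, 0)) ≼ 𝔅.V) (Rs Inv : α → ℕ → (ℕ → ℕ) → (ℕ → ℕ) → Prop)
    (body : Gat (𝔅.sub (fun q : (a : α) × Fin (cnt (p a)) => q.1) (fun q => 𝔅.V q.1)
      (fun q => F' q.1) fun q => hVF q.1) (fun q => (p q.1, q.2.1)) Λ
      (Λ.comap (fun q => (q.1, q.2 + 1)) (by fun_prop)) (fun q => Rs q.1 q.2) fun _ => 0)
    (h0 : ∀ a v w, Λ.Val (p a, 0) v → Λ.Val (p a, 0) w → Inv a 0 v w →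
      ∀ k < Λ.n (p a, 0), v k = w k)
    (hs : ∀ a, ∀ j < cnt (p a), ∀ v w, Λ.Val (p a, j + 1) v → Λ.Val (p a, 0) w →
      Inv a (j + 1) v w → ∃ u, Λ.Val (p a, j) u ∧ Rs a j v u ∧ Inv a j u w) :
    Gat 𝔅 p (Λ.comap (fun q => (q, 0)) (by fun_prop)) (Λ.comap (fun q => (q, cnt q)) (by fun_prop))
      (fun a => Inv a (cnt (p a))) fun _ => 0 := by
  refine (Impl.loop (fun a => cnt (p a)) (fun a _ => F' a) (fun _ _ => 0) (fun a _ => hVF a)
    (fun a j (D : Arr) => D.length = Λ.vol (p a, j))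
    (fun a j D D' => GPost Λ (Λ.comap (fun q => (q.1, q.2 + 1)) (by fun_prop)) (p a, j) (Rs a j) D D')
    (fun a D0 j D => D.length = Λ.vol (p a, j) ∧ ∀ v w, Λ.Val (p a, j) v → Λ.Val (p a, 0) w →
      Inv a j v w → bit D (Λ.pos (p a, j) v) = bit D0 (Λ.pos (p a, 0) w))
    hp.size_le (L.range_pt hp hc hc') ?_ body (by simpa using hF) (fun a D hD => ⟨hD, ?_⟩)
    (fun _ _ _ _ _ _ h => h.1) fun a D0 j D D' _ hj h1 h2 => ⟨h2.1, fun v w hv hw h => ?_⟩).mono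
    (fun _ _ h => h) (fun _ _ _ _ e => e) fun _ => by simp
  · exact sz_pair (hp.size_le.comp _) (sz_bits ((hvol.comp
      fun q : {q : α × Arr // q.2.length = Λ.vol (p q.1, 0)} => q.1.1).mono_left fun q => q.2.le)
      fun q => hp.one_le _)
  · intro v w hv hw h
    rw [Λ.pos_congr _ (h0 a v w hv hw h)]
  · obtain ⟨u, hu, r1, r2⟩ := hs a j hj v w hv hw h
    exact (h2.2 v u hv hu r1).trans (h1.2 u w hu hw r2)

/-- A loop in a fixed layout. -/
theorem loopFix (hF : Fam 𝔅.V p Λ b) {cnt : P → ℕ} (hc : PT cnt) (hc' : PB cnt)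
    (F' : α → ℝ) (hVF : ∀ a, (𝔅.V a : ℝ) ≤ F' a) (hF' : (fun a => cnt (p a) * F' a) ≲ 𝔅.F)
    (Rs Inv : α → ℕ → (ℕ → ℕ) → (ℕ → ℕ) → Prop)
    (body : Gat (𝔅.sub (fun q : (a : α) × Fin (cnt (p a)) => q.1) (fun q => 𝔅.V q.1)
      (fun q => F' q.1) fun q => hVF q.1) (fun q => (p q.1, q.2.1)) (Λ.ext ℕ) (Λ.ext ℕ)
      (fun q => Rs q.1 q.2) fun _ => 0)
    (h0 : ∀ a v w, Λ.Val (p a) v → Λ.Val (p a) w → Inv a 0 v w → ∀ k < Λ.n (p a), v k = w k)
    (hs : ∀ a, ∀ j < cnt (p a), ∀ v w, Λ.Val (p a) v → Λ.Val (p a) w →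
      Inv a (j + 1) v w → ∃ u, Λ.Val (p a) u ∧ Rs a j v u ∧ Inv a j u w) :
    Gat 𝔅 p Λ Λ (fun a => Inv a (cnt (p a))) fun _ => 0 := loop (Λ := Λ.ext ℕ) hc hc' hF.smV F' hVF hF' hF.vol Rs Inv body h0 hs

end Gat

end Crest.Agent.R326
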