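/-
R326/GatA: linear-time rearrangements, part A (respacing, masks, selection, shifts, reversal).
-/
import Crest.Agent.R326.Gat

set_option autoImplicit false
set_option linter.unusedSimpArgs false
set_option linter.unusedSectionVars false
set_option linter.unusedVariables false

namespace Crest.Agent.R326

open Function Crest.Agent.Lib.PolyTime

variable {α β P X : Type} [Enc P] [Enc X] {𝔅 : Bud α} {p : α → P} {Λ Λ' : Lay P} {b b' : ℕ}

/-! ### Lists -/

@[simp] theorem length_resp (g g' cnt : ℕ) (D : Arr) : (resp g g' cnt D).length = g' * cnt := by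
  simp [resp]

theorem bit_resp (g : ℕ) {g' cnt x t : ℕ} (D : Arr) (hx : x < g') (ht : t < cnt) :
    bit (resp g g' cnt D) (x + g' * t) = (decide (x < g) && bit D (x + g * t)) := by
  have h1 : x + g' * t < g' * cnt := by
    have := Nat.mul_le_mul_left g' (Nat.succ_le_of_lt ht)
    rw [Nat.mul_succ] at this; omega
  have h2 : (x + g' * t) % g' = x := by rw [Nat.add_mul_mod_self_left, Nat.mod_eq_of_lt hx]
  have h3 : (x + g' * t) / g' = t := by
    rw [Nat.add_mul_div_left _ _ (by omega), Nat.div_eq_of_lt hx, zero_add]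
  simp only [resp, bit, List.getD_eq_getElem?_getD, List.getElem?_map, List.getElem?_range h1,
    Option.map_some, Option.getD_some, h2, h3]

namespace GA

theorem bit_ge {D : Arr} {j : ℕ} (h : D.length ≤ j) : bit D j = false := by
  simp [bit, List.getD_eq_getElem?_getD, List.getElem?_eq_none h]

theorem bit_take {D : Arr} {n j : ℕ} (h : j < n) : bit (D.take n) j = bit D j := by
  simp [bit, List.getD_eq_getElem?_getD, List.getElem?_take, h]

theorem bit_drop (D : Arr) (n j : ℕ) : bit (D.drop n) j = bit D (n + j) := by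
  simp [bit, List.getD_eq_getElem?_getD]

theorem bit_append_left {D : Arr} (E : Arr) {j : ℕ} (h : j < D.length) :
    bit (D ++ E) j = bit D j := by
  simp [bit, List.getD_eq_getElem?_getD, List.getElem?_append_left h]

theorem bit_append_right {D : Arr} (E : Arr) {j : ℕ} (h : D.length ≤ j) :
    bit (D ++ E) j = bit E (j - D.length) := by
  simp [bit, List.getD_eq_getElem?_getD, List.getElem?_append_right h]

theorem bit_zeros (n j : ℕ) : bit (List.replicate n false) j = false := by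
  simp only [bit, List.getD_eq_getElem?_getD, List.getElem?_replicate]
  split_ifs <;> rfl

theorem bit_append_zeros (D : Arr) (n j : ℕ) : bit (D ++ List.replicate n false) j = bit D j := by
  by_cases h : j < D.length
  · exact bit_append_left _ h
  · rw [bit_append_right _ (by omega), bit_zeros, bit_ge (by omega)]

theorem un_length (U : List Unit) : U = un U.length := by
  induction U with
  | nil => rfl
  | cons u U ih => rw [List.length_cons, un, List.replicate_succ]; congr 1

theorem length_flatten_const {B : List Arr} {g : ℕ} (h : ∀ c ∈ B, c.length = g) :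
    B.flatten.length = g * B.length := by
  rw [List.length_flatten, List.map_congr_left (g := fun _ => g) h]
  simp [mul_comm]

theorem bit_flatten {B : List Arr} {g x t : ℕ} (h : ∀ c ∈ B, c.length = g) (hx : x < g)
    (ht : t < B.length) : bit B.flatten (x + g * t) = bit (B.getD t []) x := by
  rw [← bit_blk t _ hx, blk_flatten h ht]

/-- Cut or fill a block. -/
def fit (U : List Unit) (B : Arr) : Arr := (B ++ List.replicate U.length false).take U.length

theorem lt_fit : LT fun q : List Unit × Arr => fit q.1 q.2 := fun _ _ _ _ _ g h => by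
  have hU := h.fst.congr fun a => un_length (g a).1
  exact L.take hU (h.snd.append (hU.replicate_const false))

theorem resp_eq {g : ℕ} (h0 : 0 < g) (g' cnt : ℕ) (D : Arr) :
    ((chunks g (min cnt (D.length / g + 1)) ((D ++ List.replicate g false).take
      (g * min cnt (D.length / g + 1)))).map (fit (un g'))).flatten ++
      List.replicate (g' * (cnt - min cnt (D.length / g + 1))) false = resp g g' cnt D := by
  have hc1 : min cnt (D.length / g + 1) ≤ cnt := min_le_left _ _
  have hc3 : ∀ t < cnt, min cnt (D.length / g + 1) ≤ t → D.length ≤ g * t := fun t h1 h2 => by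
    have h3 : D.length / g + 1 ≤ t := by omega
    have h4 := Nat.mul_le_mul_left g h3
    have h5 := Nat.lt_mul_div_succ D.length h0
    omega
  have hc4 : g * min cnt (D.length / g + 1) ≤ D.length + g := by
    have h4 := Nat.mul_le_mul_left g (min_le_right cnt (D.length / g + 1))
    have h5 := Nat.mul_div_le D.length g
    rw [mul_add, mul_one] at h4
    omega
  generalize min cnt (D.length / g + 1) = c0 at *
  have hl : ∀ c ∈ (chunks g c0 ((D ++ List.replicate g false).take (g * c0))).map (fit (un g')),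
      c.length = g' := by
    intro c hc
    obtain ⟨B, -, rfl⟩ := List.mem_map.mp hc
    simp [fit]
  have hlen := length_flatten_const hl
  rw [List.length_map, length_chunks] at hlen
  have hsum : g' * c0 + g' * (cnt - c0) = g' * cnt := by rw [← mul_add]; congr 1; omega
  refine arr_ext (by rw [List.length_append, hlen, List.length_replicate, length_resp, hsum])
    fun j hj => ?_
  rw [List.length_append, hlen, List.length_replicate, hsum] at hj
  have hg' : 0 < g' := Nat.pos_of_ne_zero fun h => by simp [h] at hj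
  have ht : j / g' < cnt := Nat.div_lt_of_lt_mul hj
  have hx : j % g' < g' := Nat.mod_lt _ hg'
  rw [← Nat.mod_add_div j g', bit_resp g D hx ht, bit_append_zeros]
  generalize j / g' = t at *
  generalize j % g' = x at *
  by_cases h : t < c0
  · have h1 : g * (t + 1) ≤ g * c0 := Nat.mul_le_mul_left g h
    rw [bit_flatten hl hx (by simpa using h), chunks_eq_blk, List.getD_eq_getElem?_getD,
      List.getElem?_map, List.getElem?_map, List.getElem?_range h, Option.map_some,
      Option.map_some, Option.getD_some, fit, List.length_replicate, bit_take hx, bit_append_zeros]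
    by_cases hxg : x < g
    · rw [bit_blk _ _ hxg, bit_take (by rw [mul_add, mul_one] at h1; omega), bit_append_zeros]
      simp [hxg]
    · rw [bit_ge (by rw [length_blk (by simp; omega)]; omega)]
      simp [hxg]
  · have h1 : g' * c0 ≤ g' * t := Nat.mul_le_mul_left g' (by omega)
    have h2 := hc3 t ht (by omega)
    rw [bit_ge (by omega), bit_ge (D := D) (by omega)]
    simp

end GA

/-- Recipe: let `c0 = min cnt (D.length / g + 1)`; cut `(D ++ zeros g).take (g * c0)` into `c0`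
blocks (`L.chunks`), map each block to `(blk ++ zeros g').take g'` (`L.map_par` with the parameter
`un g'`; note `U = un U.length` for `U : List Unit`), flatten, append `g' * (cnt - c0)` zeros. -/
theorem L.resp {x : α → X} {g g' cnt : α → ℕ} {D : α → Arr} (hg : S 𝔅 x g) (hg' : S 𝔅 x g')
    (hc : S 𝔅 x cnt) (hD : L 𝔅 x D) (h0 : ∀ a, 0 < g a) (hV : g ≼ 𝔅.V) (hV' : g' ≼ 𝔅.V)
    (hV'' : (fun a => g' a * cnt a) ≼ 𝔅.V) :
    L 𝔅 x fun a => resp (g a) (g' a) (cnt a) (D a) := by
  refine L.with_sz fun hx => ?_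
  have h1 := sz_one_le hx
  have hlen := S.length hD hx
  have hlenV : (fun a => (D a).length) ≼ 𝔅.V := length_of_sz (hD.size_le hx)
  have hc0 : S 𝔅 x fun a => min (cnt a) ((D a).length / g a + 1) :=
    hc.pt2 ((hlen.div hg).add (hg.const 1)) (f := fun u v => min u v) (by fun_prop)
  have hc4 : ∀ a, g a * min (cnt a) ((D a).length / g a + 1) ≤ (D a).length + g a := fun a => by
    have h4 := Nat.mul_le_mul_left (g a) (min_le_right (cnt a) ((D a).length / g a + 1))
    have h5 := Nat.mul_div_le (D a).length (g a)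
    rw [mul_add, mul_one] at h4
    omega
  have hug := hg.un hV
  have hcut := L.take ((hg.mul hc0).un ((hlenV.add hV).mono_left hc4))
    (hD.append (hug.replicate_const false))
  have hch := L.chunks (n := fun a => min (cnt a) ((D a).length / g a + 1)) hug hcut h0
    fun a => by
      have := hc4 a
      simp only [List.length_take, List.length_append, List.length_replicate]
      omega
  have hmap := L.map_par GA.lt_fit (hg'.un hV') hch (by
    refine (((hV''.const_mul 2).add hlenV).add_const h1 1).mono_left fun a => ?_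
    have h2 := Nat.mul_le_mul_left (g' a) (min_le_left (cnt a) ((D a).length / g a + 1))
    have h3 := min_le_right (cnt a) ((D a).length / g a + 1)
    have h4 := Nat.div_le_self (D a).length (g a)
    rw [length_chunks, esize_un]
    nlinarith)
  have hz := ((hg'.mul (hc.sub hc0)).un (hV''.mono_left fun a =>
    Nat.mul_le_mul_left _ (Nat.sub_le _ _))).replicate_const false
  exact (hmap.flatten.append hz).congr fun a => GA.resp_eq (h0 a) _ _ _

theorem L.xorArr {x : α → X} {D D' : α → Arr} (h : L 𝔅 x D) (h' : L 𝔅 x D') :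
    L 𝔅 x fun a => List.zipWith xor (D a) (D' a) := by
  exact L.zipWith (LT.of_finite _) h h'

theorem bit_zipWith_xor {D D' : Arr} (h : D.length = D'.length) (j : ℕ) :
    bit (List.zipWith xor D D') j = xor (bit D j) (bit D' j) := by
  by_cases hj : j < D.length
  · have hj' : j < D'.length := h ▸ hj
    simp [bit, List.getD_eq_getElem?_getD, List.getElem?_zipWith, List.getElem?_eq_getElem hj,
      List.getElem?_eq_getElem hj']
  · rw [GA.bit_ge (by simp; omega), GA.bit_ge (by omega), GA.bit_ge (by omega)]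
    rfl

@[simp] theorem bit_replicate_false (n j : ℕ) : bit (List.replicate n false) j = false := by
  exact GA.bit_zeros n j

/-! ### Implementations on layouts -/

/-- The zero array. -/
theorem L.zeroArr (hF : Fam 𝔅.V p Λ b) : L 𝔅 p fun a => List.replicate (Λ.vol (p a)) false := by
  exact (((L.refl _ _).pt hF.smV (f := fun q => Λ.vol q) (by fun_prop)).un hF.vol).replicate_const
    false

namespace GA

theorem S_wt {x : β → X} {𝔅' : Bud β} {q : β → P} (hq : S 𝔅' x q) {i : P → ℕ} (hi : PT i)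
    (hn : ∀ c, i (q c) ≤ Λ.n (q c)) : S 𝔅' x fun c => wt (Λ.r (q c)) (i (q c)) :=
  (hq.pt (Λ.pt_wt (g := fun q => q) (by fun_prop) hi)).congr fun c => by rw [min_eq_left (hn c)]

theorem S_rwt {x : β → X} {𝔅' : Bud β} {q : β → P} (hq : S 𝔅' x q) {i len : P → ℕ} (hi : PT i)
    (hl : PT len) (hn : ∀ c, len (q c) ≤ Λ.n (q c)) :
    S 𝔅' x fun c => rwt (Λ.r (q c)) (i (q c)) (len (q c)) :=
  (hq.pt (Λ.pt_rwt (g := fun q => q) (by fun_prop) hi hl)).congr fun c => by
    rw [min_eq_left (hn c)]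

theorem vol_eq (Λ : Lay P) {q : P} {i : ℕ} (h : i ≤ Λ.n q) :
    Λ.vol q = wt (Λ.r q) i * rwt (Λ.r q) i (Λ.n q - i) := by
  rw [← wt_add, Nat.add_sub_cancel' h, Lay.vol]

theorem pos_eq (Λ : Lay P) {q : P} {i : ℕ} (h : i ≤ Λ.n q) (v : ℕ → ℕ) :
    Λ.pos q v = pos (Λ.r q) v i + wt (Λ.r q) i * rg (Λ.r q) v i (Λ.n q - i) := by
  rw [← pos_add, Nat.add_sub_cancel' h, Lay.pos]

theorem wt_le_vol {V : α → ℕ} (hF : Fam V p Λ b) {i : α → ℕ} (hn : ∀ a, i a ≤ Λ.n (p a)) :
    (fun a => wt (Λ.r (p a)) (i a)) ≼ V :=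
  hF.vol.mono_left fun a => Nat.le_of_dvd (hF.vol_pos a) (wt_dvd _ (hn a))

/-- The outer digits of block number `t`. -/
def digs (Λ : Lay P) (i : P → ℕ) (z : P × ℕ) : List ℕ :=
  (List.range (Λ.n z.1)).map fun k => if k < i z.1 then 0 else
    wt (Λ.r z.1) (min (i z.1) (Λ.n z.1)) * z.2 / wt (Λ.r z.1) (min k (Λ.n z.1)) % Λ.r z.1 k

theorem pt_digs (Λ : Lay P) {i : P → ℕ} (hi : PT i) : PT (digs Λ i) := by
  have h1 : PT fun z : (P × ℕ) × ℕ => wt (Λ.r z.1.1) (min (i z.1.1) (Λ.n z.1.1)) :=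
    Λ.pt_wt (by fun_prop) (by fun_prop)
  have h2 : PT fun z : (P × ℕ) × ℕ => wt (Λ.r z.1.1) (min z.2 (Λ.n z.1.1)) :=
    Λ.pt_wt (by fun_prop) (by fun_prop)
  have h3 : PT fun z : (P × ℕ) × ℕ => if z.2 < i z.1.1 then 0 else
      wt (Λ.r z.1.1) (min (i z.1.1) (Λ.n z.1.1)) * z.1.2 / wt (Λ.r z.1.1) (min z.2 (Λ.n z.1.1)) %
        Λ.r z.1.1 z.2 := by fun_prop
  exact PT.map (f := fun (z : P × ℕ) k => if k < i z.1 then 0 else
      wt (Λ.r z.1) (min (i z.1) (Λ.n z.1)) * z.2 / wt (Λ.r z.1) (min k (Λ.n z.1)) % Λ.r z.1 k)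
    (by fun_prop) h3

theorem digs_eq {i : P → ℕ} {q : P} {v : ℕ → ℕ} (hv : Λ.Val q v) (hn : i q ≤ Λ.n q) :
    digs Λ i (q, rg (Λ.r q) v (i q) (Λ.n q - i q)) = Λ.od q (i q) v := by
  have hv' : Val (Λ.r q) (Λ.n q) fun k => if k < i q then 0 else v k := fun k hk => by
    have := hv k hk
    dsimp only
    split_ifs <;> omega
  have e := pos_eq Λ hn fun k => if k < i q then 0 else v k
  rw [pos_congr (r' := Λ.r q) (w := fun _ => 0) (fun _ _ => rfl) (fun k hk => if_pos hk),
    rg_congr (r' := Λ.r q) (w := v) (j := i q) (fun _ _ => rfl) (fun k hk => if_neg (by omega)),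
    show pos (Λ.r q) (fun _ => 0) (i q) = 0 by simp [pos], zero_add, Lay.pos] at e
  refine List.map_congr_left fun k hk => ?_
  have hk' := List.mem_range.mp hk
  have := hv'.dig_pos hk'
  rw [e, dig] at this
  dsimp only at this ⊢
  split_ifs with h
  · rfl
  · rw [min_eq_left hn, min_eq_left hk'.le, this, if_neg h]

/-- Apply a length preserving linear-time function to all blocks made of the fields `< i`; it
sees the digits of the outer fields. -/
theorem blockMap (hF : Fam 𝔅.V p Λ b) {i : P → ℕ} (hi : PT i) (hb : ∀ a, b ≤ i (p a))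
    (hn : ∀ a, i (p a) ≤ Λ.n (p a)) (f : P → List ℕ → Arr → Arr)
    (hlen : ∀ a l B, B.length = wt (Λ.r (p a)) (i (p a)) →
      (f (p a) l B).length = wt (Λ.r (p a)) (i (p a)))
    (hf : ∀ (β X : Type) [Enc X] (𝔅' : Bud β) (x : β → X) (φ : β → α) (l : β → List ℕ)
      (B : β → Arr), S 𝔅' x (fun c => (p (φ c), l c)) → L 𝔅' x B →
      (∀ c, (B c).length = wt (Λ.r (p (φ c))) (i (p (φ c)))) →
      (fun c => wt (Λ.r (p (φ c))) (i (p (φ c)))) ≼ 𝔅'.V →
      L 𝔅' x fun c => f (p (φ c)) (l c) (B c)) :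
    Impl 𝔅 p (fun a (D : Arr) => D.length = Λ.vol (p a))
      (fun a D (D' : Arr) => D'.length = Λ.vol (p a) ∧ ∀ v, Λ.Val (p a) v →
        bit D' (Λ.pos (p a) v) = bit (f (p a) (Λ.od (p a) (i (p a)) v)
          (blk (wt (Λ.r (p a)) (i (p a))) (rg (Λ.r (p a)) v (i (p a)) (Λ.n (p a) - i (p a))) D))
          (pos (Λ.r (p a)) v (i (p a)))) fun _ => 0 := by
  let g : P → ℕ := fun q => wt (Λ.r q) (min (i q) (Λ.n q))
  let cnt : P → ℕ := fun q => rwt (Λ.r q) (i q) (min (Λ.n q - i q) (Λ.n q))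
  have hg : PT g := Λ.pt_wt (g := fun q => q) (by fun_prop) hi
  have hc : PT cnt := Λ.pt_rwt (g := fun q => q) (by fun_prop) hi (by fun_prop)
  have eg : ∀ a, g (p a) = wt (Λ.r (p a)) (i (p a)) := fun a => by
    simp only [g, min_eq_left (hn a)]
  have ec : ∀ a, cnt (p a) = rwt (Λ.r (p a)) (i (p a)) (Λ.n (p a) - i (p a)) := fun a => by
    simp only [cnt, min_eq_left (Nat.sub_le _ _)]
  have ev : ∀ a, g (p a) * cnt (p a) = Λ.vol (p a) := fun a => by
    rw [eg, ec, vol_eq Λ (hn a)]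
  have hsm : SmIn (fun a => g (p a)) p := (hF.sm_at hb hn).mono (OLe.of_le fun a => (eg a).ge)
  have hV : (fun a => cnt (p a) * g (p a)) ≼ 𝔅.V :=
    hF.vol.mono_left fun a => by rw [mul_comm, ev]
  have h := Impl.blocks (𝔅 := 𝔅) (p := p) (g' := g) hg hc (fun a => g (p a))
    (fun a => (g (p a) : ℝ)) (fun _ => 0) (fun _ => le_rfl) hsm hF.smV
    (fun a => by rw [eg]; exact hF.wt_pos a (hn a)) (OLe.refl _)
    ((wt_le_vol hF hn).mono_left fun a => (eg a).le) hV
    ((Bud.toF hV).mono_left fun a => by simp) (PreB := fun _ _ _ => True)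
    (PostB := fun a t B B' => B' = f (p a) (digs Λ i (p a, t)) B) ?_
  · refine h.mono (fun a D hD => ⟨hD.trans (ev a).symm, fun _ _ => trivial⟩)
      (fun a D D' hD h' => ⟨h'.1.trans (ev a), fun v hv => ?_⟩) fun _ => by simp
    have h1 := h'.2 (rg (Λ.r (p a)) v (i (p a)) (Λ.n (p a) - i (p a)))
      (by rw [ec]; exact R326.Val.rg_lt hv (by have := hn a; omega))
    rw [eg, digs_eq hv (hn a)] at h1
    rw [pos_eq Λ (hn a), ← bit_blk _ _ (R326.Val.mono hv (hn a)).pos_lt, h1]
  · have hsm2 : SmIn (fun q : (a : α) × Fin (cnt (p a)) => g (p q.1)) fun q => (p q.1, q.2.1) :=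
      (hsm.comp _).pair (((hsm.pt hc).comp _).nat_le fun q => q.2.2.le)
    refine Impl.intro (sz_pair (hsm2.size_le.comp _) (sz_bits (OLe.of_le fun q => q.2.1.le)
      fun q => hsm.one_le _)) fun γ φ B hB hs => ?_
    refine ⟨fun c => f (p (φ c).1) (digs Λ i (p (φ c).1, (φ c).2.1)) (B c), fun c =>
      ⟨by rw [eg]; exact hlen _ _ _ ((hB c).1.trans (eg _)), rfl⟩, ?_⟩
    refine hf _ _ _ _ (fun c => (φ c).1) _ B ?_ (L.in2 _ _ _) (fun c => (hB c).1.trans (eg _))
      (OLe.of_le fun c => (eg _).ge)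
    have h0 : S _ (fun c => ((p (φ c).1, (φ c).2.1), B c)) fun c => (p (φ c).1, (φ c).2.1) :=
      ⟨L.in1 ((𝔅.sub (fun q : (a : α) × Fin (cnt (p a)) => q.1) (fun q => g (p q.1))
        (fun q => (g (p q.1) : ℝ)) fun q => le_rfl).comap φ) _ _, hsm2.comp φ⟩
    exact h0.fst.pair (h0.pt (pt_digs Λ hi))

theorem bit_rot {B : Arr} {u s c x t : ℕ} (hx : x < u) (ht : t < s) (hc : c < s)
    (hB : u * s ≤ B.length) :
    bit ((B.take (u * s)).drop (u * c) ++ B.take (u * c) ++ B.drop (u * s)) (x + u * t) =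
      bit B (x + u * ((t + c) % s)) := by
  have h1 : u * c ≤ u * s := Nat.mul_le_mul_left u hc.le
  have h2 : u * (t + 1) ≤ u * s := Nat.mul_le_mul_left u ht
  rw [mul_add, mul_one] at h2
  have l1 : ((B.take (u * s)).drop (u * c)).length = u * s - u * c := by simp; omega
  have l2 : (B.take (u * c)).length = u * c := by simp; omega
  rw [bit_append_left _ (by rw [List.length_append, l1, l2]; omega)]
  by_cases h : t + c < s
  · have h3 : u * (t + c + 1) ≤ u * s := Nat.mul_le_mul_left u h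
    simp only [mul_add, mul_one] at h3
    rw [bit_append_left _ (by rw [l1]; omega), bit_drop, bit_take (by omega), Nat.mod_eq_of_lt h]
    congr 1; ring
  · obtain ⟨e, he⟩ : ∃ e, t + c = s + e := ⟨t + c - s, by omega⟩
    have h3 : u * t + u * c = u * s + u * e := by rw [← mul_add, he, mul_add]
    rw [bit_append_right _ (by rw [l1]; omega), bit_take (by rw [l1]; omega), l1, he,
      Nat.add_mod_left, Nat.mod_eq_of_lt (by omega)]
    congr 1; omega

/-- The position of an address that agrees with `v` outside a range of fields. -/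
theorem pos_out {q : P} {i len : ℕ} {v w : ℕ → ℕ} (hn : i + len ≤ Λ.n q)
    (h : Out (Λ.n q) i len v w) :
    Λ.pos q w = pos (Λ.r q) v i + wt (Λ.r q) i * rg (Λ.r q) w i len +
      wt (Λ.r q) (i + len) * rg (Λ.r q) v (i + len) (Λ.n q - (i + len)) := by
  rw [pos_eq Λ hn, pos_add,
    pos_congr (r' := Λ.r q) (w := v) (fun _ _ => rfl) fun k hk => (h k (by omega) (by omega)).symm,
    rg_congr (r' := Λ.r q) (v := w) (w := v) (i := i + len) (j := i + len) (fun _ _ => rfl)
      fun k hk => (h _ (by omega) (by omega)).symm]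

theorem lt_wt {r : ℕ → ℕ} {i len x t : ℕ} (hx : x < wt r i) (ht : t < rwt r i len) :
    x + wt r i * t < wt r (i + len) := by
  have := Nat.mul_le_mul_left (wt r i) (Nat.succ_le_of_lt ht)
  rw [Nat.mul_succ] at this
  rw [wt_add]; omega

end GA

/-- Respacing: the fields below `i'` of the new address give the position inside a block, the
remaining fields the block number; missing bits are zero.  Recipe: `L.resp`, `pos_add`. -/
theorem Impl.respace (hF : Fam 𝔅.V p Λ b) (hF' : Fam 𝔅.V p Λ' b') {i i' : P → ℕ} (hi : PT i)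
    (hi' : PT i') (hn : ∀ a, i (p a) ≤ Λ.n (p a)) (hn' : ∀ a, i' (p a) ≤ Λ'.n (p a)) :
    Impl 𝔅 p (fun a (D : Arr) => D.length = Λ.vol (p a))
      (fun a D (D' : Arr) => D'.length = Λ'.vol (p a) ∧ ∀ v, Λ'.Val (p a) v →
        bit D' (Λ'.pos (p a) v) = (decide (pos (Λ'.r (p a)) v (i' (p a)) < wt (Λ.r (p a)) (i (p a))) &&
          bit D (pos (Λ'.r (p a)) v (i' (p a)) + wt (Λ.r (p a)) (i (p a)) *
            rg (Λ'.r (p a)) v (i' (p a)) (Λ'.n (p a) - i' (p a))))) fun _ => 0 := by
  have h0 : S (𝔅.comap fun q : {q : α × Arr // q.2.length = Λ.vol (p q.1)} => q.1.1)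
      (fun q => (p q.1.1, q.1.2)) fun q => p q.1.1 := ⟨L.in1 _ _ _, hF.smV.comp _⟩
  refine Impl.ofL (fun a D => resp (wt (Λ.r (p a)) (i (p a))) (wt (Λ'.r (p a)) (i' (p a)))
    (rwt (Λ'.r (p a)) (i' (p a)) (Λ'.n (p a) - i' (p a))) D) hF.sz_in
    (L.resp (GA.S_wt h0 hi fun c => hn _) (GA.S_wt h0 hi' fun c => hn' _)
      (GA.S_rwt (len := fun q => Λ'.n q - i' q) h0 hi' (by fun_prop) fun c => Nat.sub_le _ _)
      (L.in2 _ _ _) (fun c => hF.wt_pos _ (hn _)) ((GA.wt_le_vol hF hn).comp _)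
      ((GA.wt_le_vol hF' hn').comp _)
      ((hF'.vol.mono_left fun a => (GA.vol_eq Λ' (hn' a)).ge).comp _))
    fun a D hD => ⟨by rw [length_resp, GA.vol_eq Λ' (hn' a)], fun v hv => ?_⟩
  rw [GA.pos_eq Λ' (hn' a), bit_resp _ _ (R326.Val.mono hv (hn' a)).pos_lt
    (R326.Val.rg_lt hv (by have := hn' a; omega))]

theorem Gat.respace (hF : Fam 𝔅.V p Λ b) (hF' : Fam 𝔅.V p Λ' b') {i i' : P → ℕ} (hi : PT i)
    (hi' : PT i') (hn : ∀ a, i (p a) ≤ Λ.n (p a)) (hn' : ∀ a, i' (p a) ≤ Λ'.n (p a)) :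
    Gat 𝔅 p Λ Λ' (fun a v w => pos (Λ'.r (p a)) v (i' (p a)) = pos (Λ.r (p a)) w (i (p a)) ∧
      rg (Λ'.r (p a)) v (i' (p a)) (Λ'.n (p a) - i' (p a)) =
        rg (Λ.r (p a)) w (i (p a)) (Λ.n (p a) - i (p a))) fun _ => 0 := by
  refine (Impl.respace hF hF' hi hi' hn hn').mono (fun _ _ h => h)
    (fun a D D' hD h => ⟨h.1, fun v w hv hw hR => ?_⟩) fun _ => le_rfl
  rw [h.2 v hv, hR.1, hR.2, GA.pos_eq Λ (hn a),
    decide_eq_true (R326.Val.mono hw (hn a)).pos_lt, Bool.true_and]

/-- Change the radix of one field. -/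
theorem Gat.resize (hF : Fam 𝔅.V p Λ b) (hF' : Fam 𝔅.V p Λ' b') {i : P → ℕ} (hi : PT i)
    (hn : ∀ a, Λ'.n (p a) = Λ.n (p a)) (hin : ∀ a, i (p a) < Λ.n (p a))
    (hr : ∀ a, ∀ k < Λ.n (p a), k ≠ i (p a) → Λ'.r (p a) k = Λ.r (p a) k) :
    Gat 𝔅 p Λ Λ' (fun a v w => ∀ k < Λ.n (p a), v k = w k) fun _ => 0 := by
  refine (Gat.respace hF hF' (i := fun q => i q + 1) (i' := fun q => i q + 1) (by fun_prop)
    (by fun_prop) hin (fun a => by rw [hn]; exact hin a)).mono fun a v w hv hw h => ⟨?_, ?_⟩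
  · have h1 := hin a
    rw [pos_succ, pos_succ, h _ h1,
      pos_congr (fun k hk => hr a k (by omega) (by omega)) fun k hk => h k (by omega),
      wt_congr fun k hk => hr a k (by omega) (by omega)]
  · rw [hn]
    exact rg_congr (fun k hk => hr a _ (by omega) (by omega)) fun k hk => h _ (by omega)

/-- Zero out the blocks that fail a test on the digits of the fields `≥ i`.
Recipe: `Impl.blocks` with `g = wt r (min i n)`, `V' = g`; the digits of block `t` are
`dig r (g * t) k`. -/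
theorem Impl.mask (hF : Fam 𝔅.V p Λ b) {i : P → ℕ} {c : P × List ℕ → Bool} (hi : PT i) (hc : PT c)
    (hb : ∀ a, b ≤ i (p a)) (hn : ∀ a, i (p a) ≤ Λ.n (p a)) :
    Impl 𝔅 p (fun a (D : Arr) => D.length = Λ.vol (p a))
      (fun a D (D' : Arr) => D'.length = Λ.vol (p a) ∧ ∀ v, Λ.Val (p a) v →
        bit D' (Λ.pos (p a) v) = (c (p a, Λ.od (p a) (i (p a)) v) && bit D (Λ.pos (p a) v)))
      fun _ => 0 := by
  refine (GA.blockMap hF hi hb hn (fun q l B => cond (c (q, l)) B (List.replicate B.length false))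
    (fun a l B hB => by cases c (p a, l) <;> simp [hB])
    fun β X _ 𝔅' x φ l B hS hB _ _ =>
      (hS.pt hc).1.cond hB (hB.un_length.replicate_const false)).mono (fun _ _ h => h)
    (fun a D D' hD h => ⟨h.1, fun v hv => ?_⟩) fun _ => le_rfl
  rw [h.2 v hv]
  cases c (p a, Λ.od (p a) (i (p a)) v)
  · simp
  · rw [cond_true, Bool.true_and, bit_blk _ _ (R326.Val.mono hv (hn a)).pos_lt, GA.pos_eq Λ (hn a)]

/-- Choose between two gathers by a test on the digits of the fields `≥ i` of the new address.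
Recipe: xor of the two masked results. -/
theorem Gat.select {R R' : α → (ℕ → ℕ) → (ℕ → ℕ) → Prop} {ex ex' : α → ℝ} (h : Gat 𝔅 p Λ Λ' R ex)
    (h' : Gat 𝔅 p Λ Λ' R' ex') (hF' : Fam 𝔅.V p Λ' b) {i : P → ℕ} {c : P × List ℕ → Bool}
    (hi : PT i) (hc : PT c) (hb : ∀ a, b ≤ i (p a)) (hn : ∀ a, i (p a) ≤ Λ'.n (p a)) :
    Gat 𝔅 p Λ Λ' (fun a v w => if c (p a, Λ'.od (p a) (i (p a)) v) then R a v w else R' a v w)
      fun a => ex a + ex' a := by
  refine Impl.intro (Impl.size_in h) fun γ φ D hD hs => ?_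
  obtain ⟨D1, k1, k2⟩ := Impl.apply h φ D hD
  obtain ⟨D2, k3, k4⟩ := Impl.apply h' φ D hD
  obtain ⟨M1, m1, m2⟩ := (Impl.mask hF' hi hc hb hn).use φ (fun c => (k1 c).1) (L.in1 _ _ _) k2
  obtain ⟨M2, m3, m4⟩ := (Impl.mask hF' hi (c := fun z => !c z) (by fun_prop) hb hn).use φ
    (fun c => (k3 c).1) (L.in1 _ _ _) k4
  refine ⟨fun c => List.zipWith xor (M1 c) (M2 c), fun e => ⟨by simp [(m1 e).1, (m3 e).1],
    fun v w hv hw hR => ?_⟩, ((m2.pair m4).l
      (L.xorArr (L.in1 _ _ _) (L.in2 _ _ _))).mono fun _ => by simp⟩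
  rw [bit_zipWith_xor ((m1 e).1.trans (m3 e).1.symm), (m1 e).2 v hv, (m3 e).2 v hv]
  dsimp only at hR
  by_cases hcv : c (p (φ e), Λ'.od (p (φ e)) (i (p (φ e))) v) = true
  · rw [if_pos hcv] at hR
    rw [hcv, (k1 e).2 v w hv hw hR]
    simp
  · rw [if_neg hcv] at hR
    rw [Bool.eq_false_iff.mpr hcv, (k3 e).2 v w hv hw hR]
    simp

/-- Cyclic shift modulo `s` of the value of the fields `i, …, i + len - 1` by an amount that
depends on the outer fields.  Recipe: `Impl.blocks` with `g = wt r (i + len)`; with `u = wt r i`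
and `c = amount % s` the new block is
`(B.take (u s)).drop (u c) ++ B.take (u c) ++ B.drop (u s)`. -/
theorem Gat.shift (hF : Fam 𝔅.V p Λ b) {i len s : P → ℕ} {g : P × List ℕ → ℤ} (hi : PT i)
    (hl : PT len) (hs : PT s) (hg : PT g) (hb : ∀ a, b ≤ i (p a) + len (p a))
    (hn : ∀ a, i (p a) + len (p a) ≤ Λ.n (p a))
    (hs' : ∀ a, s (p a) ≤ rwt (Λ.r (p a)) (i (p a)) (len (p a))) :
    Gat 𝔅 p Λ Λ (fun a v w => Out (Λ.n (p a)) (i (p a)) (len (p a)) v w ∧
      rg (Λ.r (p a)) v (i (p a)) (len (p a)) < s (p a) ∧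
      (rg (Λ.r (p a)) w (i (p a)) (len (p a)) : ℤ) = (rg (Λ.r (p a)) v (i (p a)) (len (p a)) +
        g (p a, Λ.od (p a) (i (p a) + len (p a)) v)) % s (p a)) fun _ => 0 := by
  have hle : ∀ a, wt (Λ.r (p a)) (i (p a)) * s (p a) ≤ wt (Λ.r (p a)) (i (p a) + len (p a)) :=
    fun a => by rw [wt_add]; exact Nat.mul_le_mul_left _ (hs' a)
  have hle' : ∀ a y, wt (Λ.r (p a)) (i (p a)) * min y (s (p a)) ≤
      wt (Λ.r (p a)) (i (p a)) * s (p a) := fun a y => Nat.mul_le_mul_left _ (min_le_right _ _)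
  refine (GA.blockMap hF (i := fun q => i q + len q) (by fun_prop) hb hn
    (fun q l B => (B.take (wt (Λ.r q) (i q) * s q)).drop
      (wt (Λ.r q) (i q) * min (g (q, l) % s q).toNat (s q)) ++
      B.take (wt (Λ.r q) (i q) * min (g (q, l) % s q).toNat (s q)) ++
      B.drop (wt (Λ.r q) (i q) * s q)) (fun a l B hB => ?_)
    fun β X _ 𝔅' x φ l B hS hB _ hV => ?_).mono (fun _ _ h => h)
    (fun a D D' hD h => ⟨h.1, fun v w hv hw hR => ?_⟩) fun _ => le_rfl
  · have h1 := hle a
    have h2 := hle' a (g (p a, l) % s (p a)).toNat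
    simp only [List.length_append, List.length_drop, List.length_take, hB]
    omega
  · have hu := GA.S_wt (Λ := Λ) hS.fst hi fun c => by have := hn (φ c); dsimp only; omega
    have h1 := (hu.mul (hS.fst.pt hs)).un (hV.mono_left fun c => hle _)
    have h2 := (hu.mul (hS.pt (f := fun z => min (g z % s z.1).toNat (s z.1)) (by fun_prop))).un
      (hV.mono_left fun c => (hle' _ _).trans (hle _))
    exact ((L.drop h2 (L.take h1 hB)).append (L.take h2 hB)).append (L.drop h1 hB)
  · obtain ⟨hO, h1, h2⟩ := hR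
    have hx : pos (Λ.r (p a)) v (i (p a)) < wt (Λ.r (p a)) (i (p a)) :=
      (R326.Val.mono hv (by have := hn a; omega)).pos_lt
    have hlen : (blk (wt (Λ.r (p a)) (i (p a) + len (p a))) (rg (Λ.r (p a)) v (i (p a) + len (p a))
        (Λ.n (p a) - (i (p a) + len (p a)))) D).length = wt (Λ.r (p a)) (i (p a) + len (p a)) := by
      refine length_blk ?_
      rw [hD, GA.vol_eq Λ (hn a)]
      exact Nat.mul_le_mul_left _ (R326.Val.rg_lt hv (by have := hn a; omega))
    rw [h.2 v hv, GA.pos_out (hn a) hO, pos_add]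
    generalize g (p a, Λ.od (p a) (i (p a) + len (p a)) v) = z at h2 ⊢
    have hs0 : (0 : ℤ) < s (p a) := by omega
    have e1 := Int.emod_nonneg z hs0.ne'
    have e2 := Int.emod_lt_of_pos z hs0
    have e3 : rg (Λ.r (p a)) w (i (p a)) (len (p a)) =
        (rg (Λ.r (p a)) v (i (p a)) (len (p a)) + (z % s (p a)).toNat) % s (p a) := by
      zify
      rw [h2, Int.toNat_of_nonneg e1, Int.add_emod_emod]
    rw [min_eq_left (by omega), GA.bit_rot hx h1 (by omega) (hlen.symm ▸ hle a), ← e3,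
      bit_blk _ _ (GA.lt_wt hx (R326.Val.rg_lt hw (hn a)))]

/-- The shift with full modulus, stated as a congruence. -/
theorem Gat.zadd (hF : Fam 𝔅.V p Λ b) {i len : P → ℕ} {g : P × List ℕ → ℤ} (hi : PT i)
    (hl : PT len) (hg : PT g) (hb : ∀ a, b ≤ i (p a) + len (p a))
    (hn : ∀ a, i (p a) + len (p a) ≤ Λ.n (p a)) :
    Gat 𝔅 p Λ Λ (fun a v w => Out (Λ.n (p a)) (i (p a)) (len (p a)) v w ∧
      (rg (Λ.r (p a)) w (i (p a)) (len (p a)) : ℤ) ≡ rg (Λ.r (p a)) v (i (p a)) (len (p a)) +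
        g (p a, Λ.od (p a) (i (p a) + len (p a)) v)
        [ZMOD rwt (Λ.r (p a)) (i (p a)) (len (p a))]) fun _ => 0 := by
  have e : ∀ a, rwt (Λ.r (p a)) (i (p a)) (min (len (p a)) (Λ.n (p a))) =
      rwt (Λ.r (p a)) (i (p a)) (len (p a)) := fun a => by
    rw [min_eq_left (by have := hn a; omega)]
  refine (Gat.shift hF (s := fun q => rwt (Λ.r q) (i q) (min (len q) (Λ.n q))) hi hl
    (Λ.pt_rwt (g := fun q => q) (by fun_prop) hi hl) hg hb hn fun a => (e a).le).mono
    fun a v w hv hw h => ⟨h.1, ?_, ?_⟩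
  · rw [e]; exact R326.Val.rg_lt hv (hn a)
  · have h1 := R326.Val.rg_lt hw (hn a)
    rw [e, ← h.2, Int.emod_eq_of_lt (by omega) (by omega)]

/-- Reversal.  Recipe: `Impl.blocks`; cut a block into chunks of length `wt r i`, reverse the list
of chunks, flatten. -/
theorem Gat.rev (hF : Fam 𝔅.V p Λ b) {i len : P → ℕ} (hi : PT i) (hl : PT len)
    (hb : ∀ a, b ≤ i (p a) + len (p a)) (hn : ∀ a, i (p a) + len (p a) ≤ Λ.n (p a)) :
    Gat 𝔅 p Λ Λ (fun a v w => Out (Λ.n (p a)) (i (p a)) (len (p a)) v w ∧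
      rg (Λ.r (p a)) v (i (p a)) (len (p a)) + rg (Λ.r (p a)) w (i (p a)) (len (p a)) + 1 =
        rwt (Λ.r (p a)) (i (p a)) (len (p a))) fun _ => 0 := by
  have hch : ∀ a (B : Arr), B.length = wt (Λ.r (p a)) (i (p a) + len (p a)) →
      ∀ c ∈ (chunks (wt (Λ.r (p a)) (i (p a))) (rwt (Λ.r (p a)) (i (p a)) (len (p a))) B).reverse,
        c.length = wt (Λ.r (p a)) (i (p a)) := fun a B hB c hc =>
    length_of_mem_chunks (by rw [hB, wt_add]) (List.mem_reverse.mp hc)
  refine (GA.blockMap hF (i := fun q => i q + len q) (by fun_prop) hb hn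
    (fun q l B => (chunks (wt (Λ.r q) (i q)) (rwt (Λ.r q) (i q) (len q)) B).reverse.flatten)
    (fun a l B hB => ?_) fun β X _ 𝔅' x φ l B hS hB hl' hV => ?_).mono (fun _ _ h => h)
    (fun a D D' hD h => ⟨h.1, fun v w hv hw hR => ?_⟩) fun _ => le_rfl
  · rw [GA.length_flatten_const (hch a B hB), List.length_reverse, length_chunks, wt_add]
  · have hi' : ∀ c, i (p (φ c)) ≤ Λ.n (p (φ c)) := fun c => by have := hn (φ c); omega
    have hu := (GA.S_wt (Λ := Λ) hS.fst hi hi').un (hV.mono_left fun c =>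
      Nat.le_of_dvd (hF.wt_pos _ (hn _)) (wt_dvd _ (Nat.le_add_right _ _)))
    exact (L.chunks hu hB (fun c => hF.wt_pos _ (hi' c))
      fun c => by rw [hl', wt_add]).reverse.flatten
  · obtain ⟨hO, h1⟩ := hR
    have hx : pos (Λ.r (p a)) v (i (p a)) < wt (Λ.r (p a)) (i (p a)) :=
      (R326.Val.mono hv (by have := hn a; omega)).pos_lt
    have hlen : (blk (wt (Λ.r (p a)) (i (p a) + len (p a))) (rg (Λ.r (p a)) v (i (p a) + len (p a))
        (Λ.n (p a) - (i (p a) + len (p a)))) D).length = wt (Λ.r (p a)) (i (p a) + len (p a)) := by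
      refine length_blk ?_
      rw [hD, GA.vol_eq Λ (hn a)]
      exact Nat.mul_le_mul_left _ (R326.Val.rg_lt hv (by have := hn a; omega))
    have ht : rg (Λ.r (p a)) v (i (p a)) (len (p a)) < rwt (Λ.r (p a)) (i (p a)) (len (p a)) := by
      omega
    have ht' : rg (Λ.r (p a)) w (i (p a)) (len (p a)) < rwt (Λ.r (p a)) (i (p a)) (len (p a)) := by
      omega
    rw [h.2 v hv, GA.pos_out (hn a) hO, pos_add,
      GA.bit_flatten (hch a _ hlen) hx (by simpa using ht), List.getD_eq_getElem?_getD,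
      List.getElem?_reverse (by simpa using ht), length_chunks,
      show rwt (Λ.r (p a)) (i (p a)) (len (p a)) - 1 - rg (Λ.r (p a)) v (i (p a)) (len (p a)) =
        rg (Λ.r (p a)) w (i (p a)) (len (p a)) by omega, chunks_eq_blk, List.getElem?_map,
      List.getElem?_range ht', Option.map_some, Option.getD_some, bit_blk _ _ hx,
      bit_blk _ _ (GA.lt_wt hx ht')]

end Crest.Agent.R326
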