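/-
R326/RingAux: words as numbers, blockwise maps (helpers for `R326/Ring`).  Author: helper14.
-/
import Crest.Agent.R326.GatA

set_option autoImplicit false
set_option linter.unusedSimpArgs false
set_option linter.unusedSectionVars false
set_option linter.unusedVariables false

namespace Crest.Agent.R326

open Function Crest.Agent.Lib.PolyTime

variable {α X Q : Type} [Enc X] [Enc Q] {𝔅 : Bud α} {x : α → X}

/-! ### Words as numbers -/

theorem ofBits_cons' (b : Bool) (l : Arr) : ofBits (b :: l) = 2 * ofBits l + b.toNat := by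
  rw [ofBits_cons, Nat.bit_val]

theorem ofBits_append (l m : Arr) : ofBits (l ++ m) = ofBits l + 2 ^ l.length * ofBits m := by
  induction l with
  | nil => simp
  | cons b l ih => rw [List.cons_append, ofBits_cons', ofBits_cons', ih, List.length_cons]; ring

theorem ofBits_singleton (b : Bool) : ofBits [b] = b.toNat := by
  rw [ofBits_cons']; simp

theorem ofBits_replicate_false (k : ℕ) : ofBits (List.replicate k false) = 0 := by
  induction k with
  | zero => rfl
  | succ k ih => rw [List.replicate_succ, ofBits_cons', ih]; rfl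

theorem ofBits_map_not (l : Arr) : ofBits (l.map not) + ofBits l + 1 = 2 ^ l.length := by
  induction l with
  | nil => simp
  | cons b l ih =>
    rw [List.map_cons, ofBits_cons', ofBits_cons', List.length_cons, pow_succ]
    cases b <;> simp <;> omega

theorem ofBits_drop (s : ℕ) (l : Arr) : ofBits (l.drop s) = ofBits l / 2 ^ s := by
  induction s generalizing l with
  | zero => simp
  | succ s ih =>
    cases l with
    | nil => simp
    | cons b l =>
      rw [List.drop_succ_cons, ih, ofBits_cons', pow_succ', ← Nat.div_div_eq_div_mul]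
      congr 1
      have := Bool.toNat_le b
      omega

theorem ofBits_eq_zero {l : Arr} (h : ∀ j < l.length, bit l j = false) : ofBits l = 0 := by
  induction l with
  | nil => rfl
  | cons b l ih =>
    have h0 := h 0 (by simp)
    simp only [bit, List.getD_cons_zero] at h0
    rw [ofBits_cons', h0, ih fun j hj => by simpa [bit] using h (j + 1) (by simpa using hj)]
    rfl

/-- The sign bit of a word. -/
def sgn (l : Arr) : Bool := l.reverse.headD false

theorem sgn_iff {P : ℕ} (hP : 1 ≤ P) {l : Arr} (hl : l.length = P) :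
    sgn l = true ↔ 2 ^ (P - 1) ≤ ofBits l := by
  rcases List.eq_nil_or_concat' l with rfl | ⟨m, b, rfl⟩
  · simp at hl; omega
  · have h1 : m.length = P - 1 := by simp at hl; omega
    have h2 := ofBits_lt m
    rw [ofBits_append, ofBits_singleton, h1] at *
    cases b
    · simp [sgn]; omega
    · simp [sgn]

theorem LT.sgn : LT sgn := fun _ _ _ _ _ _ h => h.reverse.headD (L.const false)

theorem natCast_two_pow_zmod (P : ℕ) : ((2 ^ P : ℕ) : ZMod (2 ^ P - 1)) = 1 := by
  have h2 : 2 ^ P = (2 ^ P - 1) + 1 := by have := Nat.two_pow_pos P; omega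
  rw [h2, Nat.cast_add, Nat.add_sub_cancel, ZMod.natCast_self]; simp

theorem cast_ofBits_map_not {P : ℕ} {l : Arr} (hl : l.length = P) :
    ((ofBits (l.map not) : ℕ) : ZMod (2 ^ P - 1)) = -((ofBits l : ℕ) : ZMod (2 ^ P - 1)) := by
  have h := congrArg (Nat.cast : ℕ → ZMod (2 ^ P - 1)) (ofBits_map_not l)
  rw [hl, natCast_two_pow_zmod] at h
  push_cast at h
  linear_combination h

/-- Rotation of a word by one place. -/
def rot (l : Arr) : Arr := l.tail ++ [l.headD false]

theorem LT.rot : LT rot := fun _ _ _ _ _ _ h =>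
  h.tail.append ((h.headD (L.const false)).cons (L.const []))

theorem length_rot {l : Arr} (h : 1 ≤ l.length) : (rot l).length = l.length := by
  simp [rot]; omega

theorem two_mul_ofBits_rot {P : ℕ} (hP : 1 ≤ P) {l : Arr} (hl : l.length = P) :
    2 * ((ofBits (rot l) : ℕ) : ZMod (2 ^ P - 1)) = (ofBits l : ℕ) := by
  cases l with
  | nil => simp at hl; omega
  | cons b l =>
    have h : ((2 ^ (l.length + 1) : ℕ) : ZMod (2 ^ P - 1)) = 1 := by
      rw [← natCast_two_pow_zmod P, ← hl, List.length_cons]
    simp only [rot, List.tail_cons, List.headD_cons]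
    rw [ofBits_append, ofBits_singleton, ofBits_cons']
    push_cast at h ⊢
    linear_combination (b.toNat : ZMod (2 ^ P - 1)) * h

theorem blk_map (f : Bool → Bool) (g t : ℕ) (D : Arr) : blk g t (D.map f) = (blk g t D).map f := by
  simp [blk, List.map_take, List.map_drop]

theorem blk_replicate (g t N : ℕ) (b : Bool) :
    blk g t (List.replicate N b) = List.replicate (min g (N - g * t)) b := by
  simp [blk]

theorem blk_two (P u t : ℕ) (D : Arr) (hu : u < 2) :
    blk P (2 * t + u) D = blk P u (blk (2 * P) t D) := by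
  rw [mul_comm 2 P, blk_blk D hu, add_comm]

/-! ### The adder -/

/-- One step of the adder. -/
def addStep (c : Bool) (q : Bool × Bool) : Bool × Bool :=
  (decide (2 ≤ c.toNat + q.1.toNat + q.2.toNat), xor c (xor q.1 q.2))

theorem ofBits_mapAcc_addStep (c : Bool) (l l' : Arr) (h : l.length = l'.length) :
    ofBits (mapAcc addStep c (l.zip l')).2 + 2 ^ l.length * (mapAcc addStep c (l.zip l')).1.toNat =
      ofBits l + ofBits l' + c.toNat := by
  induction l generalizing l' c with
  | nil =>
    cases l' with
    | nil => simp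
    | cons _ _ => simp at h
  | cons b l ih =>
    cases l' with
    | nil => simp at h
    | cons b' l' =>
      have := ih (addStep c (b, b')).1 l' (by simpa using h)
      rw [List.zip_cons_cons, mapAcc_cons, ofBits_cons', ofBits_cons', ofBits_cons',
        List.length_cons, pow_succ]
      dsimp only
      have e : 2 * (addStep c (b, b')).1.toNat + (addStep c (b, b')).2.toNat =
          c.toNat + b.toNat + b'.toNat := by
        cases c <;> cases b <;> cases b' <;> rfl
      generalize (mapAcc addStep (addStep c (b, b')).1 (l.zip l')).1.toNat = u at *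
      generalize ofBits (mapAcc addStep (addStep c (b, b')).1 (l.zip l')).2 = w at *
      nlinarith

theorem L.adder {c : α → Bool} {l l' : α → Arr} (hc : L 𝔅 x c) (h : L 𝔅 x l) (h' : L 𝔅 x l') :
    L 𝔅 x fun a => R326.mapAcc addStep (c a) ((l a).zip (l' a)) :=
  L.mapAcc_fin (LT.of_finite _) hc (h.zip h')

/-! ### Blockwise maps -/

variable {g c : α → ℕ} {D D' : α → Arr}

theorem blk_flatten_map_range {g c t : ℕ} {f : ℕ → Arr} (hf : ∀ u < c, (f u).length = g)
    (ht : t < c) : blk g t ((List.range c).map f).flatten = f t := by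
  rw [blk_flatten (fun B hB => ?_) (by simpa using ht)]
  · simp [List.getD_eq_getElem?_getD, ht]
  · obtain ⟨u, hu, rfl⟩ := List.mem_map.mp hB
    exact hf u (List.mem_range.mp hu)

theorem length_flatten_map_range {g c : ℕ} {f : ℕ → Arr} (hf : ∀ u < c, (f u).length = g) :
    ((List.range c).map f).flatten.length = g * c := by
  rw [List.length_flatten, List.map_map, List.map_congr_left (f := List.length ∘ f)
    (g := fun _ => g) fun u hu => hf u (List.mem_range.mp hu)]
  simp [mul_comm]

/-- Apply a linear-time function with a parameter to every block. -/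
theorem L.bmap {q : α → Q} {f : Q → Arr → Arr} (hf : LT fun z : Q × Arr => f z.1 z.2)
    (hg : L 𝔅 x fun a => R326.un (g a)) (hq : L 𝔅 x q) (hqg : sz q ≼ g) (h0 : ∀ a, 0 < g a)
    (hD : L 𝔅 x D) (hl : ∀ a, (D a).length = g a * c a)
    (hlen : ∀ a B, B.length = g a → (f (q a) B).length = g a) :
    ∃ E, L 𝔅 x E ∧ ∀ a, (E a).length = g a * c a ∧
      ∀ t < c a, blk (g a) t (E a) = f (q a) (blk (g a) t (D a)) := by
  have hb : ∀ a, ∀ u < c a, (f (q a) (blk (g a) u (D a))).length = g a := fun a u hu =>
    hlen a _ (length_blk (by rw [hl a]; exact Nat.mul_le_mul_left _ hu))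
  refine ⟨fun a => ((List.range (c a)).map fun t => f (q a) (blk (g a) t (D a))).flatten,
    L.with_sz fun hx => ?_, fun a => ⟨length_flatten_map_range (hb a), fun t ht =>
      blk_flatten_map_range (hb a) ht⟩⟩
  refine ((L.map_par hf hq (L.chunks hg hD h0 hl) ?_).congr fun a => ?_).flatten
  · refine (((OLe.refl c).mul hqg).trans ((length_of_sz (hD.size_le hx)).mono_left
      fun a => ?_)).mono_left fun a => by simp
    rw [hl a, mul_comm]
  · rw [chunks_eq_blk, List.map_map]; rfl

/-- Apply a linear-time function to every block. -/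
theorem L.bmap0 {f : Arr → Arr} (hf : LT f)
    (hg : L 𝔅 x fun a => R326.un (g a)) (h0 : ∀ a, 0 < g a)
    (hD : L 𝔅 x D) (hl : ∀ a, (D a).length = g a * c a)
    (hlen : ∀ a B, B.length = g a → (f B).length = g a) :
    ∃ E, L 𝔅 x E ∧ ∀ a, (E a).length = g a * c a ∧
      ∀ t < c a, blk (g a) t (E a) = f (blk (g a) t (D a)) :=
  L.bmap (q := fun _ => ()) (f := fun _ B => f B) (fun _ _ _ _ _ _ h => hf.l h.snd) hg (L.const ())
    (OLe.const h0 _) h0 hD hl hlen

/-- Combine two arrays block by block. -/
theorem L.bzip {f : Arr × Arr → Arr} (hf : LT f)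
    (hg : L 𝔅 x fun a => R326.un (g a)) (h0 : ∀ a, 0 < g a)
    (hD : L 𝔅 x D) (hD' : L 𝔅 x D') (hl : ∀ a, (D a).length = g a * c a)
    (hl' : ∀ a, (D' a).length = g a * c a)
    (hlen : ∀ a B B', B.length = g a → B'.length = g a → (f (B, B')).length = g a) :
    ∃ E, L 𝔅 x E ∧ ∀ a, (E a).length = g a * c a ∧
      ∀ t < c a, blk (g a) t (E a) = f (blk (g a) t (D a), blk (g a) t (D' a)) := by
  have hb : ∀ a, ∀ u < c a, (f (blk (g a) u (D a), blk (g a) u (D' a))).length = g a :=
    fun a u hu => hlen a _ _ (length_blk (by rw [hl a]; exact Nat.mul_le_mul_left _ hu))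
      (length_blk (by rw [hl' a]; exact Nat.mul_le_mul_left _ hu))
  refine ⟨fun a => ((List.range (c a)).map fun t =>
    f (blk (g a) t (D a), blk (g a) t (D' a))).flatten, ?_,
    fun a => ⟨length_flatten_map_range (hb a), fun t ht => blk_flatten_map_range (hb a) ht⟩⟩
  refine ((L.map_lt hf ((L.chunks hg hD h0 hl).zip (L.chunks hg hD' h0 hl'))).congr
    fun a => ?_).flatten
  rw [chunks_eq_blk, chunks_eq_blk, List.zip_map', List.map_map]; rfl

end Crest.Agent.R326
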