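/-
R326/Ring: linear-time arithmetic on arrays of records.
-/
import Crest.Agent.R326.RingAux

set_option autoImplicit false
set_option linter.unusedSimpArgs false
set_option linter.unusedSectionVars false
set_option linter.unusedVariables false

namespace Crest.Agent.R326

open Function Crest.Agent.Lib.PolyTime

variable {α X P : Type} [Enc X] [Enc P] {𝔅 : Bud α} {x : α → X} {Pw n : α → ℕ}

/-! ### Values -/

theorem ofBits_blk_lt (P t : ℕ) (D : Arr) : ofBits (blk P t D) < 2 ^ P := by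
  exact (ofBits_lt _).trans_le (Nat.pow_le_pow_right (by omega) (by simp [blk]))

@[simp] theorem rho_re (P : ℕ) (z : GaussianInt) : (rho P z).re = (z.re : ZMod (2 ^ P - 1)) := by
  simp [rho, iR]

@[simp] theorem rho_im (P : ℕ) (z : GaussianInt) : (rho P z).im = (z.im : ZMod (2 ^ P - 1)) := by
  simp [rho, iR]

theorem cast_sv (P : ℕ) (l : Arr) :
    ((sv P l : ℤ) : ZMod (2 ^ P - 1)) = ((ofBits l : ℕ) : ZMod (2 ^ P - 1)) := by
  have h := natCast_two_pow_zmod P
  unfold sv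
  split_ifs
  · push_cast at h ⊢
    rw [h]; simp
  · simp

theorem abs_sv_lt {P : ℕ} (hP : 1 ≤ P) {l : Arr} (hl : ofBits l < 2 ^ P) :
    |sv P l| < 2 ^ (P - 1) := by
  obtain ⟨k, rfl⟩ : ∃ k, P = k + 1 := ⟨P - 1, by omega⟩
  have h1 : ((ofBits l : ℕ) : ℤ) < 2 ^ (k + 1) := by exact_mod_cast hl
  unfold sv
  rw [Nat.add_sub_cancel, pow_succ] at *
  have h2 : (0 : ℤ) < 2 ^ k := by positivity
  split_ifs with h
  · have h3 : (2 : ℤ) ^ k ≤ (ofBits l : ℕ) := by exact_mod_cast h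
    rw [abs_lt]; constructor <;> linarith
  · have h3 : ((ofBits l : ℕ) : ℤ) < 2 ^ k := by exact_mod_cast not_le.mp h
    have h4 : (0 : ℤ) ≤ (ofBits l : ℕ) := Int.natCast_nonneg _
    rw [abs_lt]; constructor <;> linarith

theorem sv_eq {P : ℕ} (hP : 1 ≤ P) {l : Arr} (hl : ofBits l < 2 ^ P) {z : ℤ}
    (h : (z : ZMod (2 ^ P - 1)) = ((ofBits l : ℕ) : ZMod (2 ^ P - 1))) (h1 : |z| < 2 ^ (P - 1)) :
    sv P l = z := by
  rw [← cast_sv, ZMod.intCast_eq_intCast_iff_dvd_sub] at h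
  have h2 := abs_sv_lt hP hl
  obtain ⟨k, rfl⟩ : ∃ k, P = k + 1 := ⟨P - 1, by omega⟩
  rw [Nat.add_sub_cancel] at *
  have h3 : ((2 ^ (k + 1) - 1 : ℕ) : ℤ) = 2 * 2 ^ k - 1 := by
    rw [Nat.cast_sub (Nat.one_le_two_pow)]; push_cast; ring
  have h4 := Int.eq_zero_of_abs_lt_dvd h (by
    rw [h3]
    rw [abs_lt] at h1 h2 ⊢
    constructor <;> linarith [h1.1, h1.2, h2.1, h2.2])
  linarith

theorem rho_gv (P : ℕ) (D : Arr) (t : ℕ) : rho P (gv P D t) = rv P D t := by
  ext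
  · rw [rho_re]; exact cast_sv _ _
  · rw [rho_im]; exact cast_sv _ _

/-- A small Gaussian integer is determined by its residue. -/
theorem gv_eq {P : ℕ} (hP : 1 ≤ P) {D : Arr} {t : ℕ} {z : GaussianInt} (h : rho P z = rv P D t)
    (h1 : |z.re| < 2 ^ (P - 1)) (h2 : |z.im| < 2 ^ (P - 1)) : gv P D t = z := by
  have e1 := congrArg QuadraticAlgebra.re h
  have e2 := congrArg QuadraticAlgebra.im h
  rw [rho_re] at e1
  rw [rho_im] at e2
  ext
  · exact sv_eq hP (ofBits_blk_lt _ _ _) e1 h1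
  · exact sv_eq hP (ofBits_blk_lt _ _ _) e2 h2

theorem ofBits_of_gv_pos {P : ℕ} {D : Arr} {t : ℕ} (h : 0 < (gv P D t).re) :
    (ofBits (blk P (2 * t) D) : ℤ) = (gv P D t).re := by
  have h1 : ((ofBits (blk P (2 * t) D) : ℕ) : ℤ) < 2 ^ P := by exact_mod_cast ofBits_blk_lt _ _ _
  simp only [gv, sv] at h ⊢
  split_ifs at h ⊢ with h2
  · linarith
  · rfl

theorem rv_congr {P t t' : ℕ} {D D' : Arr} (h : blk (2 * P) t D = blk (2 * P) t' D') :
    rv P D t = rv P D' t' := by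
  have e0 := blk_two P 0 t D (by omega)
  have e0' := blk_two P 0 t' D' (by omega)
  rw [add_zero] at e0 e0'
  simp only [rv]
  rw [e0, e0', blk_two P 1 t D (by omega), blk_two P 1 t' D' (by omega), h]

theorem gv_congr {P t t' : ℕ} {D D' : Arr} (h : blk (2 * P) t D = blk (2 * P) t' D') :
    gv P D t = gv P D' t' := by
  have e0 := blk_two P 0 t D (by omega)
  have e0' := blk_two P 0 t' D' (by omega)
  rw [add_zero] at e0 e0'
  simp only [gv]
  rw [e0, e0', blk_two P 1 t D (by omega), blk_two P 1 t' D' (by omega), h]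

theorem gc_congr {P t t' : ℕ} {D D' : Arr} (h : blk (2 * P) t D = blk (2 * P) t' D') :
    gc P D t = gc P D' t' := by
  rw [gc, gc, gv_congr h]

theorem rv_zero (P N t : ℕ) : rv P (List.replicate N false) t = 0 := by
  simp only [rv, blk_replicate, ofBits_replicate_false, Nat.cast_zero]
  rfl

/-- A record of zero bits. -/
theorem gv_eq_zero {P t : ℕ} (hP : 1 ≤ P) {D : Arr} (h : ∀ j < 2 * P, bit D (j + 2 * P * t) = false) :
    gv P D t = 0 := by
  have key : ∀ u < 2, sv P (blk P (2 * t + u) D) = 0 := fun u hu => by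
    have h0 : ofBits (blk P (2 * t + u) D) = 0 := ofBits_eq_zero fun j hj => by
      have hj' : j < P := hj.trans_le (by simp [blk])
      rw [bit_blk _ _ hj', ← h (j + P * u) (by nlinarith)]
      congr 1; ring
    have := Nat.two_pow_pos (P - 1)
    rw [sv, h0, if_neg (by omega)]; rfl
  ext
  · exact key 0 (by omega)
  · exact key 1 (by omega)

theorem two_mul_aR {P : ℕ} (hP : 1 ≤ P) : 2 * aR P = rho P ⟨1, 1⟩ := by
  rw [aR, ← mul_assoc, two_mul_hR hP, one_mul]
  ext <;> simp [iR, QuadraticAlgebra.re_one, QuadraticAlgebra.im_one]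

theorem two_mul_bR {P : ℕ} (hP : 1 ≤ P) : 2 * bR P = rho P ⟨1, -1⟩ := by
  rw [bR, ← mul_assoc, two_mul_hR hP, one_mul]
  ext <;> simp [iR, QuadraticAlgebra.re_one, QuadraticAlgebra.im_one]

theorem aR_add_bR {P : ℕ} (hP : 1 ≤ P) : aR P + bR P = 1 := by
  rw [← two_mul_hR hP, aR, bR]; ring

/-- The dyadic rationals act on `RR P`. -/
noncomputable def sigma (P : ℕ) (hP : 1 ≤ P) : Dy →+* RR P :=
  IsLocalization.Away.lift (2 : ℤ) (g := Int.castRingHom (RR P))
    (by simpa using IsUnit.of_mul_eq_one _ (two_mul_hR hP))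

/-! ### Words -/

/-- Binary addition.  Recipe: `L.mapAcc_fin` with the carry as state. -/
theorem exists_addBits : ∃ f : Arr × Arr → Arr, LT f ∧ ∀ l l' : Arr, l.length = l'.length →
    (f (l, l')).length = l.length + 1 ∧ ofBits (f (l, l')) = ofBits l + ofBits l' := by
  refine ⟨fun z => (mapAcc addStep false (z.1.zip z.2)).2 ++
    [(mapAcc addStep false (z.1.zip z.2)).1], fun _ _ _ _ _ _ h => ?_, fun l l' h => ⟨?_, ?_⟩⟩
  · have h1 := L.adder (L.const false) h.fst h.snd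
    exact h1.snd.append (h1.fst.cons (L.const []))
  · simp [h]
  · have := ofBits_mapAcc_addStep false l l' h
    rw [ofBits_append, ofBits_singleton, length_mapAcc, List.length_zip, ← h, min_self]
    simpa using this

/-- Addition modulo `2 ^ P - 1` (end-around carry). -/
theorem exists_addMod : ∃ f : Arr × Arr → Arr, LT f ∧ ∀ l l' : Arr, l.length = l'.length →
    (f (l, l')).length = l.length ∧ ((ofBits (f (l, l')) : ℕ) : ZMod (2 ^ l.length - 1)) =
      (ofBits l : ℕ) + (ofBits l' : ℕ) := by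
  refine ⟨fun z => (mapAcc addStep (mapAcc addStep false (z.1.zip z.2)).1 (z.1.zip z.2)).2,
    fun _ _ _ _ _ _ h => ?_, fun l l' h => ⟨?_, ?_⟩⟩
  · exact (L.adder (L.adder (L.const false) h.fst h.snd).fst h.fst h.snd).snd
  · simp [h]
  · dsimp only
    have h1 := ofBits_mapAcc_addStep false l l' h
    have h2 := ofBits_mapAcc_addStep (mapAcc addStep false (l.zip l')).1 l l' h
    have h3 := ofBits_lt (mapAcc addStep false (l.zip l')).2
    have h4 := ofBits_lt (mapAcc addStep (mapAcc addStep false (l.zip l')).1 (l.zip l')).2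
    have h5 := ofBits_lt l
    have h6 := ofBits_lt l'
    rw [length_mapAcc, List.length_zip, ← h, min_self] at h3 h4
    rw [← h] at h6
    have h7 := natCast_two_pow_zmod l.length
    generalize (mapAcc addStep false (l.zip l')).1 = c at *
    generalize (mapAcc addStep c (l.zip l')).1 = c' at *
    have h8 : c' = c := by
      cases c <;> cases c' <;> simp at h1 h2 ⊢ <;> omega
    subst h8
    have h9 := congrArg (Nat.cast : ℕ → ZMod (2 ^ l.length - 1)) h2
    rw [Nat.cast_add, Nat.cast_mul, h7] at h9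
    push_cast at h9
    linear_combination h9

/-! ### Arrays -/

variable {D D' : α → Arr}

theorem length_word {P n u : ℕ} {D : Arr} (hl : D.length = 2 * P * n) (hu : u < 2 * n) :
    (blk P u D).length = P := length_blk (by rw [hl]; nlinarith)

/-- Recipe: cut both arrays into words (`L.chunks`), `L.zipWith`, flatten. -/
theorem L.radd (hP : L 𝔅 x fun a => R326.un (Pw a)) (h1 : ∀ a, 1 ≤ Pw a) (hD : L 𝔅 x D)
    (hD' : L 𝔅 x D') (hl : ∀ a, (D a).length = 2 * Pw a * n a)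
    (hl' : ∀ a, (D' a).length = 2 * Pw a * n a) :
    ∃ E, L 𝔅 x E ∧ ∀ a, RArr (Pw a) (n a) (E a) fun t => rv _ (D a) t + rv _ (D' a) t := by
  obtain ⟨f, hf, hf'⟩ := exists_addMod
  obtain ⟨E, hE, hE'⟩ := L.bzip (c := fun a => 2 * n a) hf hP h1 hD hD'
    (fun a => by rw [hl a]; ring) (fun a => by rw [hl' a]; ring)
    fun a B B' hB hB' => by rw [(hf' B B' (hB.trans hB'.symm)).1, hB]
  refine ⟨E, hE, fun a => ⟨by rw [(hE' a).1]; ring, fun t ht => ?_⟩⟩
  have key : ∀ u < 2 * n a, ((ofBits (blk (Pw a) u (E a)) : ℕ) : ZMod (2 ^ Pw a - 1)) =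
      (ofBits (blk (Pw a) u (D a)) : ℕ) + (ofBits (blk (Pw a) u (D' a)) : ℕ) := fun u hu => by
    have e1 := length_word (hl a) hu
    have e2 := length_word (hl' a) hu
    have := (hf' _ _ (e1.trans e2.symm)).2
    rw [e1] at this
    rw [(hE' a).2 u hu, this]
  ext
  · exact key _ (by omega)
  · exact key _ (by omega)

/-- Recipe: complement all bits. -/
theorem L.rneg (h1 : ∀ a, 1 ≤ Pw a) (hD : L 𝔅 x D) (hl : ∀ a, (D a).length = 2 * Pw a * n a) :
    ∃ E, L 𝔅 x E ∧ ∀ a, RArr (Pw a) (n a) (E a) fun t => -rv _ (D a) t := by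
  refine ⟨fun a => (D a).map not, L.map_lt (LT.of_finite _) hD,
    fun a => ⟨by rw [List.length_map, hl a], fun t ht => ?_⟩⟩
  ext
  · simp only [rv, blk_map, QuadraticAlgebra.re_neg]
    exact cast_ofBits_map_not (length_word (hl a) (by omega))
  · simp only [rv, blk_map, QuadraticAlgebra.im_neg]
    exact cast_ofBits_map_not (length_word (hl a) (by omega))

/-- Recipe: rotate each word by one place. -/
theorem L.rhalf (hP : L 𝔅 x fun a => R326.un (Pw a)) (h1 : ∀ a, 1 ≤ Pw a) (hD : L 𝔅 x D)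
    (hl : ∀ a, (D a).length = 2 * Pw a * n a) :
    ∃ E, L 𝔅 x E ∧ ∀ a, RArr (Pw a) (n a) (E a) fun t => hR _ * rv _ (D a) t := by
  obtain ⟨E, hE, hE'⟩ := L.bmap0 (c := fun a => 2 * n a) LT.rot hP h1 hD
    (fun a => by rw [hl a]; ring) fun a B hB => by rw [length_rot (hB ▸ h1 a), hB]
  refine ⟨E, hE, fun a => ⟨by rw [(hE' a).1]; ring, fun t ht => ?_⟩⟩
  have key : ∀ u < 2 * n a, 2 * ((ofBits (blk (Pw a) u (E a)) : ℕ) : ZMod (2 ^ Pw a - 1)) =
      (ofBits (blk (Pw a) u (D a)) : ℕ) := fun u hu => by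
    rw [(hE' a).2 u hu, two_mul_ofBits_rot (h1 a) (length_word (hl a) hu)]
  have h2 : 2 * rv (Pw a) (E a) t = rv (Pw a) (D a) t := by
    rw [two_mul]
    ext
    · rw [QuadraticAlgebra.re_add, ← two_mul]; exact key _ (by omega)
    · rw [QuadraticAlgebra.im_add, ← two_mul]; exact key _ (by omega)
  show _ = hR _ * rv _ (D a) t
  rw [← h2, ← mul_assoc, mul_comm (hR _), two_mul_hR (h1 a), one_mul]

theorem L.rI (hP : L 𝔅 x fun a => R326.un (Pw a)) (h1 : ∀ a, 1 ≤ Pw a) (hD : L 𝔅 x D)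
    (hl : ∀ a, (D a).length = 2 * Pw a * n a) :
    ∃ E, L 𝔅 x E ∧ ∀ a, RArr (Pw a) (n a) (E a) fun t => iR _ * rv _ (D a) t := by
  obtain ⟨E, hE, hE'⟩ := L.bmap (g := fun a => 2 * Pw a) (c := n) (q := fun a => R326.un (Pw a))
    (f := fun U B => (B.drop U.length).map not ++ B.take U.length)
    (fun _ _ _ _ _ _ h => (L.map_lt (LT.of_finite _) (L.drop h.fst.un_length h.snd)).append
      (L.take h.fst.un_length h.snd))
    ((hP.append hP).congr fun a => by simp [two_mul]) hP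
    ⟨2, fun a => by have := h1 a; simp only [sz, esize_un]; omega⟩
    (fun a => by have := h1 a; omega) hD hl fun a B hB => by simp [hB]; omega
  refine ⟨E, hE, fun a => ⟨(hE' a).1, fun t ht => ?_⟩⟩
  have e := (hE' a).2 t ht
  have e0 := blk_two (Pw a) 0 t (E a) (by omega)
  have e1 := blk_two (Pw a) 1 t (E a) (by omega)
  have d0 := blk_two (Pw a) 0 t (D a) (by omega)
  have d1 := blk_two (Pw a) 1 t (D a) (by omega)
  have hB : (blk (2 * Pw a) t (D a)).length = 2 * Pw a :=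
    length_blk (by rw [hl a]; exact Nat.mul_le_mul_left _ ht)
  rw [add_zero] at e0 d0
  simp only [List.length_replicate] at e
  rw [e] at e0 e1
  generalize blk (2 * Pw a) t (D a) = B at *
  have k0 : blk (Pw a) (2 * t) (E a) = (blk (Pw a) (2 * t + 1) (D a)).map not := by
    rw [e0, d1]
    simp only [blk, mul_zero, List.drop_zero, mul_one]
    rw [List.take_left' (by simp; omega), List.take_of_length_le (by simp; omega)]
  have k1 : blk (Pw a) (2 * t + 1) (E a) = blk (Pw a) (2 * t) (D a) := by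
    rw [e1, d0]
    simp only [blk, mul_zero, List.drop_zero, mul_one]
    rw [List.drop_left' (by simp; omega), List.take_take, min_self]
  ext
  · simp only [rv, k0, cast_ofBits_map_not (length_word (hl a) (by omega : 2 * t + 1 < 2 * n a))]
    simp [iR]
  · simp only [rv, k1]
    simp [iR]

theorem L.rnat (k : ℕ) (hP : L 𝔅 x fun a => R326.un (Pw a)) (h1 : ∀ a, 1 ≤ Pw a) (hD : L 𝔅 x D)
    (hl : ∀ a, (D a).length = 2 * Pw a * n a) :
    ∃ E, L 𝔅 x E ∧ ∀ a, RArr (Pw a) (n a) (E a) fun t => (k : RR _) * rv _ (D a) t := by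
  induction k with
  | zero =>
    exact ⟨fun a => List.replicate (D a).length false, hD.un_length.replicate_const false,
      fun a => ⟨by rw [List.length_replicate, hl a], fun t ht => by simp [rv_zero]⟩⟩
  | succ k ih =>
    obtain ⟨E1, hE1, k1⟩ := ih
    obtain ⟨E2, hE2, k2⟩ := L.radd hP h1 hE1 hD (fun a => (k1 a).1) hl
    refine ⟨E2, hE2, fun a => ⟨(k2 a).1, fun t ht => ?_⟩⟩
    rw [(k2 a).2 t ht]
    simp only [(k1 a).2 t ht]
    push_cast; ring

theorem L.rint (z : ℤ) (hP : L 𝔅 x fun a => R326.un (Pw a)) (h1 : ∀ a, 1 ≤ Pw a) (hD : L 𝔅 x D)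
    (hl : ∀ a, (D a).length = 2 * Pw a * n a) :
    ∃ E, L 𝔅 x E ∧ ∀ a, RArr (Pw a) (n a) (E a) fun t => (z : RR _) * rv _ (D a) t := by
  obtain ⟨k, rfl | rfl⟩ := z.eq_nat_or_neg
  · simpa using L.rnat k hP h1 hD hl
  · obtain ⟨E1, hE1, k1⟩ := L.rnat k hP h1 hD hl
    obtain ⟨E2, hE2, k2⟩ := L.rneg h1 hE1 fun a => (k1 a).1
    refine ⟨E2, hE2, fun a => ⟨(k2 a).1, fun t ht => ?_⟩⟩
    rw [(k2 a).2 t ht]
    simp only [(k1 a).2 t ht]
    push_cast; ring

theorem L.rhalf_pow (k : ℕ) (hP : L 𝔅 x fun a => R326.un (Pw a)) (h1 : ∀ a, 1 ≤ Pw a)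
    (hD : L 𝔅 x D) (hl : ∀ a, (D a).length = 2 * Pw a * n a) :
    ∃ E, L 𝔅 x E ∧ ∀ a, RArr (Pw a) (n a) (E a) fun t => hR _ ^ k * rv _ (D a) t := by
  induction k with
  | zero => exact ⟨D, hD, fun a => ⟨hl a, fun t ht => by simp⟩⟩
  | succ k ih =>
    obtain ⟨E1, hE1, k1⟩ := ih
    obtain ⟨E2, hE2, k2⟩ := L.rhalf hP h1 hE1 fun a => (k1 a).1
    refine ⟨E2, hE2, fun a => ⟨(k2 a).1, fun t ht => ?_⟩⟩
    rw [(k2 a).2 t ht]
    simp only [(k1 a).2 t ht]
    ring

/-- Multiplication by a fixed dyadic rational `c = a / 2 ^ k`: repeated addition, negation and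
halving. -/
theorem L.rsmul (c : Dy) (hP : L 𝔅 x fun a => R326.un (Pw a)) (h1 : ∀ a, 1 ≤ Pw a) (hD : L 𝔅 x D)
    (hl : ∀ a, (D a).length = 2 * Pw a * n a) :
    ∃ E, L 𝔅 x E ∧ ∀ a, RArr (Pw a) (n a) (E a) fun t => sigma _ (h1 a) c * rv _ (D a) t := by
  obtain ⟨k, z, hz⟩ := IsLocalization.Away.surj (2 : ℤ) c
  obtain ⟨E1, hE1, k1⟩ := L.rint z hP h1 hD hl
  obtain ⟨E2, hE2, k2⟩ := L.rhalf_pow k hP h1 hE1 fun a => (k1 a).1
  refine ⟨E2, hE2, fun a => ⟨(k2 a).1, fun t ht => ?_⟩⟩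
  have e := congrArg (sigma _ (h1 a)) hz
  rw [map_mul, map_pow, sigma, IsLocalization.Away.lift_eq, IsLocalization.Away.lift_eq] at e
  rw [(k2 a).2 t ht]
  simp only [(k1 a).2 t ht]
  have e2 : hR (Pw a) ^ k * 2 ^ k = 1 := by rw [← mul_pow, mul_comm, two_mul_hR (h1 a), one_pow]
  simp only [eq_intCast, Int.cast_ofNat] at e
  show _ = sigma _ (h1 a) c * _
  rw [← e, sigma]
  linear_combination (IsLocalization.Away.lift (2 : ℤ) (g := Int.castRingHom (RR (Pw a)))
    (by simpa using IsUnit.of_mul_eq_one _ (two_mul_hR (h1 a))) c * rv (Pw a) (D a) t) * e2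

/-- One butterfly. -/
theorem L.rbut (hP : L 𝔅 x fun a => R326.un (Pw a)) (h1 : ∀ a, 1 ≤ Pw a) (hD : L 𝔅 x D)
    (hD' : L 𝔅 x D') (hl : ∀ a, (D a).length = 2 * Pw a * n a)
    (hl' : ∀ a, (D' a).length = 2 * Pw a * n a) :
    ∃ E, L 𝔅 x E ∧ ∀ a, RArr (Pw a) (n a) (E a)
      fun t => aR _ * rv _ (D a) t + bR _ * rv _ (D' a) t := by
  obtain ⟨E1, hE1, k1⟩ := L.radd hP h1 hD hD' hl hl'
  obtain ⟨E2, hE2, k2⟩ := L.rneg h1 hD' hl'
  obtain ⟨E3, hE3, k3⟩ := L.radd hP h1 hD hE2 hl fun a => (k2 a).1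
  obtain ⟨E4, hE4, k4⟩ := L.rI hP h1 hE3 fun a => (k3 a).1
  obtain ⟨E5, hE5, k5⟩ := L.radd hP h1 hE1 hE4 (fun a => (k1 a).1) fun a => (k4 a).1
  obtain ⟨E6, hE6, k6⟩ := L.rhalf hP h1 hE5 fun a => (k5 a).1
  refine ⟨E6, hE6, fun a => ⟨(k6 a).1, fun t ht => ?_⟩⟩
  rw [(k6 a).2 t ht]
  simp only [(k5 a).2 t ht, (k4 a).2 t ht, (k3 a).2 t ht, (k2 a).2 t ht, (k1 a).2 t ht, aR, bR]
  ring

/-- Arithmetic shift of a word. -/
def shr (s : ℕ) (l : Arr) : Arr := l.drop s ++ List.replicate s (sgn l)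

theorem abs_div_mul_sub_lt (m s : ℕ) : |((m / 2 ^ s : ℕ) : ℤ) * 2 ^ s - m| < 2 ^ s := by
  have h1 := Nat.div_add_mod' m (2 ^ s)
  have h2 := Nat.mod_lt m (Nat.two_pow_pos s)
  have h3 : ((m / 2 ^ s : ℕ) : ℤ) * 2 ^ s + ((m % 2 ^ s : ℕ) : ℤ) = m := by exact_mod_cast h1
  have h4 : ((m % 2 ^ s : ℕ) : ℤ) < 2 ^ s := by exact_mod_cast h2
  have h5 : (0 : ℤ) ≤ ((m % 2 ^ s : ℕ) : ℤ) := Int.natCast_nonneg _
  have h6 : (0 : ℤ) < 2 ^ s := by positivity
  rw [abs_lt]; constructor <;> linarith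

theorem sv_shr {P s : ℕ} (hP : 1 ≤ P) (hs : s ≤ P) {l : Arr} (hl : l.length = P) :
    |sv P (shr s l) * 2 ^ s - sv P l| < 2 ^ s := by
  have h1 := sgn_iff hP hl
  cases hb : sgn l with
  | false =>
    have h2 : ¬ 2 ^ (P - 1) ≤ ofBits l := by rw [← h1, hb]; simp
    have h3 : ofBits (shr s l) = ofBits l / 2 ^ s := by
      rw [shr, hb, ofBits_append, ofBits_replicate_false, ofBits_drop]; simp
    have h4 := Nat.div_le_self (ofBits l) (2 ^ s)
    rw [sv, sv, if_neg h2, h3, if_neg (by omega)]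
    exact abs_div_mul_sub_lt _ _
  | true =>
    have h2 : 2 ^ (P - 1) ≤ ofBits l := h1.mp hb
    have h3 : ofBits ((shr s l).map not) = ofBits (l.map not) / 2 ^ s := by
      rw [shr, hb, List.map_append, List.map_replicate, List.map_drop, ofBits_append, Bool.not_true,
        ofBits_replicate_false, ofBits_drop]; simp
    have h4 := Nat.div_le_self (ofBits (l.map not)) (2 ^ s)
    have h5 := ofBits_map_not l
    have h6 := ofBits_map_not (shr s l)
    have h7 : (shr s l).length = P := by simp [shr, hl]; omega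
    have h8 : 2 ^ P = 2 * 2 ^ (P - 1) := by rw [← pow_succ']; congr 1; omega
    rw [hl] at h5
    rw [h7, h3] at h6
    have h9 := abs_div_mul_sub_lt (ofBits (l.map not)) s
    rw [sv, sv, if_pos h2, if_pos (by omega)]
    have h5' : ((ofBits (l.map not) : ℕ) : ℤ) + (ofBits l : ℕ) + 1 = 2 ^ P := by exact_mod_cast h5
    have h6' : ((ofBits (l.map not) / 2 ^ s : ℕ) : ℤ) + (ofBits (shr s l) : ℕ) + 1 = 2 ^ P := by
      exact_mod_cast h6
    rw [← abs_neg]
    convert h9 using 2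
    linear_combination (-(2 : ℤ) ^ s) * h6' + h5'

/-- Division by `2 ^ s` with rounding toward zero: drop `s` bits of each word and fill with the
sign bit. -/
theorem L.rshift {s : α → ℕ} (hP : L 𝔅 x fun a => R326.un (Pw a)) (hs : L 𝔅 x fun a => R326.un (s a))
    (h1 : ∀ a, 1 ≤ Pw a) (h2 : ∀ a, s a ≤ Pw a) (hD : L 𝔅 x D)
    (hl : ∀ a, (D a).length = 2 * Pw a * n a) :
    ∃ E, L 𝔅 x E ∧ ∀ a, (E a).length = 2 * Pw a * n a ∧ ∀ t < n a,
      |(gv (Pw a) (E a) t).re * 2 ^ s a - (gv (Pw a) (D a) t).re| < 2 ^ s a ∧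
      |(gv (Pw a) (E a) t).im * 2 ^ s a - (gv (Pw a) (D a) t).im| < 2 ^ s a := by
  obtain ⟨E, hE, hE'⟩ := L.bmap (g := Pw) (c := fun a => 2 * n a) (q := fun a => R326.un (s a))
    (f := fun U B => shr U.length B)
    (fun _ _ _ _ _ _ h => ((L.drop h.fst.un_length h.snd).append ((LT.sgn.l h.snd).cond
      (h.fst.un_length.replicate_const true) (h.fst.un_length.replicate_const false))).congr
      fun a => by simp only [shr]; cases sgn _ <;> rfl)
    hP hs ⟨3, fun a => by have := h1 a; have := h2 a; simp only [sz, esize_un]; omega⟩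
    h1 hD (fun a => by rw [hl a]; ring) fun a B hB => by
      have := h2 a
      simp [shr, hB]; omega
  refine ⟨E, hE, fun a => ⟨by rw [(hE' a).1]; ring, fun t ht => ?_⟩⟩
  have key : ∀ u < 2 * n a, |sv (Pw a) (blk (Pw a) u (E a)) * 2 ^ s a -
      sv (Pw a) (blk (Pw a) u (D a))| < 2 ^ s a := fun u hu => by
    rw [(hE' a).2 u hu, List.length_replicate]
    exact sv_shr (h1 a) (h2 a) (length_word (hl a) hu)
  exact ⟨key _ (by omega), key _ (by omega)⟩

theorem cast_ofBits_word {P : ℕ} (hP : 1 ≤ P) (c : ℤ) :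
    ((ofBits ((List.range P).map (c % (2 ^ P - 1)).toNat.testBit) : ℕ) : ZMod (2 ^ P - 1)) = c := by
  have h1 : (2 : ℤ) ^ 1 ≤ 2 ^ P := pow_le_pow_right₀ (by norm_num) hP
  have h2 := Int.emod_nonneg c (b := 2 ^ P - 1) (by omega)
  have h3 := Int.emod_lt_of_pos c (b := 2 ^ P - 1) (by omega)
  have h4 : ((2 ^ P - 1 : ℕ) : ℤ) = 2 ^ P - 1 := by
    rw [Nat.cast_sub Nat.one_le_two_pow]; simp
  have h5 : (c % (2 ^ P - 1)).toNat < 2 ^ P := by
    have : (((c % (2 ^ P - 1)).toNat : ℕ) : ℤ) < ((2 ^ P : ℕ) : ℤ) := by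
      rw [Int.toNat_of_nonneg h2]; push_cast; omega
    exact_mod_cast this
  rw [ofBits_map_testBit, Nat.mod_eq_of_lt h5, ← Int.cast_natCast, Int.toNat_of_nonneg h2, ← h4,
    ZMod.intCast_mod]

/-- An array of coefficients that are constant on the blocks of the fields `< b`.
Recipe: `Impl.blocks` applied to the zero array; the record is
`(range P).map (c % (2 ^ P - 1)).toNat.testBit` for both parts, repeated. -/
theorem L.constArr {p : α → P} {Λ : Lay P} {b : ℕ} (hF : Fam 𝔅.V p Λ b) (hb : 1 ≤ b) {Pw : P → ℕ}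
    (hP : PT Pw) (hP' : PB Pw) (h1 : ∀ a, 1 ≤ Pw (p a)) (h0 : ∀ a, Λ.r (p a) 0 = 2 * Pw (p a))
    {cf : P × List ℕ → ℤ × ℤ} (hcf : PT cf) :
    ∃ E, L 𝔅 p E ∧ ∀ a, (E a).length = Λ.vol (p a) ∧ ∀ v, Λ.Val (p a) v →
      rv (Pw (p a)) (E a) (Λ.ri (p a) v) =
        rho _ ⟨(cf (p a, Λ.od (p a) b v)).1, (cf (p a, Λ.od (p a) b v)).2⟩ := by
  classical
  -- the record of block `t`
  let g : P → ℕ := fun q => wt (Λ.r q) (min b (Λ.n q))
  let cnt : P → ℕ := fun q => Λ.vol q / g q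
  let dg : P × ℕ → List ℕ := fun z => (List.range (Λ.n z.1)).map fun k =>
    g z.1 * z.2 / wt (Λ.r z.1) (min k (Λ.n z.1)) % Λ.r z.1 k
  let wd : P → ℤ → Arr := fun q c => (List.range (Pw q)).map (c % (2 ^ Pw q - 1)).toNat.testBit
  let rc : P × ℕ → Arr := fun z => wd z.1 (cf (z.1, dg z)).1 ++ wd z.1 (cf (z.1, dg z)).2
  have hg : PT g := Λ.pt_wt PT.id' (PT.const b)
  have hcnt : PT cnt := by
    have := Λ.pt_vol (PT.id' (α := P))
    fun_prop
  have hdg : PT dg := by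
    refine PT.map (f := fun (z : P × ℕ) k =>
      g z.1 * z.2 / wt (Λ.r z.1) (min k (Λ.n z.1)) % Λ.r z.1 k) (by fun_prop) ?_
    have h2 : PT fun y : (P × ℕ) × ℕ => wt (Λ.r y.1.1) (min y.2 (Λ.n y.1.1)) :=
      Λ.pt_wt (by fun_prop) (by fun_prop)
    fun_prop
  have hwd : PT fun z : P × ℤ => wd z.1 z.2 := by
    have h2 : PB fun z : P × ℤ => Pw z.1 := hP'.comp PT.fst'
    have h3 : PT fun z : P × ℤ => (z.2 % (2 ^ Pw z.1 - 1)).toNat := by fun_prop
    refine PT.map (f := fun (z : P × ℤ) k => (z.2 % (2 ^ Pw z.1 - 1)).toNat.testBit k)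
      (by fun_prop) ?_
    exact PT.testBit (h3.comp PT.fst') PT.snd'
  have hrc : PT rc := by
    have h2 : PT fun z : P × ℕ => cf (z.1, dg z) := hcf.comp (by fun_prop)
    exact PT.append (hwd.comp (g := fun z : P × ℕ => (z.1, (cf (z.1, dg z)).1)) (by fun_prop))
      (hwd.comp (g := fun z : P × ℕ => (z.1, (cf (z.1, dg z)).2)) (by fun_prop))
  have hm : PT fun z : P × ℕ => g z.1 / (2 * Pw z.1) := by fun_prop
  have eg : ∀ a, g (p a) = wt (Λ.r (p a)) b := fun a => by simp only [g, min_eq_left (hF.base a)]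
  have hg0 : ∀ a, 0 < g (p a) := fun a => eg a ▸ hF.wt_pos a (hF.base a)
  have eg2 : ∀ a, g (p a) = 2 * Pw (p a) * rwt (Λ.r (p a)) 1 (b - 1) := fun a => by
    have := wt_add (Λ.r (p a)) 1 (b - 1)
    rwa [Nat.add_sub_cancel' hb, wt_one, h0, ← eg] at this
  have em : ∀ a, g (p a) / (2 * Pw (p a)) = rwt (Λ.r (p a)) 1 (b - 1) := fun a => by
    rw [eg2, Nat.mul_div_cancel_left _ (by have := h1 a; omega)]
  have evol : ∀ a, Λ.vol (p a) = g (p a) * rwt (Λ.r (p a)) b (Λ.n (p a) - b) := fun a => by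
    have := wt_add (Λ.r (p a)) b (Λ.n (p a) - b)
    rwa [Nat.add_sub_cancel' (hF.base a), ← eg] at this
  have ecnt : ∀ a, cnt (p a) = rwt (Λ.r (p a)) b (Λ.n (p a) - b) := fun a => by
    simp only [cnt]
    rw [evol, Nat.mul_div_cancel_left _ (hg0 a)]
  have evol' : ∀ a, Λ.vol (p a) = g (p a) * cnt (p a) := fun a => by rw [ecnt, evol]
  have hsm : SmIn (fun a => g (p a)) p := by simpa only [eg] using hF.small
  have hgV : (fun a => g (p a)) ≼ 𝔅.V := hF.vol.mono_left fun a => by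
    rw [evol]
    exact Nat.le_mul_of_pos_right _ (rwt_pos fun k hk => hF.pos a _ (by omega))
  have hV : (fun a => cnt (p a) * g (p a)) ≼ 𝔅.V := hF.vol.mono_left fun a => by
    rw [evol', mul_comm]
  have lrc : ∀ z, (rc z).length = 2 * Pw z.1 := fun z => by simp [rc, wd, two_mul]
  have key := Impl.blocks (𝔅 := 𝔅) (p := p) (g' := g) hg hcnt (fun a => g (p a))
    (fun a => g (p a)) (fun _ => 0) (fun _ => le_rfl) hsm hF.smV hg0 (OLe.refl _) hgV hV
    ((Bud.toF hV).mono_left fun a => by simp) (PreB := fun _ _ _ => True)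
    (PostB := fun a t _ B' => B' = (List.replicate (g (p a) / (2 * Pw (p a))) (rc (p a, t))).flatten)
    (Impl.ofL (fun q _ => (List.replicate (g (p q.1) / (2 * Pw (p q.1))) (rc (p q.1, q.2))).flatten)
      ?_ ?_ fun q B hB => ⟨?_, rfl⟩)
  · obtain ⟨E, k1, k2⟩ := (key.mono (ex' := fun _ => 0) (fun _ _ h => h) (fun _ _ _ _ h => h)
      fun _ => by simp).useL id (x := p) (D := fun a => List.replicate (Λ.vol (p a)) false)
      (fun a => ⟨by simp [evol'], fun _ _ => trivial⟩) (L.refl _ _) (L.zeroArr hF)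
    refine ⟨E, k2, fun a => ⟨(k1 a).1.trans (evol' a).symm, fun v hv => ?_⟩⟩
    have hn := hF.base a
    have ht : rg (Λ.r (p a)) v b (Λ.n (p a) - b) < cnt (p a) := by
      rw [ecnt]; exact R326.Val.rg_lt hv (by omega)
    have hu : rg (Λ.r (p a)) v 1 (b - 1) < rwt (Λ.r (p a)) 1 (b - 1) :=
      R326.Val.rg_lt hv (by omega)
    have e1 := (k1 a).2 _ ht
    have e2 : Λ.ri (p a) v = rg (Λ.r (p a)) v 1 (b - 1) +
        rwt (Λ.r (p a)) 1 (b - 1) * rg (Λ.r (p a)) v b (Λ.n (p a) - b) := by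
      have := rg_add (Λ.r (p a)) v 1 (b - 1) (Λ.n (p a) - b)
      rwa [Nat.add_sub_cancel' hb, show b - 1 + (Λ.n (p a) - b) = Λ.n (p a) - 1 by omega] at this
    simp only [id] at e1
    have e3 : blk (2 * Pw (p a)) (Λ.ri (p a) v) (E a) =
        rc (p a, rg (Λ.r (p a)) v b (Λ.n (p a) - b)) := by
      rw [e2, ← blk_blk _ hu, ← eg2, e1, em, blk_flatten (fun c hc => by
        rw [List.eq_of_mem_replicate hc, lrc]) (by simpa using hu)]
      simp [List.getD_eq_getElem?_getD, hu]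
    have e4 : dg (p a, rg (Λ.r (p a)) v b (Λ.n (p a) - b)) = Λ.od (p a) b v := by
      refine List.map_congr_left fun k hk => ?_
      have hk' := List.mem_range.mp hk
      have hv' : R326.Val (Λ.r (p a)) (Λ.n (p a)) fun k => if k < b then 0 else v k := by
        intro k hk
        dsimp only
        split_ifs
        · exact hF.pos a k hk
        · exact hv k hk
      have h3 := hv'.dig_pos hk'
      have h4 := pos_add (Λ.r (p a)) (fun k => if k < b then 0 else v k) b (Λ.n (p a) - b)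
      rw [Nat.add_sub_cancel' hn, rg_congr (r' := Λ.r (p a)) (w := v) (j := b) (fun _ _ => rfl)
        (fun k _ => by simp), ← eg] at h4
      have h5 : pos (Λ.r (p a)) (fun k => if k < b then 0 else v k) b = 0 :=
        Finset.sum_eq_zero fun k hk => by simp [Finset.mem_range.mp hk]
      rw [h5, zero_add] at h4
      rw [h4, dig] at h3
      simpa only [min_eq_left hk'.le] using h3
    have lwd : ∀ c, (wd (p a) c).length = Pw (p a) := fun c => by simp [wd]
    have vwd : ∀ c, ((ofBits (wd (p a) c) : ℕ) : ZMod (2 ^ Pw (p a) - 1)) = (c : ℤ) := fun c =>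
      cast_ofBits_word (h1 a) c
    have f0 := blk_two (Pw (p a)) 0 (Λ.ri (p a) v) (E a) (by omega)
    have f1 := blk_two (Pw (p a)) 1 (Λ.ri (p a) v) (E a) (by omega)
    rw [e3] at f0 f1
    simp only [rc, e4, blk, mul_zero, mul_one, List.drop_zero, add_zero] at f0 f1
    rw [List.take_left' (lwd _)] at f0
    rw [List.drop_left' (lwd _), List.take_of_length_le (lwd _).le] at f1
    ext
    · rw [rho_re, ← vwd, ← f0]; rfl
    · rw [rho_im, ← vwd, ← f1]; rfl
  · exact sz_pair (((hsm.comp _).pair (((hsm.pt hcnt).comp _).nat_le fun q => q.1.1.2.2.le)).size_le)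
      (sz_bits (OLe.of_le fun q => q.2.1.le) fun q => hg0 _)
  · have hs : SmIn (fun q : {q : ((a : α) × Fin (cnt (p a))) × Arr //
        q.2.length = g (p q.1.1) ∧ True} => g (p q.1.1.1)) fun q => (p q.1.1.1, q.1.1.2.1) :=
      (hsm.comp _).pair (((hsm.pt hcnt).comp _).nat_le fun q => q.1.1.2.2.le)
    refine (L.replicate (((L.in1 _ _ _).pt hs hm).un (OLe.of_le fun q => Nat.div_le_self _ _))
      ((L.in1 _ _ _).pt hs hrc) ⟨5, fun q => ?_⟩).flatten
    have h2 := esize_boolList_le (rc (p q.1.1.1, q.1.1.2.1))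
    have h3 := h1 q.1.1.1
    rw [lrc] at h2
    dsimp only at h2 ⊢
    rw [em, eg2]
    nlinarith
  · rw [List.length_flatten, List.map_replicate, List.sum_replicate, lrc, smul_eq_mul, em, eg2,
      mul_comm]

end Crest.Agent.R326
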