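/-
R326/Net: the network of row 324 for labels over an arbitrary commutative ring, and its soundness
for implementations.
-/
import Crest.Agent.R326.Gat

set_option autoImplicit false
set_option linter.unusedSimpArgs false
set_option linter.unusedSectionVars false
set_option linter.unusedVariables false

namespace Crest.Agent.R326

open Function Crest.Agent.Lib.PolyTime
open Matrix Kronecker

/-- The identity matrix on `𝒯` split as a low rank part through `Ce` and single entries `Sd`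
(as `R324.Design`, over `𝕜`). -/
structure DesignG (𝕜 𝒯 Sd Ce : Type) [CommRing 𝕜] [Fintype 𝒯] [Fintype Sd] [Fintype Ce]
    [DecidableEq 𝒯] where
  /-- source of a side wire -/
  src : Sd → 𝒯
  /-- target of a side wire -/
  tgt : Sd → 𝒯
  /-- coefficient of a side wire -/
  j : Sd → 𝕜
  /-- reading the centre -/
  R : 𝒯 → Ce → 𝕜
  /-- writing the centre -/
  G : Ce → 𝒯 → 𝕜
  hid : ∀ S T, (∑ p, if tgt p = S ∧ src p = T then j p else 0) + ∑ i, R S i * G i T =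
    if S = T then 1 else 0

/-- Triple tensor product of labels. -/
def kr3 {𝔽 H : Type} [CommRing 𝔽] (A B C : Matrix H H 𝔽) : Matrix (H × H × H) (H × H × H) 𝔽 :=
  A ⊗ₖ (B ⊗ₖ C)

/-! ### Sums of generators -/

namespace RkG
variable {Lb Lb' : Type} [AddCommGroup Lb] [AddCommGroup Lb'] {Gen : Lb → Prop} {Gen' : Lb' → Prop}

theorem zero : RkG Gen 0 0 := ⟨[], le_rfl, by simp, rfl⟩

theorem mono {B : Lb} {r r' : ℕ} (h : RkG Gen B r) (hr : r ≤ r') : RkG Gen B r' := by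
  obtain ⟨l, h1, h2, h3⟩ := h
  exact ⟨l, h1.trans hr, h2, h3⟩

theorem of_eq {A B : Lb} {a b : ℕ} (ha : RkG Gen A a) (h : B = A) (hab : a ≤ b) : RkG Gen B b :=
  h ▸ ha.mono hab

theorem gen {B : Lb} (h : Gen B) : RkG Gen B 1 := ⟨[B], le_rfl, by simpa using h, by simp⟩

theorem add {B B' : Lb} {r r' : ℕ} (h : RkG Gen B r) (h' : RkG Gen B' r') :
    RkG Gen (B + B') (r + r') := by
  obtain ⟨l, h1, h2, rfl⟩ := h
  obtain ⟨l', h1', h2', rfl⟩ := h'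
  refine ⟨l ++ l', by simp; omega, fun Δ hΔ => ?_, by simp⟩
  rcases List.mem_append.mp hΔ with h | h
  · exact h2 _ h
  · exact h2' _ h

theorem map_add (f : Lb →+ Lb') {c : ℕ} (hf : ∀ Δ, Gen Δ → RkG Gen' (f Δ) c) {A : Lb} {a : ℕ}
    (h : RkG Gen A a) : RkG Gen' (f A) (a * c) := by
  obtain ⟨l, h1, h2, rfl⟩ := h
  refine RkG.mono (r := l.length * c) ?_ (Nat.mul_le_mul_right _ h1)
  clear h1
  induction l with
  | nil => simpa using zero
  | cons Δ l ih =>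
    rw [List.sum_cons, f.map_add, List.length_cons, Nat.succ_mul, add_comm (l.length * c)]
    exact (hf Δ (h2 Δ (by simp))).add (ih fun Δ' h' => h2 Δ' (by simp [h']))

theorem neg (hneg : ∀ Δ, Gen Δ → Gen (-Δ)) {A : Lb} {a : ℕ} (h : RkG Gen A a) :
    RkG Gen (-A) a := by
  simpa using h.map_add (Gen' := Gen) (negAddMonoidHom (α := Lb)) (c := 1)
    fun Δ hΔ => gen (hneg Δ hΔ)

theorem kr3 {𝔽 H : Type} [CommRing 𝔽] {G1 : Matrix H H 𝔽 → Prop}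
    {G3 : Matrix (H × H × H) (H × H × H) 𝔽 → Prop}
    (hkr : ∀ A B C, G1 A → G1 B → G1 C → G3 (kr3 A B C)) {A B C : Matrix H H 𝔽} {a b c : ℕ}
    (ha : RkG G1 A a) (hb : RkG G1 B b) (hc : RkG G1 C c) :
    RkG G3 (R326.kr3 A B C) (a * (b * c)) := by
  refine ha.map_add (AddMonoidHom.mk' (fun A => R326.kr3 A B C)
    fun _ _ => by simp [R326.kr3, Matrix.add_kronecker]) fun A hA => ?_
  refine hb.map_add (AddMonoidHom.mk' (fun B => R326.kr3 A B C)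
    fun _ _ => by simp [R326.kr3, Matrix.add_kronecker, Matrix.kronecker_add]) fun B hB => ?_
  simpa using hc.map_add (Gen' := G3) (AddMonoidHom.mk' (fun C => R326.kr3 A B C)
    fun _ _ => by simp [R326.kr3, Matrix.kronecker_add]) (c := 1)
    fun C hC => gen (hkr A B C hA hB hC)

end RkG

/-! ### Derived rules for `Reach` -/

section reach
variable {𝕜 Lb M : Type} [CommRing 𝕜] [AddCommGroup Lb] [AddCommGroup M] [Module 𝕜 M]
  {Gen : Lb → Prop}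

/-- available at label `B` up to linear combinations -/
def AvG (𝕜 : Type) [CommRing 𝕜] [Module 𝕜 M] (T : Set (Lb × M)) (B : Lb) : Submodule 𝕜 M :=
  Submodule.span 𝕜 {y | (B, y) ∈ T}

theorem AvG.of_mem {T : Set (Lb × M)} {B : Lb} {z : M} (h : (B, z) ∈ T) : z ∈ AvG 𝕜 T B :=
  Submodule.subset_span h

namespace Reach
variable {S T : Set (Lb × M)} {r : ℕ}

theorem move1 (h : Reach 𝕜 Gen S r T) {B D : Lb} {z : M} {ρ : ℕ} (hz : (B, z) ∈ T)
    (hD : RkG Gen D ρ) : Reach 𝕜 Gen S (r + ρ) (insert (B + D, z) T) := by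
  obtain ⟨l, h1, h2, rfl⟩ := hD
  refine Reach.mono (r := r + l.length) ?_ (by omega) subset_rfl
  clear h1
  induction l using List.reverseRecOn with
  | nil => exact h.mono le_rfl (Set.insert_subset (by simpa using hz) subset_rfl)
  | append_singleton l Δ ih =>
    have := (ih fun Δ' h' => h2 Δ' (by simp [h'])).move (Set.mem_insert _ _) (h2 Δ (by simp))
    refine this.mono (by simp [add_assoc]) ?_
    rw [List.sum_append, List.sum_singleton, add_assoc]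
    exact Set.insert_subset_insert (Set.subset_insert _ _)

theorem lin1 {B : Lb} {z : M} (hz : z ∈ AvG 𝕜 T B) {T' : Set (Lb × M)} (hT : T ⊆ T')
    (h : Reach 𝕜 Gen S r T') : Reach 𝕜 Gen S r (insert (B, z) T') := by
  induction hz using Submodule.span_induction generalizing T' with
  | mem y hy => exact h.mono le_rfl (Set.insert_subset (hT hy) subset_rfl)
  | zero => exact h.zero B
  | add y y' _ _ ih ih' =>
    have := (ih' (hT.trans (Set.subset_insert _ _)) (ih hT h)).add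
      (Set.mem_insert_of_mem _ (Set.mem_insert _ _)) (Set.mem_insert _ _)
    exact this.mono le_rfl (Set.insert_subset_insert
      ((Set.subset_insert _ _).trans (Set.subset_insert _ _)))
  | smul c y _ ih =>
    exact ((ih hT h).smul c (Set.mem_insert _ _)).mono le_rfl
      (Set.insert_subset_insert (Set.subset_insert _ _))

theorem family {κ : Type} [Fintype κ] (h : Reach 𝕜 Gen S r T) (q : κ → Lb × M) (ρ : ℕ)
    (hq : ∀ k r' T', T ⊆ T' → Reach 𝕜 Gen S r' T' → Reach 𝕜 Gen S (r' + ρ) (insert (q k) T')) :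
    ∃ T', Reach 𝕜 Gen S (r + Fintype.card κ * ρ) T' ∧ (∀ x ∈ T, x ∈ T') ∧ ∀ k, q k ∈ T' := by
  classical
  have key : ∀ s : Finset κ, ∃ T', Reach 𝕜 Gen S (r + s.card * ρ) T' ∧ (∀ x ∈ T, x ∈ T') ∧
      ∀ k ∈ s, q k ∈ T' := by
    intro s
    induction s using Finset.induction_on with
    | empty => exact ⟨T, by simpa using h, fun _ hx => hx, by simp⟩
    | insert k s hk ih =>
      obtain ⟨T', h1, h2, h3⟩ := ih
      refine ⟨_, (hq k _ T' h2 h1).mono (by rw [Finset.card_insert_of_notMem hk]; ring_nf; rfl)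
        subset_rfl, fun x hx => Set.mem_insert_of_mem _ (h2 x hx), fun k' hk' => ?_⟩
      rcases Finset.mem_insert.mp hk' with rfl | h'
      · exact Set.mem_insert _ _
      · exact Set.mem_insert_of_mem _ (h3 k' h')
  obtain ⟨T', h1, h2, h3⟩ := key Finset.univ
  exact ⟨T', h1, h2, fun k => h3 k (Finset.mem_univ _)⟩

theorem mv {κ κ' : Type} [Fintype κ] [Fintype κ'] (h : Reach 𝕜 Gen S r T) (B B' D : κ → κ' → Lb)
    (z : κ → κ' → M) (ρ : ℕ) (hz : ∀ b k, (B b k, z b k) ∈ T) (hD : ∀ b k, RkG Gen (D b k) ρ)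
    (hB : ∀ b k, B b k + D b k = B' b k) :
    ∃ T', Reach 𝕜 Gen S (r + Fintype.card κ * (Fintype.card κ' * ρ)) T' ∧ (∀ q ∈ T, q ∈ T') ∧
      ∀ b k, (B' b k, z b k) ∈ T' := by
  obtain ⟨T', h1, h2, h3⟩ := h.family (fun c : κ × κ' => (B' c.1 c.2, z c.1 c.2)) ρ
    fun c r' T' hT h' => hB c.1 c.2 ▸ h'.move1 (hT (hz c.1 c.2)) (hD c.1 c.2)
  exact ⟨T', by rwa [Fintype.card_prod, mul_assoc] at h1, h2, fun b k => h3 (b, k)⟩

theorem ln {κ κ' : Type} [Fintype κ] [Fintype κ'] (h : Reach 𝕜 Gen S r T) (B : κ → κ' → Lb)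
    (z : κ → κ' → M) (hz : ∀ b k, z b k ∈ AvG 𝕜 T (B b k)) :
    ∃ T', Reach 𝕜 Gen S r T' ∧ (∀ q ∈ T, q ∈ T') ∧ ∀ b k, (B b k, z b k) ∈ T' := by
  obtain ⟨T', h1, h2, h3⟩ := h.family (fun c : κ × κ' => (B c.1 c.2, z c.1 c.2)) 0
    fun c r' T' hT h' => lin1 (hz c.1 c.2) hT h'
  exact ⟨T', by simpa using h1, h2, fun b k => h3 (b, k)⟩

end Reach
end reach

/-! ### The two shear gadgets -/

section gadgets
variable {𝕜 𝒯 Sd Ce : Type} [CommRing 𝕜] [Fintype 𝒯] [Fintype Sd] [Fintype Ce] [DecidableEq 𝒯]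
variable {Lb M : Type} [AddCommGroup Lb] [AddCommGroup M] [Module 𝕜 M] {Gen : Lb → Prop}

namespace DesignG
variable (d : DesignG 𝕜 𝒯 Sd Ce)

/-- side contribution -/
def Jm (S : 𝒯) (a : Sd → M) : M := ∑ p, if d.tgt p = S then d.j p • a p else 0
/-- central contribution -/
def Rm (S : 𝒯) (c : Ce → M) : M := ∑ i, d.R S i • c i
/-- central values -/
def Gm (x : 𝒯 → M) (i : Ce) : M := ∑ T, d.G i T • x T

theorem Jm_add (S : 𝒯) (a a' : Sd → M) :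
    d.Jm S (fun p => a p + a' p) = d.Jm S a + d.Jm S a' := by
  simp only [Jm, ← Finset.sum_add_distrib]
  refine Finset.sum_congr rfl fun p _ => ?_
  split_ifs <;> simp

theorem ident (S : 𝒯) (x : 𝒯 → M) :
    d.Jm S (fun p => x (d.src p)) + d.Rm S (d.Gm x) = x S := by
  have h1 : d.Jm S (fun p => x (d.src p)) =
      ∑ T, (∑ p, if d.tgt p = S ∧ d.src p = T then d.j p else 0) • x T := by
    simp only [Jm, Finset.sum_smul]
    rw [Finset.sum_comm]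
    refine Finset.sum_congr rfl fun p _ => ?_
    by_cases h : d.tgt p = S <;> simp [h]
  have h2 : d.Rm S (d.Gm x) = ∑ T, (∑ i, d.R S i * d.G i T) • x T := by
    simp only [Rm, Gm, Finset.sum_smul, Finset.smul_sum, mul_smul]
    rw [Finset.sum_comm]
  rw [h1, h2, ← Finset.sum_add_distrib]
  simp only [← add_smul, d.hid]
  simp

theorem Jm_mem (V : Submodule 𝕜 M) (S : 𝒯) (a : Sd → M) (h : ∀ p, d.tgt p = S → a p ∈ V) :
    d.Jm S a ∈ V := by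
  refine V.sum_mem fun p _ => ?_
  split_ifs with hp
  · exact V.smul_mem _ (h p hp)
  · exact V.zero_mem

theorem Rm_mem (V : Submodule 𝕜 M) (S : 𝒯) (c : Ce → M) (h : ∀ i, c i ∈ V) : d.Rm S c ∈ V :=
  V.sum_mem fun i _ => V.smul_mem _ (h i)

theorem Gm_mem (V : Submodule 𝕜 M) (x : 𝒯 → M) (i : Ce) (h : ∀ T, x T ∈ V) : d.Gm x i ∈ V :=
  V.sum_mem fun T _ => V.smul_mem _ (h T)

end DesignG

/-- forward gadget: the source starts on its line, the target ends on the complement of its line -/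
theorem gadgetG_fwd (d : DesignG 𝕜 𝒯 Sd Ce) {Bx : Type} [Fintype Bx] {S T : Set (Lb × M)} {r : ℕ}
    (h : Reach 𝕜 Gen S r T) (β δ : Bx → Lb) (φ : Lb) (τ : Bx → 𝒯 → Lb) (x y : Bx → 𝒯 → M)
    (a : Bx → Sd → M) (k rb rf : ℕ)
    (hX : ∀ b t, (β b + τ b t, x b t) ∈ T) (hY : ∀ b t, (β b, y b t) ∈ T)
    (hA : ∀ b p, ((0 : Lb), a b p) ∈ T)
    (rβ : ∀ b, RkG Gen (β b) rb) (rτ : ∀ b t, RkG Gen (τ b t) 1)
    (rδ : ∀ b, RkG Gen (-δ b) (k + 2)) (rδτ : ∀ b t, RkG Gen (δ b - τ b t) (k + 1))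
    (rδττ : ∀ b p, RkG Gen (δ b - τ b (d.tgt p) - τ b (d.src p)) k)
    (rφ : ∀ b, RkG Gen (φ - (β b + δ b)) rf) :
    ∃ T', Reach 𝕜 Gen S (r + Fintype.card Bx * (2 * Fintype.card 𝒯 * (k + 1) +
        Fintype.card Ce * (k + 2) + Fintype.card Sd * (rb + (k + 2) + rf))) T' ∧
      (∀ q ∈ T, q ∈ T') ∧
      (∀ b t, (β b + δ b, x b t) ∈ T') ∧ (∀ b t, (β b + δ b - τ b t, y b t + x b t) ∈ T') ∧
      ∀ b p, (φ, a b p) ∈ T' := by
  obtain ⟨T1, n1, s1, m1⟩ := h.mv (fun _ _ => 0) (fun b _ => β b) (fun b _ => β b) a rb hA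
    (fun b _ => rβ b) (fun _ _ => zero_add _)
  obtain ⟨T2, n2, s2, m2⟩ := n1.mv (fun b t => β b + τ b t) (fun b _ => β b + δ b)
    (fun b t => δ b - τ b t) x (k + 1) (fun b t => s1 _ (hX b t)) rδτ
    (fun b t => by abel)
  obtain ⟨T3, n3, s3, m3⟩ := n2.ln (fun b (_ : Ce) => β b + δ b) (fun b => d.Gm (x b))
    (fun b i => d.Gm_mem _ _ _ fun t => AvG.of_mem (m2 b t))
  obtain ⟨T4, n4, s4, m4⟩ := n3.mv (fun b _ => β b + δ b) (fun b _ => β b) (fun b _ => -δ b)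
    (fun b => d.Gm (x b)) (k + 2) m3 (fun b _ => rδ b) (fun b _ => by abel)
  obtain ⟨T5, n5, s5, m5⟩ := n4.ln (fun b (_ : 𝒯) => β b)
    (fun b t => y b t - d.Jm t (a b) + d.Rm t (d.Gm (x b)))
    (fun b t => Submodule.add_mem _ (Submodule.sub_mem _
      (AvG.of_mem (s4 _ (s3 _ (s2 _ (s1 _ (hY b t))))))
      (d.Jm_mem _ _ _ fun p _ => AvG.of_mem (s4 _ (s3 _ (s2 _ (m1 b p))))))
      (d.Rm_mem _ _ _ fun i => AvG.of_mem (m4 b i)))
  obtain ⟨T6, n6, s6, m6⟩ := n5.mv (fun b _ => β b) (fun b p => β b + τ b (d.src p))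
    (fun b p => τ b (d.src p)) a 1 (fun b p => s5 _ (s4 _ (s3 _ (s2 _ (m1 b p)))))
    (fun b p => rτ b _) (fun _ _ => rfl)
  obtain ⟨T7, n7, s7, m7⟩ := n6.ln (fun b p => β b + τ b (d.src p))
    (fun b p => a b p + x b (d.src p))
    (fun b p => Submodule.add_mem _ (AvG.of_mem (m6 b p))
      (AvG.of_mem (s6 _ (s5 _ (s4 _ (s3 _ (s2 _ (s1 _ (hX b _)))))))))
  obtain ⟨T8, n8, s8, m8⟩ := n7.mv (fun b p => β b + τ b (d.src p))
    (fun b p => β b + δ b - τ b (d.tgt p)) (fun b p => δ b - τ b (d.tgt p) - τ b (d.src p))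
    (fun b p => a b p + x b (d.src p)) k m7 rδττ (fun b p => by abel)
  obtain ⟨T9, n9, s9, m9⟩ := n8.mv (fun b _ => β b) (fun b t => β b + δ b - τ b t)
    (fun b t => δ b - τ b t) (fun b t => y b t - d.Jm t (a b) + d.Rm t (d.Gm (x b))) (k + 1)
    (fun b t => s8 _ (s7 _ (s6 _ (m5 b t)))) rδτ (fun _ _ => by abel)
  obtain ⟨T10, n10, s10, m10⟩ := n9.ln (fun b t => β b + δ b - τ b t) (fun b t => y b t + x b t)
    (fun b t => by
      have e : y b t + x b t = (y b t - d.Jm t (a b) + d.Rm t (d.Gm (x b))) +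
          d.Jm t (fun p => a b p + x b (d.src p)) := by
        rw [d.Jm_add, ← d.ident t (x b)]; abel
      rw [e]
      exact Submodule.add_mem _ (AvG.of_mem (m9 b t))
        (d.Jm_mem _ _ _ fun p hp => AvG.of_mem (hp ▸ s9 _ (m8 b p))))
  obtain ⟨T11, n11, s11, m11⟩ := n10.mv (fun b p => β b + δ b - τ b (d.tgt p))
    (fun b _ => β b + δ b) (fun b p => τ b (d.tgt p))
    (fun b p => a b p + x b (d.src p)) 1 (fun b p => s10 _ (s9 _ (m8 b p))) (fun b p => rτ b _)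
    (fun b p => by abel)
  obtain ⟨T12, n12, s12, m12⟩ := n11.ln (fun b (_ : Sd) => β b + δ b) a
    (fun b p => by
      have e : a b p = (a b p + x b (d.src p)) - x b (d.src p) := by abel
      rw [e]
      exact Submodule.sub_mem _ (AvG.of_mem (m11 b p))
        (AvG.of_mem (s11 _ (s10 _ (s9 _ (s8 _ (s7 _ (s6 _ (s5 _ (s4 _ (s3 _ (m2 b _))))))))))))
  obtain ⟨T13, n13, s13, m13⟩ := n12.mv (fun b _ => β b + δ b) (fun _ _ => φ)
    (fun b _ => φ - (β b + δ b)) a rf m12 (fun b _ => rφ b) (fun b _ => by abel)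
  refine ⟨T13, n13.mono (le_of_eq (by ring)) subset_rfl, fun q hq => ?_, fun b t => ?_,
    fun b t => ?_, m13⟩
  · exact s13 _ (s12 _ (s11 _ (s10 _ (s9 _ (s8 _ (s7 _ (s6 _ (s5 _ (s4 _ (s3 _ (s2 _
      (s1 _ hq))))))))))))
  · exact s13 _ (s12 _ (s11 _ (s10 _ (s9 _ (s8 _ (s7 _ (s6 _ (s5 _ (s4 _ (s3 _ (m2 b t)))))))))))
  · exact s13 _ (s12 _ (s11 _ (m10 b t)))

/-- backward gadget: the target starts on its line, the source ends on the complement of its line -/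
theorem gadgetG_bwd (d : DesignG 𝕜 𝒯 Sd Ce) {Bx : Type} [Fintype Bx] {S T : Set (Lb × M)} {r : ℕ}
    (h : Reach 𝕜 Gen S r T) (β δ : Bx → Lb) (φ : Lb) (τ : Bx → 𝒯 → Lb) (x y : Bx → 𝒯 → M)
    (a : Bx → Sd → M) (k rb rf : ℕ)
    (hX : ∀ b t, (β b, x b t) ∈ T) (hY : ∀ b t, (β b + τ b t, y b t) ∈ T)
    (hA : ∀ b p, ((0 : Lb), a b p) ∈ T)
    (rβ : ∀ b, RkG Gen (β b) rb) (rτ : ∀ b t, RkG Gen (τ b t) 1)
    (rδ : ∀ b, RkG Gen (δ b) (k + 2)) (rδτ : ∀ b t, RkG Gen (δ b - τ b t) (k + 1))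
    (rδττ : ∀ b p, RkG Gen (δ b - τ b (d.tgt p) - τ b (d.src p)) k)
    (rφ : ∀ b, RkG Gen (φ - (β b + δ b)) rf) :
    ∃ T', Reach 𝕜 Gen S (r + Fintype.card Bx * (2 * Fintype.card 𝒯 * (k + 1) +
        Fintype.card Ce * (k + 2) + Fintype.card Sd * (rb + (k + 2) + rf))) T' ∧
      (∀ q ∈ T, q ∈ T') ∧
      (∀ b t, (β b + δ b - τ b t, x b t) ∈ T') ∧ (∀ b t, (β b + δ b, y b t + x b t) ∈ T') ∧
      ∀ b p, (φ, a b p) ∈ T' := by
  obtain ⟨T1, n1, s1, m1⟩ := h.mv (fun _ _ => 0) (fun b _ => β b) (fun b _ => β b) a rb hA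
    (fun b _ => rβ b) (fun _ _ => zero_add _)
  obtain ⟨T2, n2, s2, m2⟩ := n1.ln (fun b (_ : Sd) => β b) (fun b p => a b p + x b (d.src p))
    (fun b p => Submodule.add_mem _ (AvG.of_mem (m1 b p)) (AvG.of_mem (s1 _ (hX b _))))
  obtain ⟨T3, n3, s3, m3⟩ := n2.ln (fun b (_ : Ce) => β b) (fun b => d.Gm (x b))
    (fun b i => d.Gm_mem _ _ _ fun t => AvG.of_mem (s2 _ (s1 _ (hX b t))))
  obtain ⟨T4, n4, s4, m4⟩ := n3.mv (fun b _ => β b) (fun b p => β b + τ b (d.tgt p))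
    (fun b p => τ b (d.tgt p)) (fun b p => a b p + x b (d.src p)) 1 (fun b p => s3 _ (m2 b p))
    (fun b p => rτ b _) (fun _ _ => rfl)
  obtain ⟨T5, n5, s5, m5⟩ := n4.ln (fun b t => β b + τ b t)
    (fun b t => y b t + d.Jm t (fun p => a b p + x b (d.src p)))
    (fun b t => Submodule.add_mem _ (AvG.of_mem (s4 _ (s3 _ (s2 _ (s1 _ (hY b t))))))
      (d.Jm_mem _ _ _ fun p hp => AvG.of_mem (hp ▸ m4 b p)))
  obtain ⟨T6, n6, s6, m6⟩ := n5.mv (fun b t => β b + τ b t) (fun b _ => β b + δ b)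
    (fun b t => δ b - τ b t) (fun b t => y b t + d.Jm t (fun p => a b p + x b (d.src p))) (k + 1)
    m5 rδτ (fun b t => by abel)
  obtain ⟨T7, n7, s7, m7⟩ := n6.mv (fun b _ => β b) (fun b _ => β b + δ b) (fun b _ => δ b)
    (fun b => d.Gm (x b)) (k + 2) (fun b i => s6 _ (s5 _ (s4 _ (m3 b i)))) (fun b _ => rδ b)
    (fun _ _ => rfl)
  obtain ⟨T8, n8, s8, m8⟩ := n7.mv (fun b _ => β b) (fun b t => β b + δ b - τ b t)
    (fun b t => δ b - τ b t) x (k + 1)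
    (fun b t => s7 _ (s6 _ (s5 _ (s4 _ (s3 _ (s2 _ (s1 _ (hX b t)))))))) rδτ (fun _ _ => by abel)
  obtain ⟨T9, n9, s9, m9⟩ := n8.mv (fun b p => β b + τ b (d.tgt p))
    (fun b p => β b + δ b - τ b (d.src p)) (fun b p => δ b - τ b (d.tgt p) - τ b (d.src p))
    (fun b p => a b p + x b (d.src p)) k (fun b p => s8 _ (s7 _ (s6 _ (s5 _ (m4 b p))))) rδττ
    (fun b p => by abel)
  obtain ⟨T10, n10, s10, m10⟩ := n9.ln (fun b p => β b + δ b - τ b (d.src p)) a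
    (fun b p => by
      have e : a b p = (a b p + x b (d.src p)) - x b (d.src p) := by abel
      rw [e]
      exact Submodule.sub_mem _ (AvG.of_mem (m9 b p)) (AvG.of_mem (s9 _ (m8 b _))))
  obtain ⟨T11, n11, s11, m11⟩ := n10.mv (fun b p => β b + δ b - τ b (d.src p))
    (fun b _ => β b + δ b) (fun b p => τ b (d.src p)) a 1 m10 (fun b p => rτ b _)
    (fun b p => by abel)
  obtain ⟨T12, n12, s12, m12⟩ := n11.ln (fun b (_ : 𝒯) => β b + δ b) (fun b t => y b t + x b t)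
    (fun b t => by
      have e : y b t + x b t = (y b t + d.Jm t (fun p => a b p + x b (d.src p))) +
          d.Rm t (d.Gm (x b)) - d.Jm t (a b) := by
        rw [d.Jm_add, ← d.ident t (x b)]; abel
      rw [e]
      exact Submodule.sub_mem _ (Submodule.add_mem _
        (AvG.of_mem (s11 _ (s10 _ (s9 _ (s8 _ (s7 _ (m6 b t)))))))
        (d.Rm_mem _ _ _ fun i => AvG.of_mem (s11 _ (s10 _ (s9 _ (s8 _ (m7 b i)))))))
        (d.Jm_mem _ _ _ fun p _ => AvG.of_mem (m11 b p)))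
  obtain ⟨T13, n13, s13, m13⟩ := n12.mv (fun b _ => β b + δ b) (fun _ _ => φ)
    (fun b _ => φ - (β b + δ b)) a rf (fun b p => s12 _ (m11 b p)) (fun b _ => rφ b)
    (fun b _ => by abel)
  refine ⟨T13, n13.mono (le_of_eq (by ring)) subset_rfl, fun q hq => ?_, fun b t => ?_,
    fun b t => ?_, m13⟩
  · exact s13 _ (s12 _ (s11 _ (s10 _ (s9 _ (s8 _ (s7 _ (s6 _ (s5 _ (s4 _ (s3 _ (s2 _
      (s1 _ hq))))))))))))
  · exact s13 _ (s12 _ (s11 _ (s10 _ (s9 _ (m8 b t)))))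
  · exact s13 _ (m12 b t)

end gadgets

/-! ### The three-stage network -/

/-- proves an identity between triple tensor products entrywise -/
macro "kr3_ring" : tactic => `(tactic| (
  ext ⟨i1, i2, i3⟩ ⟨j1, j2, j3⟩
  simp only [kr3, Matrix.add_apply, Matrix.sub_apply, Matrix.neg_apply, Matrix.zero_apply,
    Matrix.kroneckerMap_apply]
  ring))

theorem networkG {𝕜 𝔽 𝒯 Sd Ce H M : Type} [CommRing 𝕜] [CommRing 𝔽] [Fintype 𝒯] [Fintype Sd]
    [Fintype Ce] [DecidableEq 𝒯] [AddCommGroup M] [Module 𝕜 M] (d : DesignG 𝕜 𝒯 Sd Ce)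
    {G1 : Matrix H H 𝔽 → Prop} {G3 : Matrix (H × H × H) (H × H × H) 𝔽 → Prop}
    (hneg : ∀ Δ, G3 Δ → G3 (-Δ)) (hkr : ∀ A B C, G1 A → G1 B → G1 C → G3 (kr3 A B C))
    (E : Matrix H H 𝔽) (θ : 𝒯 → Matrix H H 𝔽) (k e : ℕ) (r0 : ∀ t, RkG G1 (θ t) 1)
    (rE : RkG G1 E (k + 2)) (r1 : ∀ t, RkG G1 (E - θ t) (k + 1))
    (r2 : ∀ p, RkG G1 (E - θ (d.tgt p) - θ (d.src p)) k)
    (re : ∀ s t u, RkG G3 (kr3 (θ s) (θ t) (θ u) + kr3 (θ s) (θ t) (θ u)) e)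
    {S : Set (Matrix (H × H × H) (H × H × H) 𝔽 × M)} (x y : 𝒯 → 𝒯 → 𝒯 → M)
    (a1 a2 a3 : 𝒯 × 𝒯 → Sd → M)
    (hX : ∀ s t u, (kr3 (θ s) (θ t) (θ u), x s t u) ∈ S) (hY : ∀ s t u, (0, y s t u) ∈ S)
    (hA1 : ∀ b p, (0, a1 b p) ∈ S) (hA2 : ∀ b p, (0, a2 b p) ∈ S)
    (hA3 : ∀ b p, (0, a3 b p) ∈ S) :
    ∃ T, Reach 𝕜 G3 S (2 * Fintype.card 𝒯 ^ 3 * ((k + 1) * ((k + 2) ^ 2 + (k + 2) + 1)) +
        3 * Fintype.card 𝒯 ^ 2 * (Fintype.card Ce * (k + 2) + Fintype.card Sd * (k + 2) ^ 3) +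
        e * Fintype.card 𝒯 ^ 3) T ∧
      (∀ q ∈ S, q ∈ T) ∧ (∀ s t u, (kr3 (θ s) (θ t) (θ u) + kr3 E E E, x s t u) ∈ T) ∧
      (∀ s t u, (kr3 E E E, y s t u) ∈ T) ∧ (∀ b p, (kr3 E E E, a1 b p) ∈ T) ∧
      (∀ b p, (kr3 E E E, a2 b p) ∈ T) ∧ (∀ b p, (kr3 E E E, a3 b p) ∈ T) := by
  have K : ∀ {A B C : Matrix H H 𝔽} {a b c : ℕ}, RkG G1 A a → RkG G1 B b → RkG G1 C c →
      RkG G3 (kr3 A B C) (a * (b * c)) := fun ha hb hc => RkG.kr3 hkr ha hb hc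
  -- stage 1
  obtain ⟨T1, n1, s1, x1, y1, m1⟩ := gadgetG_fwd d (Reach.base (S := S) (Gen := G3))
    (Bx := 𝒯 × 𝒯) (fun _ => 0)
    (fun b => kr3 E (θ b.1) (θ b.2)) (kr3 E E E) (fun b t => kr3 (θ t) (θ b.1) (θ b.2))
    (fun b t => x t b.1 b.2) (fun b t => y t b.1 b.2) a1 k 0
    ((k + 2) * ((k + 1) * (k + 2)) + (k + 2) * (1 * (k + 1)))
    (fun b t => by rw [zero_add]; exact hX _ _ _) (fun b t => hY _ _ _) hA1 (fun _ => RkG.zero)
    (fun b t => K (r0 _) (r0 _) (r0 _))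
    (fun b => ((K rE (r0 b.1) (r0 b.2)).mono (by simp)).neg hneg)
    (fun b t => (K (r1 t) (r0 b.1) (r0 b.2)).of_eq (by kr3_ring) (by simp))
    (fun b p => (K (r2 p) (r0 b.1) (r0 b.2)).of_eq (by kr3_ring) (by simp))
    (fun b => ((K rE (r1 b.1) rE).add (K rE (r0 b.1) (r1 b.2))).of_eq (by kr3_ring) le_rfl)
  -- transition to stage 2; now `b = (t1, t3)` and `t = t2`
  obtain ⟨T2, n2, s2, x2⟩ := n1.mv (κ := 𝒯 × 𝒯) (κ' := 𝒯) (fun b t => 0 + kr3 E (θ t) (θ b.2))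
    (fun b t => kr3 (E - θ b.1) E (θ b.2) + kr3 (θ b.1) (θ t) (θ b.2))
    (fun b t => kr3 (E - θ b.1) (E - θ t) (θ b.2)) (fun b t => x b.1 t b.2)
    ((k + 1) * ((k + 1) * 1))
    (fun b t => x1 (t, b.2) b.1) (fun b t => K (r1 _) (r1 _) (r0 _)) (fun b t => by kr3_ring)
  obtain ⟨T3, n3, s3, y3⟩ := n2.mv (κ := 𝒯 × 𝒯) (κ' := 𝒯)
    (fun b t => 0 + kr3 E (θ t) (θ b.2) - kr3 (θ b.1) (θ t) (θ b.2))
    (fun b t => kr3 (E - θ b.1) E (θ b.2))
    (fun b t => kr3 (E - θ b.1) (E - θ t) (θ b.2)) (fun b t => y b.1 t b.2 + x b.1 t b.2)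
    ((k + 1) * ((k + 1) * 1))
    (fun b t => s2 _ (y1 (t, b.2) b.1)) (fun b t => K (r1 _) (r1 _) (r0 _))
    (fun b t => by kr3_ring)
  obtain ⟨T4, n4, s4, y4⟩ := n3.ln (κ := 𝒯 × 𝒯) (κ' := 𝒯) (fun b t => kr3 (E - θ b.1) E (θ b.2))
    (fun b t => -(y b.1 t b.2 + x b.1 t b.2))
    (fun b t => Submodule.neg_mem _ (AvG.of_mem (y3 b t)))
  -- stage 2
  obtain ⟨T5, n5, s5, y5, x5, m5⟩ := gadgetG_bwd d n4 (Bx := 𝒯 × 𝒯)
    (fun b => kr3 (E - θ b.1) E (θ b.2))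
    (fun b => kr3 (θ b.1) E (θ b.2)) (kr3 E E E) (fun b t => kr3 (θ b.1) (θ t) (θ b.2))
    (fun b t => -(y b.1 t b.2 + x b.1 t b.2)) (fun b t => x b.1 t b.2) a2 k
    ((k + 1) * ((k + 2) * 1)) ((k + 2) * ((k + 2) * (k + 1)))
    y4 (fun b t => s4 _ (s3 _ (x2 b t))) (fun b p => s4 _ (s3 _ (s2 _ (s1 _ (hA2 b p)))))
    (fun b => K (r1 _) rE (r0 _))
    (fun b t => K (r0 _) (r0 _) (r0 _))
    (fun b => (K (r0 b.1) rE (r0 b.2)).mono (by simp))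
    (fun b t => (K (r0 b.1) (r1 t) (r0 b.2)).of_eq (by kr3_ring) (by simp))
    (fun b p => (K (r0 b.1) (r2 p) (r0 b.2)).of_eq (by kr3_ring) (by simp))
    (fun b => (K rE rE (r1 b.2)).of_eq (by kr3_ring) le_rfl)
  -- transition to stage 3; now `b = (t1, t2)` and `t = t3`
  obtain ⟨T6, n6, s6, x6⟩ := n5.mv (κ := 𝒯 × 𝒯) (κ' := 𝒯)
    (fun b t => kr3 (E - θ b.1) E (θ t) + kr3 (θ b.1) E (θ t))
    (fun b t => kr3 E E E - kr3 (θ b.1) (θ b.2) E + kr3 (θ b.1) (θ b.2) (θ t))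
    (fun b t => kr3 (E - θ b.1) E (E - θ t) + kr3 (θ b.1) (E - θ b.2) (E - θ t))
    (fun b t => x b.1 b.2 t + -(y b.1 b.2 t + x b.1 b.2 t))
    ((k + 1) * ((k + 2) * (k + 1)) + 1 * ((k + 1) * (k + 1)))
    (fun b t => x5 (b.1, t) b.2)
    (fun b t => (K (r1 _) rE (r1 _)).add (K (r0 _) (r1 _) (r1 _))) (fun b t => by kr3_ring)
  obtain ⟨T7, n7, s7, y7⟩ := n6.mv (κ := 𝒯 × 𝒯) (κ' := 𝒯)
    (fun b t => kr3 (E - θ b.1) E (θ t) + kr3 (θ b.1) E (θ t) - kr3 (θ b.1) (θ b.2) (θ t))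
    (fun b t => kr3 E E E - kr3 (θ b.1) (θ b.2) E)
    (fun b t => kr3 (E - θ b.1) E (E - θ t) + kr3 (θ b.1) (E - θ b.2) (E - θ t))
    (fun b t => -(y b.1 b.2 t + x b.1 b.2 t))
    ((k + 1) * ((k + 2) * (k + 1)) + 1 * ((k + 1) * (k + 1)))
    (fun b t => s6 _ (y5 (b.1, t) b.2))
    (fun b t => (K (r1 _) rE (r1 _)).add (K (r0 _) (r1 _) (r1 _))) (fun b t => by kr3_ring)
  obtain ⟨T8, n8, s8, x8⟩ := n7.ln (κ := 𝒯 × 𝒯) (κ' := 𝒯)
    (fun b t => kr3 E E E - kr3 (θ b.1) (θ b.2) E + kr3 (θ b.1) (θ b.2) (θ t))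
    (fun b t => y b.1 b.2 t)
    (fun b t => by
      have e : y b.1 b.2 t = -(x b.1 b.2 t + -(y b.1 b.2 t + x b.1 b.2 t)) := by abel
      rw [e]
      exact Submodule.neg_mem _ (AvG.of_mem (s7 _ (x6 b t))))
  -- stage 3
  obtain ⟨T9, n9, s9, x9, y9, m9⟩ := gadgetG_fwd d n8 (Bx := 𝒯 × 𝒯)
    (fun b => kr3 E E E - kr3 (θ b.1) (θ b.2) E)
    (fun b => kr3 (θ b.1) (θ b.2) E) (kr3 E E E) (fun b t => kr3 (θ b.1) (θ b.2) (θ t))
    (fun b t => y b.1 b.2 t) (fun b t => -(y b.1 b.2 t + x b.1 b.2 t)) a3 k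
    ((k + 1) * ((k + 2) * (k + 2)) + 1 * ((k + 1) * (k + 2))) 0
    x8 (fun b t => s8 _ (y7 b t))
    (fun b p => s8 _ (s7 _ (s6 _ (s5 _ (s4 _ (s3 _ (s2 _ (s1 _ (hA3 b p)))))))))
    (fun b => ((K (r1 b.1) rE rE).add (K (r0 b.1) (r1 b.2) rE)).of_eq (by kr3_ring) le_rfl)
    (fun b t => K (r0 _) (r0 _) (r0 _))
    (fun b => ((K (r0 b.1) (r0 b.2) rE).mono (by simp)).neg hneg)
    (fun b t => (K (r0 b.1) (r0 b.2) (r1 t)).of_eq (by kr3_ring) (by simp))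
    (fun b p => (K (r0 b.1) (r0 b.2) (r2 p)).of_eq (by kr3_ring) (by simp))
    (fun b => RkG.zero.of_eq (by abel) le_rfl)
  obtain ⟨T10, n10, s10, y10⟩ := n9.ln (κ := 𝒯 × 𝒯) (κ' := 𝒯)
    (fun b t => kr3 E E E - kr3 (θ b.1) (θ b.2) E + kr3 (θ b.1) (θ b.2) E -
      kr3 (θ b.1) (θ b.2) (θ t))
    (fun b t => x b.1 b.2 t)
    (fun b t => by
      have e : x b.1 b.2 t = -(-(y b.1 b.2 t + x b.1 b.2 t) + y b.1 b.2 t) := by abel
      rw [e]
      exact Submodule.neg_mem _ (AvG.of_mem (y9 b t)))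
  obtain ⟨T11, n11, s11, y11⟩ := n10.mv (κ := 𝒯 × 𝒯) (κ' := 𝒯)
    (fun b t => kr3 E E E - kr3 (θ b.1) (θ b.2) E + kr3 (θ b.1) (θ b.2) E -
      kr3 (θ b.1) (θ b.2) (θ t))
    (fun b t => kr3 (θ b.1) (θ b.2) (θ t) + kr3 E E E)
    (fun b t => kr3 (θ b.1) (θ b.2) (θ t) + kr3 (θ b.1) (θ b.2) (θ t))
    (fun b t => x b.1 b.2 t) e y10 (fun b t => re _ _ _) (fun b t => by abel)
  refine ⟨T11, n11.mono (le_of_eq ?_) subset_rfl, fun q hq => ?_, fun s t u => y11 (s, t) u,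
    fun s t u => ?_, fun b p => ?_, fun b p => ?_, fun b p => s11 _ (s10 _ (m9 b p))⟩
  · rw [Fintype.card_prod]; ring
  · exact s11 _ (s10 _ (s9 _ (s8 _ (s7 _ (s6 _ (s5 _ (s4 _ (s3 _ (s2 _ (s1 _ hq))))))))))
  · have := s11 _ (s10 _ (x9 (s, t) u))
    rwa [sub_add_cancel] at this
  · exact s11 _ (s10 _ (s9 _ (s8 _ (s7 _ (s6 _ (s5 _ (s4 _ (s3 _ (s2 _ (m1 b p))))))))))
  · exact s11 _ (s10 _ (s9 _ (s8 _ (s7 _ (s6 _ (m5 b p))))))

/-- The network.  Recipe: copy `R324/Net.lean` (`mv`, `ln`), `R324/Gadget.lean`,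
`R324/Network.lean` and `R324.net_batch`, replacing the characteristic two identities by
subtractions.  With `θ' t = 1 - θ t`, `E = 1`:
forward gadget: `x : β + τ → β + δ`, `y : β → β + δ - τ`, sides
`0 → β → β + τ src → β + δ - τ tgt → β + δ → φ`, centre `β + δ → β` (move `-δ`);
backward gadget: `x : β → β + δ - τ`, `y : β + τ → β + δ`, sides
`0 → β → β + τ tgt → β + δ - τ src → β + δ → φ`, centre `β → β + δ`.
Stage 1: `β = 0`, `δ = E θ θ`; stage 2 (backward): `β = θ' E θ`, `δ = θ E θ` (both transitions move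
by `θ' θ' θ`); stage 3: `β = E E E - θ θ E`, `δ = θ θ E` (transitions `θ' E θ' + θ θ' θ'`).  The
value `x` ends at `E E E - θ θ θ` and needs the extra move `θ θ θ + θ θ θ` (cost `e`); the idle
wires move from `0` to `E E E`. -/
theorem netOK_of_design {𝕜 𝔽 𝒯 Sd Ce H : Type} [CommRing 𝕜] [CommRing 𝔽] [Fintype 𝒯] [Fintype Sd]
    [Fintype Ce] [DecidableEq 𝒯] [Fintype H] [DecidableEq H] (d : DesignG 𝕜 𝒯 Sd Ce)
    (G1 : Matrix H H 𝔽 → Prop) (G3 : Matrix (H × H × H) (H × H × H) 𝔽 → Prop)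
    (hneg : ∀ Δ, G3 Δ → G3 (-Δ)) (hkr : ∀ A B C, G1 A → G1 B → G1 C → G3 (kr3 A B C))
    (θ : 𝒯 → Matrix H H 𝔽) (k e : ℕ) (r0 : ∀ t, RkG G1 (θ t) 1) (rE : RkG G1 1 (k + 2))
    (r1 : ∀ t, RkG G1 (1 - θ t) (k + 1)) (r2 : ∀ p, RkG G1 (1 - θ (d.tgt p) - θ (d.src p)) k)
    (re : ∀ s t u, RkG G3 (kr3 (θ s) (θ t) (θ u) + kr3 (θ s) (θ t) (θ u)) e) (W : ℕ)
    (hW : 2 * Fintype.card 𝒯 ^ 3 + 3 * Fintype.card 𝒯 ^ 2 * Fintype.card Sd ≤ W) :
    ∃ (start : Fin W → Matrix (H × H × H) (H × H × H) 𝔽) (r : ℕ),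
      (∀ w, start w = 0 ∨ ∃ s t u, start w = kr3 (θ s) (θ t) (θ u)) ∧
      r + 2 * Fintype.card 𝒯 ^ 3 ≤ W * (k + 2) ^ 3 +
        3 * Fintype.card 𝒯 ^ 2 * (Fintype.card Ce * (k + 2)) + e * Fintype.card 𝒯 ^ 3 ∧
      NetOK 𝕜 G3 1 W r start := by
  obtain ⟨nI, hI⟩ := Nat.exists_eq_add_of_le hW
  obtain ⟨ε⟩ : Nonempty (((𝒯 × 𝒯 × 𝒯) ⊕ (𝒯 × 𝒯 × 𝒯) ⊕ (Fin 3 × (𝒯 × 𝒯) × Sd) ⊕ Fin nI) ≃ Fin W) :=
    Fintype.card_eq.mp (by
      simp only [Fintype.card_sum, Fintype.card_prod, Fintype.card_fin, hI]; ring)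
  let start : ((𝒯 × 𝒯 × 𝒯) ⊕ (𝒯 × 𝒯 × 𝒯) ⊕ (Fin 3 × (𝒯 × 𝒯) × Sd) ⊕ Fin nI) →
      Matrix (H × H × H) (H × H × H) 𝔽 :=
    Sum.elim (fun a => kr3 (θ a.1) (θ a.2.1) (θ a.2.2)) fun _ => 0
  let z : ((𝒯 × 𝒯 × 𝒯) ⊕ (𝒯 × 𝒯 × 𝒯) ⊕ (Fin 3 × (𝒯 × 𝒯) × Sd) ⊕ Fin nI) → Fin W → 𝕜 :=
    fun w => Pi.single (ε w) 1
  have hS : ∀ w, (start w, z w) ∈
      Set.range fun i : Fin W => (start (ε.symm i), (Pi.single i 1 : Fin W → 𝕜)) :=
    fun w => ⟨ε w, by simp [z]⟩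
  obtain ⟨T, n, s, hx, hy, h1, h2, h3⟩ := networkG d hneg hkr 1 θ k e r0 rE r1 r2 re
    (S := Set.range fun i : Fin W => (start (ε.symm i), (Pi.single i 1 : Fin W → 𝕜)))
    (fun s t u => z (.inl (s, t, u))) (fun s t u => z (.inr (.inl (s, t, u))))
    (fun b p => z (.inr (.inr (.inl (0, b, p))))) (fun b p => z (.inr (.inr (.inl (1, b, p)))))
    (fun b p => z (.inr (.inr (.inl (2, b, p)))))
    (fun s t u => hS (.inl (s, t, u))) (fun s t u => hS (.inr (.inl (s, t, u))))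
    (fun b p => hS (.inr (.inr (.inl (0, b, p))))) (fun b p => hS (.inr (.inr (.inl (1, b, p)))))
    (fun b p => hS (.inr (.inr (.inl (2, b, p)))))
  obtain ⟨T', n', s', m'⟩ := n.mv (κ := Unit) (κ' := Fin nI) (fun _ _ => 0) (fun _ _ => kr3 1 1 1)
    (fun _ _ => kr3 1 1 1) (fun _ i => z (.inr (.inr (.inr i)))) ((k + 2) * ((k + 2) * (k + 2)))
    (fun _ i => s _ (hS (.inr (.inr (.inr i))))) (fun _ _ => RkG.kr3 hkr rE rE rE)
    (fun _ _ => zero_add _)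
  have e1 : kr3 (1 : Matrix H H 𝔽) 1 1 = 1 := by simp [kr3]
  rw [e1] at hx hy h1 h2 h3 m'
  refine ⟨fun i => start (ε.symm i), _, fun i => ?_, le_of_eq ?_, n'.mono le_rfl ?_⟩
  · dsimp only
    rcases ε.symm i with ⟨a, b, c⟩ | a
    · exact Or.inr ⟨a, b, c, rfl⟩
    · exact Or.inl rfl
  · rw [Fintype.card_unit, Fintype.card_fin, hI]; ring
  · rintro _ ⟨i, rfl⟩
    obtain ⟨w, rfl⟩ := ε.surjective i
    simp only [Equiv.symm_apply_apply]
    rcases w with ⟨a, b, c⟩ | ⟨a, b, c⟩ | ⟨j, b, p⟩ | i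
    · exact s' _ (hx a b c)
    · simpa [start, z] using s' _ (hy a b c)
    · fin_cases j
      · simpa [start, z] using s' _ (h1 b p)
      · simpa [start, z] using s' _ (h2 b p)
      · simpa [start, z] using s' _ (h3 b p)
    · simpa [start, z] using m' () i

/-- Transport along an additive map of labels. -/
theorem NetOK.map {𝕜 Lb Lb' : Type} [CommRing 𝕜] [AddCommMonoid Lb] [AddCommMonoid Lb']
    {Gen : Lb → Prop} {Gen' : Lb' → Prop} {one : Lb} {W r : ℕ} {start : Fin W → Lb}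
    (h : NetOK 𝕜 Gen one W r start) (φ : Lb →+ Lb') (hG : ∀ Δ, Gen Δ → Gen' (φ Δ)) :
    NetOK 𝕜 Gen' (φ one) W r fun w => φ (start w) := by
  have key : ∀ {S T : Set (Lb × (Fin W → 𝕜))} {r : ℕ}, Reach 𝕜 Gen S r T →
      Reach 𝕜 Gen' (Prod.map φ id '' S) r (Prod.map φ id '' T) := by
    intro S T r h
    induction h with
    | base => exact Reach.base
    | mono _ hr hT ih => exact ih.mono hr (Set.image_mono hT)
    | move _ hz hΔ ih =>
      rw [Set.image_insert_eq]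
      simpa using ih.move (Set.mem_image_of_mem _ hz) (hG _ hΔ)
    | zero B _ ih =>
      rw [Set.image_insert_eq]
      exact ih.zero (φ B)
    | add _ hz hz' ih =>
      rw [Set.image_insert_eq]
      exact ih.add (Set.mem_image_of_mem _ hz) (Set.mem_image_of_mem _ hz')
    | smul c _ hz ih =>
      rw [Set.image_insert_eq]
      exact ih.smul c (Set.mem_image_of_mem _ hz)
  have := key h
  rw [← Set.range_comp, ← Set.range_comp] at this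
  simpa [NetOK, Function.comp_def] using this

/-- Soundness.  Recipe: induction on `Reach` with the invariant: there is a finite list `l` of
labelled values containing `T`, and an implementation computing from the initial registers a list
of arrays representing the items of `l`, with exact cost `r * ex` (each rule computes one new array
with `L.getD_const`, `Impl.use` and conses it). -/
theorem NetOK.impl {𝕜 Lb α P : Type} [CommRing 𝕜] [Add Lb] [Enc P] {Gen : Lb → Prop} {one : Lb}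
    {W r : ℕ} {start : Fin W → Lb} (h : NetOK 𝕜 Gen one W r start) {𝔅 : Bud α} {p : α → P}
    (Rep : α → Lb → (Fin W → 𝕜) → Arr → Prop) (ex : α → ℝ) (hex : ∀ a, 0 ≤ ex a)
    (hp : sz p ≼ 𝔅.V) (len : α → ℕ) (hlen : len ≼ 𝔅.V)
    (hl : ∀ a B z D, Rep a B z D → D.length ≤ len a)
    (hmove : ∀ B z Δ, Gen Δ → Impl 𝔅 p (fun a D => Rep a B z D)
      (fun a _ D' => Rep a (B + Δ) z D') ex)
    (hzero : ∀ B, ∃ D : α → Arr, L 𝔅 p D ∧ ∀ a, Rep a B 0 (D a))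
    (hadd : ∀ B z z', Impl 𝔅 p (fun a (D : Arr × Arr) => Rep a B z D.1 ∧ Rep a B z' D.2)
      (fun a _ D' => Rep a B (z + z') D') fun _ => 0)
    (hsmul : ∀ B (c : 𝕜) z, Impl 𝔅 p (fun a D => Rep a B z D)
      (fun a _ D' => Rep a B (c • z) D') fun _ => 0) :
    Impl 𝔅 p (fun a (Ds : List Arr) => Ds.length = W ∧
        ∀ w : Fin W, Rep a (start w) (Pi.single w 1) (Ds.getD w []))
      (fun a _ (Ds' : List Arr) => Ds'.length = W ∧
        ∀ w : Fin W, Rep a (start w + one) (Pi.single w 1) (Ds'.getD w [])) fun a => r * ex a := by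
  have hx0 := (Impl.regs (𝔅 := 𝔅) (p := p) W (Pre := fun _ a (D : Arr) => D.length ≤ len a)
    (Post := fun _ _ D D' => D' = D) hp fun w _ => Impl.id (sz_pair (hp.comp _)
      (sz_bits ((hlen.comp _).mono_left fun q => q.2) fun q => sz_one_le hp _))).size_in
  refine Impl.intro (hx0.comp fun q : {q : α × List Arr // q.2.length = W ∧
      ∀ w : Fin W, Rep q.1 (start w) (Pi.single w 1) (q.2.getD w [])} =>
      ⟨q.1, q.2.1, fun w hw => hl _ _ _ _ (q.2.2 ⟨w, hw⟩)⟩) fun γ φ D hD hs => ?_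
  have key : ∀ {r : ℕ} {T : Set (Lb × (Fin W → 𝕜))},
      Reach 𝕜 Gen (Set.range fun w => (start w, (Pi.single w 1 : Fin W → 𝕜))) r T →
      ∃ (X : Type) (_ : Enc X) (E : γ → X),
        Cp (𝔅.comap φ) (fun c => (p (φ c), D c)) E (fun c => r * ex (φ c)) ∧
        L (𝔅.comap φ) E (fun c => p (φ c)) ∧
        ∀ q ∈ T, ∃ D' : γ → Arr, (∀ c, Rep (φ c) q.1 q.2 (D' c)) ∧ L (𝔅.comap φ) E D' := by
    intro r T h
    induction h with
    | base =>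
      refine ⟨_, inferInstance, fun c => (p (φ c), D c), (L.refl _ _).toCp fun _ => by simp,
        L.in1 _ _ _, ?_⟩
      rintro _ ⟨w, rfl⟩
      exact ⟨fun c => (D c).getD w [], fun c => (hD c).2 w,
        (L.in2 _ _ _).getD_const (L.const _) _⟩
    | mono _ hr hT ih =>
      obtain ⟨X, _, E, h1, h2, h3⟩ := ih
      exact ⟨X, _, E, h1.mono fun c => mul_le_mul_of_nonneg_right (by exact_mod_cast hr) (hex _),
        h2, fun q hq => h3 q (hT hq)⟩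
    | @move r T B Δ z _ hz hΔ ih =>
      obtain ⟨X, _, E, h1, h2, h3⟩ := ih
      obtain ⟨D1, k1, k2⟩ := h3 _ hz
      obtain ⟨D2, k3, k4⟩ := (hmove B z Δ hΔ).use φ k1 h2 k2
      refine ⟨_, inferInstance, fun c => (E c, D2 c), (h1.comp ((L.refl _ _).pairCp k4)).mono
        fun c => by push_cast; linarith, (L.in1 _ _ _).comp h2, fun q hq => ?_⟩
      rcases hq with rfl | hq
      · exact ⟨D2, k3, L.in2 _ _ _⟩
      · obtain ⟨D3, k5, k6⟩ := h3 q hq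
        exact ⟨D3, k5, (L.in1 _ _ _).comp k6⟩
    | zero B _ ih =>
      obtain ⟨X, _, E, h1, h2, h3⟩ := ih
      refine ⟨X, _, E, h1, h2, fun q hq => ?_⟩
      rcases hq with rfl | hq
      · obtain ⟨D0, k1, k2⟩ := hzero B
        exact ⟨fun c => D0 (φ c), fun c => k2 _, h2.comp (k1.reindex hp φ)⟩
      · exact h3 q hq
    | @add r T B z z' _ hz hz' ih =>
      obtain ⟨X, _, E, h1, h2, h3⟩ := ih
      refine ⟨X, _, E, h1, h2, fun q hq => ?_⟩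
      rcases hq with rfl | hq
      · obtain ⟨D1, k1, k2⟩ := h3 _ hz
        obtain ⟨D2, k3, k4⟩ := h3 _ hz'
        exact (hadd B z z').useL φ (D := fun c => (D1 c, D2 c)) (fun c => ⟨k1 c, k3 c⟩) h2
          (k2.pair k4)
      · exact h3 q hq
    | @smul r T B z c _ hz ih =>
      obtain ⟨X, _, E, h1, h2, h3⟩ := ih
      refine ⟨X, _, E, h1, h2, fun q hq => ?_⟩
      rcases hq with rfl | hq
      · obtain ⟨D1, k1, k2⟩ := h3 _ hz
        exact (hsmul B c z).useL φ k1 h2 k2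
      · exact h3 q hq
  obtain ⟨X, _, E, h1, h2, h3⟩ := key h
  choose D' k1 k2 using fun w : Fin W => h3 _ ⟨w, rfl⟩
  refine ⟨fun c => List.ofFn fun w => D' w c, fun c => ⟨by simp, fun w => ?_⟩, h1.l (L.ofFn k2)⟩
  simpa [List.getD_eq_getElem?_getD, List.getElem?_ofFn] using k1 w c

/-- The numerical saving: `m ^ tauE ≥ m (1 - 14 / 2 ^ 50)`. -/
theorem rate_lt {W m r : ℕ} (hW : W = 2 ^ 71) (hm : m = 10 ^ 6) (hr : r + 10 ^ 15 ≤ W * m) :
    (r : ℝ) < W * (m : ℝ) ^ tauE := by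
  have hm' : (m : ℝ) = 10 ^ 6 := by rw [hm]; norm_num
  have hW' : (W : ℝ) = 2 ^ 71 := by rw [hW]; norm_num
  have hr' : (r : ℝ) + 10 ^ 15 ≤ W * m := by exact_mod_cast hr
  have hm0 : (0 : ℝ) < m := by rw [hm']; norm_num
  have hlog : Real.log m ≤ 14 := by
    rw [Real.log_le_iff_le_exp hm0, hm']
    have h1 : (2.7 : ℝ) ≤ Real.exp 1 := (Real.exp_one_gt_d9.le.trans' (by norm_num))
    have h2 : Real.exp 14 = Real.exp 1 ^ 14 := by rw [← Real.exp_nat_mul]; norm_num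
    rw [h2]
    exact le_trans (by norm_num) (pow_le_pow_left₀ (by norm_num) h1 14)
  have h1 : (m : ℝ) ^ tauE = m * Real.exp (-(Real.log m / 2 ^ 50)) := by
    rw [Real.rpow_def_of_pos hm0, tauE, mul_sub, mul_one, sub_eq_add_neg, Real.exp_add,
      Real.exp_log hm0, mul_one_div]
  have h2 : 1 - 14 / 2 ^ 50 ≤ Real.exp (-(Real.log m / 2 ^ 50)) := by
    have := Real.add_one_le_exp (-(Real.log m / 2 ^ 50))
    have h3 : Real.log m / 2 ^ 50 ≤ 14 / 2 ^ 50 := by gcongr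
    linarith
  rw [h1]
  have h3 : (W : ℝ) * (m * (1 - 14 / 2 ^ 50)) ≤ W * (m * Real.exp (-(Real.log m / 2 ^ 50))) := by
    gcongr
  refine lt_of_lt_of_le ?_ h3
  rw [hW', hm'] at hr' ⊢
  have h4 : (2 : ℝ) ^ 71 * (10 ^ 6 * (1 - 14 / 2 ^ 50)) = 2 ^ 71 * 10 ^ 6 - 14 * 2 ^ 21 * 10 ^ 6 := by
    norm_num
  rw [h4]
  linarith

/-- The recurrence `c * u ^ τ + (r / W) * A * (u / m) ^ τ ≤ A * u ^ τ` has a solution. -/
theorem rate_solve {W m r : ℕ} (hm : 2 ≤ m) (hr : (r : ℝ) < W * (m : ℝ) ^ tauE) (c : ℝ) (hc : 0 ≤ c) :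
    ∃ A : ℝ, c ≤ A ∧ ∀ u : ℕ, c * (W * (u : ℝ) ^ tauE) + r * (A * ((u / m : ℕ) : ℝ) ^ tauE) ≤
      A * (W * (u : ℝ) ^ tauE) := by
  have hm0 : (0 : ℝ) < m := by exact_mod_cast (by omega : 0 < m)
  have hτ : 0 ≤ tauE := by unfold tauE; norm_num
  have hP : 0 < (m : ℝ) ^ tauE := Real.rpow_pos_of_pos hm0 _
  set P := (m : ℝ) ^ tauE with hPdef
  have hr0 : (0 : ℝ) ≤ r := Nat.cast_nonneg r
  have hg : 0 < W * P - r := by linarith
  have hW0 : (0 : ℝ) ≤ W := Nat.cast_nonneg W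
  have hA : c ≤ c * (W * P) / (W * P - r) := by
    rw [le_div_iff₀ hg]; nlinarith
  refine ⟨c * (W * P) / (W * P - r), hA, fun u => ?_⟩
  set A := c * (W * P) / (W * P - r) with hAdef
  have hA0 : 0 ≤ A := hc.trans hA
  have hAe : A * (W * P - r) = c * (W * P) := by rw [hAdef]; field_simp
  have h1 : (((u / m : ℕ) : ℝ)) ^ tauE ≤ (u : ℝ) ^ tauE / P := by
    rw [hPdef, ← Real.div_rpow (Nat.cast_nonneg _) hm0.le]
    exact Real.rpow_le_rpow (Nat.cast_nonneg _) Nat.cast_div_le hτ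
  have hU : 0 ≤ (u : ℝ) ^ tauE := Real.rpow_nonneg (Nat.cast_nonneg _) _
  set U := (u : ℝ) ^ tauE
  have h2 : (r : ℝ) * (A * (((u / m : ℕ) : ℝ)) ^ tauE) ≤ r * (A * (U / P)) := by gcongr
  have h3 : c * (W * U) + r * (A * (U / P)) = A * (W * U) := by
    field_simp
    linear_combination (-U) * hAe
  linarith

end Crest.Agent.R326
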