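/-
R326/NetInst: the two instances of the network.
-/
import Crest.Agent.R326.Net

set_option autoImplicit false
set_option linter.unusedSimpArgs false
set_option linter.unusedSectionVars false
set_option linter.unusedVariables false

namespace Crest.Agent.R326

open Function Crest.Agent.Lib.PolyTime
open Matrix Kronecker

namespace NetInst

theorem rkG_sum {Lb κ : Type} [AddCommMonoid Lb] {Gen : Lb → Prop} (s : Finset κ) (f : κ → Lb)
    (hf : ∀ k ∈ s, Gen (f k)) {r : ℕ} (hs : s.card ≤ r) : RkG Gen (∑ k ∈ s, f k) r := by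
  refine ⟨s.toList.map f, by simpa using hs, fun Δ hΔ => ?_, (Finset.sum_map_toList s f).symm⟩
  obtain ⟨k, hk, rfl⟩ := List.mem_map.1 hΔ
  exact hf k (Finset.mem_toList.1 hk)

theorem rkG_one {Lb : Type} [AddCommMonoid Lb] {Gen : Lb → Prop} {B : Lb} (h : Gen B) :
    RkG Gen B 1 :=
  ⟨[B], le_rfl, fun Δ hΔ => by rw [List.mem_singleton.1 hΔ]; exact h, by simp⟩

/-- Reindexing of matrices as an additive map. -/
def reidx {ι ι' R : Type} [AddCommMonoid R] (e : ι ≃ ι') : Matrix ι ι R →+ Matrix ι' ι' R where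
  toFun A := A.submatrix e.symm e.symm
  map_zero' := rfl
  map_add' _ _ := rfl

theorem reidx_one {ι ι' R : Type} [CommRing R] [DecidableEq ι] [DecidableEq ι'] (e : ι ≃ ι') :
    reidx e (1 : Matrix ι ι R) = 1 :=
  Matrix.submatrix_one_equiv e.symm

/-! ### the swap network -/

theorem small_coprime {z : ℤ} (h : |z| ≤ 10) : z = 0 ∨ z.natAbs.Coprime 11 := by
  by_cases hz : z = 0
  · exact Or.inl hz
  · right
    have h1 : z.natAbs ≤ 10 := by rw [abs_le] at h; omega
    have h2 : 0 < z.natAbs := Int.natAbs_pos.2 hz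
    exact Nat.Coprime.symm ((Nat.Prime.coprime_iff_not_dvd (by norm_num)).2
      fun hd => by have := Nat.le_of_dvd h2 hd; omega)

theorem cop_mul {x y : ℤ} (hx : x = 0 ∨ x.natAbs.Coprime 11) (hy : y = 0 ∨ y.natAbs.Coprime 11) :
    x * y = 0 ∨ (x * y).natAbs.Coprime 11 := by
  rcases hx with rfl | hx
  · simp
  · rcases hy with rfl | hy
    · simp
    · right
      rw [Int.natAbs_mul]
      exact Nat.Coprime.mul_left hx hy

theorem exists_inv6 : ∃ c : FF, 6 * c = 1 := by
  have : ∀ u : ℕ, ∃ c : ZMod (11 ^ u), 6 * c = 1 := fun u => by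
    have h : IsUnit ((6 : ℕ) : ZMod (11 ^ u)) :=
      (ZMod.isUnit_iff_coprime 6 (11 ^ u)).2 (Nat.Coprime.pow_right u (by norm_num))
    obtain ⟨c, hc⟩ := h.exists_right_inv
    exact ⟨c, by exact_mod_cast hc⟩
  choose c hc using this
  exact ⟨c, funext fun u => by simpa using hc u⟩

theorem genS_neg {ι : Type} (Δ : Matrix ι ι FF) (h : GenS Δ) : GenS (-Δ) := by
  obtain ⟨N, a, b, hN, ha, hb, h⟩ := h
  refine ⟨N, fun i => -1 * a i, b, hN, fun i => cop_mul (small_coprime (by norm_num)) (ha i), hb,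
    fun i j => ?_⟩
  rw [Matrix.neg_apply, mul_neg, h]
  push_cast
  ring

theorem genS_two {ι : Type} (Δ : Matrix ι ι FF) (h : GenS Δ) : GenS (Δ + Δ) := by
  obtain ⟨N, a, b, hN, ha, hb, h⟩ := h
  refine ⟨N, fun i => 2 * a i, b, hN, fun i => cop_mul (small_coprime (by norm_num)) (ha i), hb,
    fun i j => ?_⟩
  rw [Matrix.add_apply, mul_add, h]
  push_cast
  ring

theorem genS_kr3 {H : Type} (A B C : Matrix H H FF) (hA : GenS A) (hB : GenS B) (hC : GenS C) :
    GenS (kr3 A B C) := by
  obtain ⟨N1, a1, b1, hN1, ha1, hb1, h1⟩ := hA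
  obtain ⟨N2, a2, b2, hN2, ha2, hb2, h2⟩ := hB
  obtain ⟨N3, a3, b3, hN3, ha3, hb3, h3⟩ := hC
  refine ⟨N1 * (N2 * N3), fun i => a1 i.1 * (a2 i.2.1 * a3 i.2.2),
    fun i => b1 i.1 * (b2 i.2.1 * b3 i.2.2), Nat.Coprime.mul_left hN1 (Nat.Coprime.mul_left hN2 hN3),
    fun i => cop_mul (ha1 _) (cop_mul (ha2 _) (ha3 _)),
    fun i => cop_mul (hb1 _) (cop_mul (hb2 _) (hb3 _)), fun i j => ?_⟩
  have e : ((N1 * (N2 * N3) : ℕ) : FF) * kr3 A B C i j =
      ((N1 : FF) * A i.1 j.1) * (((N2 : FF) * B i.2.1 j.2.1) * ((N3 : FF) * C i.2.2 j.2.2)) := by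
    simp only [kr3, Matrix.kroneckerMap_apply]
    push_cast
    ring
  rw [e, h1, h2, h3]
  push_cast
  ring

theorem genS_reidx {ι ι' : Type} (e : ι ≃ ι') (Δ : Matrix ι ι FF) (h : GenS Δ) :
    GenS (reidx e Δ) := by
  obtain ⟨N, a, b, hN, ha, hb, h⟩ := h
  exact ⟨N, fun i => a (e.symm i), fun i => b (e.symm i), hN, fun i => ha _, fun i => hb _,
    fun i j => h _ _⟩

/-- The integer matrix `M` divided by six. -/
def sixth {H : Type} (c : FF) (M : H → H → ℤ) : Matrix H H FF :=
  Matrix.of fun a b => c * ((M a b : ℤ) : FF)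

theorem genS_sixth {H : Type} {c : FF} (hc : 6 * c = 1) (a b : H → ℤ) (ha : ∀ i, |a i| ≤ 10)
    (hb : ∀ i, |b i| ≤ 10) : GenS (sixth c fun i j => a i * b j) := by
  refine ⟨6, a, b, by norm_num, fun i => small_coprime (ha i), fun i => small_coprime (hb i),
    fun i j => ?_⟩
  simp only [sixth, Matrix.of_apply, Nat.cast_ofNat]
  rw [← mul_assoc, hc, one_mul]

theorem rk_sixth {H : Type} {c : FF} (hc : 6 * c = 1) (M : H → H → ℤ) (s : Finset H)
    (w : H → H → ℤ) (hM : ∀ a i, |M a i| ≤ 10) (hw : ∀ i b, |w i b| ≤ 10)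
    (h : ∀ a b, M a b = ∑ i ∈ s, M a i * w i b) {r : ℕ} (hr : s.card ≤ r) :
    RkG GenS (sixth c M) r := by
  have : sixth c M = ∑ i ∈ s, sixth c fun a b => M a i * w i b := by
    ext a b : 2
    simp only [sixth, Matrix.of_apply, Matrix.sum_apply]
    rw [h a b, Int.cast_sum, Finset.mul_sum]
  rw [this]
  exact rkG_sum s _ (fun i _ => genS_sixth hc _ _ (fun a => hM a i) (hw i)) hr

section tri
variable {H : Type} [Fintype H] [DecidableEq H]

/-- integer indicator vector -/
def iv (S : R324.Tri H) : H → ℤ := fun i => if i ∈ S.1 then 1 else 0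

/-- `6 θ` -/
def th (S : R324.Tri H) : H → H → ℤ := fun a b => iv S a * (3 * iv S b - 1)

/-- `6 E` -/
def six : H → H → ℤ := fun a b => if a = b then 6 else 0

theorem iv_cases (S : R324.Tri H) (i : H) : iv S i = 0 ∨ iv S i = 1 := by
  unfold iv; split_ifs <;> simp

theorem sum_iv_mul (S T : R324.Tri H) : ∑ i, iv S i * iv T i = ((S.1 ∩ T.1).card : ℤ) := by
  simp only [iv, ite_mul, one_mul, zero_mul, ← ite_and, Finset.sum_boole]
  congr 2
  ext i; simp

theorem sum_iv (S : R324.Tri H) : ∑ i, iv S i = 3 := by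
  simp only [iv, Finset.sum_boole]
  rw [Finset.filter_mem_eq_inter, Finset.univ_inter, S.2]; rfl

theorem th_mul (S T : R324.Tri H) (a : H) :
    ∑ i, th S a i * iv T i = iv S a * (3 * ((S.1 ∩ T.1).card : ℤ) - 3) := by
  rw [← sum_iv_mul, ← sum_iv T, Finset.mul_sum, ← Finset.sum_sub_distrib, Finset.mul_sum]
  refine Finset.sum_congr rfl fun i _ => ?_
  rw [sum_iv T, th]; ring

theorem six_mul (t : H → ℤ) (a : H) : ∑ i, six a i * t i = 6 * t a := by
  simp [six]

theorem sixth_six {c : FF} (hc : 6 * c = 1) : sixth c (six (H := H)) = 1 := by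
  refine Matrix.ext fun a b => ?_
  simp only [sixth, six, Matrix.of_apply, Matrix.one_apply]
  split_ifs
  · rw [mul_comm]; exact_mod_cast hc
  · simp

theorem sixth_sub (c : FF) (M M' : H → H → ℤ) :
    sixth c (fun a b => M a b - M' a b) = sixth c M - sixth c M' := by
  refine Matrix.ext fun a b => ?_
  simp only [sixth, Matrix.of_apply, Matrix.sub_apply]
  push_cast
  ring

theorem th_bound (S : R324.Tri H) (a b : H) : -1 ≤ th S a b ∧ th S a b ≤ 2 := by
  unfold th
  rcases iv_cases S a with h | h <;> rcases iv_cases S b with h' | h' <;> rw [h, h'] <;> norm_num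

theorem six_bound (a b : H) : 0 ≤ six a b ∧ six a b ≤ 6 := by
  unfold six; split_ifs <;> norm_num

theorem rk_E {c : FF} (hc : 6 * c = 1) : RkG GenS (1 : Matrix H H FF) (Fintype.card H) := by
  rw [← sixth_six hc]
  refine rk_sixth hc _ Finset.univ (fun i b => if i = b then 1 else 0)
    (fun a i => by have := six_bound a i; rw [abs_le]; omega)
    (fun i b => by split_ifs <;> norm_num) (fun a b => by simp) (by simp)

theorem rk_1 {c : FF} (hc : 6 * c = 1) (S : R324.Tri H) :
    RkG GenS (1 - sixth c (th S)) (Fintype.card H - 1) := by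
  obtain ⟨j, hj⟩ : S.1.Nonempty := Finset.card_pos.1 (by rw [S.2]; norm_num)
  have hj1 : iv S j = 1 := by simp [iv, hj]
  rw [← sixth_six hc, ← sixth_sub]
  refine rk_sixth hc _ (Finset.univ.erase j)
    (fun i b => (if i = b then 1 else 0) - iv S i * (if j = b then 1 else 0))
    (fun a i => by have := six_bound a i; have := th_bound S a i; rw [abs_le]; omega)
    (fun i b => by
      rcases iv_cases S i with h | h <;> rw [h] <;> split_ifs <;> norm_num) (fun a b => ?_)
    (by simp)
  have h0 : ∑ i, (six a i - th S a i) * iv S i = 0 := by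
    simp only [sub_mul, Finset.sum_sub_distrib]
    rw [six_mul, th_mul, Finset.inter_self, S.2]
    push_cast; ring
  set M : H → ℤ := fun i => six a i - th S a i with hM
  have h1 : ∑ i, M i * ((if i = b then 1 else 0) - iv S i * (if j = b then 1 else 0)) = M b := by
    simp only [mul_sub, Finset.sum_sub_distrib, ← mul_assoc, ← Finset.sum_mul]
    rw [h0]; simp
  rw [← Finset.sum_erase_add _ _ (Finset.mem_univ j), hj1] at h1
  change M b = ∑ i ∈ Finset.univ.erase j,
    M i * ((if i = b then 1 else 0) - iv S i * (if j = b then 1 else 0))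
  rw [← h1]; ring

theorem rk_2 {c : FF} (hc : 6 * c = 1) (S T : R324.Tri H) (hST : (S.1 ∩ T.1).card = 1) :
    RkG GenS (1 - sixth c (th S) - sixth c (th T)) (Fintype.card H - 2) := by
  obtain ⟨j, hj⟩ : (S.1 \ T.1).Nonempty := Finset.card_pos.1 (by
    have := Finset.card_sdiff_add_card_inter S.1 T.1
    rw [S.2, hST] at this; omega)
  obtain ⟨j', hj'⟩ : (T.1 \ S.1).Nonempty := Finset.card_pos.1 (by
    have := Finset.card_sdiff_add_card_inter T.1 S.1
    rw [T.2, Finset.inter_comm, hST] at this; omega)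
  rw [Finset.mem_sdiff] at hj hj'
  have hjj : j' ≠ j := fun h => hj'.2 (h ▸ hj.1)
  have e1 : iv S j = 1 := by simp [iv, hj.1]
  have e2 : iv T j = 0 := by simp [iv, hj.2]
  have e3 : iv S j' = 0 := by simp [iv, hj'.2]
  have e4 : iv T j' = 1 := by simp [iv, hj'.1]
  rw [← sixth_six hc, ← sixth_sub, ← sixth_sub]
  refine rk_sixth hc _ ((Finset.univ.erase j).erase j')
    (fun i b => (if i = b then 1 else 0) - iv S i * (if j = b then 1 else 0) -
      iv T i * (if j' = b then 1 else 0))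
    (fun a i => by
      have := six_bound a i; have := th_bound S a i; have := th_bound T a i; rw [abs_le]; omega)
    (fun i b => by
      rcases iv_cases S i with h | h <;> rcases iv_cases T i with h' | h' <;> rw [h, h'] <;>
        split_ifs <;> norm_num) (fun a b => ?_)
    (by rw [Finset.card_erase_of_mem (by simp [hjj])]; simp; omega)
  have h0 : ∑ i, (six a i - th S a i - th T a i) * iv S i = 0 := by
    simp only [sub_mul, Finset.sum_sub_distrib]
    rw [six_mul, th_mul, th_mul, Finset.inter_self, S.2, Finset.inter_comm, hST]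
    push_cast; ring
  have h0' : ∑ i, (six a i - th S a i - th T a i) * iv T i = 0 := by
    simp only [sub_mul, Finset.sum_sub_distrib]
    rw [six_mul, th_mul, th_mul, Finset.inter_self, T.2, hST]
    push_cast; ring
  set M : H → ℤ := fun i => six a i - th S a i - th T a i with hM
  have h1 : ∑ i, M i * ((if i = b then 1 else 0) - iv S i * (if j = b then 1 else 0) -
      iv T i * (if j' = b then 1 else 0)) = M b := by
    simp only [mul_sub, Finset.sum_sub_distrib, ← mul_assoc, ← Finset.sum_mul]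
    rw [h0, h0']; simp
  rw [← Finset.sum_erase_add _ _ (Finset.mem_univ j),
    ← Finset.sum_erase_add _ _ (show j' ∈ Finset.univ.erase j by simp [hjj]), e1, e2, e3, e4] at h1
  change M b = ∑ i ∈ (Finset.univ.erase j).erase j',
    M i * ((if i = b then 1 else 0) - iv S i * (if j = b then 1 else 0) -
      iv T i * (if j' = b then 1 else 0))
  rw [← h1]; ring

/-- pairs of triples meeting in one point -/
abbrev Side1 (H : Type) [Fintype H] [DecidableEq H] :=
  {p : R324.Tri H × R324.Tri H // (p.1.1 ∩ p.2.1).card = 1}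

/-- the design over the field with two elements -/
def design2 (H : Type) [Fintype H] [DecidableEq H] :
    DesignG (ZMod 2) (R324.Tri H) (Side1 H) H where
  src p := p.1.2
  tgt p := p.1.1
  j _ := 1
  R S i := R324.ind S i
  G i T := R324.ind T i
  hid S T := by
    have h1 : ∑ i, R324.ind S i * R324.ind T i = ((S.1 ∩ T.1).card : ZMod 2) := R324.ind_dot S T
    rw [h1]
    by_cases h : (S.1 ∩ T.1).card = 1
    · have hST : S ≠ T := by
        rintro rfl
        rw [Finset.inter_self, S.2] at h; omega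
      rw [Finset.sum_eq_single (⟨(S, T), h⟩ : Side1 H), if_pos ⟨rfl, rfl⟩, if_neg hST, h]
      · decide
      · rintro ⟨⟨S', T'⟩, h'⟩ _ hne
        rw [if_neg]
        rintro ⟨rfl, rfl⟩
        exact hne rfl
      · simp
    · rw [Finset.sum_eq_zero, zero_add]
      · by_cases hST : S = T
        · subst hST
          rw [Finset.inter_self, S.2, if_pos rfl]; decide
        · have h2 := R324.inter_card_le S T hST
          rw [if_neg hST]
          have h3 : (S.1 ∩ T.1).card = 0 ∨ (S.1 ∩ T.1).card = 2 := by omega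
          rcases h3 with h3 | h3 <;> rw [h3] <;> decide
      · rintro ⟨⟨S', T'⟩, h'⟩ _
        rw [if_neg]
        rintro ⟨rfl, rfl⟩
        exact h h'

theorem card_side1_le : Fintype.card (Side1 H) ≤ Fintype.card (R324.Tri H) ^ 2 := by
  refine (Fintype.card_subtype_le _).trans ?_
  rw [Fintype.card_prod, sq]

end tri

theorem swap_aux (H : Type) [Fintype H] [DecidableEq H] (hH : Fintype.card H = 100) :
    ∃ (m W r : ℕ) (start : Fin W → Matrix (Fin m) (Fin m) FF),
      W = 2 ^ 71 ∧ 2 ≤ m ∧ (r : ℝ) < W * (m : ℝ) ^ tauE ∧ NetOK (ZMod 2) GenS 1 W r start := by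
  obtain ⟨c, hc⟩ := exists_inv6
  have hv : Fintype.card (R324.Tri H) = 161700 := by
    rw [R324.card_tri, hH]; norm_num [Nat.choose]
  have hs : Fintype.card (Side1 H) ≤ 161700 ^ 2 := hv ▸ card_side1_le
  obtain ⟨W, hW⟩ : ∃ W : ℕ, W = 2 ^ 71 := ⟨_, rfl⟩
  have hg : ∀ t : R324.Tri H, GenS (sixth c (th t)) := fun t =>
    genS_sixth hc _ _ (fun i => by rcases iv_cases t i with h | h <;> rw [h] <;> norm_num)
      (fun i => by rcases iv_cases t i with h | h <;> rw [h] <;> norm_num)
  obtain ⟨start, r, -, hr, hnet⟩ := netOK_of_design (design2 H) GenS GenS genS_neg genS_kr3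
    (fun t => sixth c (th t)) 98 1 (fun t => rkG_one (hg t)) (by simpa [hH] using rk_E (H := H) hc)
    (fun t => by simpa [hH] using rk_1 hc t) (fun p => by
      have := rk_2 hc _ _ p.2
      rw [hH] at this
      exact this)
    (fun s t u => rkG_one (genS_two _ (genS_kr3 _ _ _ (hg s) (hg t) (hg u)))) W
    (by rw [hv, hW]; omega)
  have hm : Fintype.card (H × H × H) = 10 ^ 6 := by simp [hH]
  have := hnet.map (reidx (Fintype.equivFin (H × H × H))) (Gen' := GenS) (genS_reidx _)
  rw [reidx_one] at this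
  refine ⟨_, W, r, _, hW, by rw [hm]; norm_num, rate_lt hW hm ?_, this⟩
  rw [hv, hH] at hr
  rw [hm]
  omega

/-! ### the butterfly network -/

theorem rkG_of_rk {ι : Type} {B : R324.Lab ι} {r : ℕ} (h : R324.Rk B r) : RkG GenC B r := by
  obtain ⟨κ, s, w, hs, rfl⟩ := h
  exact rkG_sum s _ (fun k _ => ⟨w k, rfl⟩) hs

theorem lab_neg {ι : Type} (B : R324.Lab ι) : -B = B :=
  neg_eq_of_add_eq_zero_left (R324.lab_add_self B)

theorem lab_sub {ι : Type} (A B : R324.Lab ι) : A - B = A + B := by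
  rw [sub_eq_add_neg, lab_neg]

theorem genC_kr3 {H : Type} (A B C : R324.Lab H) (hA : GenC A) (hB : GenC B) (hC : GenC C) :
    GenC (kr3 A B C) := by
  obtain ⟨a, rfl⟩ := hA
  obtain ⟨b, rfl⟩ := hB
  obtain ⟨c, rfl⟩ := hC
  refine ⟨fun i => a i.1 * (b i.2.1 * c i.2.2), ?_⟩
  ext i j
  simp only [kr3, Matrix.kroneckerMap_apply, R324.tau, vecMulVec_apply]
  ring

theorem genC_reidx {ι ι' : Type} (e : ι ≃ ι') (Δ : R324.Lab ι) (h : GenC Δ) :
    GenC (reidx e Δ) := by
  obtain ⟨w, rfl⟩ := h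
  exact ⟨fun i => w (e.symm i), rfl⟩

/-- the design of row 324 over a ring in which `2` is invertible -/
def designH (H : Type) [Fintype H] [DecidableEq H] {𝕜 : Type} [CommRing 𝕜] (h : 𝕜)
    (hh : 2 * h = 1) : DesignG 𝕜 (R324.Tri H) (R324.Side H) (Option H) where
  src p := p.1.2
  tgt p := p.1.1
  j p := -((((p.1.1.1 ∩ p.1.2.1).card : 𝕜) - 1) * h)
  R S i := i.elim (-h) fun i => if i ∈ S.1 then h else 0
  G i T := i.elim 1 fun i => if i ∈ T.1 then 1 else 0
  hid S T := by
    have h1 : (∑ i : Option H, (i.elim (-h) fun i => if i ∈ S.1 then h else 0) *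
        (i.elim 1 fun i => if i ∈ T.1 then (1 : 𝕜) else 0)) = (((S.1 ∩ T.1).card : 𝕜) - 1) * h := by
      rw [Fintype.sum_option]
      simp only [Option.elim, mul_ite, mul_one, mul_zero, ← ite_and]
      rw [← Finset.sum_filter, Finset.sum_const]
      have : (Finset.univ.filter fun i => i ∈ T.1 ∧ i ∈ S.1) = S.1 ∩ T.1 := by
        ext i; simp [and_comm]
      rw [this, nsmul_eq_mul]
      ring
    rw [h1]
    by_cases hc : S ≠ T ∧ Even (S.1 ∩ T.1).card
    · rw [Finset.sum_eq_single (⟨(S, T), hc⟩ : R324.Side H), if_pos ⟨rfl, rfl⟩, if_neg hc.1]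
      · ring
      · rintro ⟨⟨S', T'⟩, h'⟩ _ hne
        rw [if_neg]
        rintro ⟨rfl, rfl⟩
        exact hne rfl
      · simp
    · rw [Finset.sum_eq_zero, zero_add]
      · by_cases hST : S = T
        · subst hST
          rw [Finset.inter_self, S.2, if_pos rfl]
          push_cast
          linear_combination hh
        · have h2 := R324.inter_card_le S T hST
          have h3 : ¬ Even (S.1 ∩ T.1).card := fun he => hc ⟨hST, he⟩
          have h4 : (S.1 ∩ T.1).card = 1 := by
            rw [Nat.not_even_iff] at h3; omega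
          rw [h4, if_neg hST]; norm_num
      · rintro ⟨⟨S', T'⟩, h'⟩ _
        rw [if_neg]
        rintro ⟨rfl, rfl⟩
        exact hc h'

theorem c_aux (H : Type) [Fintype H] [DecidableEq H] (hH : Fintype.card H = 100) :
    ∃ (m W r : ℕ) (start : Fin W → Matrix (Fin m) (Fin m) (ZMod 2)),
      W = 2 ^ 71 ∧ 2 ≤ m ∧ (r : ℝ) < W * (m : ℝ) ^ tauE ∧ (∀ w, (start w).IsSymm) ∧
        NetOK Dy GenC 1 W r start := by
  have hh : (2 : Dy) * IsLocalization.Away.invSelf (2 : ℤ) = 1 := by
    have := IsLocalization.Away.mul_invSelf (S := Dy) (2 : ℤ)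
    rwa [map_ofNat] at this
  have hv : Fintype.card (R324.Tri H) = 161700 := by
    rw [R324.card_tri, hH]; norm_num [Nat.choose]
  have hs : Fintype.card (R324.Side H) ≤ 161700 ^ 2 := hv ▸ R324.card_side_le
  obtain ⟨W, hW⟩ : ∃ W : ℕ, W = 2 ^ 71 := ⟨_, rfl⟩
  have hg : ∀ t : R324.Tri H, GenC (R324.tau (R324.ind t)) := fun t => ⟨_, rfl⟩
  obtain ⟨start, r, hst, hr, hnet⟩ := netOK_of_design (designH H _ hh) GenC GenC
    (fun Δ h => by rwa [lab_neg]) genC_kr3
    (fun t => R324.tau (R324.ind t)) 98 0 (fun t => rkG_one (hg t))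
    (rkG_of_rk ((R324.rk_one (H := H)).mono (by omega)))
    (fun t => by
      rw [lab_sub]; exact rkG_of_rk ((R324.tri_r1 (H := H) (by omega) t).mono (by omega)))
    (fun p => by
      rw [lab_sub, lab_sub]
      exact rkG_of_rk ((R324.tri_r2 (H := H) (by omega) p).mono (by omega)))
    (fun s t u => by rw [R324.lab_add_self]; exact rkG_of_rk R324.Rk.zero) W
    (by rw [hv, hW]; omega)
  have hm : Fintype.card (H × H × H) = 10 ^ 6 := by simp [hH]
  have := hnet.map (reidx (Fintype.equivFin (H × H × H))) (Gen' := GenC) (genC_reidx _)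
  rw [reidx_one] at this
  refine ⟨_, W, r, _, hW, by rw [hm]; norm_num, rate_lt hW hm ?_, fun w => ?_, this⟩
  · rw [hv, Fintype.card_option, hH] at hr
    rw [hm]
    omega
  · rcases hst w with h | ⟨s, t, u, h⟩
    · rw [h, map_zero]; exact Matrix.isSymm_zero
    · obtain ⟨x, hx⟩ := genC_reidx (Fintype.equivFin (H × H × H)) _
        (genC_kr3 _ _ _ (hg s) (hg t) (hg u))
      rw [h, hx]
      exact (R324.Rk.tau x).isSymm

end NetInst

/-- The swap network.  Recipe: work with a type `H` of cardinality `100` (never unfold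
`Fintype.card` of `R324.Tri H`; see `R324.good_main_aux`), `𝒯 = R324.Tri H`, sides = pairs with
`|S ∩ T| = 1`, centre `H`, all coefficients `1` or indicator values in `ZMod 2`
(`|S ∩ T| mod 2` is `1` iff `S = T` or `|S ∩ T| = 1`).  Labels: with the integer indicator vector
`t` of `S`, `θ S = 6⁻¹ • t (3 t - 1)ᵀ` (`6` is a unit of `FF`).  `(3 t - 1) · t = 6`, and
`(3 t_S - 1) · t_T = 0` for `|S ∩ T| = 1`.  A matrix `M` with `M t = 0`, `t j = 1` is
`∑_{i ≠ j} col_i(M) (e_i - t_i e_j)ᵀ`; for `1 - θ S - θ T` take `j ∈ S \ T`, `j' ∈ T \ S` and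
`∑_{i ∉ {j, j'}} col_i (e_i - s_i e_j - t_i e_j')ᵀ`.  The entries of `6 • col_i` are integers of
absolute value `≤ 10`, hence `0` or prime to `11`.  `GenS` is closed under negation and tensor
products; `e = 1`, `k = 98`; transport to `Fin (10 ^ 6)` with `NetOK.map` and `Matrix.reindex`;
`rate_lt` (the saving is `161700 ^ 2 * (161700 - 30000) ≥ 10 ^ 15`). -/
theorem swap_network : ∃ (m W r : ℕ) (start : Fin W → Matrix (Fin m) (Fin m) FF),
    W = 2 ^ 71 ∧ 2 ≤ m ∧ (r : ℝ) < W * (m : ℝ) ^ tauE ∧ NetOK (ZMod 2) GenS 1 W r start :=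
  NetInst.swap_aux (Fin 100) (Fintype.card_fin _)

/-- The butterfly network.  Recipe: the design `R324.triDesign` over `Dy` (`1 / 2` is
`IsLocalization.Away.invSelf 2`), `θ t = R324.tau (R324.ind t)`, `R324.tri_r1`, `R324.tri_r2`,
`R324.rk_one` (convert `R324.Rk` to `RkG GenC`; subtraction is addition), `e = 0`. -/
theorem c_network : ∃ (m W r : ℕ) (start : Fin W → Matrix (Fin m) (Fin m) (ZMod 2)),
    W = 2 ^ 71 ∧ 2 ≤ m ∧ (r : ℝ) < W * (m : ℝ) ^ tauE ∧ (∀ w, (start w).IsSymm) ∧
      NetOK Dy GenC 1 W r start :=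
  NetInst.c_aux (Fin 100) (Fintype.card_fin _)

end Crest.Agent.R326
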