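/-
R326/SwapAux: address arithmetic for `R326/Swap` (five-field views, shears of addresses).
Author: helper10.
-/
import Crest.Agent.R326.Gat

set_option autoImplicit false
set_option linter.unusedSimpArgs false
set_option linter.unusedSectionVars false
set_option linter.unusedVariables false

namespace Crest.Agent.R326

open Function Crest.Agent.Lib.PolyTime

namespace SwAux

/-! ### The layout `lay5` -/

theorem lay5_n (q : ℕ × ℕ × ℕ × ℕ) : lay5.n q = 5 := rfl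

theorem lay5_vol (q : ℕ × ℕ × ℕ × ℕ) :
    lay5.vol q = q.1 * (q.2.1 * (q.2.2.1 * (q.2.1 * q.2.2.2))) := by
  simp [Lay.vol, wt, Finset.prod_range_succ, mul_assoc]

theorem lay5_pos (q : ℕ × ℕ × ℕ × ℕ) (v : ℕ → ℕ) :
    lay5.pos q v = v 0 + q.1 * (v 1 + q.2.1 * (v 2 + q.2.2.1 * (v 3 + q.2.1 * v 4))) := by
  simp [Lay.pos, pos, wt, Finset.sum_range_succ, Finset.prod_range_succ]
  ring

theorem lay5_val (q : ℕ × ℕ × ℕ × ℕ) (v : ℕ → ℕ) :
    lay5.Val q v ↔ v 0 < q.1 ∧ v 1 < q.2.1 ∧ v 2 < q.2.2.1 ∧ v 3 < q.2.1 ∧ v 4 < q.2.2.2 := by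
  constructor
  · intro h
    exact ⟨h 0 (by simp), h 1 (by simp), h 2 (by simp), h 3 (by simp), h 4 (by simp)⟩
  · rintro ⟨h0, h1, h2, h3, h4⟩ k hk
    have hk' : k < 5 := hk
    interval_cases k
    · exact h0
    · exact h1
    · exact h2
    · exact h3
    · exact h4

/-- An address with five digits. -/
def ad5 (a b c d e : ℕ) : ℕ → ℕ := fun k =>
  if k = 0 then a else if k = 1 then b else if k = 2 then c else if k = 3 then d else e

@[simp] theorem ad5_0 (a b c d e : ℕ) : ad5 a b c d e 0 = a := rfl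
@[simp] theorem ad5_1 (a b c d e : ℕ) : ad5 a b c d e 1 = b := rfl
@[simp] theorem ad5_2 (a b c d e : ℕ) : ad5 a b c d e 2 = c := rfl
@[simp] theorem ad5_3 (a b c d e : ℕ) : ad5 a b c d e 3 = d := rfl
@[simp] theorem ad5_4 (a b c d e : ℕ) : ad5 a b c d e 4 = e := rfl

/-- Exchange of two ranges of fields. -/
def RSw (n i j len : ℕ) (v w : ℕ → ℕ) : Prop :=
  (∀ g < len, v (i + g) = w (j + g) ∧ v (j + g) = w (i + g)) ∧
    ∀ k < n, k < i ∨ i + len ≤ k → k < j ∨ j + len ≤ k → v k = w k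

/-- The parameters of the five-field view. -/
def par5 (r : ℕ → ℕ) (n i j len : ℕ) : ℕ × ℕ × ℕ × ℕ :=
  (wt r i, rwt r i len, rwt r (i + len) (j - (i + len)), rwt r (j + len) (n - (j + len)))

/-- The address in the five-field view. -/
def fold5 (r : ℕ → ℕ) (n i j len : ℕ) (v : ℕ → ℕ) : ℕ → ℕ :=
  ad5 (pos r v i) (rg r v i len) (rg r v (i + len) (j - (i + len))) (rg r v j len)
    (rg r v (j + len) (n - (j + len)))

section five
variable {r v w : ℕ → ℕ} {n i j len : ℕ}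

theorem vol_par5 (hij : i + len ≤ j) (hn : j + len ≤ n) (hr : ∀ g < len, r (i + g) = r (j + g)) :
    lay5.vol (par5 r n i j len) = wt r n := by
  obtain ⟨c, rfl⟩ := Nat.exists_eq_add_of_le hij
  obtain ⟨d, rfl⟩ := Nat.exists_eq_add_of_le hn
  simp only [lay5_vol, par5, Nat.add_sub_cancel_left]
  rw [wt_add, wt_add, wt_add, wt_add, rwt_congr hr]
  ring

theorem pos_fold5 (v : ℕ → ℕ) (hij : i + len ≤ j) (hn : j + len ≤ n)
    (hr : ∀ g < len, r (i + g) = r (j + g)) :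
    lay5.pos (par5 r n i j len) (fold5 r n i j len v) = pos r v n := by
  obtain ⟨c, rfl⟩ := Nat.exists_eq_add_of_le hij
  obtain ⟨d, rfl⟩ := Nat.exists_eq_add_of_le hn
  simp only [lay5_pos, par5, fold5, Nat.add_sub_cancel_left, ad5_0, ad5_1, ad5_2, ad5_3, ad5_4]
  rw [pos_add, pos_add, pos_add, pos_add]
  simp only [wt_add]
  rw [← rwt_congr hr]
  ring

theorem val_fold5 (hv : Val r n v) (hij : i + len ≤ j) (hn : j + len ≤ n)
    (hr : ∀ g < len, r (i + g) = r (j + g)) :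
    lay5.Val (par5 r n i j len) (fold5 r n i j len v) := by
  rw [lay5_val]
  simp only [par5, fold5, ad5_0, ad5_1, ad5_2, ad5_3, ad5_4]
  refine ⟨(hv.mono (by omega)).pos_lt, hv.rg_lt (by omega), hv.rg_lt (by omega), ?_,
    hv.rg_lt (by omega)⟩
  rw [rwt_congr hr]
  exact hv.rg_lt hn

theorem swR_fold5 (h : RSw n i j len v w) (hij : i + len ≤ j) (hn : j + len ≤ n)
    (hr : ∀ g < len, r (i + g) = r (j + g)) :
    SwR (fold5 r n i j len v) (fold5 r n i j len w) := by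
  simp only [SwR, fold5, ad5_0, ad5_1, ad5_2, ad5_3, ad5_4]
  refine ⟨pos_congr (fun _ _ => rfl) fun k hk => h.2 k (by omega) (by omega) (by omega),
    rg_congr hr fun k hk => (h.1 k hk).1,
    rg_congr (fun _ _ => rfl) fun k hk => h.2 _ (by omega) (by omega) (by omega),
    rg_congr (fun k hk => (hr k hk).symm) fun k hk => (h.1 k hk).2,
    rg_congr (fun _ _ => rfl) fun k hk => h.2 _ (by omega) (by omega) (by omega)⟩

/-- The address with two ranges exchanged. -/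
def xch (i j len : ℕ) (v : ℕ → ℕ) : ℕ → ℕ := fun k =>
  if i ≤ k ∧ k < i + len then v (j + (k - i)) else
    if j ≤ k ∧ k < j + len then v (i + (k - j)) else v k

theorem rsw_xch (v : ℕ → ℕ) (hij : i + len ≤ j) : RSw n i j len v (xch i j len v) := by
  refine ⟨fun g hg => ⟨?_, ?_⟩, fun k hk h1 h2 => ?_⟩
  · simp only [xch]
    rw [if_neg (by omega), if_pos (by omega), Nat.add_sub_cancel_left]
  · simp only [xch]
    rw [if_pos (by omega), Nat.add_sub_cancel_left]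
  · simp only [xch]
    rw [if_neg (by omega), if_neg (by omega)]

theorem val_xch (hv : Val r n v) (hij : i + len ≤ j) (hn : j + len ≤ n)
    (hr : ∀ g < len, r (i + g) = r (j + g)) : Val r n (xch i j len v) := by
  intro k hk
  simp only [xch]
  split_ifs with h1 h2
  · have := hv (j + (k - i)) (by omega)
    rw [← hr _ (by omega), Nat.add_sub_cancel' h1.1] at this
    exact this
  · have := hv (i + (k - j)) (by omega)
    rw [hr _ (by omega), Nat.add_sub_cancel' h2.1] at this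
    exact this
  · exact hv k hk

end five

end SwAux

open SwAux

variable {α P : Type} [Enc P] {𝔅 : Bud α} {p : α → P} {Λ : Lay P}

/-- An exchange in the five-field view is an exchange of ranges. -/
theorem GPost.of_lay5 {q : P} {i j len : ℕ} (hij : i + len ≤ j) (hn : j + len ≤ Λ.n q)
    (hr : ∀ g < len, Λ.r q (i + g) = Λ.r q (j + g)) {D D' : Arr}
    (h : GPost lay5 lay5 (par5 (Λ.r q) (Λ.n q) i j len) SwR D D') :
    GPost Λ Λ q (RSw (Λ.n q) i j len) D D' := by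
  refine ⟨h.1.trans (vol_par5 hij hn hr), fun v w hv hw hvw => ?_⟩
  have := h.2 _ _ (val_fold5 hv hij hn hr) (val_fold5 hw hij hn hr) (swR_fold5 hvw hij hn hr)
  rwa [pos_fold5 v hij hn hr, pos_fold5 w hij hn hr] at this

/-- An exchange of ranges is an exchange in the five-field view. -/
theorem GPost.to_lay5 {q : P} {i j len : ℕ} (hij : i + len ≤ j) (hn : j + len ≤ Λ.n q)
    (hr : ∀ g < len, Λ.r q (i + g) = Λ.r q (j + g)) (hp : ∀ k < Λ.n q, 0 < Λ.r q k) {D D' : Arr}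
    (h : GPost Λ Λ q (RSw (Λ.n q) i j len) D D') :
    GPost lay5 lay5 (par5 (Λ.r q) (Λ.n q) i j len) SwR D D' := by
  refine ⟨h.1.trans (vol_par5 hij hn hr).symm, fun v1 w1 hv1 hw1 hvw => ?_⟩
  obtain ⟨v, hv, e⟩ := exists_val_pos hp (j := lay5.pos _ v1)
    (by rw [← vol_par5 hij hn hr]; exact hv1.pos_lt)
  have hw := val_xch hv hij hn hr
  have hx := rsw_xch (n := Λ.n q) v hij
  have h1 := h.2 v _ hv hw hx
  have e1 := Val.eq_of_pos_eq (val_fold5 hv hij hn hr) hv1 ((pos_fold5 v hij hn hr).trans e)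
  have e2 := swR_fold5 hx hij hn hr
  have e3 : lay5.pos (par5 (Λ.r q) (Λ.n q) i j len) w1 = pos (Λ.r q) (xch i j len v) (Λ.n q) := by
    rw [← pos_fold5 _ hij hn hr, lay5_pos, lay5_pos]
    obtain ⟨a0, a1, a2, a3, a4⟩ := hvw
    obtain ⟨b0, b1, b2, b3, b4⟩ := e2
    rw [← a0, ← a1, ← a2, ← a3, ← a4, ← b0, ← b1, ← b2, ← b3, ← b4, e1 0 (show 0 < 5 by omega),
      e1 1 (show 1 < 5 by omega), e1 2 (show 2 < 5 by omega), e1 3 (show 3 < 5 by omega),
      e1 4 (show 4 < 5 by omega)]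
  rw [e3, ← e]
  exact h1

/-- Exchange of ranges from an exchange in the five-field view. -/
theorem Gat.of_lay5 {g : P → ℕ × ℕ × ℕ × ℕ} {i j len : α → ℕ} {ex : α → ℝ}
    (h : Gat 𝔅 (fun a => g (p a)) lay5 lay5 (fun _ => SwR) ex) (hg : PT g) (hp : SmIn 𝔅.V p)
    (hij : ∀ a, i a + len a ≤ j a) (hn : ∀ a, j a + len a ≤ Λ.n (p a))
    (hr : ∀ a, ∀ k < len a, Λ.r (p a) (i a + k) = Λ.r (p a) (j a + k))
    (e : ∀ a, g (p a) = par5 (Λ.r (p a)) (Λ.n (p a)) (i a) (j a) (len a)) :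
    Gat 𝔅 p Λ Λ (fun a => RSw (Λ.n (p a)) (i a) (j a) (len a)) ex :=
  (Impl.pull_pt h hg hp).mono
    (fun a D hD => by
      show D.length = lay5.vol (g (p a))
      rw [e a, vol_par5 (hij a) (hn a) (hr a)]; exact hD)
    (fun a D D' _ h1 => GPost.of_lay5 (hij a) (hn a) (hr a) (e a ▸ h1)) fun _ => le_rfl

/-- Exchange in the five-field view from an exchange of ranges. -/
theorem Gat.to_lay5 {p : α → ℕ × ℕ × ℕ × ℕ} {Λ : Lay (ℕ × ℕ × ℕ × ℕ)} {i j len : α → ℕ}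
    {ex : α → ℝ} (h : Gat 𝔅 p Λ Λ (fun a => RSw (Λ.n (p a)) (i a) (j a) (len a)) ex)
    (hij : ∀ a, i a + len a ≤ j a) (hn : ∀ a, j a + len a ≤ Λ.n (p a))
    (hr : ∀ a, ∀ k < len a, Λ.r (p a) (i a + k) = Λ.r (p a) (j a + k))
    (hp : ∀ a, ∀ k < Λ.n (p a), 0 < Λ.r (p a) k)
    (e : ∀ a, p a = par5 (Λ.r (p a)) (Λ.n (p a)) (i a) (j a) (len a)) :
    Gat 𝔅 p lay5 lay5 (fun _ => SwR) ex :=
  Impl.mono h
    (fun a D hD => by
      have := vol_par5 (hij a) (hn a) (hr a)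
      rw [← e a] at this
      exact hD.trans this)
    (fun a D D' _ h1 => by
      have := GPost.to_lay5 (hij a) (hn a) (hr a) (hp a) h1
      rwa [← e a] at this) fun _ => le_rfl

/-- The parameters of the five-field view are computable in polynomial time. -/
theorem Lay.pt_par5 (Λ : Lay P) {i j len : P → ℕ} (hi : PT i) (hj : PT j) (hl : PT len) :
    ∃ g : P → ℕ × ℕ × ℕ × ℕ, PT g ∧ ∀ q, i q + len q ≤ j q → j q + len q ≤ Λ.n q →
      g q = par5 (Λ.r q) (Λ.n q) (i q) (j q) (len q) := by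
  refine ⟨_, (Λ.pt_wt PT.id' hi).prodMk ((Λ.pt_rwt PT.id' hi hl).prodMk
    ((Λ.pt_rwt PT.id' (hi.nat_add hl) (hj.nat_sub (hi.nat_add hl))).prodMk
      (Λ.pt_rwt PT.id' (hj.nat_add hl) (Λ.hn.nat_sub (hj.nat_add hl))))), fun q h1 h2 => ?_⟩
  simp only [par5]
  rw [min_eq_left (by omega), min_eq_left (by omega), min_eq_left (by omega),
    min_eq_left (by omega)]

namespace SwAux

theorem rsw_one_iff {n i j : ℕ} {v w : ℕ → ℕ} : RSw n i j 1 v w ↔ Sw1 n i j v w := by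
  constructor
  · rintro ⟨h1, h2⟩
    exact ⟨(h1 0 one_pos).1, (h1 0 one_pos).2, fun k hk a b => h2 k hk (by omega) (by omega)⟩
  · rintro ⟨h1, h2, h3⟩
    refine ⟨fun g hg => ?_, fun k hk a b => h3 k hk (by omega) (by omega)⟩
    obtain rfl : g = 0 := by omega
    exact ⟨h1, h2⟩

/-- The parameters of `lay5` are small if the volume is. -/
theorem smIn_lay5 {g : α → ℕ} {p : α → ℕ × ℕ × ℕ × ℕ}
    (hpos : ∀ a, 0 < (p a).1 ∧ 0 < (p a).2.1 ∧ 0 < (p a).2.2.1 ∧ 0 < (p a).2.2.2)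
    (h : SmIn g fun a => lay5.vol (p a)) : SmIn g p := by
  have key : ∀ a, (p a).1 ≤ lay5.vol (p a) ∧ (p a).2.1 ≤ lay5.vol (p a) ∧
      (p a).2.2.1 ≤ lay5.vol (p a) ∧ (p a).2.2.2 ≤ lay5.vol (p a) := by
    intro a
    obtain ⟨h1, h2, h3, h4⟩ := hpos a
    have h0 : 0 < lay5.vol (p a) := by rw [lay5_vol]; positivity
    refine ⟨Nat.le_of_dvd h0 ?_, Nat.le_of_dvd h0 ?_, Nat.le_of_dvd h0 ?_, Nat.le_of_dvd h0 ?_⟩ <;>
      rw [lay5_vol]
    · exact Dvd.intro _ rfl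
    · exact Dvd.intro ((p a).1 * ((p a).2.2.1 * ((p a).2.1 * (p a).2.2.2))) (by ring)
    · exact Dvd.intro ((p a).1 * ((p a).2.1 * ((p a).2.1 * (p a).2.2.2))) (by ring)
    · exact Dvd.intro ((p a).1 * ((p a).2.1 * ((p a).2.1 * (p a).2.2.1))) (by ring)
  exact (h.nat_le fun a => (key a).1).pair ((h.nat_le fun a => (key a).2.1).pair
    ((h.nat_le fun a => (key a).2.2.1).pair (h.nat_le fun a => (key a).2.2.2)))

/-! ### Shears of addresses -/

/-- A bit read in `ZMod 2`. -/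
def b2 (b : Bool) : ZMod 2 := if b then 1 else 0

@[simp] theorem b2_false : b2 false = 0 := rfl

theorem b2_xor (a b : Bool) : b2 (xor a b) = b2 a + b2 b := by
  cases a <;> cases b <;> decide

theorem b2_inj {a b : Bool} (h : b2 a = b2 b) : a = b := by
  cases a <;> cases b <;> first | rfl | exact absurd h (by decide)

/-- The address with the digits `x` replaced by those of `x + M y`. -/
def mv {m : ℕ} (M : Matrix (Fin m) (Fin m) FF) (u iy ix : ℕ) (v : ℕ → ℕ) : ℕ → ℕ := fun k =>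
  if h : ix ≤ k ∧ k < ix + m then (((v k : ℕ) : ZMod (11 ^ u)) +
    ∑ l : Fin m, M ⟨k - ix, by omega⟩ l u * ((v (iy + l) : ℕ) : ZMod (11 ^ u))).val else v k

section mv
variable {m u n iy ix : ℕ} {M Δ : Matrix (Fin m) (Fin m) FF} {r v w : ℕ → ℕ}

theorem mv_out (M : Matrix (Fin m) (Fin m) FF) (u iy : ℕ) (v : ℕ → ℕ) {k : ℕ}
    (hk : k < ix ∨ ix + m ≤ k) : mv M u iy ix v k = v k := by
  simp only [mv]; rw [dif_neg (by omega)]

theorem mv_in (M : Matrix (Fin m) (Fin m) FF) (u iy ix : ℕ) (v : ℕ → ℕ) (l : Fin m) :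
    mv M u iy ix v (ix + l) = (((v (ix + l) : ℕ) : ZMod (11 ^ u)) +
      ∑ k : Fin m, M l k u * ((v (iy + k) : ℕ) : ZMod (11 ^ u))).val := by
  simp only [mv]
  rw [dif_pos ⟨by omega, by omega⟩]
  simp only [Nat.add_sub_cancel_left]

theorem shear_mv (M : Matrix (Fin m) (Fin m) FF) (u n iy ix : ℕ) (v : ℕ → ℕ) :
    Shear M u n iy ix v (mv M u iy ix v) := by
  refine ⟨fun k _ hk => (mv_out M u iy v hk).symm, fun l => ?_⟩
  rw [mv_in, ZMod.natCast_zmod_val]

theorem val_mv (M : Matrix (Fin m) (Fin m) FF) (iy : ℕ) (hv : Val r n v)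
    (hr : ∀ k < m, r (ix + k) = 11 ^ u) : Val r n (mv M u iy ix v) := by
  intro k hk
  by_cases h : ix ≤ k ∧ k < ix + m
  · obtain ⟨l, rfl⟩ : ∃ l : Fin m, k = ix + l := ⟨⟨k - ix, by omega⟩, by simp; omega⟩
    rw [mv_in, hr _ l.2]
    exact ZMod.val_lt _
  · rw [mv_out M u iy v (by omega)]
    exact hv k hk

theorem mv_mv (M Δ : Matrix (Fin m) (Fin m) FF) (u : ℕ) (h1 : iy + m ≤ ix) (v : ℕ → ℕ) :
    mv M u iy ix (mv Δ u iy ix v) = mv (M + Δ) u iy ix v := by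
  funext k
  by_cases h : ix ≤ k ∧ k < ix + m
  · obtain ⟨l, rfl⟩ : ∃ l : Fin m, k = ix + l := ⟨⟨k - ix, by omega⟩, by simp; omega⟩
    rw [mv_in, mv_in, mv_in, ZMod.natCast_zmod_val]
    congr 1
    have e : ∀ k : Fin m, mv Δ u iy ix v (iy + k) = v (iy + k) := fun k =>
      mv_out Δ u iy v (Or.inl (by omega))
    simp only [e, Matrix.add_apply, Pi.add_apply, add_mul, Finset.sum_add_distrib]
    ring
  · rw [mv_out _ u iy _ (by omega), mv_out _ u iy _ (by omega), mv_out _ u iy _ (by omega)]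

theorem mv_zero (iy : ℕ) (hv : Val r n v) (hr : ∀ k < m, r (ix + k) = 11 ^ u) {k : ℕ} (hk : k < n) :
    mv (0 : Matrix (Fin m) (Fin m) FF) u iy ix v k = v k := by
  by_cases h : ix ≤ k ∧ k < ix + m
  · obtain ⟨l, rfl⟩ : ∃ l : Fin m, k = ix + l := ⟨⟨k - ix, by omega⟩, by simp; omega⟩
    rw [mv_in]
    simp only [Matrix.zero_apply, Pi.zero_apply, zero_mul, Finset.sum_const_zero, add_zero]
    exact ZMod.val_cast_of_lt (hr _ l.2 ▸ hv _ hk)
  · exact mv_out _ u iy v (by omega)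

theorem mv_one (hw : Val r n w) (hr : ∀ k < m, r (ix + k) = 11 ^ u) (ho : Out n ix m v w)
    (hc : ∀ k < m, (w (ix + k) : ℤ) ≡ v (ix + k) + v (iy + k) [ZMOD r (ix + k)]) {k : ℕ}
    (hk : k < n) : mv (1 : Matrix (Fin m) (Fin m) FF) u iy ix v k = w k := by
  by_cases h : ix ≤ k ∧ k < ix + m
  · obtain ⟨l, rfl⟩ : ∃ l : Fin m, k = ix + l := ⟨⟨k - ix, by omega⟩, by simp; omega⟩
    rw [mv_in]
    have e1 : ∑ k : Fin m, (1 : Matrix (Fin m) (Fin m) FF) l k u *
        ((v (iy + k) : ℕ) : ZMod (11 ^ u)) = ((v (iy + l) : ℕ) : ZMod (11 ^ u)) := by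
      rw [Finset.sum_eq_single l]
      · simp
      · intro k _ hk
        rw [Matrix.one_apply_ne (Ne.symm hk)]
        simp
      · simp
    have e2 := hc l l.2
    rw [hr _ l.2] at e2
    have e3 := (ZMod.intCast_eq_intCast_iff _ _ _).mpr e2
    push_cast at e3
    rw [e1, ← e3]
    exact ZMod.val_cast_of_lt (hr _ l.2 ▸ hw _ hk)
  · rw [mv_out _ u iy v (by omega)]
    exact ho k hk (by omega)

end mv

/-! ### Layouts used by the recursion -/

theorem tauE_nonneg : 0 ≤ tauE := by unfold tauE; norm_num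

/-- The layout `[B | Q1 | A2 | Q2 | A1]` for padded radices. -/
@[reducible] def layPad (f g : ℕ → ℕ) (hf : PT f) (hg : PT g) : Lay (ℕ × ℕ × ℕ × ℕ) :=
  Lay.ofList (fun q => [q.1, f q.2.1, q.2.2.1, g q.2.1, q.2.2.2]) (by fun_prop)

theorem layPad_vol (f g : ℕ → ℕ) (hf : PT f) (hg : PT g) (q : ℕ × ℕ × ℕ × ℕ) :
    (layPad f g hf hg).vol q = q.1 * (f q.2.1 * (q.2.2.1 * (g q.2.1 * q.2.2.2))) := by
  simp [Lay.vol, wt, Finset.prod_range_succ, mul_assoc]

theorem layPad_val (f g : ℕ → ℕ) (hf : PT f) (hg : PT g) (q : ℕ × ℕ × ℕ × ℕ) (v : ℕ → ℕ) :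
    (layPad f g hf hg).Val q v ↔
      v 0 < q.1 ∧ v 1 < f q.2.1 ∧ v 2 < q.2.2.1 ∧ v 3 < g q.2.1 ∧ v 4 < q.2.2.2 := by
  constructor
  · intro h
    exact ⟨h 0 (by simp), h 1 (by simp), h 2 (by simp), h 3 (by simp), h 4 (by simp)⟩
  · rintro ⟨h0, h1, h2, h3, h4⟩ k hk
    have hk' : k < 5 := hk
    interval_cases k
    · exact h0
    · exact h1
    · exact h2
    · exact h3
    · exact h4

theorem fam_layPad {V : α → ℕ} {p : α → ℕ × ℕ × ℕ × ℕ} {f g : ℕ → ℕ} (hf : PT f) (hg : PT g)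
    (hf' : ∀ x, 0 < x → 0 < f x ∧ f x ≤ 11 * x) (hg' : ∀ x, 0 < x → 0 < g x ∧ g x ≤ 11 * x)
    (hpos : ∀ a, 0 < (p a).1 ∧ 0 < (p a).2.1 ∧ 0 < (p a).2.2.1 ∧ 0 < (p a).2.2.2)
    (hV : (fun a => lay5.vol (p a)) ≼ V) (hs : SmIn (fun a => (p a).1) p) :
    Fam V p (layPad f g hf hg) 1 := by
  refine ⟨fun a => by simp, fun a k hk => ?_, by simpa using hs,
    (hV.const_mul 121).mono_left fun a => ?_⟩
  · have hk' : k < 5 := hk
    obtain ⟨h1, h2, h3, h4⟩ := hpos a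
    interval_cases k
    · exact h1
    · exact (hf' _ h2).1
    · exact h3
    · exact (hg' _ h2).1
    · exact h4
  · obtain ⟨h1, h2, h3, h4⟩ := hpos a
    have e1 := (hf' _ h2).2
    have e2 := (hg' _ h2).2
    rw [layPad_vol, lay5_vol]
    calc _ ≤ (p a).1 * (11 * (p a).2.1 * ((p a).2.2.1 * (11 * (p a).2.1 * (p a).2.2.2))) := by
          gcongr
      _ = _ := by ring

/-- The next power of `11`. -/
def up11 (x : ℕ) : ℕ := 11 ^ (Nat.log 11 x + 1)

theorem pt_up11 : PT up11 := by unfold up11; fun_prop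

theorem lt_up11 (x : ℕ) : x < up11 x := Nat.lt_pow_succ_log_self (by norm_num) x

theorem up11_le {x : ℕ} (h : 0 < x) : up11 x ≤ 11 * x := by
  rw [up11, pow_succ, mul_comm]
  exact Nat.mul_le_mul_left _ (Nat.pow_log_le_self 11 h.ne')

theorem log_lt_size {x : ℕ} (h : 0 < x) : Nat.log 11 x + 1 ≤ x.size :=
  Nat.lt_size.mpr ((Nat.pow_le_pow_left (by norm_num) _).trans (Nat.pow_log_le_self 11 h.ne'))

/-- The five-field view for `Gat.swapLow`. -/
def parL (r : ℕ → ℕ) (n i j : ℕ) : ℕ × ℕ × ℕ × ℕ :=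
  (wt r i, r j, r i / r j * rwt r (i + 1) (j - (i + 1)), rwt r (j + 1) (n - (j + 1)))

/-- The address in that view. -/
def foldL (r : ℕ → ℕ) (n i j : ℕ) (v : ℕ → ℕ) : ℕ → ℕ :=
  ad5 (pos r v i) (v i % r j) (v i / r j + r i / r j * rg r v (i + 1) (j - (i + 1))) (v j)
    (rg r v (j + 1) (n - (j + 1)))

section low
variable {r v w : ℕ → ℕ} {n i j : ℕ}

theorem vol_parL (hij : i < j) (hn : j < n) (hr : r j ∣ r i) :
    lay5.vol (parL r n i j) = wt r n := by
  obtain ⟨c, rfl⟩ := Nat.exists_eq_add_of_le (Nat.succ_le_of_lt hij)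
  obtain ⟨d, rfl⟩ := Nat.exists_eq_add_of_le (Nat.succ_le_of_lt hn)
  simp only [lay5_vol, parL, Nat.succ_eq_add_one, Nat.add_sub_cancel_left] at hr ⊢
  rw [wt_add, wt_succ, wt_add, wt_succ]
  conv_rhs => rw [← Nat.mul_div_cancel' hr]
  ring

theorem pos_foldL (v : ℕ → ℕ) (hij : i < j) (hn : j < n) (hr : r j ∣ r i) :
    lay5.pos (parL r n i j) (foldL r n i j v) = pos r v n := by
  obtain ⟨c, rfl⟩ := Nat.exists_eq_add_of_le (Nat.succ_le_of_lt hij)
  obtain ⟨d, rfl⟩ := Nat.exists_eq_add_of_le (Nat.succ_le_of_lt hn)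
  simp only [lay5_pos, parL, foldL, Nat.succ_eq_add_one, Nat.add_sub_cancel_left, ad5_0, ad5_1,
    ad5_2, ad5_3, ad5_4] at hr ⊢
  rw [pos_add, pos_succ, pos_add, pos_succ, wt_succ r (i + 1 + c), wt_add r (i + 1) c,
    wt_succ r i]
  have e1 := Nat.mul_div_cancel' hr
  have e2 := Nat.mod_add_div (v i) (r (i + 1 + c))
  generalize r i / r (i + 1 + c) = x at *
  generalize v i / r (i + 1 + c) = y at *
  generalize v i % r (i + 1 + c) = z at *
  rw [← e1, ← e2]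
  ring

theorem val_foldL (hv : Val r n v) (hij : i < j) (hn : j < n) (hr : r j ∣ r i) :
    lay5.Val (parL r n i j) (foldL r n i j v) := by
  rw [lay5_val]
  simp only [parL, foldL, ad5_0, ad5_1, ad5_2, ad5_3, ad5_4]
  have h1 := hv j hn
  refine ⟨(hv.mono (by omega)).pos_lt, Nat.mod_lt _ (by omega), ?_, h1, hv.rg_lt (by omega)⟩
  have h2 : v i / r j < r i / r j := Nat.div_lt_div_of_lt_of_dvd hr (hv i (by omega))
  have h3 : rg r v (i + 1) (j - (i + 1)) < rwt r (i + 1) (j - (i + 1)) := hv.rg_lt (by omega)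
  have h4 := Nat.mul_le_mul_left (r i / r j) (Nat.succ_le_of_lt h3)
  rw [Nat.mul_succ] at h4
  omega

end low

/-- The layout `[B / W | y × m | ytop | A2 | x × m | xtop | A1]`. -/
def layR (m W : ℕ) : Lay (ℕ × ℕ × ℕ × ℕ) :=
  ⟨fun _ => 2 * m + 5, fun q k => if k = 0 then q.1 / W else
      if k ≤ m then 11 ^ (Nat.log 11 q.2.1 / m) else
      if k = m + 1 then 11 ^ (Nat.log 11 q.2.1 % m) else
      if k = m + 2 then q.2.2.1 else
      if k ≤ 2 * m + 2 then 11 ^ (Nat.log 11 q.2.1 / m) else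
      if k = 2 * m + 3 then 11 ^ (Nat.log 11 q.2.1 % m) else q.2.2.2,
    by fun_prop, by fun_prop, by fun_prop⟩

section layR
variable {m W B u A2 A1 : ℕ}

theorem layR_n (m W : ℕ) (q : ℕ × ℕ × ℕ × ℕ) : (layR m W).n q = 2 * m + 5 := rfl

theorem layR_zero (m W : ℕ) (q : ℕ × ℕ × ℕ × ℕ) : (layR m W).r q 0 = q.1 / W := rfl

theorem layR_ne (m W W' : ℕ) (q : ℕ × ℕ × ℕ × ℕ) {k : ℕ} (hk : k ≠ 0) :
    (layR m W).r q k = (layR m W').r q k := by
  simp only [layR, if_neg hk]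

theorem layR_y (W B u A2 A1 : ℕ) {k : ℕ} (hk : k < m) :
    (layR m W).r (B, 11 ^ u, A2, A1) (1 + k) = 11 ^ (u / m) := by
  simp only [layR, Nat.log_pow (by norm_num : 1 < 11)]
  rw [if_neg (by omega), if_pos (by omega)]

theorem layR_yt (m W B u A2 A1 : ℕ) :
    (layR m W).r (B, 11 ^ u, A2, A1) (1 + m) = 11 ^ (u % m) := by
  simp only [layR, Nat.log_pow (by norm_num : 1 < 11)]
  rw [if_neg (by omega), if_neg (by omega), if_pos (by omega)]

theorem layR_mid (m W B u A2 A1 : ℕ) :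
    (layR m W).r (B, 11 ^ u, A2, A1) (1 + (m + 1)) = A2 := by
  simp only [layR]
  rw [if_neg (by omega), if_neg (by omega), if_neg (by omega), if_pos (by omega)]

theorem layR_x (W B u A2 A1 : ℕ) {k : ℕ} (hk : k < m) :
    (layR m W).r (B, 11 ^ u, A2, A1) (m + 3 + k) = 11 ^ (u / m) := by
  simp only [layR, Nat.log_pow (by norm_num : 1 < 11)]
  rw [if_neg (by omega), if_neg (by omega), if_neg (by omega), if_neg (by omega),
    if_pos (by omega)]

theorem layR_xt (m W B u A2 A1 : ℕ) :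
    (layR m W).r (B, 11 ^ u, A2, A1) (m + 3 + m) = 11 ^ (u % m) := by
  simp only [layR, Nat.log_pow (by norm_num : 1 < 11)]
  rw [if_neg (by omega), if_neg (by omega), if_neg (by omega), if_neg (by omega),
    if_neg (by omega), if_pos (by omega)]

theorem layR_top (m W B u A2 A1 : ℕ) :
    (layR m W).r (B, 11 ^ u, A2, A1) (m + 3 + (m + 1)) = A1 := by
  simp only [layR]
  rw [if_neg (by omega), if_neg (by omega), if_neg (by omega), if_neg (by omega),
    if_neg (by omega), if_neg (by omega)]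

theorem layR_yx (m W B u A2 A1 : ℕ) : ∀ k < m + 1, (layR m W).r (B, 11 ^ u, A2, A1) (1 + k) =
    (layR m W).r (B, 11 ^ u, A2, A1) (m + 3 + k) := by
  intro k hk
  rcases Nat.lt_succ_iff_lt_or_eq.mp hk with h | rfl
  · rw [layR_y _ _ _ _ _ h, layR_x _ _ _ _ _ h]
  · rw [layR_yt, layR_xt]

theorem layR_pos (m : ℕ) {q : ℕ × ℕ × ℕ × ℕ} (h0 : 0 < q.1 / W) (h2 : 0 < q.2.2.1)
    (h1 : 0 < q.2.2.2) (k : ℕ) : 0 < (layR m W).r q k := by
  simp only [layR]
  split_ifs <;> first | assumption | positivity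

theorem par5_layR (m W B u A2 A1 : ℕ) :
    par5 ((layR m W).r (B, 11 ^ u, A2, A1)) (2 * m + 5) 1 (m + 3) (m + 1) =
      (B / W, 11 ^ u, A2, A1) := by
  simp only [par5]
  rw [show m + 3 - (1 + (m + 1)) = 1 by omega, show 2 * m + 5 - (m + 3 + (m + 1)) = 1 by omega,
    wt_one, rwt_one, rwt_one, layR_mid, layR_top, layR_zero, rwt_succ, layR_yt,
    rwt_const fun k hk => layR_y W B u A2 A1 hk, ← pow_mul, ← pow_add, Nat.div_add_mod']

theorem layR_vol (m W B u A2 A1 : ℕ) :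
    (layR m W).vol (B, 11 ^ u, A2, A1) = lay5.vol (B / W, 11 ^ u, A2, A1) := by
  rw [← par5_layR m]
  exact (vol_par5 (n := 2 * m + 5) (by omega) (by omega) (layR_yx m W B u A2 A1)).symm

end layR

theorem size_div_lt {m u : ℕ} (hm : 2 ≤ m) (hu : m ≤ u) : (u / m).size + 1 ≤ u.size := by
  have h1 : 0 < u.size := Nat.size_pos.mpr (by omega)
  have h2 := Nat.lt_size_self u
  have h3 : u / m < 2 ^ (u.size - 1) := by
    rw [Nat.div_lt_iff_lt_mul (by omega)]
    obtain ⟨s, hs⟩ : ∃ s, u.size = s + 1 := ⟨u.size - 1, by omega⟩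
    rw [hs] at h2 ⊢
    rw [Nat.add_sub_cancel]
    rw [pow_succ] at h2
    exact h2.trans_le (Nat.mul_le_mul_left _ hm)
  have := Nat.size_le.mpr h3
  omega

end SwAux

end Crest.Agent.R326
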