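/-
R326/GatB: linear-time rearrangements, part B (scaling, dealing, small hard shifts, bit flips).
-/
import Crest.Agent.R326.GatA

set_option autoImplicit false
set_option linter.unusedSimpArgs false
set_option linter.unusedSectionVars false
set_option linter.unusedVariables false

namespace Crest.Agent.R326

open Function Crest.Agent.Lib.PolyTime

variable {α β P X : Type} [Enc P] [Enc X] {𝔅 : Bud α} {p : α → P} {Λ Λ' : Lay P} {b b' : ℕ}


/-! ### Helpers -/

/-- An address that agrees with `v` outside a range of fields and has a prescribed value there. -/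
theorem exists_put {r v : ℕ → ℕ} {n i len : ℕ} (hv : Val r n v) (hn : i + len ≤ n) (z : ℤ) :
    ∃ u, Val r n u ∧ Out n i len v u ∧ (rg r u i len : ℤ) ≡ z [ZMOD rwt r i len] := by
  have hN : (0 : ℤ) < rwt r i len := by exact_mod_cast (Nat.zero_le _).trans_lt (hv.rg_lt hn)
  refine ⟨put r v i len (z % rwt r i len).toNat, hv.put _, fun k _ hk => (put_out _ _ _ hk).symm, ?_⟩
  rw [rg_put, Int.natCast_mod, Int.toNat_of_nonneg (Int.emod_nonneg _ hN.ne')]
  exact (Int.mod_modEq _ _).trans (Int.mod_modEq _ _)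

theorem Out.symm {n i len : ℕ} {v w : ℕ → ℕ} (h : Out n i len v w) : Out n i len w v :=
  fun k h1 h2 => (h k h1 h2).symm

theorem Out.trans {n i len : ℕ} {u v w : ℕ → ℕ} (h : Out n i len u v) (h' : Out n i len v w) :
    Out n i len u w := fun k h1 h2 => (h k h1 h2).trans (h' k h1 h2)

theorem nat_eq_of_zmod {a b N : ℕ} (ha : a < N) (hb : b < N) (h : (a : ℤ) ≡ b [ZMOD N]) : a = b := by
  have := Int.natCast_modEq_iff.1 h
  exact this.eq_of_lt_of_lt ha hb

theorem xor_two_pow_eq_add {x j : ℕ} (h : x.testBit j = false) : x ^^^ 2 ^ j = x + 2 ^ j := by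
  induction j generalizing x with
  | zero =>
    have h1 : (x ^^^ 2 ^ 0) / 2 = x / 2 := by rw [Nat.xor_div_two]; simp
    have h2 : (x ^^^ 2 ^ 0) % 2 = (x + 2 ^ 0) % 2 := Nat.xor_mod_two_eq
    simp only [Nat.testBit_zero, decide_eq_false_iff_not] at h
    omega
  | succ j ih =>
    have h1 : (x ^^^ 2 ^ (j + 1)) / 2 = x / 2 + 2 ^ j := by
      rw [Nat.xor_div_two, pow_succ, Nat.mul_div_cancel _ two_pos, ih (by rwa [← Nat.testBit_succ])]
    have h2 : (x ^^^ 2 ^ (j + 1)) % 2 = (x + 2 ^ (j + 1)) % 2 := Nat.xor_mod_two_eq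
    rw [pow_succ] at *
    omega

/-- The xor of a fixed number of arrays. -/
theorem L.xorAll {x : β → X} {𝔅 : Bud β} {len : β → ℕ} (m : ℕ) (E : ℕ → β → Arr)
    (hz : L 𝔅 x fun a => List.replicate (len a) false) (hE : ∀ k < m, L 𝔅 x (E k))
    (hl : ∀ k < m, ∀ a, (E k a).length = len a) :
    ∃ A : β → Arr, L 𝔅 x A ∧ ∀ a, (A a).length = len a ∧ ∀ j k0,
      (∀ k < m, k ≠ k0 → bit (E k a) j = false) →
        bit (A a) j = (decide (k0 < m) && bit (E k0 a) j) := by
  induction m with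
  | zero => exact ⟨_, hz, fun a => ⟨by simp, fun j k0 _ => by
      rw [bit_replicate_false]; simp⟩⟩
  | succ m ih =>
    obtain ⟨A, h1, h2⟩ := ih (fun k hk => hE k (by omega)) fun k hk => hl k (by omega)
    refine ⟨_, h1.xorArr (hE m (by omega)), fun a => ⟨by simp [(h2 a).1, hl m (by omega) a],
      fun j k0 h => ?_⟩⟩
    rw [bit_zipWith_xor (by rw [(h2 a).1, hl m (by omega) a]),
      (h2 a).2 j k0 fun k hk => h k (by omega)]
    by_cases e : m = k0
    · subst e; simp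
    · rw [h m (by omega) e]
      have : k0 < m + 1 ↔ k0 < m := by omega
      simp [this]

/-- A rearrangement inside blocks that moves chunks of length `u`. -/
theorem Gat.ofBlock (hF : Fam 𝔅.V p Λ b) {i len : P → ℕ} (hi : PT i) (hl : PT len)
    (hb : ∀ a, b ≤ i (p a) + len (p a)) (hn : ∀ a, i (p a) + len (p a) ≤ Λ.n (p a))
    (R : ℕ → ℕ → ℕ → Prop)
    (body : ∀ (γ : Type) (𝔅' : Bud γ) (x : γ → (P × ℕ) × Arr) (φ : γ → α) (u N : γ → ℕ)
      (B : γ → Arr), (∀ c, N c = rwt (Λ.r (p (φ c))) (i (p (φ c))) (len (p (φ c)))) →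
      S 𝔅' x u → S 𝔅' x N → L 𝔅' x B → (∀ c, 0 < u c) → (∀ c, 0 < N c) →
      (∀ c, (B c).length = u c * N c) → (fun c => u c * N c) ≼ 𝔅'.V →
      ∃ B' : γ → Arr, L 𝔅' x B' ∧ ∀ c, (B' c).length = u c * N c ∧ ∀ x < u c, ∀ y < N c,
        ∀ y' < N c, R (N c) y y' → bit (B' c) (x + u c * y) = bit (B c) (x + u c * y')) :
    Gat 𝔅 p Λ Λ (fun a v w => Out (Λ.n (p a)) (i (p a)) (len (p a)) v w ∧
      R (rwt (Λ.r (p a)) (i (p a)) (len (p a))) (rg (Λ.r (p a)) v (i (p a)) (len (p a)))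
        (rg (Λ.r (p a)) w (i (p a)) (len (p a)))) fun _ => 0 := by
  let u : P → ℕ := fun q => wt (Λ.r q) (min (i q) (Λ.n q))
  let N : P → ℕ := fun q => rwt (Λ.r q) (i q) (min (len q) (Λ.n q))
  let cnt : P → ℕ := fun q =>
    rwt (Λ.r q) (i q + len q) (min (Λ.n q - (i q + len q)) (Λ.n q))
  have hu : PT u := Λ.pt_wt PT.id' hi
  have hN : PT N := Λ.pt_rwt PT.id' hi hl
  have hc : PT cnt := Λ.pt_rwt PT.id' (by fun_prop) (by fun_prop)
  have eu : ∀ a, u (p a) = wt (Λ.r (p a)) (i (p a)) := fun a => by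
    simp only [u]; rw [min_eq_left (by have := hn a; omega)]
  have eN : ∀ a, N (p a) = rwt (Λ.r (p a)) (i (p a)) (len (p a)) := fun a => by
    simp only [N]; rw [min_eq_left (by have := hn a; omega)]
  have ec : ∀ a, cnt (p a) =
      rwt (Λ.r (p a)) (i (p a) + len (p a)) (Λ.n (p a) - (i (p a) + len (p a))) := fun a => by
    simp only [cnt]; rw [min_eq_left (by omega)]
  have eg : ∀ a, u (p a) * N (p a) = wt (Λ.r (p a)) (i (p a) + len (p a)) := fun a => by
    rw [eu, eN, wt_add]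
  have ev : ∀ a, u (p a) * N (p a) * cnt (p a) = Λ.vol (p a) := fun a => by
    rw [eu, eN, ec, Lay.vol, wt_split _ (hn a), mul_assoc]
  have hg0 : ∀ a, 0 < u (p a) * N (p a) := fun a => by rw [eg]; exact hF.wt_pos a (hn a)
  have hsm : SmIn (fun a => u (p a) * N (p a)) p := by
    simp only [eg]; exact hF.sm_at hb hn
  have hV : (fun a => cnt (p a) * (u (p a) * N (p a))) ≼ 𝔅.V :=
    hF.vol.mono_left fun a => by rw [← ev, mul_comm]
  have hgV : (fun a => u (p a) * N (p a)) ≼ 𝔅.V := hF.vol.mono_left fun a => by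
    rw [eg]; exact Nat.le_of_dvd (hF.vol_pos a) (wt_dvd _ (hn a))
  have key := Impl.blocks (𝔅 := 𝔅) (p := p) (g := fun q => u q * N q) (g' := fun q => u q * N q)
    (cnt := cnt) (by fun_prop) hc (fun a => u (p a) * N (p a))
    (fun a => ((u (p a) * N (p a) : ℕ) : ℝ)) (fun _ => 0) (fun _ => le_rfl) hsm hF.smV hg0
    (OLe.refl _) hgV hV ((Bud.toF hV).mono_left fun a => by push_cast; rfl)
    (PreB := fun _ _ _ => True)
    (PostB := fun a _ B B' => ∀ x < u (p a), ∀ y < N (p a), ∀ y' < N (p a), R (N (p a)) y y' →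
      bit B' (x + u (p a) * y) = bit B (x + u (p a) * y')) ?_
  · refine key.mono (fun a D hD => ⟨hD.trans (ev a).symm, fun _ _ => trivial⟩)
      (fun a D D' hD e => ⟨e.1.trans (ev a), fun v w hv hw h => ?_⟩) fun _ => by simp
    have h1 := pos_split (Λ.r (p a)) v (hn a)
    have h2 := pos_split (Λ.r (p a)) w (hn a)
    have e1 : pos (Λ.r (p a)) w (i (p a)) = pos (Λ.r (p a)) v (i (p a)) :=
      pos_congr (fun _ _ => rfl) fun k hk => (h.1 k (by have := hn a; omega) (Or.inl hk)).symm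
    have e2 : rg (Λ.r (p a)) w (i (p a) + len (p a)) (Λ.n (p a) - (i (p a) + len (p a))) =
        rg (Λ.r (p a)) v (i (p a) + len (p a)) (Λ.n (p a) - (i (p a) + len (p a))) :=
      rg_congr (fun _ _ => rfl) fun k hk => (h.1 _ (by omega) (Or.inr (by omega))).symm
    have b1 := (R326.Val.mono hv (by have := hn a; omega : i (p a) ≤ Λ.n (p a))).pos_lt
    have b2 := R326.Val.rg_lt hv (hn a)
    have b3 := R326.Val.rg_lt hw (hn a)
    have b4 := R326.Val.rg_lt hv (i := i (p a) + len (p a))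
      (len := Λ.n (p a) - (i (p a) + len (p a))) (by have := hn a; omega)
    rw [e1, e2] at h2
    rw [← eu] at b1 h1 h2
    have hR := h.2
    rw [← eN] at b2 b3 h1 h2 hR
    rw [← ec] at b4
    have := e.2 _ b4 _ b1 _ b2 _ b3 hR
    rw [bit_blk _ _ (by nlinarith), bit_blk _ _ (by nlinarith)] at this
    rw [Lay.pos, Lay.pos, h1, h2]
    convert this using 2 <;> ring
  · have hsm' : SmIn (fun q : (a : α) × Fin (cnt (p a)) => u (p q.1) * N (p q.1))
        fun q => (p q.1, q.2.1) :=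
      (hsm.comp _).pair (((hsm.pt hc).comp _).nat_le fun q => q.2.2.le)
    refine Impl.intro (sz_pair (hsm'.size_le.comp _) (sz_bits (OLe.of_le fun q => q.2.1.le)
      fun q => hg0 _)) fun γ φ D hD hs => ?_
    have h0 : S _ (fun c => ((p (φ c).1, (φ c).2.1), D c)) fun c => p (φ c).1 :=
      ⟨(L.in1 ((𝔅.sub (fun q : (a : α) × Fin (cnt (p a)) => q.1) (fun q => u (p q.1) * N (p q.1))
        (fun q => ((u (p q.1) * N (p q.1) : ℕ) : ℝ)) fun _ => le_rfl).comap φ) _ _).fst,
        hsm.comp fun c => (φ c).1⟩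
    obtain ⟨B', k1, k2⟩ := body γ _ _ (fun c => (φ c).1) _ _ D (fun c => eN _) (h0.pt hu) (h0.pt hN)
      (L.in2 _ _ _) (fun c => Nat.pos_of_mul_pos_right (hg0 (φ c).1))
      (fun c => Nat.pos_of_mul_pos_left (hg0 (φ c).1)) (fun c => (hD c).1) (OLe.refl _)
    exact ⟨B', k2, k1⟩

theorem bit_flatten_replicate {g : ℕ} (B : Arr) (hB : B.length = g) {c x t : ℕ} (hx : x < g)
    (ht : t < c) : bit (List.replicate c B).flatten (x + g * t) = bit B x := by
  rw [← bit_blk t _ hx, blk_flatten (fun c hc => by rw [List.eq_of_mem_replicate hc, hB])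
    (by simpa using ht)]
  simp [List.getD_eq_getElem?_getD, ht]

theorem L.rep_const {x : β → X} {𝔅 : Bud β} {B : β → Arr} (hB : L 𝔅 x B) (c : ℕ) :
    L 𝔅 x fun a => (List.replicate c (B a)).flatten := by
  induction c with
  | zero => exact (L.const []).congr fun _ => rfl
  | succ c ih => exact (hB.append ih).congr fun a => by simp [List.replicate_succ]

theorem Gat.nmul (hF : Fam 𝔅.V p Λ b) (c : ℕ) {i len : P → ℕ} (hi : PT i) (hl : PT len)
    (hb : ∀ a, b ≤ i (p a) + len (p a)) (hn : ∀ a, i (p a) + len (p a) ≤ Λ.n (p a)) :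
    Gat 𝔅 p Λ Λ (fun a v w => Out (Λ.n (p a)) (i (p a)) (len (p a)) v w ∧
      (rg (Λ.r (p a)) w (i (p a)) (len (p a)) : ℤ) ≡ c * rg (Λ.r (p a)) v (i (p a)) (len (p a))
        [ZMOD rwt (Λ.r (p a)) (i (p a)) (len (p a))]) fun _ => 0 := by
  refine Gat.ofBlock hF hi hl hb hn (fun N y y' => (y' : ℤ) ≡ c * y [ZMOD N])
    fun γ 𝔅' x φ u N B _ hu hN hB hu0 hN0 hlen hV => ?_
  have huV : u ≼ 𝔅'.V := hV.mono_left fun a => Nat.le_mul_of_pos_right _ (hN0 a)
  have hNV : N ≼ 𝔅'.V := hV.mono_left fun a => Nat.le_mul_of_pos_left _ (hu0 a)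
  rcases Nat.eq_zero_or_pos c with rfl | hc
  · have hlt : ∀ a, ((B a).take (u a)).length = u a := fun a => by
      rw [List.length_take, hlen, min_eq_left (Nat.le_mul_of_pos_right _ (hN0 a))]
    refine ⟨fun a => (List.replicate (N a) ((B a).take (u a))).flatten,
      (L.replicate (hN.un hNV) (L.take (hu.un huV) hB) ?_).flatten, fun a => ⟨?_, ?_⟩⟩
    · refine ((hV.const_mul 4).add hNV).mono_left fun a => ?_
      have := esize_boolList_le ((B a).take (u a))
      rw [hlt] at this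
      nlinarith
    · simp [hlt, mul_comm]
    · intro x hx y hy y' hy' h
      have e : y' = 0 := nat_eq_of_zmod hy' (hN0 a) (by simpa using h)
      rw [bit_flatten_replicate _ (hlt a) hx hy, e, ← bit_blk 0 _ hx]
      simp [blk]
  · refine ⟨fun a => resp (c * u a) (u a) (N a) (List.replicate c (B a)).flatten,
      L.resp ((hu.const c).mul hu) hu hN (hB.rep_const c) (fun a => Nat.mul_pos hc (hu0 a))
        (huV.const_mul c) huV hV, fun a => ⟨by simp, fun x hx y hy y' hy' h => ?_⟩⟩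
    have e : y' = c * y % N a := nat_eq_of_zmod hy' (Nat.mod_lt _ (hN0 a))
      (h.trans (by push_cast; exact (Int.mod_modEq _ _).symm))
    have e2 : x + c * u a * y = (x + u a * y') + u a * N a * (c * y / N a) := by
      have := Nat.mod_add_div (c * y) (N a)
      rw [← e] at this
      calc x + c * u a * y = x + u a * (c * y) := by ring
        _ = x + u a * (y' + N a * (c * y / N a)) := by rw [this]
        _ = _ := by ring
    rw [bit_resp _ _ hx hy, decide_eq_true (hx.trans_le (Nat.le_mul_of_pos_left _ hc)),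
      Bool.true_and, e2, bit_flatten_replicate _ (hlen a) (by nlinarith)
        (Nat.div_lt_of_lt_mul (by nlinarith))]

theorem Gat.ndiv (hF : Fam 𝔅.V p Λ b) (c : ℕ) (hc0 : 0 < c) {i len : P → ℕ} (hi : PT i)
    (hl : PT len) (hb : ∀ a, b ≤ i (p a) + len (p a))
    (hn : ∀ a, i (p a) + len (p a) ≤ Λ.n (p a))
    (hc : ∀ a, c.Coprime (rwt (Λ.r (p a)) (i (p a)) (len (p a)))) :
    Gat 𝔅 p Λ Λ (fun a v w => Out (Λ.n (p a)) (i (p a)) (len (p a)) v w ∧
      (rg (Λ.r (p a)) v (i (p a)) (len (p a)) : ℤ) ≡ c * rg (Λ.r (p a)) w (i (p a)) (len (p a))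
        [ZMOD rwt (Λ.r (p a)) (i (p a)) (len (p a))]) fun _ => 0 := by
  refine Gat.ofBlock hF hi hl hb hn (fun N y y' => (y : ℤ) ≡ c * y' [ZMOD N])
    fun γ 𝔅' x φ u N B eN hu hN hB hu0 hN0 hlen hV => ?_
  have huV : u ≼ 𝔅'.V := hV.mono_left fun a => Nat.le_mul_of_pos_right _ (hN0 a)
  have hE : L 𝔅' x fun a => resp (u a) (c * u a) (N a) (B a) :=
    L.resp hu ((hu.const c).mul hu) hN hB hu0 huV (huV.const_mul c)
      ((hV.const_mul c).mono_left fun a => le_of_eq (by ring))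
  have hg := (hu.mul hN).un hV
  obtain ⟨A, h1, h2⟩ := L.xorAll (x := x) (len := fun a => u a * N a) c
    (fun k a => blk (u a * N a) k (resp (u a) (c * u a) (N a) (B a))) (hg.replicate_const false)
    (fun k _ => L.take hg (L.drop (((hu.mul hN).mul (hu.const k)).un (hV.mul_const k)) hE))
    fun k hk a => length_blk (by
      rw [length_resp]
      calc u a * N a * (k + 1) ≤ u a * N a * c := Nat.mul_le_mul_left _ hk
        _ = _ := by ring)
  refine ⟨A, h1, fun a => ⟨(h2 a).1, fun x hx y hy y' hy' h => ?_⟩⟩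
  have hlt : x + u a * y < u a * N a := by nlinarith
  have e : y = c * y' % N a := nat_eq_of_zmod hy (Nat.mod_lt _ (hN0 a))
    (h.trans (by push_cast; exact (Int.mod_modEq _ _).symm))
  have e1 := Nat.mod_add_div (c * y') (N a)
  rw [← e] at e1
  have hk0 : c * y' / N a < c := Nat.div_lt_of_lt_mul (by nlinarith)
  rw [(h2 a).2 _ (c * y' / N a) fun k hk hne => ?_, decide_eq_true hk0, Bool.true_and,
    bit_blk _ _ hlt, show x + u a * y + u a * N a * (c * y' / N a) = x + c * u a * y' by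
      calc _ = x + u a * (y + N a * (c * y' / N a)) := by ring
        _ = _ := by rw [e1]; ring,
    bit_resp _ _ (hx.trans_le (Nat.le_mul_of_pos_left _ hc0)) hy', decide_eq_true hx, Bool.true_and]
  have m1 := Nat.mod_add_div (y + N a * k) c
  have m2 : (y + N a * k) % c < c := Nat.mod_lt _ hc0
  have m3 : (y + N a * k) % c ≠ 0 := fun h0 => hne (by
    have d1 : y + N a * k ≡ y + N a * (c * y' / N a) [MOD c] := by
      rw [e1]
      exact ((Nat.modEq_zero_iff_dvd).2 (Nat.dvd_of_mod_eq_zero h0)).trans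
        ((Nat.modEq_zero_iff_dvd).2 (dvd_mul_right _ _)).symm
    have d2 := Nat.ModEq.cancel_left_of_coprime (by rw [eN]; exact hc _) (d1.add_left_cancel' _)
    exact d2.eq_of_lt_of_lt hk hk0)
  rw [bit_blk _ _ hlt, show x + u a * y + u a * N a * k =
      (x + u a * ((y + N a * k) % c)) + c * u a * ((y + N a * k) / c) by
      calc _ = x + u a * (y + N a * k) := by ring
        _ = x + u a * ((y + N a * k) % c + c * ((y + N a * k) / c)) := by rw [m1]
        _ = _ := by ring,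
    bit_resp _ _ (by nlinarith) (Nat.div_lt_of_lt_mul (by nlinarith)),
    decide_eq_false (by have := Nat.pos_of_ne_zero m3; nlinarith), Bool.false_and]

/-- `new[y] = old[-y]`. -/
theorem Gat.neg (hF : Fam 𝔅.V p Λ b) {i len : P → ℕ} (hi : PT i) (hl : PT len)
    (hb : ∀ a, b ≤ i (p a) + len (p a)) (hn : ∀ a, i (p a) + len (p a) ≤ Λ.n (p a)) :
    Gat 𝔅 p Λ Λ (fun a v w => Out (Λ.n (p a)) (i (p a)) (len (p a)) v w ∧
      (rg (Λ.r (p a)) w (i (p a)) (len (p a)) : ℤ) ≡ -rg (Λ.r (p a)) v (i (p a)) (len (p a))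
        [ZMOD rwt (Λ.r (p a)) (i (p a)) (len (p a))]) fun _ => 0 := by
  refine ((Gat.rev hF hi hl hb hn).comp0 (Gat.zadd hF (g := fun _ => -1) hi hl (PT.const _)
    hb hn)).mono fun a v w hv hw h => ?_
  obtain ⟨u, h1, h2, h3⟩ := exists_put hv (hn a) (rg (Λ.r (p a)) v (i (p a)) (len (p a)) + -1)
  refine ⟨u, h1, ⟨h2, h3⟩, h2.symm.trans h.1, ?_⟩
  have b1 := R326.Val.rg_lt h1 (hn a)
  have b2 := R326.Val.rg_lt hw (hn a)
  have h4 := h.2
  generalize rwt (Λ.r (p a)) (i (p a)) (len (p a)) = N at *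
  generalize rg (Λ.r (p a)) u (i (p a)) (len (p a)) = yu at *
  generalize rg (Λ.r (p a)) w (i (p a)) (len (p a)) = yw at *
  generalize rg (Λ.r (p a)) v (i (p a)) (len (p a)) = yv at *
  have h5 : ((N - 1 - yw : ℕ) : ℤ) ≡ yu [ZMOD N] := by
    rw [Nat.cast_sub (by omega), Nat.cast_sub (by omega)]
    have h6 : (N : ℤ) ≡ 0 [ZMOD N] := by simp [Int.ModEq]
    have := ((h6.sub_right 1).sub h4).trans (Int.ModEq.trans (by ring_nf; rfl) h3.symm)
    simpa using this
  have := nat_eq_of_zmod (by omega) b1 h5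
  omega

/-- `new[y] = old[c y]`.  Recipe: for `c > 0`, `Impl.blocks` with `g = wt r (i + len)`: repeat the
block `c` times, cut into chunks of length `c * u` (`u = wt r i`), keep the first `u` bits of each.
For `c = 0` every chunk is the first one.  Negative `c`: compose with `Gat.rev` and `Gat.zadd`. -/
theorem Gat.zmul (hF : Fam 𝔅.V p Λ b) (c : ℤ) {i len : P → ℕ} (hi : PT i) (hl : PT len)
    (hb : ∀ a, b ≤ i (p a) + len (p a)) (hn : ∀ a, i (p a) + len (p a) ≤ Λ.n (p a)) :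
    Gat 𝔅 p Λ Λ (fun a v w => Out (Λ.n (p a)) (i (p a)) (len (p a)) v w ∧
      (rg (Λ.r (p a)) w (i (p a)) (len (p a)) : ℤ) ≡ c * rg (Λ.r (p a)) v (i (p a)) (len (p a))
        [ZMOD rwt (Λ.r (p a)) (i (p a)) (len (p a))]) fun _ => 0 := by
  obtain ⟨c, rfl | rfl⟩ := Int.eq_nat_or_neg c
  · exact Gat.nmul hF c hi hl hb hn
  · refine ((Gat.nmul hF c hi hl hb hn).comp0 (Gat.neg hF hi hl hb hn)).mono
      fun a v w hv hw h => ?_
    obtain ⟨u, h1, h2, h3⟩ := exists_put hv (hn a) (-rg (Λ.r (p a)) v (i (p a)) (len (p a)))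
    exact ⟨u, h1, ⟨h2, h3⟩, h2.symm.trans h.1,
      h.2.trans (Int.ModEq.trans (by ring_nf; rfl) (h3.mul_left c).symm)⟩

/-- `new[c y] = old[y]` for `c` prime to the radix.  Recipe (`c > 0`): pad every chunk of length
`u` with `(c - 1) u` zeros, cut the result into `c` pieces of block length and xor them. -/
theorem Gat.zdiv (hF : Fam 𝔅.V p Λ b) (c : ℤ) {i len : P → ℕ} (hi : PT i) (hl : PT len)
    (hb : ∀ a, b ≤ i (p a) + len (p a)) (hn : ∀ a, i (p a) + len (p a) ≤ Λ.n (p a))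
    (hc : ∀ a, c.natAbs.Coprime (rwt (Λ.r (p a)) (i (p a)) (len (p a)))) :
    Gat 𝔅 p Λ Λ (fun a v w => Out (Λ.n (p a)) (i (p a)) (len (p a)) v w ∧
      (rg (Λ.r (p a)) v (i (p a)) (len (p a)) : ℤ) ≡ c * rg (Λ.r (p a)) w (i (p a)) (len (p a))
        [ZMOD rwt (Λ.r (p a)) (i (p a)) (len (p a))]) fun _ => 0 := by
  rcases eq_or_ne c 0 with rfl | hc0
  · refine (Gat.ndiv hF 1 one_pos hi hl hb hn fun a => Nat.coprime_one_left _).mono
      fun a v w hv hw h => ⟨h.1, ?_⟩
    have := hc a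
    simp only [Int.natAbs_zero, Nat.coprime_zero_left] at this
    rw [this]
    exact Int.modEq_one
  obtain ⟨c, rfl | rfl⟩ := Int.eq_nat_or_neg c
  · exact Gat.ndiv hF c (Nat.pos_of_ne_zero fun h => hc0 (by simp [h])) hi hl hb hn
      (by simpa using hc)
  · refine ((Gat.ndiv hF c (Nat.pos_of_ne_zero fun h => hc0 (by simp [h])) hi hl hb hn
      (by simpa using hc)).comp0 (Gat.neg hF hi hl hb hn)).mono fun a v w hv hw h => ?_
    obtain ⟨u, h1, h2, h3⟩ := exists_put hv (hn a) (-rg (Λ.r (p a)) v (i (p a)) (len (p a)))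
    exact ⟨u, h1, ⟨h2, h3⟩, h2.symm.trans h.1,
      h3.trans (h.2.neg.trans (by ring_nf; rfl))⟩

/-- Add an inner field of bounded radix to an outer field.  Recipe: for each `c < C0` shift field
`j` by `c` (`Gat.zadd`), and choose by the value of field `i` (`Gat.select`, induction). -/
theorem Gat.hardSmall (hF : Fam 𝔅.V p Λ b) (C0 : ℕ) {i j : P → ℕ} (hi : PT i) (hj : PT j)
    (hb : ∀ a, b ≤ i (p a)) (hij : ∀ a, i (p a) < j (p a)) (hn : ∀ a, j (p a) < Λ.n (p a))
    (hC : ∀ a, Λ.r (p a) (i (p a)) ≤ C0) :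
    Gat 𝔅 p Λ Λ (fun a v w => Out (Λ.n (p a)) (j (p a)) 1 v w ∧
      (w (j (p a)) : ℤ) ≡ v (j (p a)) + v (i (p a)) [ZMOD Λ.r (p a) (j (p a))]) fun _ => 0 := by
  have key : ∀ m : ℕ, Gat 𝔅 p Λ Λ (fun a v w => v (i (p a)) < m ∧ Out (Λ.n (p a)) (j (p a)) 1 v w ∧
      (w (j (p a)) : ℤ) ≡ v (j (p a)) + v (i (p a)) [ZMOD Λ.r (p a) (j (p a))]) fun _ => 0 := by
    intro m
    induction m with
    | zero => exact (Gat.id hF).mono fun a v w _ _ h => absurd h.1 (Nat.not_lt_zero _)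
    | succ m ih =>
      refine (((Gat.zadd hF (i := j) (len := fun _ => 1) (g := fun _ => (m : ℤ)) hj (PT.const _)
        (PT.const _) (fun a => by have := hb a; have := hij a; omega) hn).select ih hF (i := i)
        (c := fun z => decide (z.2.getD (i z.1) 0 = m)) hi (by fun_prop) hb
        fun a => by have := hij a; have := hn a; omega).mono_ex fun _ => by simp).mono
        fun a v w hv hw h => ?_
      rw [Λ.od_getD _ v le_rfl ((hij a).trans (hn a))]
      by_cases e : v (i (p a)) = m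
      · rw [if_pos (decide_eq_true e)]
        refine ⟨h.2.1, ?_⟩
        rw [rg_one, rg_one, rwt_one, ← e]
        exact h.2.2
      · rw [if_neg (by simpa using e)]
        exact ⟨by have := h.1; omega, h.2⟩
  exact (key C0).mono fun a v w hv hw h =>
    ⟨(hv _ ((hij a).trans (hn a))).trans_le (hC a), h⟩

/-- Flip bit `j` of field `i`.  Recipe: select between the shifts by `± 2 ^ j`; use
`2 ^ min j (size (r i))` for polynomial time (if `j ≥ size (r i)` the relation is empty on valid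
addresses). -/
theorem Gat.flip (hF : Fam 𝔅.V p Λ b) {i j : P → ℕ} (hi : PT i) (hj : PT j)
    (hb : ∀ a, b ≤ i (p a)) (hn : ∀ a, i (p a) < Λ.n (p a)) :
    Gat 𝔅 p Λ Λ (fun a v w => Out (Λ.n (p a)) (i (p a)) 1 v w ∧
      w (i (p a)) = v (i (p a)) ^^^ 2 ^ j (p a)) fun _ => 0 := by
  have hg : PT fun z : P × List ℕ => ((2 ^ min (j z.1) (Λ.r z.1 (i z.1)).size : ℕ) : ℤ) :=
    PT.int_natCast (PT.nat_pow (PT.const _) (by fun_prop) (PB.min_right (by fun_prop)))
  refine (((Gat.zadd hF (i := i) (len := fun _ => 1) hi (PT.const _) (PT.int_neg hg)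
    (fun a => by have := hb a; omega) hn).select
    (Gat.zadd hF (i := i) (len := fun _ => 1) hi (PT.const _) hg
      (fun a => by have := hb a; omega) hn) hF (i := i)
    (c := fun z => (z.2.getD (i z.1) 0).testBit (j z.1)) hi (by fun_prop) hb
    fun a => (hn a).le).mono_ex fun _ => by simp).mono fun a v w hv hw h => ?_
  rw [Λ.od_getD _ v le_rfl (hn a)]
  simp only [rg_one, rwt_one]
  have b1 := hv _ (hn a)
  have b2 := hw _ (hn a)
  have h2 := h.2
  have hmin : ∀ x < Λ.r (p a) (i (p a)), 2 ^ j (p a) ≤ x →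
      min (j (p a)) (Λ.r (p a) (i (p a))).size = j (p a) := fun x h1 h2 =>
    min_eq_left (Nat.lt_size.2 (h2.trans h1.le)).le
  by_cases e : (v (i (p a))).testBit (j (p a)) = true
  · have e1 : (w (i (p a))).testBit (j (p a)) = false := by
      rw [h2, Nat.testBit_xor, e, Nat.testBit_two_pow_self]; rfl
    have e2 := xor_two_pow_eq_add e1
    rw [h2, Nat.xor_xor_cancel_right, ← h2] at e2
    rw [if_pos e, hmin _ b1 (by omega), e2]
    exact ⟨h.1, by push_cast; ring_nf; rfl⟩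
  · rw [xor_two_pow_eq_add (by simpa using e)] at h2
    rw [if_neg e, hmin _ b2 (by omega), h2]
    exact ⟨h.1, by push_cast; rfl⟩

/-- Relation between an address `v` of register `w0` and the address `w` of the undivided array:
field `i0` of the latter is `v i0 + r' * w0`. -/
def Dealt (n i0 r' w0 : ℕ) (v w : ℕ → ℕ) : Prop := Out n i0 1 v w ∧ w i0 = v i0 + r' * w0

/-- Split an array into `W` registers by the top part of field `i0`.  Recipe: register `w0` is a
`Gat.zadd` on field `i0` by `r' * w0` followed by `Gat.resize` (raise the base with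
`Fam.mono_base` if necessary: `b ≤ i0 + 1`); collect with `Impl.fan`. -/
theorem Impl.deal (hF : Fam 𝔅.V p Λ b) (hF' : Fam 𝔅.V p Λ' b') (i0 W : ℕ) (hb : b ≤ i0 + 1)
    (hn : ∀ a, Λ'.n (p a) = Λ.n (p a)) (hi : ∀ a, i0 < Λ.n (p a))
    (hr : ∀ a, Λ.r (p a) i0 = Λ'.r (p a) i0 * W)
    (hr' : ∀ a, ∀ k < Λ.n (p a), k ≠ i0 → Λ'.r (p a) k = Λ.r (p a) k) :
    Impl 𝔅 p (fun a (D : Arr) => D.length = Λ.vol (p a))
      (fun a D (Ds : List Arr) => Ds.length = W ∧ ∀ w0 < W,
        GPost Λ Λ' (p a) (Dealt (Λ.n (p a)) i0 (Λ'.r (p a) i0) w0) D (Ds.getD w0 []))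
      fun _ => 0 := by
  refine Impl.fan W hF.sz_in (Post := fun w0 a D D' =>
    GPost Λ Λ' (p a) (Dealt (Λ.n (p a)) i0 (Λ'.r (p a) i0) w0) D D') fun w0 hw0 => ?_
  refine ((Gat.zadd hF (i := fun _ => i0) (len := fun _ => 1)
    (g := fun z => ((Λ'.r z.1 i0 * w0 : ℕ) : ℤ)) (PT.const _) (PT.const _) (by fun_prop)
    (fun _ => hb) hi).comp0 (Gat.resize hF hF' (i := fun _ => i0) (PT.const _) hn hi hr')).mono
    (R' := fun a => Dealt (Λ.n (p a)) i0 (Λ'.r (p a) i0) w0) fun a v w hv hw h => ?_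
  refine ⟨v, fun k hk => ?_, fun _ _ => rfl, h.1, ?_⟩
  · have := hv k (hn a ▸ hk)
    by_cases e : k = i0
    · rw [e] at this ⊢
      rw [hr]
      exact this.trans_le (Nat.le_mul_of_pos_right _ (by omega))
    · rwa [hr' a k hk e] at this
  · rw [rg_one, rg_one, h.2]
    push_cast
    rfl

/-- Merge `W` registers.  Recipe: for each `w0` resize register `w0` to the big layout with zero
fill (`Impl.respace`), shift field `i0` by `- r' * w0`, and xor everything (induction on the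
number of registers merged so far); or interleave blocks with `L.chunks`/`L.zipWith`. -/
theorem Impl.undeal (hF : Fam 𝔅.V p Λ b) (hF' : Fam 𝔅.V p Λ' b') (i0 W : ℕ) (hb : b ≤ i0 + 1)
    (hn : ∀ a, Λ'.n (p a) = Λ.n (p a)) (hi : ∀ a, i0 < Λ.n (p a))
    (hr : ∀ a, Λ.r (p a) i0 = Λ'.r (p a) i0 * W)
    (hr' : ∀ a, ∀ k < Λ.n (p a), k ≠ i0 → Λ'.r (p a) k = Λ.r (p a) k) :
    Impl 𝔅 p (fun a (Ds : List Arr) => Ds.length = W ∧ ∀ w0 < W,
        (Ds.getD w0 []).length = Λ'.vol (p a))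
      (fun a Ds (D : Arr) => D.length = Λ.vol (p a) ∧ ∀ w0 < W, ∀ v w, Λ'.Val (p a) v →
        Λ.Val (p a) w → Dealt (Λ.n (p a)) i0 (Λ'.r (p a) i0) w0 v w →
        bit D (Λ.pos (p a) w) = bit (Ds.getD w0 []) (Λ'.pos (p a) v)) fun _ => 0 := by
  have hreg : ∀ w0 < W, Impl 𝔅 p (fun a (D : Arr) => D.length = Λ'.vol (p a))
      (fun a D (E : Arr) => E.length = Λ.vol (p a) ∧ ∀ w1 < W, ∀ v w, Λ'.Val (p a) v →
        Λ.Val (p a) w → Dealt (Λ.n (p a)) i0 (Λ'.r (p a) i0) w1 v w →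
        bit E (Λ.pos (p a) w) = (decide (w1 = w0) && bit D (Λ'.pos (p a) v))) fun _ => 0 := by
    intro w0 hw0
    refine ((Impl.respace hF' hF (i := fun _ => i0 + 1) (i' := fun _ => i0 + 1) (PT.const _)
      (PT.const _) (fun a => hn a ▸ hi a) hi).comp
      (Gat.zadd hF (i := fun _ => i0) (len := fun _ => 1)
        (g := fun z => -((Λ'.r z.1 i0 * w0 : ℕ) : ℤ)) (PT.const _) (PT.const _) (by fun_prop)
        (fun _ => hb) hi) fun _ _ _ _ e => e.1).mono (fun _ _ h => h)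
      (fun a D E hD e => ?_) fun _ => by simp
    obtain ⟨D1, e1, e2⟩ := e
    refine ⟨e2.1, fun w1 hw1 v w hv hw h => ?_⟩
    obtain ⟨u, h1, h2, h3⟩ := exists_put (i := i0) (len := 1) hw (hi a)
      (rg (Λ.r (p a)) w i0 1 + -((Λ'.r (p a) i0 * w0 : ℕ) : ℤ))
    rw [e2.2 w u hw h1 ⟨h2, h3⟩, e1.2 u h1]
    rw [rg_one, rg_one, rwt_one, h.2, hr] at h3
    have b0 := hv i0 (hn a ▸ hi a)
    have b1 := h1 i0 (hi a)
    rw [hr] at b1
    have ew : wt (Λ'.r (p a)) i0 = wt (Λ.r (p a)) i0 :=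
      wt_congr fun k hk => hr' a k (hk.trans (hi a)) hk.ne
    have b2 := (R326.Val.mono h1 (hi a).le).pos_lt
    have huv := h.1.trans h2
    rw [pos_succ, wt_succ, ew]
    by_cases e : w1 = w0
    · subst e
      have e3 : u i0 = v i0 := nat_eq_of_zmod b1
        (b0.trans_le (Nat.le_mul_of_pos_right _ (by omega))) (h3.trans (by push_cast; ring_nf; rfl))
      rw [decide_eq_true rfl, decide_eq_true (by rw [e3]; nlinarith)]
      congr 2
      have := pos_add (Λ'.r (p a)) v (i0 + 1) (Λ.n (p a) - (i0 + 1))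
      rw [Nat.add_sub_cancel' (hi a), pos_succ, wt_succ, ew] at this
      rw [Lay.pos, hn, this, e3,
        pos_congr (r := Λ.r (p a)) (r' := Λ'.r (p a)) (v := u) (w := v)
          (fun k hk => (hr' a k (hk.trans (hi a)) hk.ne).symm)
          fun k hk => (huv k (hk.trans (hi a)) (Or.inl hk)).symm,
        rg_congr (r := Λ.r (p a)) (r' := Λ'.r (p a)) (v := u) (w := v) (j := i0 + 1)
          (fun k hk => (hr' a _ (by omega) (by omega)).symm)
          fun k hk => (huv _ (by omega) (Or.inr (by omega))).symm]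
    · rw [decide_eq_false e, Bool.false_and, decide_eq_false, Bool.false_and]
      intro hlt
      have b3 : u i0 < Λ'.r (p a) i0 := by
        by_contra hge
        have := Nat.mul_le_mul_left (wt (Λ.r (p a)) i0) (not_lt.1 hge)
        omega
      have e4 : u i0 + Λ'.r (p a) i0 * w0 = v i0 + Λ'.r (p a) i0 * w1 :=
        nat_eq_of_zmod (N := Λ'.r (p a) i0 * W) (by nlinarith) (by nlinarith)
          (by have := h3.add_right ((Λ'.r (p a) i0 * w0 : ℕ) : ℤ)
              push_cast at this ⊢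
              exact this.trans (by ring_nf; rfl))
      have e5 := congrArg (· / Λ'.r (p a) i0) e4
      simp only [Nat.add_mul_div_left _ _ (show 0 < Λ'.r (p a) i0 by omega), Nat.div_eq_of_lt b3,
        Nat.div_eq_of_lt b0] at e5
      omega
  have h1 := Impl.regs W hF.smV.size_le hreg
  refine Impl.intro h1.size_in fun γ φ Ds hD hs => ?_
  obtain ⟨Es, k1, k2⟩ := h1.apply φ Ds hD
  obtain ⟨A, k3, k4⟩ := L.xorAll (𝔅 := 𝔅.comap φ) (x := fun c => (p (φ c), Ds c))
    (len := fun c => Λ.vol (p (φ c))) W (fun k c => (Es c).getD k [])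
    ((L.in1 _ _ _).comp ((L.zeroArr hF).reindex hF.smV.size_le φ))
    (fun k _ => L.getD_const k2 (L.const _) k) fun k hk c => ((k1 c).2 k hk).1
  refine ⟨A, fun c => ⟨(k4 c).1, fun w0 hw0 v w hv hw h => ?_⟩, k3⟩
  rw [(k4 c).2 _ w0 fun k hk hne => (((k1 c).2 k hk).2 w0 hw0 v w hv hw h).trans (by
    rw [decide_eq_false hne.symm, Bool.false_and]), decide_eq_true hw0, Bool.true_and]
  exact (((k1 c).2 w0 hw0).2 w0 hw0 v w hv hw h).trans (by
    rw [decide_eq_true rfl, Bool.true_and]; rfl)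

end Crest.Agent.R326
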