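/-
R326/SwapMoveAux: single-field linear gathers and a calculus of gathers acting on residues.
Author: helper58.
-/
import Crest.Agent.R326.GatB

set_option autoImplicit false
set_option linter.unusedSimpArgs false
set_option linter.unusedSectionVars false
set_option linter.unusedVariables false

namespace Crest.Agent.R326

open Function Crest.Agent.Lib.PolyTime

variable {α P : Type} [Enc P] {𝔅 : Bud α} {p : α → P} {Λ : Lay P} {b : ℕ}

/-! ### Residues -/

/-- The residue of an integer as a natural number. -/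
def res (x : ℤ) (r : ℕ) : ℕ := (x % r).toNat

theorem res_lt (x : ℤ) {r : ℕ} (h : 0 < r) : res x r < r := by
  have h1 : (0 : ℤ) < r := by exact_mod_cast h
  have h2 := Int.emod_nonneg x h1.ne'
  have h3 := Int.emod_lt_of_pos x h1
  unfold res
  omega

theorem res_modEq (x : ℤ) {r : ℕ} (h : 0 < r) : (res x r : ℤ) ≡ x [ZMOD r] := by
  have h1 : (0 : ℤ) < r := by exact_mod_cast h
  have h2 := Int.emod_nonneg x h1.ne'
  unfold res
  rw [Int.toNat_of_nonneg h2]
  exact Int.mod_modEq _ _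

theorem modEq_iff_cast {x y : ℤ} {r : ℕ} : x ≡ y [ZMOD r] ↔ (x : ZMod r) = (y : ZMod r) :=
  (ZMod.intCast_eq_intCast_iff x y r).symm

theorem res_cast (x : ℤ) {r : ℕ} (h : 0 < r) : ((res x r : ℕ) : ZMod r) = (x : ZMod r) := by
  have := modEq_iff_cast.mp (res_modEq x h)
  simpa using this

/-! ### Single-field gathers -/

theorem pt_lincomb (J : Finset ℕ) (c : ℕ → ℤ) :
    PT fun q : P × List ℕ => ∑ j ∈ J, c j * ((q.2.getD j 0 : ℕ) : ℤ) := by
  classical
  induction J using Finset.induction_on with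
  | empty => exact (PT.const (0 : ℤ)).of_eq fun _ => by simp
  | insert j J hj ih =>
    have h1 : PT fun q : P × List ℕ => c j * ((q.2.getD j 0 : ℕ) : ℤ) := by fun_prop
    exact (PT.int_add h1 ih).of_eq fun q => by rw [Finset.sum_insert hj]

/-- Add a fixed linear combination of outer fields to field `i`. -/
theorem Gat.zadd1 (hF : Fam 𝔅.V p Λ b) {i : ℕ} (hb : b ≤ i + 1) (hn : ∀ a, i < Λ.n (p a))
    (J : Finset ℕ) (c : ℕ → ℤ) (hJ : ∀ j ∈ J, i < j ∧ ∀ a, j < Λ.n (p a)) :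
    Gat 𝔅 p Λ Λ (fun a v w => Out (Λ.n (p a)) i 1 v w ∧
      (w i : ℤ) ≡ v i + ∑ j ∈ J, c j * v j [ZMOD Λ.r (p a) i]) fun _ => 0 := by
  refine (Gat.zadd hF (i := fun _ => i) (len := fun _ => 1) (PT.const i) (PT.const 1)
    (pt_lincomb J c) (fun _ => hb) fun a => hn a).mono fun a v w hv hw h => ⟨h.1, ?_⟩
  simp only [rg_one, rwt_one]
  rw [Finset.sum_congr rfl fun j hj => by
    rw [Λ.od_getD (p a) v (show i + 1 ≤ j from (hJ j hj).1) ((hJ j hj).2 a)]]
  exact h.2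

/-- Scale field `i`. -/
theorem Gat.zmul1 (hF : Fam 𝔅.V p Λ b) (c : ℤ) {i : ℕ} (hb : b ≤ i + 1)
    (hn : ∀ a, i < Λ.n (p a)) :
    Gat 𝔅 p Λ Λ (fun a v w => Out (Λ.n (p a)) i 1 v w ∧
      (w i : ℤ) ≡ c * v i [ZMOD Λ.r (p a) i]) fun _ => 0 := by
  refine (Gat.zmul hF c (i := fun _ => i) (len := fun _ => 1) (PT.const i) (PT.const 1)
    (fun _ => hb) fun a => hn a).mono fun a v w hv hw h => ⟨h.1, ?_⟩
  simpa only [rg_one, rwt_one] using h.2

/-- Divide field `i`. -/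
theorem Gat.zdiv1 (hF : Fam 𝔅.V p Λ b) (c : ℤ) {i : ℕ} (hb : b ≤ i + 1)
    (hn : ∀ a, i < Λ.n (p a)) (hc : ∀ a, c.natAbs.Coprime (Λ.r (p a) i)) :
    Gat 𝔅 p Λ Λ (fun a v w => Out (Λ.n (p a)) i 1 v w ∧
      (v i : ℤ) ≡ c * w i [ZMOD Λ.r (p a) i]) fun _ => 0 := by
  refine (Gat.zdiv hF c (i := fun _ => i) (len := fun _ => 1) (PT.const i) (PT.const 1)
    (fun _ => hb) (fun a => hn a) fun a => by simpa using hc a).mono fun a v w hv hw h => ⟨h.1, ?_⟩
  simpa only [rg_one, rwt_one] using h.2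

/-- `w i = c v i + d v j` for an outer field `j`. -/
theorem Gat.lin1 (hF : Fam 𝔅.V p Λ b) (c d : ℤ) {i j : ℕ} (hb : b ≤ i + 1) (hij : i < j)
    (hn : ∀ a, j < Λ.n (p a)) :
    Gat 𝔅 p Λ Λ (fun a v w => Out (Λ.n (p a)) i 1 v w ∧
      (w i : ℤ) ≡ c * v i + d * v j [ZMOD Λ.r (p a) i]) fun _ => 0 := by
  have hi : ∀ a, i < Λ.n (p a) := fun a => hij.trans (hn a)
  refine ((Gat.zadd1 hF hb hi {j} (fun _ => d) (by simpa using ⟨hij, hn⟩)).comp0
    (Gat.zmul1 hF c hb hi)).mono fun a v w hv hw h => ?_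
  have hr := hF.pos a i (hi a)
  refine ⟨update v i (res (c * v i) (Λ.r (p a) i)), R326.Val.update hv (res_lt _ hr),
    ⟨fun k _ hk => (update_of_ne (by omega) _ _).symm, ?_⟩,
    fun k hk hk' => (update_of_ne (by omega) _ _).trans (h.1 k hk hk'), ?_⟩
  · rw [update_self]; exact res_modEq _ hr
  · rw [update_self, Finset.sum_singleton, update_of_ne hij.ne']
    exact h.2.trans ((res_modEq _ hr).symm.add_right _)

/-- The same for `m` pairs of fields. -/
theorem Gat.linAll (hF : Fam 𝔅.V p Λ b) (c d : ℤ) {iy ix m : ℕ} (hb : b ≤ iy) (h1 : iy + m ≤ ix)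
    (hn : ∀ a, ix + m ≤ Λ.n (p a)) :
    Gat 𝔅 p Λ Λ (fun a v w => Out (Λ.n (p a)) iy m v w ∧ ∀ k < m,
      (w (iy + k) : ℤ) ≡ c * v (iy + k) + d * v (ix + k) [ZMOD Λ.r (p a) (iy + k)]) fun _ => 0 := by
  refine Gat.iter hF m
    (fun l a v w => Out (Λ.n (p a)) (iy + l) 1 v w ∧
      (w (iy + l) : ℤ) ≡ c * v (iy + l) + d * v (ix + l) [ZMOD Λ.r (p a) (iy + l)])
    (fun l a v w => Out (Λ.n (p a)) iy l v w ∧ ∀ k < l,
      (w (iy + k) : ℤ) ≡ c * v (iy + k) + d * v (ix + k) [ZMOD Λ.r (p a) (iy + k)])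
    (fun l hl => Gat.lin1 hF c d (by omega) (by omega) fun a => by have := hn a; omega)
    (fun a v w _ _ h k hk => h.1 k hk (by omega)) fun l hl a v w hv hw h => ?_
  have hl' : iy + l < Λ.n (p a) := by have := hn a; omega
  refine ⟨update v (iy + l) (w (iy + l)), R326.Val.update hv (hw _ hl'),
    ⟨fun k _ hk => (update_of_ne (by omega) _ _).symm, ?_⟩, fun k hk hk' => ?_, fun k hk => ?_⟩
  · rw [update_self]; exact h.2 l (by omega)
  · by_cases e : k = iy + l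
    · rw [e, update_self]
    · rw [update_of_ne e]; exact h.1 k hk (by omega)
  · rw [update_of_ne (by omega), update_of_ne (by omega)]
    exact h.2 k (by omega)

/-! ### Gathers acting on residues modulo a common radix -/

/-- A gather that acts on the fields in `S` (all of radix `Q a`) through the map `T`. -/
def GM (𝔅 : Bud α) (p : α → P) (Λ : Lay P) (Q : α → ℕ) (S : ℕ → Prop)
    (T : ∀ a, (ℕ → ZMod (Q a)) → ℕ → ZMod (Q a)) (ex : α → ℝ) : Prop :=
  (∀ a x k, ¬ S k → T a x k = x k) ∧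
  Gat 𝔅 p Λ Λ (fun a v w => (∀ k < Λ.n (p a), ¬ S k → v k = w k) ∧
    ∀ k, S k → ((w k : ℕ) : ZMod (Q a)) = T a (fun j => ((v j : ℕ) : ZMod (Q a))) k) ex

/-- The standing assumptions. -/
structure GS (𝔅 : Bud α) (p : α → P) (Λ : Lay P) (b : ℕ) (Q : α → ℕ) (S : ℕ → Prop) : Prop where
  fam : Fam 𝔅.V p Λ b
  base : ∀ k, S k → b ≤ k
  lt : ∀ a k, S k → k < Λ.n (p a)
  rad : ∀ a k, S k → Λ.r (p a) k = Q a

namespace GM
variable {Q : α → ℕ} {S : ℕ → Prop} {T T' : ∀ a, (ℕ → ZMod (Q a)) → ℕ → ZMod (Q a)}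
  {ex ex' : α → ℝ}

theorem comp (H : GS 𝔅 p Λ b Q S) (h : GM 𝔅 p Λ Q S T ex) (h' : GM 𝔅 p Λ Q S T' ex') :
    GM 𝔅 p Λ Q S (fun a x => T a (T' a x)) fun a => ex a + ex' a := by
  classical
  refine ⟨fun a x k hk => (h.1 a _ k hk).trans (h'.1 a _ k hk),
    (h.2.comp h'.2).mono fun a v w hv hw hR => ?_⟩
  have hQ : ∀ k, S k → 0 < Q a := fun k hk => H.rad a k hk ▸ H.fam.pos a k (H.lt a k hk)
  let u : ℕ → ℕ := fun k =>
    if S k then (T' a (fun j => ((v j : ℕ) : ZMod (Q a))) k).val else v k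
  have hu : (fun j => ((u j : ℕ) : ZMod (Q a))) = T' a (fun j => ((v j : ℕ) : ZMod (Q a))) := by
    funext k
    by_cases hk : S k
    · have : NeZero (Q a) := ⟨(hQ k hk).ne'⟩
      simp only [u, if_pos hk, ZMod.natCast_val, ZMod.cast_id', id_eq]
    · simp only [u, if_neg hk]
      rw [h'.1 a _ k hk]
  refine ⟨u, fun k hk => ?_, ⟨fun k _ hk => by simp only [u, if_neg hk], fun k hk => congrFun hu k⟩,
    fun k hk hk' => by simp only [u, if_neg hk']; exact hR.1 k hk hk', fun k hk => ?_⟩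
  · by_cases hk' : S k
    · have : NeZero (Q a) := ⟨(hQ k hk').ne'⟩
      simp only [u, if_pos hk']
      rw [H.rad a k hk']
      exact ZMod.val_lt _
    · simp only [u, if_neg hk']
      exact hv k hk
  · rw [hu]; exact hR.2 k hk

theorem mono_ex (h : GM 𝔅 p Λ Q S T ex) (he : ∀ a, ex a ≤ ex' a) : GM 𝔅 p Λ Q S T ex' :=
  ⟨h.1, h.2.mono_ex he⟩

theorem comp0 (H : GS 𝔅 p Λ b Q S) (h : GM 𝔅 p Λ Q S T fun _ => 0) (h' : GM 𝔅 p Λ Q S T' ex) :
    GM 𝔅 p Λ Q S (fun a x => T a (T' a x)) ex := (comp H h h').mono_ex fun _ => by simp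

theorem comp1 (H : GS 𝔅 p Λ b Q S) (h : GM 𝔅 p Λ Q S T ex) (h' : GM 𝔅 p Λ Q S T' fun _ => 0) :
    GM 𝔅 p Λ Q S (fun a x => T a (T' a x)) ex := (comp H h h').mono_ex fun _ => by simp

theorem congr (h : GM 𝔅 p Λ Q S T ex) (e : ∀ a x, T' a x = T a x) : GM 𝔅 p Λ Q S T' ex := by
  have : T' = T := by funext a x; exact e a x
  rwa [this]

theorem eq_of_cast (H : GS 𝔅 p Λ b Q S) {a : α} {v w : ℕ → ℕ} (hv : Λ.Val (p a) v)
    (hw : Λ.Val (p a) w) {k : ℕ} (hk : S k) (e : ((w k : ℕ) : ZMod (Q a)) = (v k : ℕ)) :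
    v k = w k := by
  have h1 := hv k (H.lt a k hk)
  have h2 := hw k (H.lt a k hk)
  rw [H.rad a k hk] at h1 h2
  have := (ZMod.natCast_eq_natCast_iff' _ _ _).mp e
  rw [Nat.mod_eq_of_lt h1, Nat.mod_eq_of_lt h2] at this
  exact this.symm

theorem id (H : GS 𝔅 p Λ b Q S) : GM 𝔅 p Λ Q S (fun _ x => x) fun _ => 0 := by
  refine ⟨fun _ _ _ _ => rfl, (Gat.id H.fam).mono fun a v w hv hw h k hk => ?_⟩
  by_cases hk' : S k
  · exact eq_of_cast H hv hw hk' (h.2 k hk')
  · exact h.1 k hk hk'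

/-- A gather that changes one field. -/
theorem of_one (H : GS 𝔅 p Λ b Q S) {i : ℕ} (hi : S i)
    {R : α → (ℕ → ℕ) → (ℕ → ℕ) → Prop}
    (h : Gat 𝔅 p Λ Λ (fun a v w => Out (Λ.n (p a)) i 1 v w ∧ R a v w) ex)
    (φ : ∀ a, (ℕ → ZMod (Q a)) → ZMod (Q a))
    (hφ : ∀ a v w, ((w i : ℕ) : ZMod (Q a)) = φ a (fun j => ((v j : ℕ) : ZMod (Q a))) → R a v w) :
    GM 𝔅 p Λ Q S (fun a x => update x i (φ a x)) ex := by
  refine ⟨fun a x k hk => update_of_ne (by rintro rfl; exact hk hi) _ _,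
    h.mono fun a v w hv hw hR => ⟨fun k hk hk' => ?_, hφ a v w ?_⟩⟩
  · by_cases hS : S k
    · refine eq_of_cast H hv hw hS ?_
      exact (hR.2 k hS).trans (update_of_ne (show k ≠ i by omega) _ _)
    · exact hR.1 k hk hS
  · exact (hR.2 i hi).trans (update_self _ _ _)

theorem add (H : GS 𝔅 p Λ b Q S) {i : ℕ} (hi : S i) (J : Finset ℕ) (c : ℕ → ℤ)
    (hJ : ∀ j ∈ J, i < j ∧ S j) :
    GM 𝔅 p Λ Q S (fun a x => update x i (x i + ∑ j ∈ J, (c j : ZMod (Q a)) * x j)) fun _ => 0 := by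
  refine of_one H hi (Gat.zadd1 H.fam (by have := H.base i hi; omega) (fun a => H.lt a i hi) J c
    fun j hj => ⟨(hJ j hj).1, fun a => H.lt a j (hJ j hj).2⟩) _ fun a v w h => ?_
  rw [H.rad a i hi, modEq_iff_cast]
  push_cast
  exact h

theorem mul (H : GS 𝔅 p Λ b Q S) {i : ℕ} (hi : S i) (c : ℤ) :
    GM 𝔅 p Λ Q S (fun a x => update x i ((c : ZMod (Q a)) * x i)) fun _ => 0 := by
  refine of_one H hi (Gat.zmul1 H.fam c (by have := H.base i hi; omega) fun a => H.lt a i hi) _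
    fun a v w h => ?_
  rw [H.rad a i hi, modEq_iff_cast]
  push_cast
  exact h

theorem cast_mul_inv {c : ℤ} {n : ℕ} (h : c.natAbs.Coprime n) :
    (c : ZMod n) * (c : ZMod n)⁻¹ = 1 :=
  ZMod.coe_int_mul_inv_eq_one (Int.isCoprime_iff_gcd_eq_one.mpr (by simpa [Int.gcd] using h))

theorem div (H : GS 𝔅 p Λ b Q S) {i : ℕ} (hi : S i) (c : ℤ) (hc : ∀ a, c.natAbs.Coprime (Q a)) :
    GM 𝔅 p Λ Q S (fun a x => update x i ((c : ZMod (Q a))⁻¹ * x i)) fun _ => 0 := by
  refine of_one H hi (Gat.zdiv1 H.fam c (by have := H.base i hi; omega) (fun a => H.lt a i hi)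
    fun a => by rw [H.rad a i hi]; exact hc a) _ fun a v w h => ?_
  rw [H.rad a i hi, modEq_iff_cast]
  push_cast
  rw [h, ← mul_assoc, cast_mul_inv (hc a), one_mul]

/-- Add multiples of field `j` to several inner fields. -/
theorem multi (H : GS 𝔅 p Λ b Q S) {j : ℕ} (hj : S j) (I : Finset ℕ) (c : ℕ → ℤ)
    (hI : ∀ k ∈ I, k < j ∧ S k) :
    GM 𝔅 p Λ Q S (fun a x k => if k ∈ I then x k + (c k : ZMod (Q a)) * x j else x k)
      fun _ => 0 := by
  induction I using Finset.induction_on with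
  | empty => exact (GM.id H).congr fun a x => by simp
  | insert i I hi ih =>
    have h1 := hI i (by simp)
    refine (comp0 H (add H h1.2 {j} (fun _ => c i) (by simpa using ⟨h1.1, hj⟩))
      (ih fun k hk => hI k (by simp [hk]))).congr fun a x => ?_
    have hjI : j ∉ I := fun h => lt_irrefl _ (hI j (by simp [h])).1
    funext k
    by_cases e : k = i
    · subst e
      simp [hi, hjI]
    · simp [e, update_of_ne e]

/-- Change of coordinates on the source side of a hard shear. -/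
theorem conjY (H : GS 𝔅 p Λ b Q S) {i j : ℕ} (hi : S i) (hij : i ≠ j) (J : Finset ℕ) (c : ℕ → ℤ)
    (hJ : ∀ k ∈ J, i < k ∧ S k ∧ k ≠ j) (hc : ∀ a, (c i).natAbs.Coprime (Q a))
    (h : GM 𝔅 p Λ Q S (fun a x => update x j (x j + x i)) ex) :
    GM 𝔅 p Λ Q S (fun a x => update x j (x j + ((c i : ZMod (Q a)) * x i +
      ∑ k ∈ J, (c k : ZMod (Q a)) * x k))) ex := by
  have hJ' : ∀ k ∈ J, i < k ∧ S k := fun k hk => ⟨(hJ k hk).1, (hJ k hk).2.1⟩
  refine (comp0 H (div H hi (c i) hc) (comp0 H (add H hi J (fun k => - c k) hJ') (comp1 H h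
    (comp0 H (add H hi J c hJ') (mul H hi (c i)))))).congr fun a x => ?_
  have e1 : ∀ (y : ℕ → ZMod (Q a)) (t : ZMod (Q a)) (d : ℕ → ZMod (Q a)),
      ∑ k ∈ J, d k * update y i t k = ∑ k ∈ J, d k * y k := fun y t d =>
    Finset.sum_congr rfl fun k hk => by rw [update_of_ne (hJ k hk).1.ne']
  have e2 : ∀ (y : ℕ → ZMod (Q a)) (t : ZMod (Q a)) (d : ℕ → ZMod (Q a)),
      ∑ k ∈ J, d k * update y j t k = ∑ k ∈ J, d k * y k := fun y t d =>
    Finset.sum_congr rfl fun k hk => by rw [update_of_ne (hJ k hk).2.2]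
  have e3 := cast_mul_inv (hc a)
  funext k
  by_cases e : k = i
  · subst e
    simp only [update_self, update_of_ne hij, e1, e2, Int.cast_neg, neg_mul, Finset.sum_neg_distrib]
    linear_combination (-x k) * e3
  · by_cases e' : k = j
    · subst e'
      simp only [update_self, update_of_ne e, e1, e2]
    · simp only [update_of_ne e, update_of_ne e']

/-- Change of coordinates on the target side of a hard shear. -/
theorem conjX (H : GS 𝔅 p Λ b Q S) {j : ℕ} (hj : S j) (I : Finset ℕ) (c : ℕ → ℤ) (N : ℤ)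
    (hI : ∀ k ∈ I, k < j ∧ S k) (hc : ∀ a, (c j).natAbs.Coprime (Q a))
    (hN : ∀ a, N.natAbs.Coprime (Q a)) (φ : ∀ a, (ℕ → ZMod (Q a)) → ZMod (Q a))
    (hφ : ∀ a x y, (∀ k, k ∉ I → k ≠ j → x k = y k) → φ a x = φ a y)
    (h : GM 𝔅 p Λ Q S (fun a x => update x j (x j + φ a x)) ex) :
    GM 𝔅 p Λ Q S (fun a x k => if k ∈ insert j I then
      x k + (c k : ZMod (Q a)) * ((N : ZMod (Q a))⁻¹ * φ a x) else x k) ex := by
  have hjI : j ∉ I := fun h => lt_irrefl _ (hI j h).1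
  refine (comp0 H (mul H hj (c j)) (comp0 H (multi H hj I c hI) (comp0 H (div H hj N hN)
    (comp1 H h (comp0 H (mul H hj N) (comp0 H (multi H hj I (fun k => - c k) hI)
    (div H hj (c j) hc))))))).congr fun a x => ?_
  have e3 := cast_mul_inv (hc a)
  have e4 := cast_mul_inv (hN a)
  have e1 : ∀ t : ZMod (Q a), φ a (update (fun k => if k ∈ I then
      update x j ((c j : ZMod (Q a))⁻¹ * x j) k + ((- c k : ℤ) : ZMod (Q a)) *
        update x j ((c j : ZMod (Q a))⁻¹ * x j) j else update x j ((c j : ZMod (Q a))⁻¹ * x j) k)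
        j t) = φ a x := fun t => hφ a _ _ fun k hk hk' => by
    simp only [update_of_ne hk', if_neg hk]
  funext k
  simp only [e1]
  by_cases e : k = j
  · subst e
    simp only [update_self, if_neg hjI, Finset.mem_insert_self, if_true]
    linear_combination (-x k) * e3 - (c k : ZMod (Q a)) * (c k : ZMod (Q a))⁻¹ * x k * e4
  · by_cases e' : k ∈ I
    · simp only [update_self, update_of_ne e, if_neg hjI, if_pos e', Finset.mem_insert, e', or_true,
        if_true, Int.cast_neg]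
      linear_combination - (c k : ZMod (Q a)) * (c j : ZMod (Q a))⁻¹ * x j * e4
    · simp only [update_of_ne e, if_neg e', Finset.mem_insert, e, e', or_false, if_false]

end GM

end Crest.Agent.R326
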