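/-
R326/SwapMove: a rank one shear costs one exchange of fields.
-/
import Crest.Agent.R326.SwapMoveAux

set_option autoImplicit false
set_option linter.unusedSimpArgs false
set_option linter.unusedSectionVars false
set_option linter.unusedVariables false

namespace Crest.Agent.R326

open Function Crest.Agent.Lib.PolyTime

variable {α P : Type} [Enc P] {𝔅 : Bud α} {p : α → P} {Λ : Lay P} {b : ℕ}

/-- The hard shear `x += y` (`y` inner, `x` outer, same radix) from one exchange:
`(y, x) ↦ (y, x + y)` is a composition of the exchange, two easy shears (`Gat.zadd` on the inner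
field) and a negation (`Gat.zmul (-1)`). -/
theorem Gat.hard_of_swap (hF : Fam 𝔅.V p Λ b) {i j : ℕ} (hb : b ≤ i) (hij : i < j)
    (hn : ∀ a, j < Λ.n (p a)) (hr : ∀ a, Λ.r (p a) i = Λ.r (p a) j) {ex : α → ℝ}
    (hsw : Gat 𝔅 p Λ Λ (fun a => Sw1 (Λ.n (p a)) i j) ex) :
    Gat 𝔅 p Λ Λ (fun a v w => Out (Λ.n (p a)) j 1 v w ∧
      (w j : ℤ) ≡ v j + v i [ZMOD Λ.r (p a) j]) ex := by
  have hi : ∀ a, i < Λ.n (p a) := fun a => hij.trans (hn a)
  refine ((Gat.lin1 hF (-1) 1 (by omega) hij hn).comp0 (hsw.comp1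
    (Gat.lin1 hF 1 1 (by omega) hij hn))).mono fun a v w hv hw h => ?_
  have hri := hF.pos a i (hi a)
  have h1 := hv i (hi a)
  have h2 := hv j (hn a)
  have h3 := hw j (hn a)
  have h4 : v i = w i := h.1 i (hi a) (by omega)
  refine ⟨update w i (v j), R326.Val.update hw (by rw [hr a]; exact h2),
    ⟨update v i (w j), R326.Val.update hv (by rw [hr a]; exact h3),
      ⟨fun k _ hk => (update_of_ne (by omega) _ _).symm, ?_⟩, ?_, ?_, fun k hk k1 k2 => ?_⟩,
    fun k _ hk => update_of_ne (by omega) _ _, ?_⟩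
  · rw [update_self, hr a]
    exact h.2.trans (by rw [one_mul, one_mul, add_comm])
  · rw [update_self, update_of_ne hij.ne']
  · rw [update_self, update_of_ne hij.ne']
  · rw [update_of_ne k1, update_of_ne k1]
    exact h.1 k hk (by omega)
  · rw [update_self, update_of_ne hij.ne', hr a, ← h4]
    have := (h.2.add_left (-1 * (v j : ℤ))).symm
    rw [one_mul]
    convert this using 1
    ring

/-- Conversely, componentwise exchanges from componentwise hard shears (`m` fixed). -/
theorem Gat.swap_of_hard (hF : Fam 𝔅.V p Λ b) {iy ix m : ℕ} (hb : b ≤ iy) (h1 : iy + m ≤ ix)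
    (hn : ∀ a, ix + m ≤ Λ.n (p a)) (hr : ∀ a, ∀ k < m, Λ.r (p a) (iy + k) = Λ.r (p a) (ix + k))
    {ex : α → ℝ} (hsw : Gat 𝔅 p Λ Λ (fun a v w => Out (Λ.n (p a)) ix m v w ∧ ∀ k < m,
      (w (ix + k) : ℤ) ≡ v (ix + k) + v (iy + k) [ZMOD Λ.r (p a) (ix + k)]) ex) :
    Gat 𝔅 p Λ Λ (fun a v w => (∀ k < m, v (iy + k) = w (ix + k) ∧ v (ix + k) = w (iy + k)) ∧
      ∀ k < Λ.n (p a), k < iy ∨ iy + m ≤ k → k < ix ∨ ix + m ≤ k → v k = w k) ex := by
  refine ((Gat.linAll hF (-1) 1 hb h1 hn).comp0 (hsw.comp1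
    (Gat.linAll hF 1 (-1) hb h1 hn))).mono fun a v w hv hw h => ?_
  have hn' := hn a
  have hry : ∀ k < m, 0 < Λ.r (p a) (iy + k) := fun k hk => hF.pos a _ (by omega)
  let t : ℕ → ℕ := fun k => res ((v k : ℤ) - v (ix + (k - iy))) (Λ.r (p a) k)
  have ht : ∀ k < m, (t (iy + k) : ℤ) ≡ (v (iy + k) : ℤ) - v (ix + k) [ZMOD Λ.r (p a) (iy + k)] := by
    intro k hk
    simp only [t, Nat.add_sub_cancel_left]
    exact res_modEq _ (hry k hk)
  have hval : ∀ u : ℕ → ℕ, Λ.Val (p a) u →
      Λ.Val (p a) fun k => if iy ≤ k ∧ k < iy + m then t k else u k := by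
    intro u hu k hk
    dsimp only
    split_ifs with h2
    · exact res_lt _ (hF.pos a k hk)
    · exact hu k hk
  refine ⟨fun k => if iy ≤ k ∧ k < iy + m then t k else w k, hval w hw,
    ⟨fun k => if iy ≤ k ∧ k < iy + m then t k else v k, hval v hv,
      ⟨fun k _ hk => (if_neg (by omega)).symm, fun k hk => ?_⟩, fun k hk hk' => ?_,
      fun k hk => ?_⟩, fun k _ hk => if_neg (by omega), fun k hk => ?_⟩
  · beta_reduce
    rw [if_pos (by omega)]
    exact (ht k hk).trans (by rw [one_mul, neg_one_mul, sub_eq_add_neg])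
  · dsimp only
    split_ifs with h2
    · rfl
    · exact h.2 k hk (by omega) hk'
  · beta_reduce
    rw [if_neg (by omega), if_neg (by omega), if_pos (by omega), ← hr a k hk, ← (h.1 k hk).1]
    have := ((ht k hk).add_left (v (ix + k) : ℤ)).symm
    convert this using 1
    ring
  · beta_reduce
    rw [if_pos (by omega), if_neg (by omega), ← (h.1 k hk).1, ← (h.1 k hk).2]
    have := (((ht k hk).mul_left (-1)).add_right (1 * (v (iy + k) : ℤ))).symm
    convert this using 1
    ring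

/-- A rank one shear.  Recipe: `N Δ = a bᵀ`.  If `a = 0` or `b = 0` then `Δ = 0` (use the identity;
`0 ≤ ex`).  Otherwise let `l0` be the largest index with `a l0 ≠ 0` and `k0` the smallest with
`b k0 ≠ 0`.  Change coordinates: `y k0 := b · y` (scale by `b k0`, then add the outer `b k * y k`),
`t := x l0 / a l0`, `x l := x l - a l * t` for `l < l0` (inner targets), `s := N t`; then
`s += y k0` is one hard shear (`Gat.hard_of_swap`); undo the coordinate changes.  All scalings are
`Gat.zmul`/`Gat.zdiv` by integer constants prime to `11`, all additions `Gat.zadd`. -/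
theorem Gat.shear_gen (hF : Fam 𝔅.V p Λ b) {iy ix m : ℕ} (hb : b ≤ iy) (h1 : iy + m ≤ ix)
    (hn : ∀ a, ix + m ≤ Λ.n (p a)) {u : α → ℕ}
    (hr : ∀ a, ∀ k < m, Λ.r (p a) (iy + k) = 11 ^ u a ∧ Λ.r (p a) (ix + k) = 11 ^ u a)
    {ex : α → ℝ} (hex : ∀ a, 0 ≤ ex a)
    (hsw : ∀ k < m, ∀ l < m, Gat 𝔅 p Λ Λ (fun a => Sw1 (Λ.n (p a)) (iy + k) (ix + l)) ex)
    {Δ : Matrix (Fin m) (Fin m) FF} (hΔ : GenS Δ) :
    Gat 𝔅 p Λ Λ (fun a => Shear Δ (u a) (Λ.n (p a)) iy ix) ex := by
  classical
  obtain ⟨N, av, bv, hN, ha, hb', hΔ⟩ := hΔ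
  let S : ℕ → Prop := fun k => (iy ≤ k ∧ k < iy + m) ∨ (ix ≤ k ∧ k < ix + m)
  have H : GS 𝔅 p Λ b (fun a => 11 ^ u a) S := by
    refine ⟨hF, fun k hk => by omega, fun a k hk => by have := hn a; omega, fun a k hk => ?_⟩
    rcases hk with hk | hk
    · obtain ⟨k, rfl⟩ := Nat.exists_eq_add_of_le hk.1
      exact (hr a k (by omega)).1
    · obtain ⟨k, rfl⟩ := Nat.exists_eq_add_of_le hk.1
      exact (hr a k (by omega)).2
  have hN' : ∀ a, (N : ℤ).natAbs.Coprime (11 ^ u a) := fun a =>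
    Nat.Coprime.pow_right _ (by simpa using hN)
  have hD : ∀ a l k, Δ l k (u a) = ((N : ℤ) : ZMod (11 ^ u a))⁻¹ * (av l * bv k) := by
    intro a l k
    have e1 : (N : ZMod (11 ^ u a)) * Δ l k (u a) = ((av l * bv k : ℤ) : ZMod (11 ^ u a)) :=
      congrFun (hΔ l k) (u a)
    have e2 := GM.cast_mul_inv (hN' a)
    push_cast at e1 e2 ⊢
    linear_combination (N : ZMod (11 ^ u a))⁻¹ * e1 - Δ l k (u a) * e2
  -- it suffices to find a suitable map on residues
  suffices key : ∃ T, GM 𝔅 p Λ (fun a => 11 ^ u a) S T ex ∧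
      (∀ a x k, iy ≤ k ∧ k < iy + m → T a x k = x k) ∧
      ∀ a x (l : Fin m), T a x (ix + l) = x (ix + l) + ∑ k : Fin m, Δ l k (u a) * x (iy + k) by
    obtain ⟨T, k1, k2, k3⟩ := key
    refine k1.2.mono fun a v w hv hw h => ⟨fun k hk hk' => h.1 k hk (by
      simp only [S] at hk'; omega), fun k hk => ?_⟩
    rcases hk with hk | hk
    · rw [k2 a _ k hk, h.1 k (by have := hn a; omega) (by omega)]
    · obtain ⟨k, rfl⟩ := Nat.exists_eq_add_of_le hk.1
      exact (h.2 ⟨k, by omega⟩).trans (k3 a (fun j => (v j : ℕ)) ⟨k, by omega⟩).symm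
  by_cases h0 : (∀ l, av l = 0) ∨ ∀ k, bv k = 0
  · refine ⟨_, (GM.id H).mono_ex hex, fun _ _ _ _ => rfl, fun a x l => ?_⟩
    rcases h0 with h0 | h0 <;> simp [hD, h0]
  rw [not_or, not_forall, not_forall] at h0
  obtain ⟨l0, hl0, hl0'⟩ := Finset.exists_max_image (Finset.univ.filter fun l => av l ≠ 0) _root_.id
    (by obtain ⟨l, hl⟩ := h0.1; exact ⟨l, by simpa using hl⟩)
  obtain ⟨k0, hk0, hk0'⟩ := Finset.exists_min_image (Finset.univ.filter fun k => bv k ≠ 0) _root_.id
    (by obtain ⟨k, hk⟩ := h0.2; exact ⟨k, by simpa using hk⟩)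
  simp only [Finset.mem_filter, Finset.mem_univ, true_and, id_eq] at hl0 hl0' hk0 hk0'
  have hl0m := l0.2
  have hk0m := k0.2
  let cb : ℕ → ℤ := fun k => if h : k - iy < m then bv ⟨k - iy, h⟩ else 0
  let ca : ℕ → ℤ := fun k => if h : k - ix < m then av ⟨k - ix, h⟩ else 0
  have hcb : ∀ k : Fin m, cb (iy + k) = bv k := fun k => by simp [cb]
  have hca : ∀ k : Fin m, ca (ix + k) = av k := fun k => by simp [ca]
  have hSi : S (iy + k0) := Or.inl (by omega)
  have hSj : S (ix + l0) := Or.inr (by omega)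
  have g1 : GM 𝔅 p Λ (fun a => 11 ^ u a) S
      (fun a x => update x (ix + l0) (x (ix + l0) + x (iy + k0))) ex := by
    refine GM.of_one H hSj (Gat.hard_of_swap hF (by omega) (by omega) (fun a => H.lt a _ hSj)
      (fun a => (H.rad a _ hSi).trans (H.rad a _ hSj).symm) (hsw k0 hk0m l0 hl0m)) _
      fun a v w h => ?_
    rw [H.rad a _ hSj, modEq_iff_cast]
    push_cast
    exact h
  have g2 := GM.conjY H hSi (by omega) (Finset.Ico (iy + k0 + 1) (iy + m)) cb
    (fun k hk => by
      have := Finset.mem_Ico.mp hk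
      exact ⟨by omega, Or.inl (by omega), by omega⟩)
    (fun a => by rw [hcb]; exact Nat.Coprime.pow_right _ ((hb' k0).resolve_left hk0)) g1
  have g3 := GM.conjX H hSj (Finset.Ico ix (ix + l0)) ca N
    (fun k hk => by
      have := Finset.mem_Ico.mp hk
      exact ⟨by omega, Or.inr (by omega)⟩)
    (fun a => by rw [hca]; exact Nat.Coprime.pow_right _ ((ha l0).resolve_left hl0)) hN' _
    (fun a x y hxy => by
      rw [hxy (iy + k0) (by simp only [Finset.mem_Ico]; omega) (by omega)]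
      congr 1
      refine Finset.sum_congr rfl fun k hk => ?_
      have := Finset.mem_Ico.mp hk
      rw [hxy k (by simp only [Finset.mem_Ico]; omega) (by omega)]) g2
  refine ⟨_, g3, fun a x k hk => if_neg (by simp only [Finset.mem_insert, Finset.mem_Ico]; omega),
    fun a x l => ?_⟩
  have hsum : (cb (iy + k0) : ZMod (11 ^ u a)) * x (iy + k0) +
      ∑ k ∈ Finset.Ico (iy + k0 + 1) (iy + m), (cb k : ZMod (11 ^ u a)) * x k =
      ∑ k : Fin m, (bv k : ZMod (11 ^ u a)) * x (iy + k) := by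
    rw [← Finset.sum_eq_sum_Ico_succ_bot (by omega) fun k => (cb k : ZMod (11 ^ u a)) * x k,
      Finset.sum_subset (Finset.Ico_subset_Ico_left (Nat.le_add_right iy k0)), Finset.sum_Ico_eq_sum_range,
      Nat.add_sub_cancel_left, ← Fin.sum_univ_eq_sum_range
        (fun k => (cb (iy + k) : ZMod (11 ^ u a)) * x (iy + k))]
    · exact Finset.sum_congr rfl fun k _ => by rw [hcb]
    · intro k hk hk'
      simp only [Finset.mem_Ico] at hk hk'
      obtain ⟨k, rfl⟩ := Nat.exists_eq_add_of_le hk.1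
      have hz : bv ⟨k, by omega⟩ = 0 := by
        by_contra hne
        have := hk0' _ hne
        rw [Fin.le_def] at this
        simp only at this
        omega
      rw [hcb ⟨k, by omega⟩, hz]
      simp
  simp only [hD, hsum]
  split_ifs with hl
  · rw [hca, Finset.mul_sum, Finset.mul_sum]
    congr 1
    exact Finset.sum_congr rfl fun k _ => by ring
  · have hz : av l = 0 := by
      by_contra hne
      have := hl0' _ hne
      rw [Fin.le_def] at this
      simp only [Finset.mem_insert, Finset.mem_Ico] at hl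
      omega
    simp [hz]

end Crest.Agent.R326
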