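/-
R326/Swap: exchanging two fields of radix `Q` in time `vol * (log Q) ^ tauE`.
-/
import Crest.Agent.R326.SwapMove
import Crest.Agent.R326.NetInst
import Crest.Agent.R326.SwapAux

set_option autoImplicit false
set_option linter.unusedSimpArgs false
set_option linter.unusedSectionVars false
set_option linter.unusedVariables false

namespace Crest.Agent.R326

open Function Crest.Agent.Lib.PolyTime SwAux

variable {α P : Type} [Enc P] {𝔅 : Bud α} {p : α → P} {Λ : Lay P} {b : ℕ}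

/-- The network acting on registers. -/
theorem Impl.swap_net_regs {m W r : ℕ} {start : Fin W → Matrix (Fin m) (Fin m) FF}
    (hN : NetOK (ZMod 2) GenS 1 W r start) (hF : Fam 𝔅.V p Λ 1)
    {iy ix : ℕ} (hb : 1 ≤ iy) (h1 : iy + m ≤ ix) (hn : ∀ a, ix + m ≤ Λ.n (p a)) {u : α → ℕ}
    (hr : ∀ a, ∀ k < m, Λ.r (p a) (iy + k) = 11 ^ u a ∧ Λ.r (p a) (ix + k) = 11 ^ u a)
    {ex : α → ℝ} (hex : ∀ a, 0 ≤ ex a)
    (hsw : ∀ k < m, ∀ l < m, Gat 𝔅 p Λ Λ (fun a => Sw1 (Λ.n (p a)) (iy + k) (ix + l)) ex)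
    (Z : α → List Arr) :
    Impl 𝔅 p (fun a (Ds : List Arr) => Ds = Z a ∧ Ds.length = W ∧
        ∀ w < W, (Ds.getD w []).length = Λ.vol (p a))
      (fun a _ (Ds' : List Arr) => Ds'.length = W ∧ ∀ w < W,
        (Ds'.getD w []).length = Λ.vol (p a) ∧ ∀ v, Λ.Val (p a) v →
          bit (Ds'.getD w []) (Λ.pos (p a) v) = bit ((Z a).getD w [])
            (Λ.pos (p a) (mv (1 : Matrix (Fin m) (Fin m) FF) (u a) iy ix v)))
      fun a => r * ex a := by
  let Rep : α → Matrix (Fin m) (Fin m) FF → (Fin W → ZMod 2) → Arr → Prop := fun a B z D =>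
    D.length = Λ.vol (p a) ∧ ∀ v, Λ.Val (p a) v → b2 (bit D (Λ.pos (p a) v)) =
      ∑ w, z w * b2 (bit ((Z a).getD w []) (Λ.pos (p a) (mv (B - start w) (u a) iy ix v)))
  have hsz : ∀ B z, sz (fun q : {q : α × Arr // Rep q.1 B z q.2} => (p q.1.1, q.1.2)) ≼
      fun q => 𝔅.V q.1.1 := fun B z =>
    hF.sz_in.comp fun q : {q : α × Arr // Rep q.1 B z q.2} => ⟨q.1, q.2.1⟩
  have hz : ∀ B a, Rep a B 0 (List.replicate (Λ.vol (p a)) false) := fun B a =>
    ⟨by simp, fun v _ => by simp⟩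
  have key := hN.impl (𝔅 := 𝔅) (p := p) Rep ex hex hF.smV.size_le (fun a => Λ.vol (p a)) hF.vol
    (fun a B z D h => h.1.le) ?_ (fun B => ⟨_, L.zeroArr hF, hz B⟩) ?_ ?_
  · refine key.mono (fun a Ds h => ⟨h.2.1, fun w => ⟨h.2.2 w w.2, fun v hv => ?_⟩⟩)
      (fun a Ds Ds' _ h => ⟨h.1, fun w hw => ⟨(h.2 ⟨w, hw⟩).1, fun v hv => ?_⟩⟩) fun _ => le_rfl
    · rw [Finset.sum_eq_single w (fun w' _ h' => by simp [Pi.single_eq_of_ne h']) (by simp),
        Pi.single_eq_same, one_mul, sub_self, h.1,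
        Λ.pos_congr _ fun k hk => mv_zero iy hv (fun k hk => (hr a k hk).2) hk]
    · have := (h.2 ⟨w, hw⟩).2 v hv
      rw [Finset.sum_eq_single ⟨w, hw⟩ (fun w' _ h' => by simp [Pi.single_eq_of_ne h']) (by simp),
        Pi.single_eq_same, one_mul, add_sub_cancel_left] at this
      exact b2_inj this
  · intro B z Δ hΔ
    refine Impl.mono (Gat.shear_gen hF hb h1 hn hr hex hsw hΔ) (fun a D h => h.1)
      (fun a D D' h h' => ⟨h'.1, fun v hv => ?_⟩) fun _ => le_rfl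
    have hv' := val_mv Δ iy hv fun k hk => (hr a k hk).2
    rw [h'.2 v _ hv hv' (shear_mv Δ _ _ iy ix v), h.2 _ hv']
    refine Finset.sum_congr rfl fun w _ => ?_
    rw [mv_mv _ _ _ h1, add_sub_right_comm]
  · intro B z z'
    refine Impl.ofL (fun _ D => List.zipWith xor D.1 D.2) ?_
      (L.xorArr (L.in2 _ _ _).fst (L.in2 _ _ _).snd) fun a D h => ⟨?_, fun v hv => ?_⟩
    · have e1 := (hsz B z).comp fun q : {q : α × Arr × Arr // Rep q.1 B z q.2.1 ∧
        Rep q.1 B z' q.2.2} => ⟨(q.1.1, q.1.2.1), q.2.1⟩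
      have e2 := (hsz B z').comp fun q : {q : α × Arr × Arr // Rep q.1 B z q.2.1 ∧
        Rep q.1 B z' q.2.2} => ⟨(q.1.1, q.1.2.2), q.2.2⟩
      have e3 := sz_snd e1
      have e4 := sz_snd e2
      have e5 := sz_pair e3 e4
      exact sz_pair (sz_fst e1) e5
    · rw [List.length_zipWith, h.1.1, h.2.1, min_self]
    · rw [bit_zipWith_xor (h.1.1.trans h.2.1.symm), b2_xor, h.1.2 v hv, h.2.2 v hv,
        ← Finset.sum_add_distrib]
      exact Finset.sum_congr rfl fun w _ => by rw [Pi.add_apply, add_mul]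
  · intro B c z
    have hc : c = 0 ∨ c = 1 := by revert c; decide
    rcases hc with rfl | rfl
    · refine Impl.ofL (fun a _ => List.replicate (Λ.vol (p a)) false) (hsz B z)
        ((L.in1 _ _ _).comp ((L.zeroArr hF).reindex hF.smV.size_le _)) fun a D _ => ?_
      rw [zero_smul]
      exact hz B a
    · refine (Impl.id (hsz B z)).mono (fun _ _ h => h) (fun a D D' h e => ?_) fun _ => le_rfl
      rw [one_smul, e]
      exact h

/-- All `m` hard shears at once, at the price of `r` exchanges on registers of volume `vol / W`.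
`Λ'` is the layout of a register (field `0` is divided by `W`).  Recipe: `Impl.deal`,
`NetOK.impl`, `Impl.undeal`.  With the initial registers `Z w`, an array `D` represents `(M, z)` if
for all valid `v` the bit `D[v]`, read in `ZMod 2`, is `∑ w, z w * Z w [mv (M - start w) v]`, where
`mv M v` replaces the digits `x` by those of `x + M y`; `mv (M + Δ) v = mv M (mv Δ v)`.  Moves are
`Gat.shear_gen`, sums `L.xorArr`, scalars are `0` or `1`. -/
theorem Gat.hard_net {m W r : ℕ} {start : Fin W → Matrix (Fin m) (Fin m) FF}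
    (hN : NetOK (ZMod 2) GenS 1 W r start) {Λ' : Lay P} (hF : Fam 𝔅.V p Λ 1) (hF' : Fam 𝔅.V p Λ' 1)
    (hn' : ∀ a, Λ'.n (p a) = Λ.n (p a)) (h0 : ∀ a, Λ.r (p a) 0 = Λ'.r (p a) 0 * W)
    (h0' : ∀ a, ∀ k < Λ.n (p a), k ≠ 0 → Λ'.r (p a) k = Λ.r (p a) k)
    {iy ix : ℕ} (hb : 1 ≤ iy) (h1 : iy + m ≤ ix) (hn : ∀ a, ix + m ≤ Λ.n (p a)) {u : α → ℕ}
    (hr : ∀ a, ∀ k < m, Λ.r (p a) (iy + k) = 11 ^ u a ∧ Λ.r (p a) (ix + k) = 11 ^ u a)
    {ex : α → ℝ} (hex : ∀ a, 0 ≤ ex a)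
    (hsw : ∀ k < m, ∀ l < m, Gat 𝔅 p Λ' Λ' (fun a => Sw1 (Λ'.n (p a)) (iy + k) (ix + l)) ex) :
    Gat 𝔅 p Λ Λ (fun a v w => Out (Λ.n (p a)) ix m v w ∧ ∀ k < m,
      (w (ix + k) : ℤ) ≡ v (ix + k) + v (iy + k) [ZMOD Λ.r (p a) (ix + k)]) fun a => r * ex a := by
  have hi : ∀ a, 0 < Λ.n (p a) := fun a => by have := hn a; omega
  have hr2 : ∀ a, ∀ k < m, Λ'.r (p a) (iy + k) = 11 ^ u a ∧ Λ'.r (p a) (ix + k) = 11 ^ u a := by
    intro a k hk
    have := hn a
    rw [h0' a _ (by omega) (by omega), h0' a _ (by omega) (by omega)]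
    exact hr a k hk
  refine Impl.intro hF.sz_in fun γ φ D hD hs => ?_
  obtain ⟨Z, z1, z2⟩ := (Impl.deal hF hF' 0 W le_rfl hn' hi h0 h0').apply φ D hD
  obtain ⟨Y, y1, y2⟩ := (Impl.swap_net_regs (𝔅 := 𝔅.comap φ) hN (hF'.reindex φ) hb h1
    (fun c => (hn' (φ c)).symm ▸ hn (φ c)) (fun c => hr2 (φ c)) (fun c => hex (φ c))
    (fun k hk l hl => (hsw k hk l hl).reindex φ) Z).apply (fun c => c) Z
    fun c => ⟨rfl, (z1 c).1, fun w hw => ((z1 c).2 w hw).1⟩
  obtain ⟨E, e1, e2⟩ := (Impl.undeal hF hF' 0 W le_rfl hn' hi h0 h0').apply φ Y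
    fun c => ⟨(y1 c).1, fun w hw => ((y1 c).2 w hw).1⟩
  refine ⟨E, fun c => ⟨(e1 c).1, fun v w hv hw hvw => ?_⟩,
    ((z2.chain y2).chain e2).mono fun c => by simp⟩
  set a := φ c with ha
  have hp0 := hF'.pos a 0 (hn' a ▸ hi a)
  have hv0 := hv 0 (hi a)
  have e0 : v 0 = w 0 := hvw.1 0 (hi a) (by omega)
  have hw0 : v 0 / Λ'.r (p a) 0 < W := by
    rw [Nat.div_lt_iff_lt_mul hp0, mul_comm, ← h0 a]; exact hv0
  have val' : ∀ x, Λ.Val (p a) x → Λ'.Val (p a) (update x 0 (v 0 % Λ'.r (p a) 0)) := by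
    intro x hx k hk
    by_cases e : k = 0
    · subst e; simpa using Nat.mod_lt _ hp0
    · rw [update_of_ne e, h0' a k (hn' a ▸ hk) e]; exact hx k (hn' a ▸ hk)
  have dl : ∀ x, x 0 = v 0 → Dealt (Λ.n (p a)) 0 (Λ'.r (p a) 0) (v 0 / Λ'.r (p a) 0)
      (update x 0 (v 0 % Λ'.r (p a) 0)) x := fun x hx =>
    ⟨fun k _ hk => update_of_ne (by omega) _ _, by rw [update_self, hx, Nat.mod_add_div]⟩
  rw [(e1 c).2 _ hw0 _ v (val' v hv) hv (dl v rfl), ((y1 c).2 _ hw0).2 _ (val' v hv),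
    ← ((z1 c).2 _ hw0).2 _ w (val' w hw) hw (dl w e0.symm)]
  congr 1
  refine Λ'.pos_congr _ fun k hk => mv_one (r := Λ'.r (p a)) (val' w hw)
    (fun k hk => (hr2 a k hk).2) (fun k hk h => ?_) (fun k hk => ?_) hk
  · by_cases e : k = 0
    · subst e; simp
    · rw [update_of_ne e, update_of_ne e]; exact hvw.1 k (hn' a ▸ hk) h
  · rw [update_of_ne (by omega), update_of_ne (by omega), update_of_ne (by omega),
      (hr2 a k hk).2, ← (hr a k hk).2]
    exact hvw.2 k hk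

/-- A task of the recursion: exchange the two fields of radix `11 ^ u`. -/
structure STask (k : ℕ) where
  /-- inner radix -/
  B : ℕ
  /-- exponent -/
  u : ℕ
  /-- middle radix -/
  A2 : ℕ
  /-- outer radix -/
  A1 : ℕ
  /-- the data -/
  D : Arr
  pos : 0 < B ∧ 0 < A2 ∧ 0 < A1
  rich : Rich k u.size B (lay5.vol (B, 11 ^ u, A2, A1))
  len : D.length = lay5.vol (B, 11 ^ u, A2, A1)

/-- The parameter of a task. -/
abbrev STask.par {k : ℕ} (t : STask k) : ℕ × ℕ × ℕ × ℕ := (t.B, 11 ^ t.u, t.A2, t.A1)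

/-- The volume of a task. -/
abbrev STask.vol {k : ℕ} (t : STask k) : ℕ := lay5.vol t.par

/-- The index type of the recursion. -/
abbrev SIdx (k : ℕ) := RecIdx (fun t : STask k => (t.par, t.D))
  (fun t y => GPost lay5 lay5 t.par SwR t.D y) (fun t => t.u) fun t => (t.vol, t.u)

theorem STask.par_pos {k : ℕ} (t : STask k) :
    0 < t.par.1 ∧ 0 < t.par.2.1 ∧ 0 < t.par.2.2.1 ∧ 0 < t.par.2.2.2 :=
  ⟨t.pos.1, by positivity, t.pos.2⟩

/-- A recursive call. -/
theorem Gat.swap_rec_call {k : ℕ} (𝔅 : Bud α) (φ : α → SIdx k) (ho : ∀ a, 𝔅.o a = (φ a).env)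
    {q : α → ℕ × ℕ × ℕ × ℕ} {u : α → ℕ} (hu : ∀ a, (q a).2.1 = 11 ^ u a)
    (hlt : ∀ a, u a < (φ a).a.u) (hpos : ∀ a, 0 < (q a).1 ∧ 0 < (q a).2.2.1 ∧ 0 < (q a).2.2.2)
    (hR : ∀ a, Rich k (u a).size (q a).1 (lay5.vol (q a))) (hs : SmIn 𝔅.V q)
    (hV : (fun a => lay5.vol (q a)) ≼ 𝔅.V) :
    Gat 𝔅 q lay5 lay5 (fun _ => SwR) fun a => (φ a).T (lay5.vol (q a), u a) := by
  have e : ∀ a, ((q a).1, 11 ^ u a, (q a).2.2.1, (q a).2.2.2) = q a := fun a => by rw [← hu a]
  refine Impl.intro (sz_pair (hs.size_le.comp _) (sz_bits ((hV.comp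
    fun z : {z : α × Arr // z.2.length = lay5.vol (q z.1)} => z.1.1).mono_left fun z => z.2.le)
    fun z => hs.one_le _)) fun γ ψ D hD hsz => ?_
  let t : γ → STask k := fun c => ⟨(q (ψ c)).1, u (ψ c), (q (ψ c)).2.2.1, (q (ψ c)).2.2.2, D c,
    hpos _, by rw [e]; exact hR _, by rw [e]; exact hD c⟩
  have et : ∀ c, (t c).par = q (ψ c) := fun c => e _
  obtain ⟨y, h1, h2⟩ := RecIdx.call (𝔅.comap ψ) (fun c => φ (ψ c)) (fun c => ho _) t
    (fun c => hlt _) fun y hy => sz_bits ((hV.comp ψ).mono_left fun c => by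
      rw [(hy c).1, et]) fun c => hs.one_le _
  simp only [STask.vol, et] at h1 h2
  exact ⟨y, h1, h2⟩

/-- The body of the recursion. -/
theorem swap_body (k : ℕ) {m W r : ℕ} {start : Fin W → Matrix (Fin m) (Fin m) FF}
    (hW : W = 2 ^ 71) (hm : 2 ≤ m) (hN : NetOK (ZMod 2) GenS 1 W r start) (𝔅 : Bud (SIdx k))
    (ho : ∀ a, 𝔅.o a = a.env) (hV : (fun a : SIdx k => a.a.vol) ≼ 𝔅.V) :
    Gat 𝔅 (fun a => a.a.par) lay5 lay5 (fun _ => SwR)
      fun a => if m ≤ a.a.u then r * a.T (a.a.vol / W, a.a.u / m) else 0 := by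
  have hs : SmIn (fun a : SIdx k => a.a.B) fun a => a.a.par :=
    smIn_lay5 (fun a => a.a.par_pos) (Rich.smIn (fun a => a.a.rich) fun a => a.a.pos.1)
  have hF : Fam 𝔅.V (fun a : SIdx k => a.a.par) (layR m 1) 1 :=
    ⟨fun a => by rw [layR_n]; omega,
      fun a i _ => layR_pos m (by simpa using a.a.pos.1) a.a.pos.2.1 a.a.pos.2.2 i,
      by simpa [layR_zero] using hs, by simpa only [layR_vol, Nat.div_one] using hV⟩
  refine Gat.to_lay5 (Λ := layR m 1) (i := fun _ => 1) (j := fun _ => m + 3)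
    (len := fun _ => m + 1) ?_ (fun _ => by omega) (fun _ => by rw [layR_n]; omega)
    (fun a => layR_yx m 1 _ _ _ _) hF.pos fun a => by rw [layR_n, par5_layR, Nat.div_one]
  refine Gat.swap_of_hard hF le_rfl (by omega) (fun _ => by rw [layR_n]; omega)
    (fun a => layR_yx m 1 _ _ _ _) ?_
  have top := Gat.hardSmall hF (11 ^ m) (i := fun _ => 1 + m) (j := fun _ => m + 3 + m)
    (PT.const _) (PT.const _) (fun _ => by omega) (fun _ => by omega)
    (fun _ => by rw [layR_n]; omega) fun a => by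
      rw [layR_yt]
      exact Nat.pow_le_pow_right (by norm_num) (Nat.mod_lt _ (by omega)).le
  have low : Gat 𝔅 (fun a : SIdx k => a.a.par) (layR m 1) (layR m 1)
      (fun a v w => Out (2 * m + 5) (m + 3) m v w ∧ ∀ l < m, (w (m + 3 + l) : ℤ) ≡
        v (m + 3 + l) + v (1 + l) [ZMOD (layR m 1).r a.a.par (m + 3 + l)])
      fun a => if m ≤ a.a.u then r * a.T (a.a.vol / W, a.a.u / m) else 0 := by
    refine Gat.cases (fun q => m ≤ Nat.log 11 q.2.1) (by fun_prop) hF.smV ?_ ?_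
    · have hu : ∀ a : {a : SIdx k // m ≤ Nat.log 11 a.a.par.2.1}, m ≤ a.1.a.u := fun a => by
        simpa [Nat.log_pow] using a.2
      have hR : ∀ a : {a : SIdx k // m ≤ Nat.log 11 a.a.par.2.1},
          W ∣ a.1.a.B ∧ Rich k (a.1.a.u / m).size (a.1.a.B / W) a.1.a.vol := fun a =>
        Rich.div hW (a.1.a.rich.mono (size_div_lt hm (hu a)) (dvd_refl _) le_rfl)
      have hW0 : 0 < W := hW ▸ Nat.two_pow_pos _
      have hB : ∀ a : {a : SIdx k // m ≤ Nat.log 11 a.a.par.2.1}, 0 < a.1.a.B / W := fun a =>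
        Nat.div_pos (Nat.le_of_dvd a.1.a.pos.1 (hR a).1) hW0
      have hvol : ∀ a : {a : SIdx k // m ≤ Nat.log 11 a.a.par.2.1},
          (layR m W).vol a.1.a.par = a.1.a.vol / W := fun a => by
        rw [layR_vol, STask.vol, lay5_vol, lay5_vol]
        exact (Nat.mul_div_right_comm (hR a).1 _).symm
      have hF1 := hF.reindex (Subtype.val : {a : SIdx k // m ≤ Nat.log 11 a.a.par.2.1} → _)
      have hs' : SmIn (fun a : {a : SIdx k // m ≤ Nat.log 11 a.a.par.2.1} => a.1.a.B / W)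
          fun a => a.1.a.par :=
        smIn_lay5 (fun a => a.1.a.par_pos) (Rich.smIn (fun a => (hR a).2) hB)
      have hF' : Fam (fun a : {a : SIdx k // m ≤ Nat.log 11 a.a.par.2.1} => 𝔅.V a.1)
          (fun a => a.1.a.par) (layR m W) 1 :=
        ⟨fun a => by rw [layR_n]; omega,
          fun a i _ => layR_pos m (hB a) a.1.a.pos.2.1 a.1.a.pos.2.2 i,
          by simpa [layR_zero] using hs',
          (hV.comp _).mono_left fun a => (hvol a).trans_le (Nat.div_le_self _ _)⟩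
      refine (Gat.hard_net (𝔅 := 𝔅.comap Subtype.val) hN hF1 hF' (fun _ => rfl)
        (fun a => ?_) (fun a i _ hi => layR_ne m W 1 _ hi) (iy := 1) (ix := m + 3) le_rfl (by omega)
        (fun _ => by rw [layR_n]; omega) (u := fun a => a.1.a.u / m)
        (fun a l hl => ⟨layR_y _ _ _ _ _ hl, layR_x _ _ _ _ _ hl⟩)
        (ex := fun a => a.1.T (a.1.a.vol / W, a.1.a.u / m)) (fun a => a.1.hT _)
        fun i hi j hj => ?_).mono_ex fun a => by rw [if_pos (hu a)]
      · rw [layR_zero, layR_zero, Nat.div_one, Nat.div_mul_cancel (hR a).1]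
      · obtain ⟨g, hg, e⟩ := (layR m W).pt_par5 (PT.const (1 + i)) (PT.const (m + 3 + j))
          (PT.const 1)
        have h1 : 1 + i + 1 ≤ m + 3 + j := by omega
        have h2 : m + 3 + j + 1 ≤ 2 * m + 5 := by omega
        have e1 := fun q => e q h1 h2
        have hr : ∀ a : {a : SIdx k // m ≤ Nat.log 11 a.a.par.2.1}, ∀ l < 1,
            (layR m W).r a.1.a.par (1 + i + l) = (layR m W).r a.1.a.par (m + 3 + j + l) := by
          intro a l hl
          obtain rfl : l = 0 := by omega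
          rw [add_zero, add_zero, layR_y _ _ _ _ _ hi, layR_x _ _ _ _ _ hj]
        have ev : ∀ a : {a : SIdx k // m ≤ Nat.log 11 a.a.par.2.1},
            lay5.vol (g a.1.a.par) = a.1.a.vol / W := fun a => by
          rw [e1, ← hvol]; exact vol_par5 h1 h2 (hr a)
        have call := Gat.swap_rec_call (𝔅.comap (Subtype.val :
          {a : SIdx k // m ≤ Nat.log 11 a.a.par.2.1} → _)) (fun a => a.1) (fun a => ho _)
          (q := fun a => g a.1.a.par) (u := fun a => a.1.a.u / m)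
          (fun a => by rw [e1]; simp only [par5, rwt_one]; exact layR_y _ _ _ _ _ hi)
          (fun a => Nat.div_lt_self (by have := hu a; omega) hm)
          (fun a => by
            rw [e1]
            exact ⟨hF'.wt_pos a (by rw [layR_n]; omega),
              rwt_pos fun l _ => layR_pos m (hB a) a.1.a.pos.2.1 a.1.a.pos.2.2 _,
              rwt_pos fun l _ => layR_pos m (hB a) a.1.a.pos.2.1 a.1.a.pos.2.2 _⟩)
          (fun a => by
            rw [ev, e1]
            refine (hR a).2.mono le_rfl ?_ (Nat.div_le_self _ _)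
            have := wt_dvd ((layR m W).r a.1.a.par) (show 1 ≤ 1 + i by omega)
            rwa [wt_one] at this)
          (hF'.smV.pt hg) (by simp only [ev, ← hvol]; exact hF'.vol)
        simp only [ev] at call
        exact (Gat.of_lay5 call hg hF'.smV (fun _ => h1) (fun _ => h2) hr
          fun a => e1 _).mono fun a v w _ _ h => rsw_one_iff.mpr h
    · refine ((Gat.id (𝔅 := 𝔅.comap Subtype.val) (hF.reindex _)).mono
        fun a v w hv hw h l hl => ?_).mono_ex fun a => ?_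
      · have hu : a.1.a.u < m := by simpa [Nat.log_pow] using a.2
        by_cases h1 : m + 3 ≤ l ∧ l < m + 3 + m
        · obtain ⟨l, rfl⟩ := Nat.exists_eq_add_of_le h1.1
          have e1 := hv _ hl
          have e2 := hw _ hl
          rw [layR_x _ _ _ _ _ (by omega), Nat.div_eq_of_lt hu] at e1 e2
          omega
        · exact h.1 l hl (by omega)
      · split_ifs
        · exact mul_nonneg (Nat.cast_nonneg _) (a.1.hT _)
        · exact le_rfl
  refine (low.comp1 top).mono fun a v w hv hw h => ?_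
  have hn : m + 3 + m < (layR m 1).n a.a.par := by rw [layR_n]; omega
  refine ⟨update v (m + 3 + m) (w (m + 3 + m)), R326.Val.update hv (hw _ hn),
    ⟨fun l _ hl => (update_of_ne (by omega) _ _).symm, ?_⟩, fun l hl hl' => ?_, fun l hl => ?_⟩
  · rw [update_self]; exact h.2 m (by omega)
  · by_cases e : l = m + 3 + m
    · rw [e, update_self]
    · rw [update_of_ne e]; exact h.1 l hl (by omega)
  · rw [update_of_ne (by omega), update_of_ne (by omega)]
    exact h.2 l (by omega)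

/-- The recursion.  Recipe: `Alg.fix` with `μ = u`, class `(vol, u)`, `V = vol`,
`F = vol * (max u 1) ^ tauE`, `T (V, u) = A * V * (max u 1) ^ tauE` (`rate_solve`).  View the array
in the layout `[B | y × m | ytop | A2 | x × m | xtop | A1]` with digits of radix `11 ^ (u / m)` and
top digits of radix `11 ^ (u % m) ≤ 11 ^ m` (`u = Nat.log 11 Q` is `PT` and `PB`; `Gat.transfer`).
`Gat.swap_of_hard` with `m + 1` fields; the shear on the top digits is `Gat.hardSmall`; for `u ≥ m`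
the other `m` shears are `Gat.hard_net`, whose exchanges are recursive calls (`RecIdx.call` on the
register viewed as `lay5`; `Rich.div`, `(u / m).size + 1 ≤ u.size`); for `u < m` they are trivial
(radix `1`). -/
theorem swap_core (k : ℕ) : ∃ (A : ℝ) (y : STask k → Arr), 0 ≤ A ∧
    (∀ t, GPost lay5 lay5 (t.B, 11 ^ t.u, t.A2, t.A1) SwR t.D (y t)) ∧
    Alg (fun t : STask k => ((t.B, 11 ^ t.u, t.A2, t.A1), t.D)) y
      fun t => A * lay5.vol (t.B, 11 ^ t.u, t.A2, t.A1) * (max t.u 1 : ℕ) ^ tauE := by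
  obtain ⟨m, W, r, start, hW, hm, hr, hN⟩ := swap_network
  have hVF : ∀ t : STask k, (t.vol : ℝ) ≤ t.vol * ((max t.u 1 : ℕ) : ℝ) ^ tauE := fun t =>
    le_mul_of_one_le_right (Nat.cast_nonneg _)
      (Real.one_le_rpow (by exact_mod_cast le_max_right _ _) tauE_nonneg)
  have hs : SmIn (fun t : STask k => t.vol) fun t => t.par :=
    smIn_lay5 (fun t => t.par_pos) (SmIn.self fun t => by
      obtain ⟨h1, h2, h3, h4⟩ := t.par_pos
      rw [STask.vol, lay5_vol]
      exact Nat.succ_le_of_lt (by positivity))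
  obtain ⟨y, y1, y2⟩ := (swap_body k hW hm hN (recBud _ _ hVF) (fun _ => rfl) (OLe.refl _)).apply
    (fun a => a) (fun a => a.a.D) fun a => a.a.len
  obtain ⟨c, hc, h⟩ := Alg.fix (fun t : STask k => (t.par, t.D))
    (fun t y => GPost lay5 lay5 t.par SwR t.D y) (fun t => t.u) (fun t => (t.vol, t.u)) _ _ hVF
    (sz_pair hs.size_le (sz_bits (OLe.of_le fun t => t.len.le) hs.one_le))
    (fun T t => if m ≤ t.u then r * T (t.vol / W, t.u / m) else 0) y y1 y2
  obtain ⟨A, hA, hrate⟩ := rate_solve hm hr c hc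
  have hA0 : 0 ≤ A := hc.trans hA
  refine ⟨A, (h (fun z => A * z.1 * ((max z.2 1 : ℕ) : ℝ) ^ tauE)
    (fun z => by positivity) fun t => ?_).imp fun y' h' => ⟨hA0, h'⟩⟩
  dsimp only
  split_ifs with hu
  · obtain ⟨N, hN'⟩ : W ∣ t.vol := by
      rw [STask.vol, lay5_vol]
      exact (Rich.div hW (t.rich.mono (size_div_lt hm hu) (dvd_refl _) le_rfl)).1.mul_right _
    have hW0 : 0 < W := hW ▸ Nat.two_pow_pos _
    have e1 : max t.u 1 = t.u := max_eq_left (by omega)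
    have e2 : max (t.u / m) 1 = t.u / m := max_eq_left (Nat.div_pos hu (by omega))
    rw [e1, e2, hN', Nat.mul_div_cancel_left _ hW0]
    have := mul_le_mul_of_nonneg_left (hrate t.u) (Nat.cast_nonneg N : (0 : ℝ) ≤ N)
    push_cast
    nlinarith
  · rw [add_zero, mul_assoc]
    exact mul_le_mul_of_nonneg_right hA (by positivity)

/-- Arbitrary radix.  Recipe: pad both fields to radix `11 ^ clog 11 Q` (`Gat.resize`, the volume
grows by at most `121 ≤ 2 ^ 7`; `Rich.enlarge`, `Rich.smIn`), `Alg.l`, resize back. -/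
theorem Gat.swapPos (k : ℕ) {p : α → ℕ × ℕ × ℕ × ℕ}
    (hpos : ∀ a, 0 < (p a).1 ∧ 0 < (p a).2.1 ∧ 0 < (p a).2.2.1 ∧ 0 < (p a).2.2.2)
    (hV : (fun a => lay5.vol (p a)) ≼ 𝔅.V)
    (hR : ∀ a, Rich k (lay5.vol (p a)).size.size (p a).1 (lay5.vol (p a)))
    (hc : (fun a => (lay5.vol (p a) : ℝ) * ((p a).2.1.size : ℝ) ^ tauE) ≲ 𝔅.F) :
    Gat 𝔅 p lay5 lay5 (fun _ => SwR) fun _ => 0 := by
  obtain ⟨A, y, hA, hy, halg⟩ := swap_core (k + 7 + 1)
  have hs : SmIn (fun a => (p a).1) p := smIn_lay5 hpos (Rich.smIn hR fun a => (hpos a).1)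
  have hid : ∀ x : ℕ, 0 < x → 0 < x ∧ x ≤ 11 * x := fun x hx => ⟨hx, by omega⟩
  have hup : ∀ x : ℕ, 0 < x → 0 < up11 x ∧ up11 x ≤ 11 * x := fun x hx =>
    ⟨hx.trans (lt_up11 x), up11_le hx⟩
  have F0 : Fam 𝔅.V p lay5 1 := fam_layPad PT.id' PT.id' hid hid hpos hV hs
  have F1 := fam_layPad pt_up11 PT.id' hup hid hpos hV hs
  have F2 := fam_layPad pt_up11 pt_up11 hup hup hpos hV hs
  have hvol : ∀ a, (layPad up11 up11 pt_up11 pt_up11).vol (p a) ≤ 121 * lay5.vol (p a) := by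
    intro a
    have e1 := up11_le (hpos a).2.1
    rw [layPad_vol, lay5_vol]
    calc _ ≤ (p a).1 * (11 * (p a).2.1 * ((p a).2.2.1 * (11 * (p a).2.1 * (p a).2.2.2))) := by
          gcongr
      _ = _ := by ring
  have hQ : ∀ a, (p a).2.1 ≤ lay5.vol (p a) := fun a =>
    Nat.le_of_dvd (F0.vol_pos a) (by
      rw [lay5_vol]
      exact Dvd.intro ((p a).1 * ((p a).2.2.1 * ((p a).2.1 * (p a).2.2.2))) (by ring))
  have core : Gat 𝔅 p (layPad up11 up11 pt_up11 pt_up11) (layPad up11 up11 pt_up11 pt_up11)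
      (fun _ => SwR) fun _ => 0 := by
    refine Impl.intro F2.sz_in fun γ φ D hD hsz => ?_
    let t : γ → STask (k + 7 + 1) := fun c =>
      ⟨(p (φ c)).1, Nat.log 11 (p (φ c)).2.1 + 1, (p (φ c)).2.2.1, (p (φ c)).2.2.2, D c,
        ⟨(hpos _).1, (hpos _).2.2⟩,
        ((hR (φ c)).enlarge (c := 7) ((hvol (φ c)).trans (Nat.mul_le_mul_right _ (by norm_num)))).mono
          (Nat.size_le_size ((log_lt_size (hpos _).2.1).trans (Nat.size_le_size (hQ _))))
          (dvd_refl _) le_rfl, hD c⟩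
    have h1 := halg.l (𝔅.comap φ) t
      (sz_bits ((F2.vol.comp φ).mono_left fun c => (hy (t c)).1.le) fun c => F2.smV.one_le _) ?_
    · refine ⟨fun c => y (t c), fun c => hy (t c), L.comp ?_ h1⟩
      exact ((L.in1 _ _ _).pt (F2.smV.comp φ)
        (f := fun q : ℕ × ℕ × ℕ × ℕ => (q.1, 11 ^ (Nat.log 11 q.2.1 + 1), q.2.2.1, q.2.2.2))
        (by fun_prop)).pair (L.in2 _ _ _)
    · refine (((hc.comp φ).const_mul (A * 121) (by positivity))).mono_left fun c => ?_
      have e1 : ((lay5.vol ((t c).B, 11 ^ (t c).u, (t c).A2, (t c).A1) : ℕ) : ℝ) ≤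
          121 * lay5.vol (p (φ c)) := by exact_mod_cast hvol (φ c)
      have e2 : ((max (t c).u 1 : ℕ) : ℝ) ≤ ((p (φ c)).2.1.size : ℝ) := by
        have := log_lt_size (hpos (φ c)).2.1
        exact_mod_cast max_le this (by omega)
      have e3 := Real.rpow_le_rpow (Nat.cast_nonneg _) e2 tauE_nonneg
      calc _ ≤ A * (121 * lay5.vol (p (φ c))) * ((p (φ c)).2.1.size : ℝ) ^ tauE := by
            gcongr
        _ = _ := by ring
  have hne : ∀ {f g f' g' : ℕ → ℕ} {hf : PT f} {hg : PT g} {hf' : PT f'} {hg' : PT g'} (i : ℕ),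
      (i ≠ 1 → f' = f) → (i ≠ 3 → g' = g) → ∀ a, ∀ k < (layPad f g hf hg).n (p a), k ≠ i →
        (layPad f' g' hf' hg').r (p a) k = (layPad f g hf hg).r (p a) k := by
    intro f g f' g' hf hg hf' hg' i e1 e2 a k hk hki
    have hk' : k < 5 := hk
    interval_cases k
    · rfl
    · exact congrFun (e1 (Ne.symm hki)) _
    · rfl
    · exact congrFun (e2 (Ne.symm hki)) _
    · rfl
  have r1 := Gat.resize (i := fun _ => 1) F0 F1 (PT.const 1) (fun _ => rfl) (fun _ => by simp)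
    (hne (hf := PT.id') (hg := PT.id') 1 (fun h => absurd rfl h) fun _ => rfl)
  have r2 := Gat.resize (i := fun _ => 3) F1 F2 (PT.const 3) (fun _ => rfl) (fun _ => by simp)
    (hne 3 (fun _ => rfl) fun h => absurd rfl h)
  have r3 := Gat.resize (i := fun _ => 3) F2 F1 (PT.const 3) (fun _ => rfl) (fun _ => by simp)
    (hne 3 (fun _ => rfl) fun h => absurd rfl h)
  have r4 := Gat.resize (i := fun _ => 1) F1 F0 (PT.const 1) (fun _ => rfl) (fun _ => by simp)
    (hne (hf' := PT.id') (hg' := PT.id') 1 (fun h => absurd rfl h) fun _ => rfl)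
  refine ((((r1.comp0 r2).comp0 core).comp0 r3).comp0 r4).mono fun a v w hv hw hvw => ?_
  have up : ∀ x, lay5.Val (p a) x → (layPad up11 (fun z => z) pt_up11 PT.id').Val (p a) x ∧
      (layPad up11 up11 pt_up11 pt_up11).Val (p a) x := by
    intro x hx
    rw [lay5_val] at hx
    obtain ⟨h0, h1, h2, h3, h4⟩ := hx
    have := lt_up11 (p a).2.1
    simp only [layPad_val]
    exact ⟨⟨h0, by omega, h2, h3, h4⟩, h0, by omega, h2, by omega, h4⟩
  exact ⟨v, (up v hv).1, fun _ _ => rfl, v, (up v hv).2, fun _ _ => rfl, w, (up w hw).2, hvw,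
    w, (up w hw).1, fun _ _ => rfl, fun _ _ => rfl⟩

/-- Exchange two ranges of fields.  Recipe: `Gat.transfer` from `Gat.swapPos`. -/
theorem Gat.swap (k : ℕ) (hF : Fam 𝔅.V p Λ b) {i j len : P → ℕ} (hi : PT i) (hj : PT j)
    (hl : PT len) (hb : ∀ a, b ≤ i (p a)) (hij : ∀ a, i (p a) + len (p a) ≤ j (p a))
    (hn : ∀ a, j (p a) + len (p a) ≤ Λ.n (p a))
    (hr : ∀ a, ∀ g < len (p a), Λ.r (p a) (i (p a) + g) = Λ.r (p a) (j (p a) + g))
    (hR : ∀ a, Rich k (Λ.vol (p a)).size.size (wt (Λ.r (p a)) b) (Λ.vol (p a)))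
    (hc : (fun a => (Λ.vol (p a) : ℝ) *
      ((rwt (Λ.r (p a)) (i (p a)) (len (p a))).size : ℝ) ^ tauE) ≲ 𝔅.F) :
    Gat 𝔅 p Λ Λ (fun a v w => (∀ g < len (p a), v (i (p a) + g) = w (j (p a) + g) ∧
        v (j (p a) + g) = w (i (p a) + g)) ∧
      ∀ k < Λ.n (p a), k < i (p a) ∨ i (p a) + len (p a) ≤ k →
        k < j (p a) ∨ j (p a) + len (p a) ≤ k → v k = w k) fun _ => 0 := by
  obtain ⟨g, hg, e⟩ := Λ.pt_par5 hi hj hl
  have e1 := fun a => e (p a) (hij a) (hn a)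
  have ev : ∀ a, lay5.vol (g (p a)) = Λ.vol (p a) := fun a => by
    rw [e1 a]; exact vol_par5 (hij a) (hn a) (hr a)
  refine Gat.of_lay5 (Gat.swapPos k (p := fun a => g (p a)) (fun a => ?_) ?_ (fun a => ?_) ?_) hg
    hF.smV hij hn hr e1
  · have h1 := hij a
    have h2 := hn a
    rw [e1 a]
    exact ⟨hF.wt_pos a (by omega), rwt_pos fun k hk => hF.pos a _ (by omega),
      rwt_pos fun k hk => hF.pos a _ (by omega), rwt_pos fun k hk => hF.pos a _ (by omega)⟩
  · simp only [ev]; exact hF.vol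
  · rw [ev, e1 a]
    exact (hR a).mono le_rfl (wt_dvd _ (hb a)) le_rfl
  · simp only [ev]
    simp only [e1]
    exact hc

/-- Exchange the low part of field `i` with field `j`. -/
theorem Gat.swapLow (k : ℕ) (hF : Fam 𝔅.V p Λ b) {i j : P → ℕ} (hi : PT i) (hj : PT j)
    (hb : ∀ a, b ≤ i (p a)) (hij : ∀ a, i (p a) < j (p a)) (hn : ∀ a, j (p a) < Λ.n (p a))
    (hr : ∀ a, Λ.r (p a) (j (p a)) ∣ Λ.r (p a) (i (p a)))
    (hR : ∀ a, Rich k (Λ.vol (p a)).size.size (wt (Λ.r (p a)) b) (Λ.vol (p a)))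
    (hc : (fun a => (Λ.vol (p a) : ℝ) * ((Λ.r (p a) (j (p a))).size : ℝ) ^ tauE) ≲ 𝔅.F) :
    Gat 𝔅 p Λ Λ (fun a v w => v (i (p a)) % Λ.r (p a) (j (p a)) = w (j (p a)) ∧
      v (j (p a)) = w (i (p a)) % Λ.r (p a) (j (p a)) ∧
      v (i (p a)) / Λ.r (p a) (j (p a)) = w (i (p a)) / Λ.r (p a) (j (p a)) ∧
      ∀ k < Λ.n (p a), k ≠ i (p a) → k ≠ j (p a) → v k = w k) fun _ => 0 := by
  have hi1 : PT fun q => i q + 1 := hi.nat_add (PT.const 1)
  have hj1 : PT fun q => j q + 1 := hj.nat_add (PT.const 1)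
  have hg := (Λ.pt_wt PT.id' hi).prodMk ((Λ.pt_r PT.id' hj).prodMk
    ((((Λ.pt_r PT.id' hi).nat_div (Λ.pt_r PT.id' hj)).nat_mul
      (Λ.pt_rwt PT.id' hi1 (hj.nat_sub hi1))).prodMk
      (Λ.pt_rwt PT.id' hj1 (Λ.hn.nat_sub hj1))))
  generalize hgg : (fun q => (wt (Λ.r q) (min (i q) (Λ.n q)), Λ.r q (j q),
    Λ.r q (i q) / Λ.r q (j q) * rwt (Λ.r q) (i q + 1) (min (j q - (i q + 1)) (Λ.n q)),
    rwt (Λ.r q) (j q + 1) (min (Λ.n q - (j q + 1)) (Λ.n q)))) = g at hg
  have e1 : ∀ a, g (p a) = parL (Λ.r (p a)) (Λ.n (p a)) (i (p a)) (j (p a)) := fun a => by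
    have h1 := hij a
    have h2 := hn a
    rw [← hgg]
    simp only [parL]
    rw [min_eq_left (by omega), min_eq_left (by omega), min_eq_left (by omega)]
  have ev : ∀ a, lay5.vol (g (p a)) = Λ.vol (p a) := fun a => by
    rw [e1 a]; exact vol_parL (hij a) (hn a) (hr a)
  refine (Gat.transfer (Gat.swapPos k (p := fun a => g (p a)) (fun a => ?_) ?_ (fun a => ?_) ?_) hg
    hF.smV (fun a => (ev a).symm) fun a => (ev a).symm).mono fun a v w hv hw hvw => ?_
  · have h1 := hij a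
    have h2 := hn a
    have h3 := hF.pos a _ (hn a)
    rw [e1 a]
    exact ⟨hF.wt_pos a (by omega), h3, Nat.mul_pos
      (Nat.div_pos (Nat.le_of_dvd (hF.pos a _ (by omega)) (hr a)) h3)
      (rwt_pos fun k hk => hF.pos a _ (by omega)), rwt_pos fun k hk => hF.pos a _ (by omega)⟩
  · simp only [ev]; exact hF.vol
  · rw [ev, e1 a]
    exact (hR a).mono le_rfl (wt_dvd _ (hb a)) le_rfl
  · simp only [ev]
    simp only [e1]
    exact hc
  · have h1 := hij a
    have h2 := hn a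
    rw [e1 a]
    refine ⟨_, _, val_foldL hv h1 h2 (hr a), val_foldL hw h1 h2 (hr a),
      (pos_foldL v h1 h2 (hr a)).symm, (pos_foldL w h1 h2 (hr a)).symm, ?_⟩
    obtain ⟨a1, a2, a3, a4⟩ := hvw
    simp only [SwR, foldL, ad5_0, ad5_1, ad5_2, ad5_3, ad5_4]
    refine ⟨pos_congr (fun _ _ => rfl) fun k hk => a4 k (by omega) (by omega) (by omega), a1, ?_,
      a2, rg_congr (fun _ _ => rfl) fun k hk => a4 _ (by omega) (by omega) (by omega)⟩
    rw [a3, rg_congr (fun _ _ => rfl) fun k hk => a4 _ (by omega) (by omega) (by omega)]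

end Crest.Agent.R326
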