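/-
R326/Xor: flipping one bit in many chunks at once, controlled by other chunks.
-/
import Crest.Agent.R326.Swap

set_option autoImplicit false
set_option linter.unusedSimpArgs false
set_option linter.unusedSectionVars false
set_option linter.unusedVariables false

namespace Crest.Agent.R326

open Function Crest.Agent.Lib.PolyTime

variable {α P : Type} [Enc P] {𝔅 : Bud α} {p : α → P} {Λ : Lay P} {b : ℕ}

/-! ### Arithmetic of one bit -/

theorem xor_two_pow_int (x j : ℕ) :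
    ((x ^^^ 2 ^ j : ℕ) : ℤ) = x + 2 ^ j * (1 - 2 * ((x.testBit j).toNat : ℤ)) := by
  have h1 : (x ^^^ 2 ^ j) % 2 ^ j = x % 2 ^ j := by rw [Nat.xor_mod_two_pow]; simp
  have h2 : (x ^^^ 2 ^ j) / 2 ^ j = x / 2 ^ j ^^^ 1 := by
    rw [Nat.xor_div_two_pow, Nat.div_self (Nat.two_pow_pos j)]
  have h3 := Nat.div_add_mod (x ^^^ 2 ^ j) (2 ^ j)
  have h4 := Nat.div_add_mod x (2 ^ j)
  rw [h1, h2] at h3
  rw [Nat.testBit_eq_decide_div_mod_eq]
  rcases Nat.even_or_odd (x / 2 ^ j) with h | h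
  · rw [Nat.xor_one_of_even h] at h3
    have h5 : x / 2 ^ j % 2 = 0 := Nat.even_iff.mp h
    simp only [h5, zero_ne_one, decide_false, Bool.toNat_false, Nat.cast_zero]
    zify at h3 h4
    push_cast
    linear_combination h4 - h3
  · rw [Nat.xor_one_of_odd h] at h3
    have h5 : x / 2 ^ j % 2 = 1 := Nat.odd_iff.mp h
    have h6 : 1 ≤ x / 2 ^ j := h.pos
    simp only [h5, decide_true, Bool.toNat_true, Nat.cast_one]
    zify [h6] at h3 h4
    push_cast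
    linear_combination h4 - h3

theorem xor_lt_mul {K j x c : ℕ} (hj : j < K) (hx : x < 2 ^ K * c) : x ^^^ 2 ^ j < 2 ^ K * c := by
  have h0 := Nat.two_pow_pos K
  have h1 : (x ^^^ 2 ^ j) / 2 ^ K = x / 2 ^ K := by
    rw [Nat.xor_div_two_pow, Nat.div_eq_of_lt (Nat.pow_lt_pow_right (by norm_num) hj),
      Nat.xor_zero]
  rw [mul_comm] at hx ⊢
  rw [← Nat.div_lt_iff_lt_mul h0] at hx ⊢
  rwa [h1]

theorem xor_lt_Gam0 {K j x : ℕ} (hj : j < K) (hx : x < Gam0 K) : x ^^^ 2 ^ j < Gam0 K :=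
  xor_lt_mul (K := 2 * K) (by omega) hx

theorem xor_lt_Gam {K j x : ℕ} (hj : j < K) (hx : x < Gam K) : x ^^^ 2 ^ j < Gam K := by
  have := xor_lt_mul (K := 3 * K) (j := j) (x := x) (c := 1) (by omega) (by simpa [Gam] using hx)
  simpa [Gam] using this

theorem xor_Gam0_add (K : ℕ) : Gam0 K + 2 ^ (2 * K) = Gam K := by
  have h0 := Nat.two_pow_pos K
  have : Gam K = 2 ^ (2 * K) * (2 ^ K - 1 + 1) := by
    rw [Nat.sub_add_cancel h0, ← pow_add, Gam]; congr 1; ring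
  rw [this, Gam0]; ring

theorem Gam0_lt_Gam (K : ℕ) : Gam0 K < Gam K := by
  have := xor_Gam0_add K
  have := Nat.two_pow_pos (2 * K)
  omega

theorem xor_testBit_add_mul (x j c : ℕ) : (x + 2 * 2 ^ j * c).testBit j = x.testBit j := by
  have h0 := Nat.two_pow_pos j
  rw [Nat.testBit_eq_decide_div_mod_eq, Nat.testBit_eq_decide_div_mod_eq,
    show x + 2 * 2 ^ j * c = x + 2 ^ j * (2 * c) by ring, Nat.add_mul_div_left _ _ h0,
    Nat.add_mul_mod_self_left]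

theorem xor_step1_lt {K j X Z y : ℕ} (hj : j < K) (hX : X < Gam0 K) (hZ : Z < Gam0 K) (hy : y ≤ 1) :
    X + 2 * 2 ^ j * (y * (Z / 2 ^ (2 * K))) < Gam K := by
  have h1 : Z / 2 ^ (2 * K) < 2 ^ K - 1 := by
    rw [Nat.div_lt_iff_lt_mul (Nat.two_pow_pos _), mul_comm]; exact hZ
  have h2 : 2 * 2 ^ j ≤ 2 ^ K := by
    rw [← pow_succ']; exact Nat.pow_le_pow_right (by norm_num) hj
  have h3 : y * (Z / 2 ^ (2 * K)) ≤ 2 ^ K := by
    calc y * (Z / 2 ^ (2 * K)) ≤ 1 * (Z / 2 ^ (2 * K)) := Nat.mul_le_mul_right _ hy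
      _ ≤ 2 ^ K := by omega
  have h4 := Nat.mul_le_mul h2 h3
  rw [← pow_add, ← two_mul] at h4
  have := xor_Gam0_add K
  omega

/-! ### Digitwise additions -/

/-- Overwrite the fields `i, …, i + len - 1`. -/
def xupd (v : ℕ → ℕ) (i len : ℕ) (f : ℕ → ℕ) : ℕ → ℕ :=
  fun k => if i ≤ k ∧ k < i + len then f (k - i) else v k

theorem xupd_in (v : ℕ → ℕ) {i len g : ℕ} (f : ℕ → ℕ) (hg : g < len) :
    xupd v i len f (i + g) = f g := by
  simp [xupd, hg]

theorem xupd_out (v : ℕ → ℕ) {i len k : ℕ} (f : ℕ → ℕ) (hk : k < i ∨ i + len ≤ k) :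
    xupd v i len f k = v k := by
  simp only [xupd]; rw [if_neg (by omega)]

theorem val_xupd {r v f : ℕ → ℕ} {n i len : ℕ} (hv : Val r n v)
    (hf : ∀ g < len, f g < r (i + g)) : Val r n (xupd v i len f) := by
  intro k hk
  by_cases h : i ≤ k ∧ k < i + len
  · obtain ⟨g, rfl⟩ := Nat.exists_eq_add_of_le h.1
    rw [xupd_in _ _ (by omega)]; exact hf g (by omega)
  · rw [xupd_out _ _ (by omega)]; exact hv k hk

/-- The control bit. -/
def xctl (one : Bool) (src j : ℕ) (v : ℕ → ℕ) (g : ℕ) : Bool := one || (v (src + g)).testBit j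

theorem xctl_congr {one : Bool} {src j g : ℕ} {v w : ℕ → ℕ}
    (h : one = false → v (src + g) = w (src + g)) : xctl one src j v g = xctl one src j w g := by
  cases one
  · simp [xctl, h rfl]
  · simp [xctl]

/-- Add to each digit of a range an amount that depends on two outer digits. -/
theorem Gat.addDig (hF : Fam 𝔅.V p Λ b) (one : Bool) {j i src iz ℓ : P → ℕ} (hj : PT j)
    (hi : PT i) (hs : PT src) (hiz : PT iz) (hl : PT ℓ) (hb : ∀ a, b ≤ i (p a))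
    (h1 : ∀ a, i (p a) + ℓ (p a) ≤ iz (p a)) (h2 : ∀ a, iz (p a) + ℓ (p a) ≤ Λ.n (p a))
    (h3 : one = false → ∀ a, i (p a) + ℓ (p a) ≤ src (p a) ∧ src (p a) + ℓ (p a) ≤ iz (p a))
    {e : P × ℕ × Bool → ℤ} (he : PT e) :
    Gat 𝔅 p Λ Λ (fun a v w => Out (Λ.n (p a)) (i (p a)) (ℓ (p a)) v w ∧ ∀ g < ℓ (p a),
      (w (i (p a) + g) : ℤ) = v (i (p a) + g) +
        e (p a, v (iz (p a) + g), xctl one (src (p a)) (j (p a)) v g)) fun _ => 0 := by
  have hw : PT fun z : (P × List ℕ) × ℕ => rwt (Λ.r z.1.1) (i z.1.1) (min z.2 (Λ.n z.1.1)) :=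
    Λ.pt_rwt (by fun_prop) (by fun_prop) (by fun_prop)
  have hG : PT fun z : P × List ℕ => ∑ g ∈ Finset.range (min (ℓ z.1) (Λ.n z.1)),
      (rwt (Λ.r z.1) (i z.1) (min g (Λ.n z.1)) : ℤ) * e (z.1, z.2.getD (iz z.1 + g) 0,
        one || (z.2.getD (src z.1 + g) 0).testBit (j z.1)) :=
    PT.sum_range_int (f := fun (z : P × List ℕ) g =>
      (rwt (Λ.r z.1) (i z.1) (min g (Λ.n z.1)) : ℤ) * e (z.1, z.2.getD (iz z.1 + g) 0,
        one || (z.2.getD (src z.1 + g) 0).testBit (j z.1))) (by fun_prop) (by fun_prop)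
      (PT.int_mul (PT.int_natCast hw) (by fun_prop))
  refine (Gat.zadd hF hi hl hG (fun a => (hb a).trans (Nat.le_add_right _ _))
    fun a => by have := h1 a; have := h2 a; omega).mono fun a v w hv hw h => ⟨h.1, ?_⟩
  have k1 := h1 a
  have k2 := h2 a
  have : (rg (Λ.r (p a)) w (i (p a)) (ℓ (p a)) : ℤ) = rg (Λ.r (p a)) v (i (p a)) (ℓ (p a)) +
      ∑ g ∈ Finset.range (min (ℓ (p a)) (Λ.n (p a))),
        (rwt (Λ.r (p a)) (i (p a)) (min g (Λ.n (p a))) : ℤ) *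
          e (p a, (Λ.od (p a) (i (p a) + ℓ (p a)) v).getD (iz (p a) + g) 0,
            one || ((Λ.od (p a) (i (p a) + ℓ (p a)) v).getD (src (p a) + g) 0).testBit
              (j (p a))) := by
    rw [min_eq_left (by omega), rg, rg, pos, pos]
    push_cast
    rw [← Finset.sum_add_distrib]
    refine Finset.sum_congr rfl fun g hg => ?_
    have hg' := Finset.mem_range.mp hg
    have k3 : (one || ((Λ.od (p a) (i (p a) + ℓ (p a)) v).getD (src (p a) + g) 0).testBit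
        (j (p a))) = xctl one (src (p a)) (j (p a)) v g := by
      cases one
      · have := h3 rfl a
        rw [Λ.od_getD _ _ (by omega) (by omega)]; rfl
      · simp [xctl]
    rw [k3, Λ.od_getD _ _ (by omega) (by omega), min_eq_left (by omega), sh_apply, sh_apply,
      h.2 g hg', rwt]
    ring
  rw [this]

/-- The same for the outer range, conjugated by an exchange. -/
theorem Gat.addDigSw (k : ℕ) (hF : Fam 𝔅.V p Λ b) (one : Bool) {j i src iz ℓ : P → ℕ} (hj : PT j)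
    (hi : PT i) (hs : PT src) (hiz : PT iz) (hl : PT ℓ) (hb : ∀ a, b ≤ i (p a))
    (h1 : ∀ a, i (p a) + ℓ (p a) ≤ iz (p a)) (h2 : ∀ a, iz (p a) + ℓ (p a) ≤ Λ.n (p a))
    (h3 : one = false → ∀ a, i (p a) + ℓ (p a) ≤ src (p a) ∧ src (p a) + ℓ (p a) ≤ iz (p a))
    (hr : ∀ a, ∀ g < ℓ (p a), Λ.r (p a) (i (p a) + g) = Λ.r (p a) (iz (p a) + g))
    (hR : ∀ a, Rich k (Λ.vol (p a)).size.size (wt (Λ.r (p a)) b) (Λ.vol (p a)))
    (hc : (fun a => (Λ.vol (p a) : ℝ) *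
      ((rwt (Λ.r (p a)) (i (p a)) (ℓ (p a))).size : ℝ) ^ tauE) ≲ 𝔅.F)
    {e : P × ℕ × Bool → ℤ} (he : PT e) :
    Gat 𝔅 p Λ Λ (fun a v w => Out (Λ.n (p a)) (iz (p a)) (ℓ (p a)) v w ∧ ∀ g < ℓ (p a),
      (w (iz (p a) + g) : ℤ) = v (iz (p a) + g) +
        e (p a, v (i (p a) + g), xctl one (src (p a)) (j (p a)) v g)) fun _ => 0 := by
  have hsw := Gat.swap k hF hi hiz hl hb h1 h2 hr hR hc
  refine ((hsw.comp0 (Gat.addDig hF one hj hi hs hiz hl hb h1 h2 h3 he)).comp0 hsw).mono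
    fun a v w hv hw h => ?_
  have k1 := h1 a
  have k2 := h2 a
  have hsv : ∀ u, Λ.Val (p a) u → Λ.Val (p a) (xupd (xupd u (i (p a)) (ℓ (p a))
      fun g => u (iz (p a) + g)) (iz (p a)) (ℓ (p a)) fun g => u (i (p a) + g)) := fun u hu =>
    val_xupd (val_xupd hu fun g hg => by rw [hr a g hg]; exact hu _ (by omega))
      fun g hg => by rw [← hr a g hg]; exact hu _ (by omega)
  refine ⟨_, hsv v hv, ⟨fun g hg => ⟨?_, ?_⟩, fun k hk m1 m2 => ?_⟩, _, hsv w hw,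
    ⟨fun k hk m => ?_, fun g hg => ?_⟩, fun g hg => ⟨?_, ?_⟩, fun k hk m1 m2 => ?_⟩
  · rw [xupd_in _ _ hg]
  · rw [xupd_out _ _ (by omega), xupd_in _ _ hg]
  · rw [xupd_out _ _ m2, xupd_out _ _ m1]
  · by_cases m2 : iz (p a) ≤ k ∧ k < iz (p a) + ℓ (p a)
    · obtain ⟨g, rfl⟩ := Nat.exists_eq_add_of_le m2.1
      rw [xupd_in _ _ (by omega), xupd_in _ _ (by omega)]
      exact h.1 _ (by omega) (by omega)
    · rw [xupd_out _ _ (by omega), xupd_out _ _ m, xupd_out _ _ (by omega), xupd_out _ _ m]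
      exact h.1 _ hk (by omega)
  · rw [xupd_out _ _ (by omega), xupd_in _ _ hg, xupd_out _ _ (by omega), xupd_in _ _ hg,
      xupd_in _ _ hg, h.2 g hg]
    rw [xctl_congr (v := xupd _ _ _ _) (w := v) fun h0 => by
      have := h3 h0 a
      rw [xupd_out _ _ (by omega), xupd_out _ _ (by omega)]]
  · rw [xupd_out _ _ (by omega), xupd_in _ _ hg]
  · rw [xupd_in _ _ hg]
  · rw [xupd_out _ _ m2, xupd_out _ _ m1]

theorem xor_tauE_nonneg : 0 ≤ tauE := by unfold tauE; norm_num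

theorem xor_tauE_le_one : tauE ≤ 1 := by unfold tauE; norm_num

theorem xor_size_pow_tau {K ℓ : ℕ} (hK : 1 ≤ K) (hl : 1 ≤ ℓ) :
    (((Gam K ^ ℓ).size : ℕ) : ℝ) ^ tauE ≤ 4 * (K * (ℓ : ℝ) ^ tauE) := by
  have h1 : (Gam K ^ ℓ).size ≤ 4 * K * ℓ := by
    rw [Gam, ← pow_mul, Nat.size_pow]
    have : 1 ≤ K * ℓ := Nat.mul_pos hK hl
    nlinarith
  have h2 : (1 : ℝ) ≤ 4 * K := by
    have : (1 : ℝ) ≤ K := by exact_mod_cast hK
    linarith
  calc (((Gam K ^ ℓ).size : ℕ) : ℝ) ^ tauE ≤ ((4 * K : ℝ) * ℓ) ^ tauE :=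
        Real.rpow_le_rpow (by positivity) (by exact_mod_cast h1) xor_tauE_nonneg
    _ = (4 * K : ℝ) ^ tauE * (ℓ : ℝ) ^ tauE := Real.mul_rpow (by positivity) (by positivity)
    _ ≤ (4 * K : ℝ) * (ℓ : ℝ) ^ tauE := by
        refine mul_le_mul_of_nonneg_right ?_ (by positivity)
        simpa using Real.rpow_le_rpow_of_exponent_le h2 xor_tauE_le_one
    _ = _ := by ring

/-- Flip bit `j` of the chunk `i + g` if `one` or if bit `j` of the chunk `src + g` is set, for all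
`g < ℓ`.  Recipe: write `X g`, `Z g` for the digits at `i + g`, `iz + g`, `y g ∈ {0, 1}` for the
control, `x g` for bit `j` of `X g`, `Zc = Z / 2 ^ (2 K)`.  The map is the composition of
`X += 2 ^ (j + 1) y Zc`; `Z += 2 ^ (2 K) x`; `X += 2 ^ j y (1 - 2 Zc)`;
`Z -= 2 ^ (2 K) (x xor y)` (new `x`).  On `Good` addresses no digit leaves `[0, Γ)`, so each line
is one `Gat.zadd` on the whole range `i, …, i + ℓ - 1` with amount `∑ g, Γ ^ g * …`; the lines
for `Z` are conjugated by `Gat.swap` of the two ranges (four swaps of cost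
`vol * (3 K ℓ + 1) ^ tauE ≤ 4 * vol * K * ℓ ^ tauE`).  For polynomial time use `min ℓ n`,
`Γ = Λ.r q i`, `2 ^ min j (size Γ)`, `2 ^ (2 * min K (size Γ))`. -/
theorem Gat.xor (k : ℕ) (hF : Fam 𝔅.V p Λ b) (one : Bool) {K j i src iz ℓ : P → ℕ} (hK : PT K)
    (hj : PT j) (hi : PT i) (hs : PT src) (hiz : PT iz) (hl : PT ℓ) (hb : ∀ a, b ≤ i (p a))
    (hjK : ∀ a, j (p a) < K (p a)) (hl1 : ∀ a, 1 ≤ ℓ (p a))
    (h1 : ∀ a, i (p a) + ℓ (p a) ≤ iz (p a)) (h2 : ∀ a, iz (p a) + ℓ (p a) ≤ Λ.n (p a))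
    (h3 : one = false → ∀ a, i (p a) + ℓ (p a) ≤ src (p a) ∧ src (p a) + ℓ (p a) ≤ iz (p a))
    (hr : ∀ a, ∀ g < ℓ (p a), Λ.r (p a) (i (p a) + g) = Gam (K (p a)) ∧
      Λ.r (p a) (iz (p a) + g) = Gam (K (p a)))
    (hR : ∀ a, Rich k (Λ.vol (p a)).size.size (wt (Λ.r (p a)) b) (Λ.vol (p a)))
    (hc : (fun a => (Λ.vol (p a) : ℝ) * (K (p a) * (ℓ (p a) : ℝ) ^ tauE)) ≲ 𝔅.F) :
    Gat 𝔅 p Λ Λ (fun a v w => Good (K (p a)) (i (p a)) (iz (p a)) (ℓ (p a)) v ∧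
      Out (Λ.n (p a)) (i (p a)) (ℓ (p a)) v w ∧ ∀ g < ℓ (p a), w (i (p a) + g) =
        if one || (v (src (p a) + g)).testBit (j (p a)) then v (i (p a) + g) ^^^ 2 ^ j (p a)
        else v (i (p a) + g)) fun _ => 0 := by
  let J : P → ℕ := fun q => 2 ^ min (j q) (Λ.r q (i q)).size
  let T : P → ℕ := fun q => 2 ^ (2 * min (K q) (Λ.r q (i q)).size)
  have hJ : PT J := by fun_prop
  have hT : PT T := by fun_prop
  have hsz : ∀ a, (Λ.r (p a) (i (p a))).size = 3 * K (p a) + 1 := fun a => by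
    have := (hr a 0 (hl1 a)).1
    rw [add_zero] at this
    rw [this, Gam, Nat.size_pow]
  have eJ : ∀ a, J (p a) = 2 ^ j (p a) := fun a => by
    have := hjK a
    simp only [J, hsz a]; rw [min_eq_left (by omega)]
  have eT : ∀ a, T (p a) = 2 ^ (2 * K (p a)) := fun a => by
    simp only [T, hsz a]; rw [min_eq_left (by omega)]
  have hr' : ∀ a, ∀ g < ℓ (p a), Λ.r (p a) (i (p a) + g) = Λ.r (p a) (iz (p a) + g) :=
    fun a g hg => by rw [(hr a g hg).1, (hr a g hg).2]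
  have hc' : (fun a => (Λ.vol (p a) : ℝ) *
      ((rwt (Λ.r (p a)) (i (p a)) (ℓ (p a))).size : ℝ) ^ tauE) ≲ 𝔅.F := by
    refine (hc.const_mul 4 (by norm_num)).mono_left fun a => ?_
    rw [rwt_const fun g hg => (hr a g hg).1]
    have := xor_size_pow_tau (K := K (p a)) (by have := hjK a; omega) (hl1 a)
    have h0 : (0 : ℝ) ≤ Λ.vol (p a) := Nat.cast_nonneg _
    nlinarith [mul_le_mul_of_nonneg_left this h0]
  have gA := Gat.addDig hF one hj hi hs hiz hl hb h1 h2 h3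
    (e := fun z => ((2 * J z.1 * (z.2.2.toNat * (z.2.1 / T z.1)) : ℕ) : ℤ)) (by fun_prop)
  have gB := Gat.addDigSw k hF one hj hi hs hiz hl hb h1 h2 h3 hr' hR hc'
    (e := fun z => ((T z.1 * (z.2.1.testBit (j z.1)).toNat : ℕ) : ℤ)) (by fun_prop)
  have gC := Gat.addDig hF one hj hi hs hiz hl hb h1 h2 h3
    (e := fun z => (J z.1 : ℤ) * (z.2.2.toNat : ℤ) * (1 - 2 * ((z.2.1 / T z.1 : ℕ) : ℤ)))
    (by fun_prop)
  have gD := Gat.addDigSw k hF one hj hi hs hiz hl hb h1 h2 h3 hr' hR hc'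
    (e := fun z => -((T z.1 * (Bool.xor (z.2.1.testBit (j z.1)) z.2.2).toNat : ℕ) : ℤ)) (by fun_prop)
  refine (((gD.comp0 gC).comp0 gB).comp0 gA).mono fun a v w hv hw h => ?_
  obtain ⟨hG, hO, hW⟩ := h
  have k1 := h1 a
  have k2 := h2 a
  have k3 := hjK a
  simp only [eJ a, eT a]
  generalize hy : xctl one (src (p a)) (j (p a)) = y at *
  have hyc : ∀ u : ℕ → ℕ, (∀ k < Λ.n (p a), k < i (p a) ∨ i (p a) + ℓ (p a) ≤ k →
      k < iz (p a) ∨ iz (p a) + ℓ (p a) ≤ k → u k = v k) → ∀ g < ℓ (p a), y u g = y v g :=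
    fun u hu g hg => hy ▸ xctl_congr fun h0 => by
      have := h3 h0 a
      exact hu _ (by omega) (by omega) (by omega)
  have hW' : ∀ g < ℓ (p a), w (i (p a) + g) =
      if y v g then v (i (p a) + g) ^^^ 2 ^ j (p a) else v (i (p a) + g) := fun g hg => by
    rw [← hy]; exact hW g hg
  let v1 := xupd v (i (p a)) (ℓ (p a)) fun g => v (i (p a) + g) +
    2 * 2 ^ j (p a) * ((y v g).toNat * (v (iz (p a) + g) / 2 ^ (2 * K (p a))))
  let v2 := xupd v1 (iz (p a)) (ℓ (p a)) fun g => v (iz (p a) + g) +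
    2 ^ (2 * K (p a)) * ((v (i (p a) + g)).testBit (j (p a))).toNat
  let v3 := xupd v2 (i (p a)) (ℓ (p a)) fun g => w (i (p a) + g)
  have hv1 : Λ.Val (p a) v1 := val_xupd hv fun g hg => by
    rw [(hr a g hg).1]; exact xor_step1_lt k3 (hG g hg).1 (hG g hg).2 (Bool.toNat_le _)
  have hv2 : Λ.Val (p a) v2 := val_xupd hv1 fun g hg => by
    rw [(hr a g hg).2, ← xor_Gam0_add]
    have m1 := (hG g hg).2
    have m2 := Nat.mul_le_mul_left (2 ^ (2 * K (p a)))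
      (Bool.toNat_le ((v (i (p a) + g)).testBit (j (p a))))
    omega
  have hv3 : Λ.Val (p a) v3 := val_xupd hv2 fun g hg => hw _ (by omega)
  have y1 := hyc v1 fun k _ m _ => xupd_out _ _ m
  have y2 := hyc v2 fun k _ m m' => (xupd_out _ _ m').trans (xupd_out _ _ m)
  have y3 := hyc v3 fun k _ m m' =>
    (xupd_out _ _ m).trans ((xupd_out _ _ m').trans (xupd_out _ _ m))
  have a1 : ∀ g < ℓ (p a), v1 (i (p a) + g) = v (i (p a) + g) +
      2 * 2 ^ j (p a) * ((y v g).toNat * (v (iz (p a) + g) / 2 ^ (2 * K (p a)))) :=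
    fun g hg => xupd_in _ _ hg
  have b1 : ∀ g < ℓ (p a), v1 (iz (p a) + g) = v (iz (p a) + g) :=
    fun g hg => xupd_out _ _ (by omega)
  have a2 : ∀ g < ℓ (p a), v2 (i (p a) + g) = v1 (i (p a) + g) :=
    fun g hg => xupd_out _ _ (by omega)
  have b2 : ∀ g < ℓ (p a), v2 (iz (p a) + g) = v (iz (p a) + g) +
      2 ^ (2 * K (p a)) * ((v (i (p a) + g)).testBit (j (p a))).toNat :=
    fun g hg => xupd_in _ _ hg
  have a3 : ∀ g < ℓ (p a), v3 (i (p a) + g) = w (i (p a) + g) := fun g hg => xupd_in _ _ hg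
  have b3 : ∀ g < ℓ (p a), v3 (iz (p a) + g) = v2 (iz (p a) + g) :=
    fun g hg => xupd_out _ _ (by omega)
  refine ⟨v1, hv1, ⟨fun k _ m => (xupd_out _ _ m).symm, fun g hg => ?_⟩,
    v2, hv2, ⟨fun k _ m => (xupd_out _ _ m).symm, fun g hg => ?_⟩,
    v3, hv3, ⟨fun k _ m => (xupd_out _ _ m).symm, fun g hg => ?_⟩, fun k hk m => ?_,
    fun g hg => ?_⟩
  · rw [a1 g hg]; push_cast; ring
  · rw [b2 g hg, b1 g hg, a1 g hg, xor_testBit_add_mul]; push_cast; ring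
  · rw [a3 g hg, a2 g hg, a1 g hg, b2 g hg, y2 g hg, hW' g hg,
      Nat.add_mul_div_left _ _ (Nat.two_pow_pos _)]
    cases y v g
    · simp
    · simp only [if_true, xor_two_pow_int, Bool.toNat_true]; push_cast; ring
  · by_cases m2 : i (p a) ≤ k ∧ k < i (p a) + ℓ (p a)
    · obtain ⟨g, rfl⟩ := Nat.exists_eq_add_of_le m2.1
      exact a3 g (by omega)
    · exact (xupd_out _ _ (by omega)).trans ((xupd_out _ _ m).trans
        ((xupd_out _ _ (by omega)).trans (hO k hk (by omega))))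
  · rw [b3 g hg, b2 g hg, a3 g hg, y3 g hg, hW' g hg, ← hO _ (by omega) (by omega)]
    cases y v g
    · simp
    · simp [Nat.testBit_xor]

end Crest.Agent.R326
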