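/-
R326/CMove: a rank one move of the butterfly network costs one batch of butterflies.
-/
import Crest.Agent.R326.Xor
import Crest.Agent.R326.Ring
import Crest.Agent.R326.Frames

set_option autoImplicit false
set_option linter.unusedSimpArgs false
set_option linter.unusedSectionVars false
set_option linter.unusedVariables false

namespace Crest.Agent.R326

open Function Crest.Agent.Lib.PolyTime

variable {α P : Type} [Enc P] {𝔅 : Bud α} {p : α → P} {Λ : Lay P}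

/-- The standing assumptions for `m` groups of `ℓ` active chunks. -/
structure CFam (𝔅 : Bud α) (p : α → P) (Λ : Lay P) (k m : ℕ) (Pw K j i iz ℓ : P → ℕ) : Prop where
  fam : Fam 𝔅.V p Λ 2
  ptP : PT Pw
  ptK : PT K
  ptj : PT j
  pti : PT i
  ptz : PT iz
  ptl : PT ℓ
  hP : ∀ a, 1 ≤ Pw (p a)
  h0 : ∀ a, Λ.r (p a) 0 = 2 * Pw (p a)
  hj : ∀ a, j (p a) < K (p a)
  hi : ∀ a, 2 ≤ i (p a)
  hl : ∀ a, 1 ≤ ℓ (p a)
  hiz : ∀ a, i (p a) + m * ℓ (p a) ≤ iz (p a)
  hn : ∀ a, iz (p a) + m * ℓ (p a) ≤ Λ.n (p a)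
  hr : ∀ a, ∀ g < m * ℓ (p a), Λ.r (p a) (i (p a) + g) = Gam (K (p a)) ∧
    Λ.r (p a) (iz (p a) + g) = Gam (K (p a))
  rich : ∀ a, Rich k (Λ.vol (p a)).size.size (Λ.r (p a) 1) (Λ.vol (p a))
  cost : (fun a => (Λ.vol (p a) : ℝ) * (K (p a) * (ℓ (p a) : ℝ) ^ tauE)) ≲ 𝔅.F

/-! ### Flip patterns -/

section mix
variable {m : ℕ}

theorem zmod2_cases (x : ZMod 2) : x = 0 ∨ x = 1 := by
  revert x; decide

/-- The pattern with entry `u l * β c` in chunk `(l, c)`. -/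
def mixv (i ℓ : ℕ) (u : Fin m → ZMod 2) (β : ℕ → ZMod 2) : ℕ → ZMod 2 :=
  fun k => ∑ l : Fin m, if i + l * ℓ ≤ k ∧ k < i + (l + 1) * ℓ then u l * β (k - (i + l * ℓ)) else 0

theorem chunk_unique {i ℓ l l' c : ℕ} (hc : c < ℓ) (h1 : i + l' * ℓ ≤ i + l * ℓ + c)
    (h2 : i + l * ℓ + c < i + (l' + 1) * ℓ) : l' = l := by
  have h3 : l' * ℓ < (l + 1) * ℓ := by rw [add_mul, one_mul]; omega
  have h4 : l * ℓ < (l' + 1) * ℓ := by omega
  have h5 := Nat.lt_of_mul_lt_mul_right h3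
  have h6 := Nat.lt_of_mul_lt_mul_right h4
  omega

theorem chunk_lt {ℓ l c m : ℕ} (hl : l < m) (hc : c < ℓ) : l * ℓ + c < m * ℓ := by
  have := Nat.mul_le_mul_right ℓ (Nat.succ_le_of_lt hl)
  rw [Nat.succ_mul] at this
  omega

theorem chunk_le {ℓ l m : ℕ} (hl : l < m) : l * ℓ + ℓ ≤ m * ℓ := by
  have := Nat.mul_le_mul_right ℓ (Nat.succ_le_of_lt hl)
  rwa [Nat.succ_mul] at this

theorem mixv_apply (i : ℕ) {ℓ : ℕ} (u : Fin m → ZMod 2) (β : ℕ → ZMod 2) (l : Fin m) {c : ℕ}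
    (hc : c < ℓ) : mixv i ℓ u β (i + l * ℓ + c) = u l * β c := by
  unfold mixv
  rw [Finset.sum_eq_single l]
  · rw [if_pos ⟨by omega, by rw [add_mul, one_mul]; omega⟩, Nat.add_sub_cancel_left]
  · intro l' _ hl'
    rw [if_neg]
    rintro ⟨h1, h2⟩
    exact hl' (Fin.ext (chunk_unique hc h1 h2))
  · simp

theorem mixv_out {i ℓ : ℕ} (u : Fin m → ZMod 2) (β : ℕ → ZMod 2) {k : ℕ}
    (hk : k < i ∨ i + m * ℓ ≤ k) : mixv i ℓ u β k = 0 := by
  unfold mixv
  refine Finset.sum_eq_zero fun l _ => if_neg ?_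
  rintro ⟨h1, h2⟩
  have := chunk_le (ℓ := ℓ) l.2
  rw [add_mul, one_mul] at h2
  omega

theorem chunk_cases (i ℓ m k : ℕ) :
    (k < i ∨ i + m * ℓ ≤ k) ∨ ∃ (l : Fin m) (c : ℕ), c < ℓ ∧ k = i + l * ℓ + c := by
  by_cases h : k < i ∨ i + m * ℓ ≤ k
  · exact Or.inl h
  have h1 : i ≤ k := by omega
  have h2 : k - i < m * ℓ := by omega
  have hl : 0 < ℓ := by
    rcases Nat.eq_zero_or_pos ℓ with h0 | h0
    · simp [h0] at h2
    · exact h0
  refine Or.inr ⟨⟨(k - i) / ℓ, (Nat.div_lt_iff_lt_mul hl).2 h2⟩, (k - i) % ℓ, Nat.mod_lt _ hl, ?_⟩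
  have := Nat.div_add_mod' (k - i) ℓ
  simp only
  omega

theorem pat_ext {i ℓ : ℕ} {g g' : ℕ → ZMod 2} (h1 : ∀ k, k < i ∨ i + m * ℓ ≤ k → g k = g' k)
    (h2 : ∀ (l : Fin m) (c : ℕ), c < ℓ → g (i + l * ℓ + c) = g' (i + l * ℓ + c)) : g = g' := by
  funext k
  rcases chunk_cases i ℓ m k with h | ⟨l, c, hc, rfl⟩
  · exact h1 k h
  · exact h2 l c hc

theorem mixv_supp {i ℓ : ℕ} (u : Fin m → ZMod 2) (β : ℕ → ZMod 2) (c : ℕ)
    (h : mixv i ℓ u β c = 1) : i ≤ c ∧ c < i + m * ℓ := by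
  by_contra hc
  rw [mixv_out u β (by omega)] at h
  exact zero_ne_one h

theorem mixv_add_left (i ℓ : ℕ) (u u' : Fin m → ZMod 2) (β : ℕ → ZMod 2) :
    mixv i ℓ (u + u') β = mixv i ℓ u β + mixv i ℓ u' β :=
  pat_ext (m := m) (i := i) (ℓ := ℓ) (fun k hk => by simp [mixv_out _ _ hk])
    fun l c hc => by simp [mixv_apply _ _ _ _ hc, add_mul]

theorem mixv_add_right (i ℓ : ℕ) (u : Fin m → ZMod 2) (β β' : ℕ → ZMod 2) :
    mixv i ℓ u (β + β') = mixv i ℓ u β + mixv i ℓ u β' :=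
  pat_ext (m := m) (i := i) (ℓ := ℓ) (fun k hk => by simp [mixv_out _ _ hk])
    fun l c hc => by simp [mixv_apply _ _ _ _ hc, mul_add]

theorem mixv_congr (i : ℕ) {ℓ : ℕ} (u : Fin m → ZMod 2) {β β' : ℕ → ZMod 2}
    (h : ∀ c < ℓ, β c = β' c) : mixv i ℓ u β = mixv i ℓ u β' :=
  pat_ext (m := m) (i := i) (ℓ := ℓ) (fun k hk => by simp [mixv_out _ _ hk])
    fun l c hc => by simp [mixv_apply _ _ _ _ hc, h c hc]

theorem mixv_zero (i ℓ : ℕ) (β : ℕ → ZMod 2) : mixv i ℓ (0 : Fin m → ZMod 2) β = 0 := by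
  funext k; simp [mixv]

theorem allv_eq (i ℓ : ℕ) (u : Fin m → ZMod 2) : allv i ℓ u = mixv i ℓ u fun _ => 1 := by
  funext k; simp [mixv, allv]

theorem colv_eq (i : ℕ) {ℓ : ℕ} (u : Fin m → ZMod 2) {c : ℕ} (hc : c < ℓ) :
    colv i ℓ u c = mixv i ℓ u (Pi.single c 1) := by
  funext k
  refine Finset.sum_congr rfl fun l _ => ?_
  by_cases h : k = i + l * ℓ + c
  · rw [if_pos h, if_pos ⟨by omega, by rw [add_mul, one_mul]; omega⟩, h, Nat.add_sub_cancel_left]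
    simp
  · rw [if_neg h]
    split_ifs with h2
    · rw [Pi.single_eq_of_ne (by omega), mul_zero]
    · rfl

theorem single_eq_mixv (i : ℕ) {ℓ : ℕ} (l0 : Fin m) {c : ℕ} (hc : c < ℓ) :
    (Pi.single (i + l0 * ℓ + c) 1 : ℕ → ZMod 2) = mixv i ℓ (Pi.single l0 1) (Pi.single c 1) := by
  refine pat_ext (m := m) (i := i) (ℓ := ℓ) (fun k hk => ?_) fun l c' hc' => ?_
  · have := chunk_lt l0.2 hc
    rw [mixv_out _ _ hk, Pi.single_eq_of_ne (by omega)]
  · rw [mixv_apply _ _ _ _ hc']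
    by_cases h : l = l0
    · subst h
      by_cases h' : c' = c
      · subst h'; simp
      · rw [Pi.single_eq_of_ne (by omega), Pi.single_eq_of_ne h', mul_zero]
    · rw [Pi.single_eq_of_ne h, zero_mul, Pi.single_eq_of_ne]
      intro e
      exact h (Fin.ext (chunk_unique (i := i) hc (by omega) (by rw [add_mul, one_mul]; omega)))

/-- The control bits. -/
def ctl (one : Bool) (j s : ℕ) (v : ℕ → ℕ) (c : ℕ) : ZMod 2 :=
  if one || (v (s + c)).testBit j then 1 else 0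

theorem ctl_true (j s : ℕ) (v : ℕ → ℕ) : ctl true j s v = fun _ => 1 := by
  funext c; simp [ctl]

theorem ctl_flp (j s : ℕ) (g : ℕ → ZMod 2) (v : ℕ → ℕ) (c : ℕ) :
    ctl false j s (flp j g v) c = ctl false j s v c + g (s + c) := by
  unfold ctl flp
  rcases zmod2_cases (g (s + c)) with h | h
  · simp [h]
  · rw [if_pos h, h, Nat.testBit_xor, Nat.testBit_two_pow_self]
    cases (v (s + c)).testBit j
    · simp
    · simp only [Bool.false_or, Bool.xor_true, Bool.not_true, Bool.false_eq_true, if_false,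
        if_true]
      decide

theorem ctl_update (one : Bool) (j : ℕ) {s : ℕ} (hs : 0 < s) (v : ℕ → ℕ) (x : ℕ) :
    ctl one j s (update v 0 x) = ctl one j s v := by
  funext c
  unfold ctl
  rw [update_of_ne (by omega)]

theorem flp_update (j : ℕ) {g : ℕ → ZMod 2} (hg : g 0 ≠ 1) (v : ℕ → ℕ) (x : ℕ) :
    flp j g (update v 0 x) = update (flp j g v) 0 x := by
  funext k
  by_cases hk : k = 0
  · subst hk; simp [flp, hg]
  · simp [flp, update_of_ne hk]

/-- The controlled flip. -/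
def pim (one : Bool) (j i ℓ l0 : ℕ) (u : Fin m → ZMod 2) (v : ℕ → ℕ) : ℕ → ℕ :=
  flp j (mixv i ℓ u (ctl one j (i + l0 * ℓ) v)) v

theorem pim_zero (one : Bool) (j i ℓ l0 : ℕ) (v : ℕ → ℕ) :
    pim one j i ℓ l0 (0 : Fin m → ZMod 2) v = v := by
  rw [pim, mixv_zero, flp_zero]; rfl

theorem pim_true (j i ℓ l0 : ℕ) (u : Fin m → ZMod 2) (v : ℕ → ℕ) :
    pim true j i ℓ l0 u v = flp j (allv i ℓ u) v := by
  rw [pim, ctl_true, allv_eq]

theorem pim_update (one : Bool) (j : ℕ) {i : ℕ} (hi : 0 < i) (ℓ l0 : ℕ) (u : Fin m → ZMod 2)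
    (v : ℕ → ℕ) (x : ℕ) :
    pim one j i ℓ l0 u (update v 0 x) = update (pim one j i ℓ l0 u v) 0 x := by
  rw [pim, ctl_update _ _ (by omega), flp_update, pim]
  intro h
  have := mixv_supp _ _ _ h
  omega

theorem pim_pim (one : Bool) (j i ℓ l0 : ℕ) (u u' : Fin m → ZMod 2)
    (h : one = false → ∃ hl : l0 < m, u' ⟨l0, hl⟩ = 0) (v : ℕ → ℕ) :
    pim one j i ℓ l0 u (pim one j i ℓ l0 u' v) = pim one j i ℓ l0 (u + u') v := by
  have e : mixv i ℓ u (ctl one j (i + l0 * ℓ) (pim one j i ℓ l0 u' v)) =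
      mixv i ℓ u (ctl one j (i + l0 * ℓ) v) := by
    cases one
    · obtain ⟨hl, h0⟩ := h rfl
      refine mixv_congr _ _ fun c hc => ?_
      rw [pim, ctl_flp]
      have := mixv_apply i u' (ctl false j (i + l0 * ℓ) v) ⟨l0, hl⟩ hc
      simp only at this
      rw [this, h0, zero_mul, add_zero]
    · rw [ctl_true, ctl_true]
  rw [pim, e, pim, pim, mixv_add_left, flp_add]

theorem pim_flp (j i : ℕ) {ℓ : ℕ} (l0 : Fin m) (u : Fin m → ZMod 2) {c : ℕ} (hc : c < ℓ)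
    (v : ℕ → ℕ) :
    pim false j i ℓ l0 u (flp j (Pi.single (i + l0 * ℓ + c) 1) v) =
      flp j (colv i ℓ (u + Pi.single l0 1) c) (pim false j i ℓ l0 u v) := by
  have e : mixv i ℓ u (ctl false j (i + l0 * ℓ) (flp j (Pi.single (i + l0 * ℓ + c) 1) v)) =
      mixv i ℓ u (ctl false j (i + l0 * ℓ) v + Pi.single c 1) := by
    refine mixv_congr _ _ fun c' hc' => ?_
    rw [ctl_flp, Pi.add_apply]
    congr 1
    by_cases h : c' = c
    · subst h; simp
    · rw [Pi.single_eq_of_ne (by omega), Pi.single_eq_of_ne h]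
  rw [pim, e, pim, colv_eq _ _ hc, mixv_add_left, mixv_add_right, single_eq_mixv i l0 hc,
    ← flp_add, ← flp_add]
  congr 1
  abel

end mix

theorem Good.update {K i iz ℓ : ℕ} {v : ℕ → ℕ} (h : Good K i iz ℓ v) (hi : 0 < i) (hz : 0 < iz)
    (x : ℕ) : Good K i iz ℓ (update v 0 x) := fun g hg => by
  rw [update_of_ne (by omega), update_of_ne (by omega)]
  exact h g hg

theorem Good.chunk {K i iz ℓ m l : ℕ} {v : ℕ → ℕ} (h : Good K i iz (m * ℓ) v) (hl : l < m) :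
    Good K (i + l * ℓ) iz ℓ v := fun g hg => by
  have h1 := chunk_lt hl hg
  exact ⟨by rw [add_assoc]; exact (h _ h1).1, (h g (by omega)).2⟩

variable {k m : ℕ} {Pw K j i iz ℓ : P → ℕ}

/-- Valid good addresses are closed under flips of active chunks. -/
theorem CFam.flp_closed (h : CFam 𝔅 p Λ k m Pw K j i iz ℓ) (a : α) {g : ℕ → ZMod 2}
    (hg : ∀ c, g c = 1 → i (p a) ≤ c ∧ c < i (p a) + m * ℓ (p a)) {v : ℕ → ℕ}
    (hv : Λ.Val (p a) v ∧ Good (K (p a)) (i (p a)) (iz (p a)) (m * ℓ (p a)) v) :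
    Λ.Val (p a) (flp (j (p a)) g v) ∧
      Good (K (p a)) (i (p a)) (iz (p a)) (m * ℓ (p a)) (flp (j (p a)) g v) := by
  refine ⟨fun c hc => ?_, fun c hc => ⟨?_, ?_⟩⟩
  · unfold flp
    split_ifs with h1
    · obtain ⟨h2, h3⟩ := hg c h1
      have h4 := (h.hr a (c - i (p a)) (by omega)).1
      rw [Nat.add_sub_cancel' h2] at h4
      have h5 := hv.1 c hc
      rw [h4] at h5 ⊢
      exact xor_lt_Gam (h.hj a) h5
    · exact hv.1 c hc
  · unfold flp
    split_ifs with h1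
    · exact xor_lt_Gam0 (h.hj a) (hv.2 c hc).1
    · exact (hv.2 c hc).1
  · unfold flp
    rw [if_neg]
    · exact (hv.2 c hc).2
    · intro h1
      have := hg _ h1
      have := h.hiz a
      omega

theorem CFam.pim_closed (h : CFam 𝔅 p Λ k m Pw K j i iz ℓ) (a : α) (one : Bool) (l0 : ℕ)
    (u : Fin m → ZMod 2) {v : ℕ → ℕ}
    (hv : Λ.Val (p a) v ∧ Good (K (p a)) (i (p a)) (iz (p a)) (m * ℓ (p a)) v) :
    Λ.Val (p a) (pim one (j (p a)) (i (p a)) (ℓ (p a)) l0 u v) ∧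
      Good (K (p a)) (i (p a)) (iz (p a)) (m * ℓ (p a))
        (pim one (j (p a)) (i (p a)) (ℓ (p a)) l0 u v) :=
  h.flp_closed a (mixv_supp _ _) hv

/-- One group. -/
theorem Gat.pim_single (h : CFam 𝔅 p Λ k m Pw K j i iz ℓ) (one : Bool) (l0 : ℕ) (l : Fin m)
    (hl : one = false → l < l0 ∧ l0 < m) :
    Gat 𝔅 p Λ Λ (fun a v w => Good (K (p a)) (i (p a)) (iz (p a)) (m * ℓ (p a)) v ∧
      ∀ c < Λ.n (p a), w c = pim one (j (p a)) (i (p a)) (ℓ (p a)) l0
        (Pi.single l 1 : Fin m → ZMod 2) v c) fun _ => 0 := by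
  have hpi := h.pti
  have hpl := h.ptl
  have hx := Gat.xor k h.fam one (K := K) (j := j) (i := fun q => i q + l * ℓ q)
    (src := fun q => i q + l0 * ℓ q) (iz := iz) (ℓ := ℓ) h.ptK h.ptj (by fun_prop) (by fun_prop)
    h.ptz h.ptl (fun a => by have := h.hi a; omega) h.hj h.hl
    (fun a => by have := h.hiz a; have := chunk_le (ℓ := ℓ (p a)) l.2; omega)
    (fun a => by have := h.hn a; have := chunk_le (ℓ := ℓ (p a)) l.2; omega)
    (fun ho a => by
      obtain ⟨h1, h2⟩ := hl ho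
      have := h.hiz a
      have := chunk_le (ℓ := ℓ (p a)) h1
      have := chunk_le (ℓ := ℓ (p a)) h2
      omega)
    (fun a g hg => by
      have h1 := chunk_lt l.2 hg
      exact ⟨by rw [add_assoc]; exact (h.hr a _ h1).1, (h.hr a g (by omega)).2⟩)
    (fun a => (h.rich a).mono le_rfl (by
      rw [show (2 : ℕ) = 1 + 1 from rfl, wt_succ]; exact Dvd.intro_left _ rfl) le_rfl)
    h.cost
  refine hx.mono fun a v w hv hw hR => ⟨hR.1.chunk l.2, fun c hc hc' => ?_, fun g hg => ?_⟩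
  · rw [hR.2 c hc, pim, flp, if_neg]
    rcases chunk_cases (i (p a)) (ℓ (p a)) m c with h1 | ⟨l', c', hc'', rfl⟩
    · rw [mixv_out _ _ h1]; exact zero_ne_one
    · rw [mixv_apply _ _ _ _ hc'', Pi.single_eq_of_ne, zero_mul]
      · exact zero_ne_one
      · rintro rfl
        omega
  · have h1 := chunk_lt l.2 hg
    have := h.hiz a
    have := h.hn a
    rw [hR.2 _ (by omega), pim, flp, mixv_apply _ _ _ _ hg, Pi.single_eq_same, one_mul, ctl]
    split_ifs with h2 h3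
    · rfl
    · exact (h3 rfl).elim
    · exact (zero_ne_one ‹_›).elim
    · rfl

/-- All groups. -/
theorem Gat.pim (h : CFam 𝔅 p Λ k m Pw K j i iz ℓ) (one : Bool) (l0 : ℕ) (u : Fin m → ZMod 2)
    (hu : one = false → l0 < m ∧ ∀ l, u l = 1 → l < l0) :
    Gat 𝔅 p Λ Λ (fun a v w => Good (K (p a)) (i (p a)) (iz (p a)) (m * ℓ (p a)) v ∧
      ∀ c < Λ.n (p a), w c = pim one (j (p a)) (i (p a)) (ℓ (p a)) l0 u v c) fun _ => 0 := by
  let tr : ℕ → Fin m → ZMod 2 := fun t l => if (l : ℕ) < t then u l else 0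
  let sg : ℕ → Fin m → ZMod 2 := fun t l => if (l : ℕ) = t then u l else 0
  have htr : ∀ t, tr (t + 1) = tr t + sg t := by
    intro t
    funext l
    simp only [tr, sg, Pi.add_apply]
    split_ifs <;> first | omega | simp
  have hm : tr m = u := by
    funext l
    simp [tr, l.2]
  have key := Gat.iter h.fam m
    (fun t a v w => Good (K (p a)) (i (p a)) (iz (p a)) (m * ℓ (p a)) v ∧
      ∀ c < Λ.n (p a), w c = R326.pim one (j (p a)) (i (p a)) (ℓ (p a)) l0 (sg t) v c)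
    (fun t a v w => Good (K (p a)) (i (p a)) (iz (p a)) (m * ℓ (p a)) v ∧
      ∀ c < Λ.n (p a), w c = R326.pim one (j (p a)) (i (p a)) (ℓ (p a)) l0 (tr t) v c)
    (fun t ht => ?_) (fun a v w _ _ hR c hc => ?_) fun t ht a v w hv hw hR => ?_
  · rw [hm] at key
    exact key
  · rcases zmod2_cases (u ⟨t, ht⟩) with h1 | h1
    · have e : sg t = 0 := by
        funext l
        simp only [sg, Pi.zero_apply]
        split_ifs with h2
        · rw [← h1]; congr 1; exact Fin.ext h2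
        · rfl
      refine (Gat.id h.fam).mono fun a v w _ _ hR c hc => ?_
      rw [hR.2 c hc, e, pim_zero]
    · have e : sg t = Pi.single ⟨t, ht⟩ 1 := by
        funext l
        simp only [sg]
        split_ifs with h2
        · obtain rfl : l = ⟨t, ht⟩ := Fin.ext h2
          rw [h1, Pi.single_eq_same]
        · rw [Pi.single_eq_of_ne fun e => h2 (congrArg Fin.val e)]
      rw [e]
      exact Gat.pim_single h one l0 ⟨t, ht⟩ fun ho => ⟨(hu ho).2 _ h1, (hu ho).1⟩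
  · have e : tr 0 = 0 := by
      funext l
      simp [tr]
    rw [hR.2 c hc, e, pim_zero]
  · have hc := h.pim_closed a one l0 (sg t) ⟨hv, hR.1⟩
    refine ⟨_, hc.1, ⟨hR.1, fun _ _ => rfl⟩, hc.2, fun c hc' => ?_⟩
    rw [hR.2 c hc', pim_pim, htr]
    intro ho
    refine ⟨(hu ho).1, ?_⟩
    simp only [sg]
    split_ifs with h2
    · rcases zmod2_cases (u ⟨l0, (hu ho).1⟩) with h3 | h3
      · exact h3
      · exact absurd ((hu ho).2 _ h3) (lt_irrefl _)
    · rfl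

/-- Records are moved by the controlled flips. -/
theorem CFam.rv_pim (h : CFam 𝔅 p Λ k m Pw K j i iz ℓ) (a : α) {one : Bool} {l0 : ℕ}
    {u : Fin m → ZMod 2} {D D' : Arr} (hD : D.length = Λ.vol (p a))
    (hG : GPost Λ Λ (p a) (fun v w => Good (K (p a)) (i (p a)) (iz (p a)) (m * ℓ (p a)) v ∧
      ∀ c < Λ.n (p a), w c = pim one (j (p a)) (i (p a)) (ℓ (p a)) l0 u v c) D D') {v : ℕ → ℕ}
    (hv : Λ.Val (p a) v ∧ Good (K (p a)) (i (p a)) (iz (p a)) (m * ℓ (p a)) v) :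
    rv (Pw (p a)) D' (Λ.ri (p a) v) =
      rv (Pw (p a)) D (Λ.ri (p a) (pim one (j (p a)) (i (p a)) (ℓ (p a)) l0 u v)) := by
  have h1 : 1 ≤ Λ.n (p a) := le_trans one_le_two (h.fam.base a)
  have h2 := h.hi a
  have h3 := h.hiz a
  refine rv_congr (hG.blk_eq hD h1 h1 (h.h0 a) (h.h0 a) hv.1 (h.pim_closed a one l0 u hv).1
    fun x _ => ⟨hv.2.update (by omega) (by omega) x, fun c _ => ?_⟩)
  rw [pim_update _ _ (by omega)]

/-- Translation.  Recipe: for each `l` with `d l = 1` a `Gat.xor` with `one = true` on group `l`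
(scratch chunks `iz, …, iz + ℓ - 1`); `Gat.iter`. -/
theorem Gat.transl (h : CFam 𝔅 p Λ k m Pw K j i iz ℓ) (d : Fin m → ZMod 2) :
    Gat 𝔅 p Λ Λ (fun a v w => Good (K (p a)) (i (p a)) (iz (p a)) (m * ℓ (p a)) v ∧
      ∀ c < Λ.n (p a), w c = flp (j (p a)) (allv (i (p a)) (ℓ (p a)) d) v c) fun _ => 0 := by
  have := Gat.pim h true 0 d (by simp)
  simpa only [pim_true] using this

/-- A rank one move.  Recipe: if `w = 0` all flips are trivial (`Tens_id`).  Otherwise let `l0` be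
the largest index with `w l0 = 1` and let `π` flip bit `j` of the chunk `(l, c)` if bit `j` of the
chunk `(l0, c)` is set, for all `l < l0` with `w l = 1` (one `Gat.xor` each).  `π` is an involution
that conjugates the flip of `(l0, c)` to the flip of `colv w c` (`Tens_transport`).  So: gather by
`π`, `hrec l0`, gather by `π`, `Gat.transl`; use `GPost.blk_eq`, `rv_congr`. -/
theorem Impl.cmove (h : CFam 𝔅 p Λ k m Pw K j i iz ℓ) {ex : α → ℝ} (hex : ∀ a, 0 ≤ ex a)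
    (hrec : ∀ l < m, Impl 𝔅 p (fun a (D : Arr) => D.length = Λ.vol (p a))
      (fun a => CPost Λ (p a) (Pw (p a)) (K (p a)) (j (p a)) (i (p a) + l * ℓ (p a)) (iz (p a))
        (ℓ (p a))) ex) (d w : Fin m → ZMod 2) :
    Impl 𝔅 p (fun a (D : Arr) => D.length = Λ.vol (p a))
      (fun a D (D' : Arr) => D'.length = Λ.vol (p a) ∧ ∀ v, Λ.Val (p a) v →
        Good (K (p a)) (i (p a)) (iz (p a)) (m * ℓ (p a)) v →
        rv (Pw (p a)) D' (Λ.ri (p a) v) = Wten (aR _) (bR _) (j (p a)) (i (p a)) (ℓ (p a)) w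
          (fun u => rv (Pw (p a)) D (Λ.ri (p a) u))
          (flp (j (p a)) (allv (i (p a)) (ℓ (p a)) d) v)) ex := by
  have hT := Gat.pim h true 0 d (by simp)
  by_cases hw : w = 0
  · subst hw
    refine Impl.mono hT (fun _ _ e => e) (fun a D D' hD e => ⟨e.1, fun v hv hg => ?_⟩) hex
    rw [h.rv_pim a hD e ⟨hv, hg⟩, pim_true, Wten, Tens_id _ _ (aR_add_bR (h.hP a))]
    intro π hπ
    obtain ⟨c, hc, rfl⟩ := List.mem_map.mp hπ
    rw [colv_eq _ _ (List.mem_range.mp hc), mixv_zero, flp_zero]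
  have hne : ((Finset.univ : Finset (Fin m)).filter fun l => w l = 1).Nonempty := by
    by_contra hc
    refine hw (funext fun l => ?_)
    rcases zmod2_cases (w l) with h1 | h1
    · exact h1
    · exact (hc ⟨l, by simp [h1]⟩).elim
  obtain ⟨l0, hl0, hmax⟩ := Finset.exists_max_image _ (fun l : Fin m => (l : ℕ)) hne
  simp only [Finset.mem_filter, Finset.mem_univ, true_and] at hl0 hmax
  set u : Fin m → ZMod 2 := update w l0 0 with hu
  have hwu : u + Pi.single l0 1 = w := by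
    funext l
    by_cases e : l = l0
    · subst e; simp [hu, hl0]
    · simp [hu, update_of_ne e, Pi.single_eq_of_ne e]
  have hu0 : u l0 = 0 := by simp [hu]
  have hlt : ∀ l, u l = 1 → (l : ℕ) < l0 := by
    intro l hl
    have e : l ≠ l0 := by
      rintro rfl
      rw [hu0] at hl
      exact zero_ne_one hl
    rw [hu, update_of_ne e] at hl
    exact lt_of_le_of_ne (hmax l hl) fun e' => e (Fin.ext e')
  have hP := Gat.pim h false l0 u fun _ => ⟨l0.2, hlt⟩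
  have huu : u + u = 0 := by
    funext l
    rcases zmod2_cases (u l) with h1 | h1 <;> simp only [Pi.add_apply, h1, Pi.zero_apply] <;> decide
  refine (((Impl.comp hP (hrec l0 l0.2) fun _ _ _ _ e => e.1).comp hP
    fun _ _ _ _ e => e.choose_spec.2.1).comp hT fun _ _ _ _ e => e.choose_spec.2.1).mono
    (fun _ _ e => e) (fun a D D4 hD e => ?_) fun a => by simp
  obtain ⟨D3, ⟨D2, ⟨D1, e1, e2⟩, e3⟩, e4⟩ := e
  refine ⟨e4.1, fun v hv hg => ?_⟩
  have hv1 := h.pim_closed a true 0 d ⟨hv, hg⟩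
  rw [h.rv_pim a e3.1 e4 ⟨hv, hg⟩, h.rv_pim a e2.1 e3 hv1, ← pim_true _ _ _ 0]
  generalize pim true (j (p a)) (i (p a)) (ℓ (p a)) 0 d v = v1 at hv1 ⊢
  have hv2 := h.pim_closed a false l0 u hv1
  rw [e2.2 _ hv2.1 (hv2.2.chunk l0.2), Cten, Wten]
  have hinv : pim false (j (p a)) (i (p a)) (ℓ (p a)) l0 u
      (pim false (j (p a)) (i (p a)) (ℓ (p a)) l0 u v1) = v1 := by
    rw [pim_pim _ _ _ _ _ _ _ fun _ => ⟨l0.2, hu0⟩, huu, pim_zero]
  conv_rhs => rw [← hinv]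
  refine Tens_transport _ _ (fun x => Λ.Val (p a) x ∧
    Good (K (p a)) (i (p a)) (iz (p a)) (m * ℓ (p a)) x)
    (pim false (j (p a)) (i (p a)) (ℓ (p a)) l0 u) ?_ (fun x hx => h.rv_pim a hD e1 hx) hv2
  rw [List.forall₂_map_left_iff, List.forall₂_map_right_iff, List.forall₂_same]
  intro c hc x hx
  have hc' := List.mem_range.mp hc
  refine ⟨h.flp_closed a (fun c' h1 => ?_) hx, ?_⟩
  · rw [single_eq_mixv _ l0 hc'] at h1
    exact mixv_supp _ _ _ h1
  · rw [pim_flp _ _ _ _ hc', hwu]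

/-- A single butterfly on the field `i + c` (no scratch needed): `Gat.flip` and `L.rbut`. -/
theorem Impl.cone (hF : Fam 𝔅.V p Λ 2) (hPw : PT Pw) (hK : PT K) (hj : PT j) (hi : PT i)
    (hP : ∀ a, 1 ≤ Pw (p a)) (h0 : ∀ a, Λ.r (p a) 0 = 2 * Pw (p a)) (hjK : ∀ a, j (p a) < K (p a))
    (h2 : ∀ a, 2 ≤ i (p a)) (hn : ∀ a, i (p a) < Λ.n (p a))
    (hr : ∀ a, Λ.r (p a) (i (p a)) = Gam (K (p a))) :
    Impl 𝔅 p (fun a (D : Arr) => D.length = Λ.vol (p a))
      (fun a D (D' : Arr) => D'.length = Λ.vol (p a) ∧ ∀ v, Λ.Val (p a) v →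
        rv (Pw (p a)) D' (Λ.ri (p a) v) = Cten (aR _) (bR _) (j (p a)) (i (p a)) 1
          (fun u => rv (Pw (p a)) D (Λ.ri (p a) u)) v) fun _ => 0 := by
  have h1 : ∀ a, 1 ≤ Λ.n (p a) := fun a => le_trans one_le_two (hF.base a)
  have hvol : ∀ a, Λ.vol (p a) = 2 * Pw (p a) * Λ.nrec (p a) := fun a => by
    rw [Λ.vol_eq_nrec (h1 a), h0 a]
  have hPV : (fun a => Pw (p a)) ≼ 𝔅.V := hF.vol.mono_left fun a => by
    have h3 := hF.vol_pos a
    rw [hvol a] at h3 ⊢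
    have h4 : 0 < Λ.nrec (p a) := Nat.pos_of_mul_pos_left h3
    nlinarith
  refine Impl.intro hF.sz_in fun γ φ D hD hs => ?_
  obtain ⟨D1, k1, k2⟩ := Impl.useL (Gat.flip hF hi hj h2 hn) φ hD (L.in1 _ _ _) (L.in2 _ _ _)
  obtain ⟨E, k3, k4⟩ := L.rbut (Pw := fun c => Pw (p (φ c))) (n := fun c => Λ.nrec (p (φ c)))
    (((L.in1 (𝔅.comap φ) (fun c => p (φ c)) D).pt (hF.smV.comp φ) hPw).un (hPV.comp φ))
    (fun c => hP _) (L.in2 _ _ _) k2 (fun c => (hD c).trans (hvol _))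
    fun c => (k1 c).1.trans (hvol _)
  refine ⟨E, fun c => ⟨(k4 c).1.trans (hvol _).symm, fun v hv => ?_⟩, k3⟩
  rw [(k4 c).2 _ (hv.ri_lt (h1 _)), Cten_one]
  beta_reduce
  congr 2
  have h3 := h2 (φ c)
  refine rv_congr ((k1 c).blk_eq (hD c) (h1 _) (h1 _) (h0 _) (h0 _) hv
    (R326.Val.update hv ?_) fun x _ => ⟨fun k' _ hk' => ?_, ?_⟩)
  · have h4 := hv _ (hn (φ c))
    rw [hr] at h4 ⊢
    exact xor_lt_Gam (hjK _) h4
  · by_cases e : k' = 0
    · subst e; simp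
    · rw [update_of_ne e, update_of_ne e, update_of_ne (by omega)]
  · rw [update_of_ne (by omega), update_self, update_of_ne (by omega)]

end Crest.Agent.R326
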