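/-
R326/CnetAux1: one level of the butterfly network (proof of `Impl.cnet_step`).  Author: helper12.
-/
import Crest.Agent.R326.CMove

set_option autoImplicit false
set_option linter.unusedSimpArgs false
set_option linter.unusedSectionVars false
set_option linter.unusedVariables false

namespace Crest.Agent.R326

open Function Crest.Agent.Lib.PolyTime

variable {α P : Type} [Enc P] {𝔅 : Bud α} {p : α → P} {Λ : Lay P} {k : ℕ} {Pw K j i iz ℓ : P → ℕ}

namespace CnetAux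

theorem cn_colv_supp {m i ℓ c x : ℕ} {u : Fin m → ZMod 2} (hc : c < ℓ) (h : colv i ℓ u c x = 1) :
    i ≤ x ∧ x < i + m * ℓ := by
  by_contra hx
  have : colv i ℓ u c x = 0 := Finset.sum_eq_zero fun l _ => if_neg fun e => hx (by
    have h1 : (l + 1) * ℓ ≤ m * ℓ := Nat.mul_le_mul_right _ l.2
    rw [add_mul] at h1
    omega)
  rw [this] at h
  exact zero_ne_one h

theorem cn_allv_supp {m i ℓ x : ℕ} {u : Fin m → ZMod 2} (h : allv i ℓ u x = 1) :
    i ≤ x ∧ x < i + m * ℓ := by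
  by_contra hx
  have : allv i ℓ u x = 0 := Finset.sum_eq_zero fun l _ => if_neg fun e => hx (by
    have h1 : (l + 1) * ℓ ≤ m * ℓ := Nat.mul_le_mul_right _ l.2
    omega)
  rw [this] at h
  exact zero_ne_one h

theorem cn_single_supp {c x : ℕ} (h : (Pi.single c 1 : ℕ → ZMod 2) x = 1) : x = c := by
  by_contra hx
  rw [Pi.single_eq_of_ne hx] at h
  exact zero_ne_one h

theorem cn_flp_update {j c x : ℕ} {g : ℕ → ZMod 2} (hg : g c ≠ 1) (v : ℕ → ℕ) :
    flp j g (update v c x) = update (flp j g v) c x := by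
  funext t
  by_cases e : t = c
  · subst e; simp [flp, hg]
  · simp [flp, update_of_ne e]

theorem cn_flp_of_ne {j c : ℕ} {g : ℕ → ZMod 2} (hg : g c ≠ 1) (v : ℕ → ℕ) : flp j g v c = v c :=
  if_neg hg

theorem cn_good_update {K i iz ℓ c x : ℕ} {v : ℕ → ℕ} (h : Good K i iz ℓ v) (h1 : c < i) (h2 : c < iz) :
    Good K i iz ℓ (update v c x) := fun g hg => by
  rw [update_of_ne (by omega), update_of_ne (by omega)]
  exact h g hg

theorem cn_good_mono {K i iz ℓ ℓ' : ℕ} {v : ℕ → ℕ} (h : Good K i iz ℓ v) (h1 : ℓ' ≤ ℓ) :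
    Good K i iz ℓ' v := fun g hg => h g (by omega)

theorem cn_symm_of_add_tau {m : ℕ} {B : Matrix (Fin m) (Fin m) (ZMod 2)} {w : Fin m → ZMod 2}
    (h : (B + R324.tau w).IsSymm) : B.IsSymm := by
  have := h.sub (R324.Rk.tau w).isSymm
  rwa [add_sub_cancel_right] at this

/-- The word length is within the budget. -/
theorem cn_un_Pw {b : ℕ} (hF : Fam 𝔅.V p Λ b) (hb : 1 ≤ b) (hP : PT Pw)
    (h0 : ∀ a, Λ.r (p a) 0 = 2 * Pw (p a)) : L 𝔅 p fun a => un (Pw (p a)) := by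
  refine ((L.refl _ _).pt hF.smV hP).un (hF.vol.mono_left fun a => ?_)
  have h1 := Nat.le_of_dvd (hF.vol_pos a) (wt_dvd (Λ.r (p a)) (hb.trans (hF.base a)))
  rw [wt_one, h0] at h1
  omega

end CnetAux

open CnetAux

theorem CFam.cn_reindex {β : Type} {m : ℕ} (h : CFam 𝔅 p Λ k m Pw K j i iz ℓ) (φ : β → α) :
    CFam (𝔅.comap φ) (fun b => p (φ b)) Λ k m Pw K j i iz ℓ :=
  ⟨h.fam.reindex φ, h.ptP, h.ptK, h.ptj, h.pti, h.ptz, h.ptl, fun _ => h.hP _, fun _ => h.h0 _,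
    fun _ => h.hj _, fun _ => h.hi _, fun _ => h.hl _, fun _ => h.hiz _, fun _ => h.hn _,
    fun _ => h.hr _, fun _ => h.rich _, h.cost.comp φ⟩

theorem CFam.cn_vol_eq {m : ℕ} (h : CFam 𝔅 p Λ k m Pw K j i iz ℓ) (a : α) :
    Λ.vol (p a) = 2 * Pw (p a) * Λ.nrec (p a) := by
  rw [Λ.vol_eq_nrec (by have := h.fam.base a; omega), h.h0]

/-- The network on the registers: from registers with record functions `f w` to registers holding
the butterflies of `f w`, translated by the diagonal of the starting label. -/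
theorem Impl.cnet_regs {m W r : ℕ} {start : Fin W → Matrix (Fin m) (Fin m) (ZMod 2)}
    (hs : ∀ w, (start w).IsSymm) (hN : NetOK Dy GenC 1 W r start)
    (h : CFam 𝔅 p Λ k m Pw K j i iz ℓ) {ex : α → ℝ} (hex : ∀ a, 0 ≤ ex a)
    (hrec : ∀ l < m, Impl 𝔅 p (fun a (D : Arr) => D.length = Λ.vol (p a))
      (fun a => CPost Λ (p a) (Pw (p a)) (K (p a)) (j (p a)) (i (p a) + l * ℓ (p a)) (iz (p a))
        (ℓ (p a))) ex) (Ds : α → List Arr) (hW : ∀ a, (Ds a).length = W)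
    (hlen : ∀ a, ∀ w < W, ((Ds a).getD w []).length = Λ.vol (p a)) :
    ∃ Es : α → List Arr, (∀ a, (Es a).length = W ∧ ∀ w : Fin W,
        ((Es a).getD w []).length = Λ.vol (p a) ∧ ∀ v, Λ.Val (p a) v →
          Good (K (p a)) (i (p a)) (iz (p a)) (m * ℓ (p a)) v →
          rv (Pw (p a)) ((Es a).getD w []) (Λ.ri (p a) v) =
            Cten (aR _) (bR _) (j (p a)) (i (p a)) (m * ℓ (p a))
              (fun u => rv (Pw (p a)) ((Ds a).getD w []) (Λ.ri (p a) u))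
              (flp (j (p a)) (allv (i (p a)) (ℓ (p a)) fun l => start w l l) v)) ∧
      Cp 𝔅 (fun a => (p a, Ds a)) Es fun a => r * ex a := by
  choose Op Op' hO1 hO2 hO3 using fun a => exists_ops (iR (Pw (p a))) (hR (Pw (p a))) (iR_mul_iR _)
    (two_mul_hR (h.hP a)) m (j (p a)) (i (p a)) (ℓ (p a))
  let G : ∀ a, (Fin W → Dy) → (ℕ → ℕ) → RR (Pw (p a)) := fun a z =>
    ∑ w, sigma _ (h.hP a) (z w) •
      Op' a (start w) fun u => rv (Pw (p a)) ((Ds a).getD w []) (Λ.ri (p a) u)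
  let Rep : α → Matrix (Fin m) (Fin m) (ZMod 2) → (Fin W → Dy) → Arr → Prop := fun a B z D =>
    D.length = Λ.vol (p a) ∧ (B.IsSymm → ∀ v, Λ.Val (p a) v →
      Good (K (p a)) (i (p a)) (iz (p a)) (m * ℓ (p a)) v →
      rv (Pw (p a)) D (Λ.ri (p a) v) = Op a B (G a z) v)
  have hG0 : ∀ a, G a 0 = 0 := fun a => by simp [G]
  have hGadd : ∀ a z z', G a (z + z') = G a z + G a z' := fun a z z' => by
    simp [G, add_smul, Finset.sum_add_distrib]
  have hGsmul : ∀ a (c : Dy) z, G a (c • z) = sigma _ (h.hP a) c • G a z := fun a c z => by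
    simp [G, mul_smul, Finset.smul_sum]
  have hG1 : ∀ a w, G a (Pi.single w 1) =
      Op' a (start w) fun u => rv (Pw (p a)) ((Ds a).getD w []) (Λ.ri (p a) u) := fun a w => by
    simp only [G]
    rw [Finset.sum_eq_single w (fun w' _ e => by simp [Pi.single_eq_of_ne e]) (by simp)]
    simp
  have cn_hn1 : ∀ a, 1 ≤ Λ.n (p a) := fun a => by have := h.fam.base a; omega
  have hun := cn_un_Pw h.fam (by norm_num) h.ptP h.h0
  have hp := h.fam.smV.size_le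
  have key := hN.impl (𝔅 := 𝔅) (p := p) Rep ex hex hp (fun a => Λ.vol (p a)) h.fam.vol
    (fun a B z D hD => hD.1.le) ?_ ?_ ?_ ?_
  · obtain ⟨Es, k1, k2⟩ := key.apply (fun a => a) Ds fun a => ⟨hW a, fun w => ⟨hlen a w w.2,
      fun _ v _ _ => by rw [hG1, hO1]⟩⟩
    refine ⟨Es, fun a => ⟨(k1 a).1, fun w => ⟨((k1 a).2 w).1, fun v hv hg => ?_⟩⟩, k2⟩
    have := ((k1 a).2 w).2 ((hs w).add Matrix.isSymm_one) v hv hg
    rw [hG1, hO3 _ _ _ _ (hs w), hO1] at this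
    exact this
  · rintro B z _ ⟨w, rfl⟩
    refine (Impl.cmove h hex hrec (fun l => B l l * w l) w).mono (fun a D hD => hD.1)
      (fun a D D' hD hD' => ⟨hD'.1, fun hB v hv hg => ?_⟩) fun _ => le_rfl
    have hB' := cn_symm_of_add_tau hB
    rw [hD'.2 v hv hg, hO2 _ _ _ _ _ hB']
    refine Tens_congr _ _ (fun v => Λ.Val (p a) v ∧
      Good (K (p a)) (i (p a)) (iz (p a)) (m * ℓ (p a)) v) ?_
      (fun u hu => hD.2 hB' u hu.1 hu.2) (h.flp_closed a (fun c => cn_allv_supp) ⟨hv, hg⟩)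
    intro π hπ u hu
    obtain ⟨c, hc, rfl⟩ := List.mem_map.mp hπ
    exact h.flp_closed a (fun _ => cn_colv_supp (List.mem_range.mp hc)) hu
  · refine fun B => ⟨_, L.zeroArr h.fam, fun a => ⟨by simp, fun _ v _ _ => ?_⟩⟩
    rw [rv_zero, hG0, map_zero]
    rfl
  · intro B z z'
    refine Impl.intro (sz_pair (hp.comp _) (sz_pair (sz_bits ?_ fun q => h.fam.smV.one_le _)
      (sz_bits ?_ fun q => h.fam.smV.one_le _))) fun β φ D hD hsz => ?_
    · exact (h.fam.vol.comp _).mono_left fun q => q.2.1.1.le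
    · exact (h.fam.vol.comp _).mono_left fun q => q.2.2.1.le
    obtain ⟨E, e1, e2⟩ := L.radd (n := fun b => Λ.nrec (p (φ b)))
      ((L.in1 _ _ D).comp (hun.reindex hp φ)) (fun b => h.hP _) (L.in2 _ _ _).fst (L.in2 _ _ _).snd
      (fun b => (hD b).1.1.trans (h.cn_vol_eq _)) fun b => (hD b).2.1.trans (h.cn_vol_eq _)
    refine ⟨E, fun b => ⟨(e2 b).1.trans (h.cn_vol_eq _).symm, fun hB v hv hg => ?_⟩, e1⟩
    rw [(e2 b).2 _ (hv.ri_lt (cn_hn1 _)), hGadd, map_add]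
    exact congrArg₂ (· + ·) ((hD b).1.2 hB v hv hg) ((hD b).2.2 hB v hv hg)
  · intro B c z
    refine Impl.intro (sz_pair (hp.comp _) (sz_bits ?_ fun q => h.fam.smV.one_le _))
      fun β φ D hD hsz => ?_
    · exact (h.fam.vol.comp _).mono_left fun q => q.2.1.le
    obtain ⟨E, e1, e2⟩ := L.rsmul c (n := fun b => Λ.nrec (p (φ b)))
      ((L.in1 _ _ D).comp (hun.reindex hp φ)) (fun b => h.hP _) (L.in2 _ _ _)
      (fun b => (hD b).1.trans (h.cn_vol_eq _))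
    refine ⟨E, fun b => ⟨(e2 b).1.trans (h.cn_vol_eq _).symm, fun hB v hv hg => ?_⟩, e1⟩
    rw [(e2 b).2 _ (hv.ri_lt (cn_hn1 _)), hGsmul, map_smul]
    exact congrArg (sigma _ (h.hP _) c * ·) ((hD b).2 hB v hv hg)

/-- Undo the translations. -/
theorem Impl.cnet_transl {m : ℕ} (W : ℕ) (h : CFam 𝔅 p Λ k m Pw K j i iz ℓ)
    (d : ℕ → Fin m → ZMod 2) :
    Impl 𝔅 p (fun a (Ds : List Arr) => Ds.length = W ∧
        ∀ w < W, (Ds.getD w []).length = Λ.vol (p a))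
      (fun a Ds (Es : List Arr) => Es.length = W ∧ ∀ w < W, (Es.getD w []).length = Λ.vol (p a) ∧
        ∀ v, Λ.Val (p a) v → Good (K (p a)) (i (p a)) (iz (p a)) (m * ℓ (p a)) v →
          rv (Pw (p a)) (Es.getD w []) (Λ.ri (p a) v) = rv (Pw (p a)) (Ds.getD w [])
            (Λ.ri (p a) (flp (j (p a)) (allv (i (p a)) (ℓ (p a)) (d w)) v))) fun _ => 0 := by
  refine (Impl.regs W h.fam.smV.size_le fun w _ => Gat.transl h (d w)).mono (fun _ _ hD => hD)
    (fun a Ds Es hD hE => ⟨hE.1, fun w hw => ⟨(hE.2 w hw).1, fun v hv hg => ?_⟩⟩) fun _ => le_rfl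
  have cn_hn1 : 1 ≤ Λ.n (p a) := by have := h.fam.base a; omega
  have h2 := h.hi a
  have h3 := h.hiz a
  refine rv_congr ((hE.2 w hw).blk_eq (hD.2 w hw) cn_hn1 cn_hn1 (h.h0 a) (h.h0 a) hv
    (h.flp_closed a (fun c => cn_allv_supp) ⟨hv, hg⟩).1 fun x _ =>
      ⟨cn_good_update hg (by omega) (by omega), fun c _ => ?_⟩)
  rw [cn_flp_update fun e => by have := cn_allv_supp e; omega]

theorem Impl.cnet_step' {m W r : ℕ} {start : Fin W → Matrix (Fin m) (Fin m) (ZMod 2)}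
    (hs : ∀ w, (start w).IsSymm) (hN : NetOK Dy GenC 1 W r start) {Λ' : Lay P}
    (hF : Fam 𝔅.V p Λ 2) (h : CFam 𝔅 p Λ' k m Pw K j i iz ℓ)
    (hn' : ∀ a, Λ'.n (p a) = Λ.n (p a)) (h1 : ∀ a, Λ.r (p a) 1 = Λ'.r (p a) 1 * W)
    (h1' : ∀ a, ∀ c < Λ.n (p a), c ≠ 1 → Λ'.r (p a) c = Λ.r (p a) c) {ex : α → ℝ}
    (hex : ∀ a, 0 ≤ ex a)
    (hrec : ∀ l < m, Impl 𝔅 p (fun a (D : Arr) => D.length = Λ'.vol (p a))
      (fun a => CPost Λ' (p a) (Pw (p a)) (K (p a)) (j (p a)) (i (p a) + l * ℓ (p a)) (iz (p a))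
        (ℓ (p a))) ex) :
    Impl 𝔅 p (fun a (D : Arr) => D.length = Λ.vol (p a))
      (fun a => CPost Λ (p a) (Pw (p a)) (K (p a)) (j (p a)) (i (p a)) (iz (p a)) (m * ℓ (p a)))
      fun a => r * ex a := by
  have hi1 : ∀ a, 1 < Λ.n (p a) := hF.base
  refine Impl.intro hF.sz_in fun β φ D hD hsz => ?_
  obtain ⟨D1, a1, c1⟩ := (Impl.deal hF h.fam 1 W le_rfl hn' hi1 h1 h1').apply φ D hD
  obtain ⟨D2, a2, c2⟩ := Impl.cnet_regs hs hN (h.cn_reindex φ) (fun b => hex (φ b))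
    (fun l hl => (hrec l hl).reindex φ) D1 (fun b => (a1 b).1) fun b w hw => ((a1 b).2 w hw).1
  obtain ⟨D3, a3, c3⟩ := (Impl.cnet_transl W h
    fun w l => if hw : w < W then start ⟨w, hw⟩ l l else 0).apply φ D2
    fun b => ⟨(a2 b).1, fun w hw => ((a2 b).2 ⟨w, hw⟩).1⟩
  obtain ⟨D4, a4, c4⟩ := (Impl.undeal hF h.fam 1 W le_rfl hn' hi1 h1 h1').apply φ D3
    fun b => ⟨(a3 b).1, fun w hw => ((a3 b).2 w hw).1⟩
  refine ⟨D4, fun b => ⟨(a4 b).1, fun u hu hg => ?_⟩,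
    (((c1.chain c2).chain c3).chain c4).mono fun b => by simp⟩
  set q := p (φ b) with hq
  have cn_hn1 : 1 < Λ.n q := hi1 _
  have hn2 : Λ'.n q = Λ.n q := hn' _
  have cn_hr1 : Λ.r q 1 = Λ'.r q 1 * W := h1 _
  have hr2 : ∀ c < Λ.n q, c ≠ 1 → Λ'.r q c = Λ.r q c := h1' _
  have hi2 : 2 ≤ i q := h.hi _
  have hz : i q + m * ℓ q ≤ iz q := h.hiz _
  have h0' : Λ'.r q 0 = 2 * Pw q := h.h0 _
  have h0 : Λ.r q 0 = 2 * Pw q := (hr2 0 (by omega) (by omega)).symm.trans h0'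
  have hpos : 0 < Λ'.r q 1 := h.fam.pos _ 1 (by rw [← hq]; omega)
  have hw : u 1 / Λ'.r q 1 < W := by
    rw [Nat.div_lt_iff_lt_mul hpos, mul_comm, ← cn_hr1]; exact hu 1 cn_hn1
  generalize hw0 : u 1 / Λ'.r q 1 = w0 at hw
  -- the address in the undivided array
  let ψ : (ℕ → ℕ) → ℕ → ℕ := fun v => update v 1 (v 1 + Λ'.r q 1 * w0)
  have hψ : ∀ v, Λ'.Val q v → Λ.Val q (ψ v) := fun v hv c hc => by
    by_cases e : c = 1
    · subst e
      have := hv 1 (by omega)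
      simp only [ψ, update_self, cn_hr1]
      nlinarith
    · simp only [ψ, update_of_ne e]
      rw [← hr2 c hc e]
      exact hv c (by omega)
  have hdeal : ∀ v x, Dealt (Λ.n q) 1 (Λ'.r q 1) w0 (update v 0 x) (update (ψ v) 0 x) :=
    fun v x => ⟨fun c _ hc => by
      by_cases e : c = 0
      · simp [e]
      · rw [update_of_ne e, update_of_ne e]
        exact (update_of_ne (by omega) _ _).symm, by simp [ψ]⟩
  let v0 : ℕ → ℕ := update u 1 (u 1 % Λ'.r q 1)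
  have hv0 : Λ'.Val q v0 := fun c hc => by
    by_cases e : c = 1
    · subst e
      simp only [v0, update_self]
      exact Nat.mod_lt _ hpos
    · simp only [v0, update_of_ne e]
      rw [hr2 c (by omega) e]
      exact hu c (by omega)
  have hg0 : Good (K q) (i q) (iz q) (m * ℓ q) v0 := cn_good_update hg (by omega) (by omega)
  have hψ0 : ψ v0 = u := by
    simp only [ψ, v0, update_self, update_idem, ← hw0, Nat.mod_add_div, update_eq_self]
  have e4 : rv (Pw q) (D4 b) (Λ.ri q u) = rv (Pw q) ((D3 b).getD w0 []) (Λ'.ri q v0) := by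
    have hG : GPost Λ' Λ q (fun w v => Dealt (Λ.n q) 1 (Λ'.r q 1) w0 v w) ((D3 b).getD w0 [])
        (D4 b) := ⟨(a4 b).1, fun w v hw' hv' hR => (a4 b).2 w0 hw v w hv' hw' hR⟩
    refine rv_congr (hG.blk_eq ((a3 b).2 w0 hw).1 (by omega) (by omega) h0' h0 hu hv0 fun x _ => ?_)
    rw [← hψ0]
    exact hdeal v0 x
  have hcl := h.flp_closed (φ b) (g := allv (i q) (ℓ q) fun l => start ⟨w0, hw⟩ l l)
    (fun c => cn_allv_supp) ⟨hv0, hg0⟩
  have e3 := ((a3 b).2 w0 hw).2 v0 hv0 hg0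
  simp only [dif_pos hw] at e3
  have e2 := ((a2 b).2 ⟨w0, hw⟩).2 _ hcl.1 hcl.2
  rw [flp_flp] at e2
  rw [e4, e3, e2, ← hψ0]
  refine Tens_transport _ _ (fun v => Λ'.Val q v ∧ Good (K q) (i q) (iz q) (m * ℓ q) v) ψ ?_
    (fun v hv => ?_) ⟨hv0, hg0⟩
  · rw [List.forall₂_same]
    intro π hπ v hv
    obtain ⟨g, hg', rfl⟩ := List.mem_map.mp hπ
    have hg'' := List.mem_range.mp hg'
    have hne : (Pi.single (i q + g) 1 : ℕ → ZMod 2) 1 ≠ 1 := fun e => by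
      have := cn_single_supp e; omega
    refine ⟨h.flp_closed (φ b) (fun c e => ?_) hv, ?_⟩
    · rw [cn_single_supp e]
      exact ⟨Nat.le_add_right _ _, Nat.add_lt_add_left hg'' _⟩
    simp only [ψ]
    rw [cn_flp_update hne, cn_flp_of_ne hne]
  · exact rv_congr (((a1 b).2 w0 hw).blk_eq (hD b) cn_hn1.le (hn2 ▸ cn_hn1.le) h0 h0' hv.1 (hψ v hv.1)
      fun x _ => hdeal v x)

end Crest.Agent.R326
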