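/-
R326/Cnet: `ℓ` butterflies at once in time `vol * K * ℓ ^ tauE`.
-/
import Crest.Agent.R326.CnetAux1

set_option autoImplicit false
set_option linter.unusedSimpArgs false
set_option linter.unusedSectionVars false
set_option linter.unusedVariables false

namespace Crest.Agent.R326

open Function Crest.Agent.Lib.PolyTime

variable {α P : Type} [Enc P] {𝔅 : Bud α} {p : α → P} {Λ : Lay P} {k : ℕ} {Pw K j i iz ℓ : P → ℕ}

/-- One level: `m ℓ` butterflies at the price of `r` batches of `ℓ` butterflies on registers.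
`Λ'` is the layout of a register (field `1` is divided by `W`).  Recipe: `Impl.deal` (`i0 = 1`),
`NetOK.impl`, `Gat.transl` on each register (`Impl.regs`), `Impl.undeal`.  With `Op`, `Op'` from
`exists_ops` (for `iR`, `hR`) and `f w` the record function of the initial register `w`, the array
`D` represents `(B, z)` if it has the right length and, when `B` is symmetric, for all valid good
`v`: `rv D (ri v) = Op B (∑ w, sigma (z w) • Op' (start w) (f w)) v`. -/
theorem Impl.cnet_step {m W r : ℕ} {start : Fin W → Matrix (Fin m) (Fin m) (ZMod 2)}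
    (hs : ∀ w, (start w).IsSymm) (hN : NetOK Dy GenC 1 W r start) {Λ' : Lay P}
    (hF : Fam 𝔅.V p Λ 2) (h : CFam 𝔅 p Λ' k m Pw K j i iz ℓ)
    (hn' : ∀ a, Λ'.n (p a) = Λ.n (p a)) (h1 : ∀ a, Λ.r (p a) 1 = Λ'.r (p a) 1 * W)
    (h1' : ∀ a, ∀ c < Λ.n (p a), c ≠ 1 → Λ'.r (p a) c = Λ.r (p a) c) {ex : α → ℝ}
    (hex : ∀ a, 0 ≤ ex a)
    (hrec : ∀ l < m, Impl 𝔅 p (fun a (D : Arr) => D.length = Λ'.vol (p a))
      (fun a => CPost Λ' (p a) (Pw (p a)) (K (p a)) (j (p a)) (i (p a) + l * ℓ (p a)) (iz (p a))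
        (ℓ (p a))) ex) :
    Impl 𝔅 p (fun a (D : Arr) => D.length = Λ.vol (p a))
      (fun a => CPost Λ (p a) (Pw (p a)) (K (p a)) (j (p a)) (i (p a)) (iz (p a)) (m * ℓ (p a)))
      fun a => r * ex a :=
  Impl.cnet_step' hs hN hF h hn' h1 h1' hex hrec

/-- Parameters of the standard layout: `((P, B, A2, A1), (un K, j, un ℓ))`. -/
abbrev CP := (ℕ × ℕ × ℕ × ℕ) × (List Unit × ℕ × List Unit)

/-- The standard layout `[2 P | B | Γ × ℓ | A2 | Γ × ℓ | A1]`. -/
def layC : Lay CP :=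
  ⟨fun q => 4 + 2 * q.2.2.2.length, fun q c => if c = 0 then 2 * q.1.1 else if c = 1 then q.1.2.1
      else if c = 2 + q.2.2.2.length then q.1.2.2.1 else if c = 3 + 2 * q.2.2.2.length then q.1.2.2.2
      else Gam q.2.1.length,
    by fun_prop, by fun_prop, by unfold Gam; fun_prop⟩

/-- Postcondition in the standard layout. -/
def CPostC (q : CP) : Arr → Arr → Prop :=
  CPost layC q q.1.1 q.2.1.length q.2.2.1 2 (3 + q.2.2.2.length) q.2.2.2.length

/-- Admissible parameters. -/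
structure CP.OK (k : ℕ) (q : CP) : Prop where
  pos : 0 < q.1.1 ∧ 0 < q.1.2.1 ∧ 0 < q.1.2.2.1 ∧ 0 < q.1.2.2.2
  hj : q.2.2.1 < q.2.1.length
  hl : 1 ≤ q.2.2.2.length
  rich : Rich k ((layC.vol q).size.size + q.2.2.2.length.size) q.1.2.1 (layC.vol q)

/-- The standard parameters of a general layout. -/
def toCP (Λ : Lay P) (Pw K j i iz ℓ : P → ℕ) (q : P) : CP :=
  ((Pw q, rwt (Λ.r q) 1 (i q - 1), rwt (Λ.r q) (i q + ℓ q) (iz q - (i q + ℓ q)),
    rwt (Λ.r q) (iz q + ℓ q) (Λ.n q - (iz q + ℓ q))), (un (K q), j q, un (ℓ q)))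

namespace CnetAux

theorem cn_rg_five (r v : ℕ → ℕ) {i iz ℓ n : ℕ} (h1 : 1 ≤ i) (h2 : i + ℓ ≤ iz) (h3 : iz + ℓ ≤ n) :
    rg r v 1 (n - 1) = rg r v 1 (i - 1) + rwt r 1 (i - 1) * (rg r v i ℓ + rwt r i ℓ *
      (rg r v (i + ℓ) (iz - (i + ℓ)) + rwt r (i + ℓ) (iz - (i + ℓ)) *
        (rg r v iz ℓ + rwt r iz ℓ * rg r v (iz + ℓ) (n - (iz + ℓ))))) := by
  have e : n - 1 = (i - 1) + (ℓ + ((iz - (i + ℓ)) + (ℓ + (n - (iz + ℓ))))) := by omega
  rw [e, rg_add, rg_add, rg_add, rg_add, show 1 + (i - 1) = i by omega,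
    show i + ℓ + (iz - (i + ℓ)) = iz by omega]

theorem cn_rwt_five (r : ℕ → ℕ) {i iz ℓ n : ℕ} (h1 : 1 ≤ i) (h2 : i + ℓ ≤ iz) (h3 : iz + ℓ ≤ n) :
    rwt r 1 (n - 1) = rwt r 1 (i - 1) * (rwt r i ℓ * (rwt r (i + ℓ) (iz - (i + ℓ)) *
      (rwt r iz ℓ * rwt r (iz + ℓ) (n - (iz + ℓ))))) := by
  have e : n - 1 = (i - 1) + (ℓ + ((iz - (i + ℓ)) + (ℓ + (n - (iz + ℓ))))) := by omega
  rw [e, rwt_add, rwt_add, rwt_add, rwt_add, show 1 + (i - 1) = i by omega,
    show i + ℓ + (iz - (i + ℓ)) = iz by omega]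

theorem cn_layC_n (q : CP) : layC.n q = 4 + 2 * q.2.2.2.length := rfl
theorem cn_layC_r0 (q : CP) : layC.r q 0 = 2 * q.1.1 := rfl
theorem cn_layC_r1 (q : CP) : layC.r q 1 = q.1.2.1 := rfl
theorem cn_layC_act (q : CP) {g : ℕ} (hg : g < q.2.2.2.length) :
    layC.r q (2 + g) = Gam q.2.1.length := by
  simp only [layC]
  rw [if_neg (by omega), if_neg (by omega), if_neg (by omega), if_neg (by omega)]
theorem cn_layC_mid (q : CP) : layC.r q (2 + q.2.2.2.length) = q.1.2.2.1 := by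
  simp only [layC]
  rw [if_neg (by omega), if_neg (by omega), if_pos trivial]
theorem cn_layC_scr (q : CP) {g : ℕ} (hg : g < q.2.2.2.length) :
    layC.r q (3 + q.2.2.2.length + g) = Gam q.2.1.length := by
  simp only [layC]
  rw [if_neg (by omega), if_neg (by omega), if_neg (by omega), if_neg (by omega)]
theorem cn_layC_top (q : CP) : layC.r q (3 + q.2.2.2.length + q.2.2.2.length) = q.1.2.2.2 := by
  simp only [layC]
  rw [if_neg (by omega), if_neg (by omega), if_neg (by omega), if_pos (by omega)]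

theorem cn_layC_vol (q : CP) : layC.vol q = 2 * q.1.1 * (q.1.2.1 * (Gam q.2.1.length ^ q.2.2.2.length *
    (q.1.2.2.1 * (Gam q.2.1.length ^ q.2.2.2.length * q.1.2.2.2)))) := by
  rw [layC.vol_eq_nrec (by rw [cn_layC_n]; omega), Lay.nrec,
    cn_rwt_five _ (i := 2) (iz := 3 + q.2.2.2.length) (ℓ := q.2.2.2.length) (by omega) (by omega)
      (by rw [cn_layC_n]; omega),
    rwt_const fun g hg => cn_layC_act q hg, rwt_const fun g hg => cn_layC_scr q hg, cn_layC_n,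
    show 3 + q.2.2.2.length - (2 + q.2.2.2.length) = 1 by omega,
    show 4 + 2 * q.2.2.2.length - (3 + q.2.2.2.length + q.2.2.2.length) = 1 by omega]
  simp only [Nat.add_one_sub_one, rwt_one, cn_layC_r0, cn_layC_r1, cn_layC_mid, cn_layC_top]

theorem cn_layC_ri (q : CP) (v : ℕ → ℕ) : layC.ri q v = v 1 + q.1.2.1 *
    (rg (layC.r q) v 2 q.2.2.2.length + Gam q.2.1.length ^ q.2.2.2.length *
      (v (2 + q.2.2.2.length) + q.1.2.2.1 * (rg (layC.r q) v (3 + q.2.2.2.length) q.2.2.2.length +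
        Gam q.2.1.length ^ q.2.2.2.length * v (3 + q.2.2.2.length + q.2.2.2.length)))) := by
  rw [Lay.ri, cn_rg_five _ _ (i := 2) (iz := 3 + q.2.2.2.length) (ℓ := q.2.2.2.length) (by omega)
      (by omega) (by rw [cn_layC_n]; omega),
    rwt_const fun g hg => cn_layC_act q hg, rwt_const fun g hg => cn_layC_scr q hg, cn_layC_n,
    show 3 + q.2.2.2.length - (2 + q.2.2.2.length) = 1 by omega,
    show 4 + 2 * q.2.2.2.length - (3 + q.2.2.2.length + q.2.2.2.length) = 1 by omega]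
  simp only [Nat.add_one_sub_one, rwt_one, rg_one, cn_layC_r1, cn_layC_mid]

theorem cn_Gam_pos (K : ℕ) : 0 < Gam K := Nat.two_pow_pos _

/-- The address in the standard layout. -/
def cn_stdA (r : ℕ → ℕ) (n i iz ℓ : ℕ) (v : ℕ → ℕ) : ℕ → ℕ := fun c =>
  if c = 0 then v 0 else if c = 1 then rg r v 1 (i - 1) else if c < 2 + ℓ then v (i + (c - 2))
  else if c = 2 + ℓ then rg r v (i + ℓ) (iz - (i + ℓ)) else if c < 3 + ℓ + ℓ then
    v (iz + (c - (3 + ℓ))) else rg r v (iz + ℓ) (n - (iz + ℓ))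

section cn_stdA
variable (r : ℕ → ℕ) (n i iz ℓ : ℕ) (v : ℕ → ℕ)

theorem cn_stdA_0 : cn_stdA r n i iz ℓ v 0 = v 0 := rfl
theorem cn_stdA_1 : cn_stdA r n i iz ℓ v 1 = rg r v 1 (i - 1) := rfl
theorem cn_stdA_act {g : ℕ} (hg : g < ℓ) : cn_stdA r n i iz ℓ v (2 + g) = v (i + g) := by
  simp only [cn_stdA]
  rw [if_neg (by omega), if_neg (by omega), if_pos (by omega), Nat.add_sub_cancel_left]
theorem cn_stdA_mid : cn_stdA r n i iz ℓ v (2 + ℓ) = rg r v (i + ℓ) (iz - (i + ℓ)) := by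
  simp only [cn_stdA]
  rw [if_neg (by omega), if_neg (by omega), if_neg (by omega), if_pos trivial]
theorem cn_stdA_scr {g : ℕ} (hg : g < ℓ) : cn_stdA r n i iz ℓ v (3 + ℓ + g) = v (iz + g) := by
  simp only [cn_stdA]
  rw [if_neg (by omega), if_neg (by omega), if_neg (by omega), if_neg (by omega), if_pos (by omega),
    Nat.add_sub_cancel_left]
theorem cn_stdA_top : cn_stdA r n i iz ℓ v (3 + ℓ + ℓ) = rg r v (iz + ℓ) (n - (iz + ℓ)) := by
  simp only [cn_stdA]
  rw [if_neg (by omega), if_neg (by omega), if_neg (by omega), if_neg (by omega), if_neg (by omega)]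

theorem cn_stdA_update {g : ℕ} (x : ℕ) (hg : g < ℓ) (h1 : 2 ≤ i) (h2 : i + ℓ ≤ iz) :
    cn_stdA r n i iz ℓ (update v (i + g) x) = update (cn_stdA r n i iz ℓ v) (2 + g) x := by
  funext c
  by_cases e : c = 2 + g
  · rw [e, cn_stdA_act _ _ _ _ _ _ hg, update_self, update_self]
  rw [update_of_ne e]
  simp only [cn_stdA]
  split_ifs
  · exact update_of_ne (by omega) _ _
  · exact rg_congr (fun _ _ => rfl) fun _ _ => update_of_ne (by omega) _ _
  · exact update_of_ne (by omega) _ _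
  · exact rg_congr (fun _ _ => rfl) fun _ _ => update_of_ne (by omega) _ _
  · exact update_of_ne (by omega) _ _
  · exact rg_congr (fun _ _ => rfl) fun _ _ => update_of_ne (by omega) _ _

end cn_stdA

theorem cn_cases_C {ℓ c : ℕ} (hc : c < 4 + 2 * ℓ) : c = 0 ∨ c = 1 ∨ (∃ g < ℓ, c = 2 + g) ∨ c = 2 + ℓ ∨
    (∃ g < ℓ, c = 3 + ℓ + g) ∨ c = 3 + ℓ + ℓ := by
  by_cases h1 : 2 ≤ c ∧ c < 2 + ℓ
  · exact .inr (.inr (.inl ⟨c - 2, by omega, by omega⟩))
  by_cases h2 : 3 + ℓ ≤ c ∧ c < 3 + ℓ + ℓ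
  · exact .inr (.inr (.inr (.inr (.inl ⟨c - (3 + ℓ), by omega, by omega⟩))))
  have : c = 0 ∨ c = 1 ∨ c = 2 + ℓ ∨ c = 3 + ℓ + ℓ := by omega
  tauto

theorem cn_toCP_K (q : P) : (toCP Λ Pw K j i iz ℓ q).2.1.length = K q := List.length_replicate
theorem cn_toCP_l (q : P) : (toCP Λ Pw K j i iz ℓ q).2.2.2.length = ℓ q := List.length_replicate

section std
variable (h : CFam 𝔅 p Λ k 1 Pw K j i iz ℓ) (a : α)
include h

theorem cn_hiz1 : i (p a) + ℓ (p a) ≤ iz (p a) := by simpa using h.hiz a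
theorem cn_hn1 : iz (p a) + ℓ (p a) ≤ Λ.n (p a) := by simpa using h.hn a
theorem cn_hr1 {g : ℕ} (hg : g < ℓ (p a)) : Λ.r (p a) (i (p a) + g) = Gam (K (p a)) ∧
    Λ.r (p a) (iz (p a) + g) = Gam (K (p a)) := h.hr a g (by simpa using hg)

theorem cn_vol_toCP : layC.vol (toCP Λ Pw K j i iz ℓ (p a)) = Λ.vol (p a) := by
  rw [cn_layC_vol, h.cn_vol_eq, Lay.nrec, cn_rwt_five _ (by have := h.hi a; omega) (cn_hiz1 h a) (cn_hn1 h a),
    rwt_const fun g hg => (cn_hr1 h a hg).1, rwt_const fun g hg => (cn_hr1 h a hg).2, cn_toCP_K, cn_toCP_l]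
  rfl

theorem cn_ri_toCP (v : ℕ → ℕ) : layC.ri (toCP Λ Pw K j i iz ℓ (p a))
    (cn_stdA (Λ.r (p a)) (Λ.n (p a)) (i (p a)) (iz (p a)) (ℓ (p a)) v) = Λ.ri (p a) v := by
  rw [cn_layC_ri, Lay.ri, cn_rg_five _ _ (by have := h.hi a; omega) (cn_hiz1 h a) (cn_hn1 h a),
    rwt_const fun g hg => (cn_hr1 h a hg).1, rwt_const fun g hg => (cn_hr1 h a hg).2, cn_toCP_K, cn_toCP_l,
    cn_stdA_1, cn_stdA_mid, cn_stdA_top,
    rg_congr (r' := Λ.r (p a)) (w := v) (i := 2) (j := i (p a)) (fun g hg => ?_)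
      fun g hg => cn_stdA_act _ _ _ _ _ _ hg,
    rg_congr (r' := Λ.r (p a)) (w := v) (i := 3 + ℓ (p a)) (j := iz (p a)) (fun g hg => ?_)
      fun g hg => cn_stdA_scr _ _ _ _ _ _ hg]
  · rfl
  · have := cn_layC_scr (toCP Λ Pw K j i iz ℓ (p a)) (g := g) (by rwa [cn_toCP_l])
    rw [cn_toCP_K, cn_toCP_l] at this
    rw [this, (cn_hr1 h a hg).2]
  · rw [cn_layC_act _ (by rwa [cn_toCP_l]), cn_toCP_K, (cn_hr1 h a hg).1]

theorem cn_val_toCP {v : ℕ → ℕ} (hv : Λ.Val (p a) v) : layC.Val (toCP Λ Pw K j i iz ℓ (p a))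
    (cn_stdA (Λ.r (p a)) (Λ.n (p a)) (i (p a)) (iz (p a)) (ℓ (p a)) v) := by
  intro c hc
  have e1 := h.hi a
  have e2 := cn_hiz1 h a
  have e3 := cn_hn1 h a
  rw [cn_layC_n, cn_toCP_l] at hc
  rcases cn_cases_C hc with rfl | rfl | ⟨g, hg, rfl⟩ | rfl | ⟨g, hg, rfl⟩ | rfl
  · have := hv 0 (by omega)
    rwa [h.h0] at this
  · exact R326.Val.rg_lt hv (i := 1) (len := i (p a) - 1) (by omega)
  · rw [cn_layC_act _ (by rwa [cn_toCP_l]), cn_toCP_K, cn_stdA_act _ _ _ _ _ _ hg, ← (cn_hr1 h a hg).1]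
    exact hv _ (by omega)
  · have := cn_layC_mid (toCP Λ Pw K j i iz ℓ (p a))
    rw [cn_toCP_l] at this
    rw [this, cn_stdA_mid]
    exact R326.Val.rg_lt hv (by omega)
  · have := cn_layC_scr (toCP Λ Pw K j i iz ℓ (p a)) (g := g) (by rwa [cn_toCP_l])
    rw [cn_toCP_K, cn_toCP_l] at this
    rw [this, cn_stdA_scr _ _ _ _ _ _ hg, ← (cn_hr1 h a hg).2]
    exact hv _ (by omega)
  · have := cn_layC_top (toCP Λ Pw K j i iz ℓ (p a))
    rw [cn_toCP_l] at this
    rw [this, cn_stdA_top]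
    exact R326.Val.rg_lt hv (by omega)

theorem cn_ok_toCP
    (hR : Rich k ((Λ.vol (p a)).size.size + (ℓ (p a)).size) (Λ.r (p a) 1) (Λ.vol (p a))) :
    (toCP Λ Pw K j i iz ℓ (p a)).OK k := by
  have e1 := h.hi a
  have e2 := cn_hiz1 h a
  have e3 := cn_hn1 h a
  refine ⟨⟨h.hP a, rwt_pos fun c hc => h.fam.pos a _ (by omega),
    rwt_pos fun c hc => h.fam.pos a _ (by omega), rwt_pos fun c hc => h.fam.pos a _ (by omega)⟩,
    by rw [cn_toCP_K]; exact h.hj a, by rw [cn_toCP_l]; exact h.hl a, ?_⟩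
  rw [cn_vol_toCP h, cn_toCP_l]
  refine hR.mono le_rfl ?_ le_rfl
  have : rwt (Λ.r (p a)) 1 (i (p a) - 1) = Λ.r (p a) 1 * rwt (Λ.r (p a)) 2 (i (p a) - 2) := by
    rw [show i (p a) - 1 = 1 + (i (p a) - 2) by omega, rwt_add, rwt_one]
  exact ⟨_, this⟩

omit a in
theorem cn_l_toCP : L 𝔅 p fun a => toCP Λ Pw K j i iz ℓ (p a) := by
  have h1 := h.ptP
  have h2 := h.ptK
  have h3 := h.ptj
  have h4 := h.pti
  have h5 := h.ptz
  have h6 := h.ptl
  have r1 := Λ.pt_rwt (g := fun q => q) (i := fun _ => 1) (len := fun q => i q - 1) (by fun_prop)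
    (by fun_prop) (by fun_prop)
  have r2 := Λ.pt_rwt (g := fun q => q) (i := fun q => i q + ℓ q)
    (len := fun q => iz q - (i q + ℓ q)) (by fun_prop) (by fun_prop) (by fun_prop)
  have r3 := Λ.pt_rwt (g := fun q => q) (i := fun q => iz q + ℓ q)
    (len := fun q => Λ.n q - (iz q + ℓ q)) (by fun_prop) (by fun_prop) (by fun_prop)
  have r4 : PT fun q => un (min (K q) (Λ.r q (i q)).size) :=
    PT.replicate (by fun_prop) (PB.min_right (by fun_prop)) (by fun_prop)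
  have r5 : PT fun q => un (min (ℓ q) (Λ.n q)) :=
    PT.replicate (by fun_prop) (PB.min_right (by fun_prop)) (by fun_prop)
  refine ((L.refl _ _).pt h.fam.smV
    ((h1.prodMk (r1.prodMk (r2.prodMk r3))).prodMk (r4.prodMk (h3.prodMk r5)))).congr fun a => ?_
  have e1 := h.hi a
  have e2 := cn_hiz1 h a
  have e3 := cn_hn1 h a
  have e4 := (cn_hr1 h a (g := 0) (h.hl a)).1
  rw [add_zero] at e4
  rw [min_eq_left (by omega), min_eq_left (by omega), min_eq_left (by omega), e4, Gam, Nat.size_pow,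
    min_eq_left (by omega), min_eq_left (by omega)]
  rfl

end std

end CnetAux

open CnetAux

/-- From the standard layout to a general one (used for the recursive calls and for the final
statement).  Recipe: `toCP` agrees on the family with a `PT` function (`min` with `Λ.n` or
`size (Λ.r q i)`); the volumes agree; an address `v` corresponds to the address with the same
position; `Tens_transport`. -/
theorem Impl.cnet_of_std (h : CFam 𝔅 p Λ k 1 Pw K j i iz ℓ) {ex : α → ℝ}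
    (hc : Impl 𝔅 (fun a => toCP Λ Pw K j i iz ℓ (p a))
      (fun a (D : Arr) => D.length = layC.vol (toCP Λ Pw K j i iz ℓ (p a)))
      (fun a => CPostC (toCP Λ Pw K j i iz ℓ (p a))) ex) :
    Impl 𝔅 p (fun a (D : Arr) => D.length = Λ.vol (p a))
      (fun a => CPost Λ (p a) (Pw (p a)) (K (p a)) (j (p a)) (i (p a)) (iz (p a)) (ℓ (p a)))
      ex := by
  refine (hc.pull (cn_l_toCP h) h.fam.smV.size_le).mono (fun a D hD => hD.trans (cn_vol_toCP h a).symm)
    (fun a D D' hD hD' => ⟨hD'.1.trans (cn_vol_toCP h a), fun v hv hg => ?_⟩) fun _ => le_rfl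
  have e1 := h.hi a
  have e2 := cn_hiz1 h a
  have key := hD'.2 _ (cn_val_toCP h a hv) (by
    rw [cn_toCP_K, cn_toCP_l]
    intro g hg'
    rw [cn_stdA_act _ _ _ _ _ _ hg', cn_stdA_scr _ _ _ _ _ _ hg']
    exact hg g hg')
  rw [cn_ri_toCP h a, cn_toCP_l] at key
  refine key.trans (Tens_transport _ _ (fun _ => True)
    (cn_stdA (Λ.r (p a)) (Λ.n (p a)) (i (p a)) (iz (p a)) (ℓ (p a))) ?_
    (fun u _ => by rw [cn_ri_toCP h a]; rfl) trivial).symm
  rw [List.forall₂_map_left_iff, List.forall₂_map_right_iff, List.forall₂_same]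
  intro g hg' u _
  have hg'' := List.mem_range.mp hg'
  refine ⟨trivial, ?_⟩
  rw [flp_single, flp_single, cn_stdA_update _ _ _ _ _ _ _ hg'' e1 e2, cn_stdA_act _ _ _ _ _ _ hg'']
  rfl

namespace CnetAux

theorem cn_volC_pos {q : CP} (hq : q.OK k) : 0 < layC.vol q := by
  obtain ⟨h1, h2, h3, h4⟩ := hq.pos
  have := cn_Gam_pos q.2.1.length
  rw [cn_layC_vol]
  positivity

theorem cn_one_le_K {q : CP} (hq : q.OK k) : 1 ≤ q.2.1.length := by have := hq.hj; omega

theorem cn_le_volC {q : CP} (hq : q.OK k) : q.1.1 ≤ layC.vol q ∧ q.1.2.1 ≤ layC.vol q ∧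
    q.1.2.2.1 ≤ layC.vol q ∧ q.1.2.2.2 ≤ layC.vol q ∧ q.2.1.length ≤ (layC.vol q).size ∧
    q.2.2.2.length ≤ (layC.vol q).size := by
  have h0 := cn_volC_pos hq
  have key : ∀ x y, layC.vol q = x * y → x ≤ layC.vol q := fun x y e =>
    Nat.le_of_dvd h0 ⟨y, e⟩
  have h1 : 3 * q.2.1.length * q.2.2.2.length < (layC.vol q).size := by
    rw [Nat.lt_size, pow_mul]
    exact key _ (2 * q.1.1 * (q.1.2.1 * (q.1.2.2.1 * (Gam q.2.1.length ^ q.2.2.2.length *
      q.1.2.2.2)))) (by rw [cn_layC_vol, Gam]; ring)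
  have h2 := cn_one_le_K hq
  have h3 := hq.hl
  generalize hG : Gam q.2.1.length ^ q.2.2.2.length = G
  have hv := cn_layC_vol q
  rw [hG] at hv
  refine ⟨key _ (2 * (q.1.2.1 * (G * (q.1.2.2.1 * (G * q.1.2.2.2))))) (by rw [hv]; ring),
    key _ (2 * q.1.1 * (G * (q.1.2.2.1 * (G * q.1.2.2.2)))) (by rw [hv]; ring),
    key _ (2 * q.1.1 * (q.1.2.1 * (G * (G * q.1.2.2.2)))) (by rw [hv]; ring),
    key _ (2 * q.1.1 * (q.1.2.1 * (G * (q.1.2.2.1 * G)))) (by rw [hv]; ring), ?_, ?_⟩ <;> nlinarith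

theorem cn_esize_units (U : List Unit) : esize U = 2 * U.length + 1 := by
  rw [← esize_un]
  congr 1
  exact List.eq_replicate_iff.mpr ⟨rfl, fun _ _ => rfl⟩

theorem cn_layC_pos {q : CP} (hq : 0 < q.1.1 ∧ 0 < q.1.2.1 ∧ 0 < q.1.2.2.1 ∧ 0 < q.1.2.2.2) :
    ∀ c < layC.n q, 0 < layC.r q c := by
  intro c hc
  rcases cn_cases_C hc with rfl | rfl | ⟨g, hg, rfl⟩ | rfl | ⟨g, hg, rfl⟩ | rfl
  · rw [cn_layC_r0]; omega
  · exact hq.2.1
  · rw [cn_layC_act _ hg]; exact cn_Gam_pos _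
  · rw [cn_layC_mid]; exact hq.2.2.1
  · rw [cn_layC_scr _ hg]; exact cn_Gam_pos _
  · rw [cn_layC_top]; exact hq.2.2.2

theorem cn_wtC_two (q : CP) : wt (layC.r q) 2 = 2 * q.1.1 * q.1.2.1 := by
  rw [wt_succ, wt_one, cn_layC_r0, cn_layC_r1]

variable {p : α → CP}

theorem cn_smC (hOK : ∀ a, (p a).OK k) : SmIn (fun a => (p a).1.2.1) p := by
  have hs := Rich.smIn (fun a => (hOK a).rich) fun a => (hOK a).pos.2.1
  have hK : SmIn (fun a => (p a).1.2.1) fun a => (p a).2.1 := hs.of_le fun a => by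
    have := (cn_le_volC (hOK a)).2.2.2.2.1
    rw [cn_esize_units, esize_nat]; omega
  have hl : SmIn (fun a => (p a).1.2.1) fun a => (p a).2.2.2 := hs.of_le fun a => by
    have := (cn_le_volC (hOK a)).2.2.2.2.2
    rw [cn_esize_units, esize_nat]; omega
  have hj : SmIn (fun a => (p a).1.2.1) fun a => (p a).2.2.1 :=
    (hK.pt (f := fun U => U.length) (by fun_prop)).nat_le fun a => (hOK a).hj.le
  exact ((hs.nat_le fun a => (cn_le_volC (hOK a)).1).pair
    ((hs.nat_le fun a => (cn_le_volC (hOK a)).2.1).pair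
      ((hs.nat_le fun a => (cn_le_volC (hOK a)).2.2.1).pair
        (hs.nat_le fun a => (cn_le_volC (hOK a)).2.2.2.1)))).pair (hK.pair (hj.pair hl))

theorem cn_famC {V : α → ℕ} (hOK : ∀ a, (p a).OK k) (hV : (fun a => layC.vol (p a)) ≼ V) :
    Fam V p layC 2 :=
  ⟨fun a => by rw [cn_layC_n]; omega, fun a => cn_layC_pos (hOK a).pos,
    (cn_smC hOK).mono (OLe.of_le fun a => by
      rw [cn_wtC_two]; exact Nat.le_mul_of_pos_left _ (by have := (hOK a).pos.1; omega)), hV⟩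

theorem cn_val_flip {q : CP} (hq : q.OK k) {g : ℕ} (hg : g < q.2.2.2.length) {v : ℕ → ℕ}
    (hv : layC.Val q v) : layC.Val q (flp q.2.2.1 (Pi.single (2 + g) 1) v) := by
  rw [flp_single]
  refine R326.Val.update hv ?_
  have := hv (2 + g) (by rw [cn_layC_n]; omega)
  rw [cn_layC_act _ hg] at this ⊢
  exact xor_lt_Gam hq.hj this

theorem cn_good_flip {K j ℓ g : ℕ} (hj : j < K) (hg : g < ℓ) {v : ℕ → ℕ}
    (hv : Good K 2 (3 + ℓ) ℓ v) : Good K 2 (3 + ℓ) ℓ (flp j (Pi.single (2 + g) 1) v) := by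
  rw [flp_single]
  intro g' hg'
  rw [update_of_ne (a := 3 + ℓ + g') (by omega)]
  refine ⟨?_, (hv g' hg').2⟩
  by_cases e : g' = g
  · rw [e, update_self]
    exact xor_lt_Gam0 hj (hv g hg).1
  · rw [update_of_ne (by omega)]
    exact (hv g' hg').1

/-- The last `ℓ % m` butterflies. -/
theorem cn_cnet_tail {m : ℕ} (hm : 0 < m) (hOK : ∀ a, (p a).OK k)
    (hV : (fun a => layC.vol (p a)) ≼ 𝔅.V) :
    Impl 𝔅 p (fun a (D : Arr) => D.length = layC.vol (p a))
      (fun a D (D' : Arr) => D'.length = layC.vol (p a) ∧ ∀ v, layC.Val (p a) v →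
        rv (p a).1.1 D' (layC.ri (p a) v) = Cten (aR _) (bR _) (p a).2.2.1
          (2 + m * ((p a).2.2.2.length / m)) ((p a).2.2.2.length % m)
          (fun u => rv (p a).1.1 D (layC.ri (p a) u)) v) fun _ => 0 := by
  have hF := cn_famC hOK hV
  refine (Impl.iter m (fun _ a (D : Arr) => D.length = layC.vol (p a))
    (fun l a D (D' : Arr) => D'.length = layC.vol (p a) ∧ ∀ v, layC.Val (p a) v →
      rv (p a).1.1 D' (layC.ri (p a) v) = if l < (p a).2.2.2.length % m then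
        Cten (aR _) (bR _) (p a).2.2.1 (2 + m * ((p a).2.2.2.length / m) + l) 1
          (fun u => rv (p a).1.1 D (layC.ri (p a) u)) v else rv (p a).1.1 D (layC.ri (p a) v))
    (fun l a D (D' : Arr) => D'.length = layC.vol (p a) ∧ ∀ v, layC.Val (p a) v →
      rv (p a).1.1 D' (layC.ri (p a) v) = Cten (aR _) (bR _) (p a).2.2.1
        (2 + m * ((p a).2.2.2.length / m)) (min l ((p a).2.2.2.length % m))
        (fun u => rv (p a).1.1 D (layC.ri (p a) u)) v) (fun _ _ => 0) hF.sz_in (fun l hl => ?_)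
    (fun a D hD => ⟨hD, fun v _ => by simp [Cten]⟩) (fun _ _ _ _ _ _ h => h.1)
    fun l hl a D0 D D' _ h1 h2 => ⟨h2.1, fun v hv => ?_⟩).mono (fun _ _ h => h)
    (fun a D D' _ h => ⟨h.1, fun v hv => ?_⟩) fun _ => by simp
  · refine Impl.cases (fun a => l < (p a).2.2.2.length % m) hF.smV.size_le
      ((L.refl _ _).pt hF.smV (f := fun q : CP => decide (l < q.2.2.2.length % m)) (by fun_prop))
      ?_ ?_
    · refine (Impl.cone (𝔅 := 𝔅.comap (Subtype.val : {a // l < (p a).2.2.2.length % m} → α))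
        (p := fun a => p a.1) (Pw := fun q : CP => q.1.1) (K := fun q => q.2.1.length)
        (j := fun q => q.2.2.1) (i := fun q => 2 + m * (q.2.2.2.length / m) + l)
        (hF.reindex Subtype.val) (by fun_prop) (by fun_prop) (by fun_prop) (by fun_prop)
        (fun a => (hOK a.1).pos.1) (fun a => rfl) (fun a => (hOK a.1).hj) (fun a => by omega)
        (fun a => ?_) fun a => ?_).mono (fun _ _ h => h)
        (fun a D D' _ h => ⟨h.1, fun v hv => by rw [if_pos a.2]; exact h.2 v hv⟩) fun _ => le_rfl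
      · have h1 := a.2
        have h2 := Nat.div_add_mod (p a.1).2.2.2.length m
        rw [cn_layC_n]; omega
      · have h1 := a.2
        have h2 := Nat.div_add_mod (p a.1).2.2.2.length m
        rw [add_assoc]
        exact cn_layC_act _ (by omega)
    · exact (Impl.id (hF.reindex Subtype.val).sz_in).mono (fun _ _ h => h)
        (fun a D D' hD h => ⟨h ▸ hD, fun v hv => by rw [if_neg a.2, h]⟩) fun _ => le_rfl
  · rw [h2.2 v hv]
    split_ifs with c
    · have h3 := Nat.div_add_mod (p a).2.2.2.length m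
      rw [min_eq_left (by omega), Cten_add]
      refine Tens_congr _ _ (layC.Val (p a)) (fun π hπ u hu => ?_) (fun u hu => ?_) hv
      · obtain ⟨g, hg, rfl⟩ := List.mem_map.mp hπ
        have := List.mem_range.mp hg
        rw [add_assoc, add_assoc]
        exact cn_val_flip (hOK a) (by omega) hu
      · rw [h1.2 u hu, min_eq_left (by omega)]
    · rw [h1.2 v hv, min_eq_right (by omega), min_eq_right (by omega)]
  · rw [h.2 v hv, min_eq_right (Nat.mod_lt _ hm).le]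

/-- The parameters of a register. -/
def cn_divW (W : ℕ) (q : CP) : CP := ((q.1.1, q.1.2.1 / W, q.1.2.2.1, q.1.2.2.2), q.2)

theorem cn_pt_divW (W : ℕ) : PT (cn_divW W) := by unfold cn_divW; fun_prop

/-- The layout of a register. -/
@[reducible] def cn_layD (W : ℕ) : Lay CP := layC.comap (cn_divW W) (cn_pt_divW W)

theorem cn_vol_divW {W : ℕ} {q : CP} (h : W ∣ q.1.2.1) : W * layC.vol (cn_divW W q) = layC.vol q := by
  rw [cn_layC_vol, cn_layC_vol]
  conv_rhs => rw [← Nat.mul_div_cancel' h]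
  simp only [cn_divW]
  ring

theorem cn_size_div_lt {m l : ℕ} (hm : 2 ≤ m) (hl : 1 ≤ l) : (l / m).size + 1 ≤ l.size := by
  have h1 : 0 < l.size := Nat.size_pos.mpr hl
  have h2 : l / m < 2 ^ (l.size - 1) := by
    have h3 := Nat.lt_size_self l
    rw [show l.size = l.size - 1 + 1 by omega, pow_succ] at h3
    have h4 : l / m ≤ l / 2 := Nat.div_le_div_left hm (by omega)
    omega
  have := Nat.size_le.mpr h2
  omega

theorem cn_rich_div {W m : ℕ} (hW : W = 2 ^ 71) (hm : 2 ≤ m) {q : CP} (hq : q.OK k) :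
    W ∣ q.1.2.1 ∧ Rich k ((layC.vol (cn_divW W q)).size.size + (q.2.2.2.length / m).size)
      (q.1.2.1 / W) (layC.vol (cn_divW W q)) := by
  have h1 := cn_size_div_lt hm hq.hl
  obtain ⟨h2, h3⟩ := Rich.div hW (hq.rich.mono
    (e' := (layC.vol q).size.size + (q.2.2.2.length / m).size + 1) (by omega) dvd_rfl le_rfl)
  have h4 : layC.vol (cn_divW W q) ≤ layC.vol q := by
    rw [← cn_vol_divW h2]
    exact Nat.le_mul_of_pos_left _ (hW ▸ Nat.two_pow_pos _)
  exact ⟨h2, h3.mono (Nat.add_le_add_right (Nat.size_le_size (Nat.size_le_size h4)) _) dvd_rfl h4⟩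

theorem cn_tauE_nonneg : 0 ≤ tauE := by unfold tauE; norm_num

theorem cn_cfamD {W m m' : ℕ} (hW : W = 2 ^ 71) (hm : 2 ≤ m) (hOK : ∀ a, (p a).OK k)
    (hV : (fun a => layC.vol (p a)) ≼ 𝔅.V)
    (hc : (fun a => (layC.vol (p a) : ℝ) *
      ((p a).2.1.length * ((p a).2.2.2.length : ℝ) ^ tauE)) ≲ 𝔅.F)
    (hml : ∀ a, m ≤ (p a).2.2.2.length) {i : CP → ℕ} (hi : PT i) (h2 : ∀ a, 2 ≤ i (p a))
    (h3 : ∀ a, i (p a) + m' * ((p a).2.2.2.length / m) ≤ 2 + (p a).2.2.2.length) :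
    CFam 𝔅 p (cn_layD W) k m' (fun q => q.1.1) (fun q => q.2.1.length) (fun q => q.2.2.1) i
      (fun q => 3 + q.2.2.2.length) fun q => q.2.2.2.length / m := by
  have hW0 : 0 < W := hW ▸ Nat.two_pow_pos _
  have hd := fun a => (cn_rich_div hW hm (hOK a)).1
  have hle : ∀ a, layC.vol (cn_divW W (p a)) ≤ layC.vol (p a) := fun a => by
    rw [← cn_vol_divW (hd a)]
    exact Nat.le_mul_of_pos_left _ hW0
  have hB : ∀ a, 0 < (p a).1.2.1 / W := fun a =>
    Nat.div_pos (Nat.le_of_dvd (hOK a).pos.2.1 (hd a)) hW0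
  refine ⟨⟨fun a => by show 2 ≤ 4 + _; omega,
      fun a => cn_layC_pos ⟨(hOK a).pos.1, hB a, (hOK a).pos.2.2⟩, (cn_smC hOK).mono ⟨W, fun a => ?_⟩,
      hV.mono_left hle⟩, by fun_prop, by fun_prop, by fun_prop, hi, by fun_prop, by fun_prop,
    fun a => (hOK a).pos.1, fun a => rfl, fun a => (hOK a).hj, h2,
    fun a => Nat.div_pos (hml a) (by omega), fun a => (h3 a).trans (by omega), fun a => ?_,
    fun a g hg => ⟨?_, ?_⟩, fun a => (cn_rich_div hW hm (hOK a)).2.mono (by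
      show (layC.vol (cn_divW W (p a))).size.size ≤ _; omega) dvd_rfl le_rfl,
    hc.mono_left fun a => ?_⟩
  · show (p a).1.2.1 ≤ W * wt (layC.r (cn_divW W (p a))) 2
    rw [cn_wtC_two]
    conv_lhs => rw [← Nat.mul_div_cancel' (hd a)]
    exact Nat.mul_le_mul_left _ (Nat.le_mul_of_pos_left _ (by
      have := (hOK a).pos.1; show 0 < 2 * (p a).1.1; omega))
  · have := h2 a
    have := h3 a
    show 3 + (p a).2.2.2.length + m' * ((p a).2.2.2.length / m) ≤ 4 + 2 * (p a).2.2.2.length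
    omega
  · have := h2 a
    have := h3 a
    rw [show i (p a) + g = 2 + (i (p a) - 2 + g) by omega]
    exact cn_layC_act (cn_divW W (p a)) (by show _ < (p a).2.2.2.length; omega)
  · have := h2 a
    have := h3 a
    exact cn_layC_scr (cn_divW W (p a)) (by show _ < (p a).2.2.2.length; omega)
  · have h4 : (layC.vol (cn_divW W (p a)) : ℝ) ≤ layC.vol (p a) := by exact_mod_cast hle a
    have h5 : (((p a).2.2.2.length / m : ℕ) : ℝ) ≤ (p a).2.2.2.length := by
      exact_mod_cast Nat.div_le_self _ _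
    exact mul_le_mul h4 (mul_le_mul_of_nonneg_left
      (Real.rpow_le_rpow (Nat.cast_nonneg _) h5 cn_tauE_nonneg) (Nat.cast_nonneg _))
      (by positivity) (Nat.cast_nonneg _)

/-- The first `m * (ℓ / m)` butterflies. -/
theorem cn_cnet_head {m W r : ℕ} {start : Fin W → Matrix (Fin m) (Fin m) (ZMod 2)} (hW : W = 2 ^ 71)
    (hm : 2 ≤ m) (hs : ∀ w, (start w).IsSymm) (hN : NetOK Dy GenC 1 W r start)
    (hOK : ∀ a, (p a).OK k) (hV : (fun a => layC.vol (p a)) ≼ 𝔅.V)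
    (hc : (fun a => (layC.vol (p a) : ℝ) *
      ((p a).2.1.length * ((p a).2.2.2.length : ℝ) ^ tauE)) ≲ 𝔅.F)
    (hml : ∀ a, m ≤ (p a).2.2.2.length) (T : α → ℕ × ℕ → ℝ) (hT : ∀ a c, 0 ≤ T a c)
    (hrec : ∀ g : α → CP, (∀ a, (g a).OK k) → (∀ a, (g a).2.2.2.length < (p a).2.2.2.length) →
      (fun a => layC.vol (g a)) ≼ 𝔅.V → Impl 𝔅 g (fun a (D : Arr) => D.length = layC.vol (g a))
        (fun a => CPostC (g a))
        fun a => T a (layC.vol (g a) * (g a).2.1.length, (g a).2.2.2.length)) :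
    Impl 𝔅 p (fun a (D : Arr) => D.length = layC.vol (p a))
      (fun a => CPost layC (p a) (p a).1.1 (p a).2.1.length (p a).2.2.1 2 (3 + (p a).2.2.2.length)
        (m * ((p a).2.2.2.length / m)))
      fun a => r * T a (layC.vol (cn_divW W (p a)) * (p a).2.1.length, (p a).2.2.2.length / m) := by
  refine Impl.cnet_step hs hN (cn_famC hOK hV)
    (cn_cfamD (i := fun _ => 2) hW hm hOK hV hc hml (by fun_prop) (fun _ => le_rfl) fun a =>
      Nat.add_le_add_left (Nat.mul_div_le _ _) _) (fun _ => rfl)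
    (fun a => (Nat.div_mul_cancel (cn_rich_div hW hm (hOK a)).1).symm) (fun a c _ hc1 => ?_)
    (fun a => hT a _) fun l hl => ?_
  · simp only [layC, cn_divW, if_neg hc1]
  · have h := cn_cfamD (m' := 1) (i := fun q => 2 + l * (q.2.2.2.length / m)) hW hm hOK hV hc hml
      (by fun_prop) (fun _ => Nat.le_add_right _ _) fun a => by
        have h1 : (l + 1) * ((p a).2.2.2.length / m) ≤ m * ((p a).2.2.2.length / m) :=
          Nat.mul_le_mul_right _ hl
        have h2 := Nat.mul_div_le (p a).2.2.2.length m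
        rw [add_mul] at h1
        omega
    refine (Impl.cnet_of_std h (hrec _ (fun a => cn_ok_toCP h a (cn_rich_div hW hm (hOK a)).2)
      (fun a => ?_) (h.fam.vol.mono_left fun a => (cn_vol_toCP h a).le))).mono (fun _ _ h => h)
      (fun _ _ _ _ h => h) fun a => le_of_eq ?_
    · rw [cn_toCP_l]
      exact Nat.div_lt_self (hOK a).hl hm
    · rw [cn_vol_toCP h a, cn_toCP_K, cn_toCP_l]
      rfl

/-- The body of the recursion. -/
theorem cn_cnet_body {m W r : ℕ} {start : Fin W → Matrix (Fin m) (Fin m) (ZMod 2)} (hW : W = 2 ^ 71)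
    (hm : 2 ≤ m) (hs : ∀ w, (start w).IsSymm) (hN : NetOK Dy GenC 1 W r start)
    (hOK : ∀ a, (p a).OK k) (hV : (fun a => layC.vol (p a)) ≼ 𝔅.V)
    (hc : (fun a => (layC.vol (p a) : ℝ) *
      ((p a).2.1.length * ((p a).2.2.2.length : ℝ) ^ tauE)) ≲ 𝔅.F)
    (T : α → ℕ × ℕ → ℝ) (hT : ∀ a c, 0 ≤ T a c)
    (hrec : ∀ (β : Type) (φ : β → α) (g : β → CP), (∀ b, (g b).OK k) →
      (∀ b, (g b).2.2.2.length < (p (φ b)).2.2.2.length) →
      (fun b => layC.vol (g b)) ≼ (fun b => 𝔅.V (φ b)) →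
      Impl (𝔅.comap φ) g (fun b (D : Arr) => D.length = layC.vol (g b)) (fun b => CPostC (g b))
        fun b => T (φ b) (layC.vol (g b) * (g b).2.1.length, (g b).2.2.2.length)) :
    Impl 𝔅 p (fun a (D : Arr) => D.length = layC.vol (p a)) (fun a => CPostC (p a))
      fun a => if m ≤ (p a).2.2.2.length then
        r * T a (layC.vol (cn_divW W (p a)) * (p a).2.1.length, (p a).2.2.2.length / m) else 0 := by
  have hF := cn_famC hOK hV
  have head : Impl 𝔅 p (fun a (D : Arr) => D.length = layC.vol (p a))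
      (fun a => CPost layC (p a) (p a).1.1 (p a).2.1.length (p a).2.2.1 2 (3 + (p a).2.2.2.length)
        (m * ((p a).2.2.2.length / m)))
      fun a => if m ≤ (p a).2.2.2.length then
        r * T a (layC.vol (cn_divW W (p a)) * (p a).2.1.length, (p a).2.2.2.length / m) else 0 := by
    refine Impl.cases (fun a => m ≤ (p a).2.2.2.length) hF.smV.size_le
      ((L.refl _ _).pt hF.smV (f := fun q : CP => decide (m ≤ q.2.2.2.length)) (by fun_prop)) ?_ ?_
    · exact (cn_cnet_head (𝔅 := 𝔅.comap Subtype.val) hW hm hs hN (fun a => hOK a.1) (hV.comp _)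
        (hc.comp _) (fun a => a.2) (fun a => T a.1) (fun a => hT a.1) (hrec _ _)).mono
        (fun _ _ h => h) (fun _ _ _ _ h => h) fun a => by rw [if_pos a.2]
    · refine (Impl.id (hF.reindex Subtype.val).sz_in).mono (fun _ _ h => h)
        (fun a D D' hD h => ⟨h ▸ hD, fun v hv _ => ?_⟩) fun a => by rw [if_neg a.2]
      rw [h, Nat.div_eq_of_lt (not_le.mp a.2)]
      rfl
  refine (head.comp (cn_cnet_tail (m := m) (by omega) hOK hV) fun _ _ _ _ h => h.1).mono (fun _ _ h => h)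
    (fun a D D'' _ ⟨D', h1, h2⟩ => ⟨h2.1, fun v hv hg => ?_⟩) fun _ => by simp
  have h3 := Nat.div_add_mod (p a).2.2.2.length m
  rw [h2.2 v hv]
  conv_rhs => rw [← h3, Cten_add]
  refine Tens_congr _ _ (fun u => layC.Val (p a) u ∧
    Good (p a).2.1.length 2 (3 + (p a).2.2.2.length) (p a).2.2.2.length u) (fun π hπ u hu => ?_)
    (fun u hu => h1.2 u hu.1 (cn_good_mono hu.2 (by omega))) ⟨hv, hg⟩
  obtain ⟨g, hg, rfl⟩ := List.mem_map.mp hπ
  have := List.mem_range.mp hg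
  rw [add_assoc]
  exact ⟨cn_val_flip (hOK a) (by omega) hu.1, cn_good_flip (hOK a).hj (by omega) hu.2⟩

end CnetAux

/-- The recursion.  Recipe: `Alg.fix` with `μ = ℓ`, class `(vol * K, ℓ)`, `V = vol`,
`F = vol * K * ℓ ^ tauE`, `T (V, ℓ) = A * V * ℓ ^ tauE` (`rate_solve`).  For `ℓ ≥ m`:
`Impl.cnet_step` with `ℓ / m` (recursive calls through `Impl.cnet_of_std`, `RecIdx.call`,
`Rich.div`); the last `ℓ % m < m` chunks by `Impl.cone` (`Impl.iter`/`Impl.cases`), `Cten_add`. -/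
theorem cnet_core (k : ℕ) : ∃ (A : ℝ) (y : {t : CP × Arr // t.1.OK k ∧ t.2.length = layC.vol t.1} → Arr),
    0 ≤ A ∧ (∀ t, CPostC t.1.1 t.1.2 (y t)) ∧ Alg (fun t => t.1) y
      fun t => A * (layC.vol t.1.1 * t.1.1.2.1.length) * (t.1.1.2.2.2.length : ℝ) ^ tauE := by
  obtain ⟨m, W, r, start, hW, hm, hr, hs, hN⟩ := c_network
  let τ := {t : CP × Arr // t.1.OK k ∧ t.2.length = layC.vol t.1}
  let x : τ → CP × Arr := fun t => t.1
  let Post : τ → Arr → Prop := fun t => CPostC t.1.1 t.1.2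
  let μ : τ → ℕ := fun t => t.1.1.2.2.2.length
  let cl : τ → ℕ × ℕ := fun t => (layC.vol t.1.1 * t.1.1.2.1.length, t.1.1.2.2.2.length)
  let V : τ → ℕ := fun t => layC.vol t.1.1
  let F : τ → ℝ := fun t => layC.vol t.1.1 * (t.1.1.2.1.length * (t.1.1.2.2.2.length : ℝ) ^ tauE)
  have hVF : ∀ t, (V t : ℝ) ≤ F t := fun t => le_mul_of_one_le_right (Nat.cast_nonneg _)
    (one_le_mul_of_one_le_of_one_le (by exact_mod_cast cn_one_le_K t.2.1)
      (Real.one_le_rpow (by exact_mod_cast t.2.1.hl) cn_tauE_nonneg))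
  have hx : sz x ≼ V := (cn_famC (p := fun t : τ => t.1.1) (fun t => t.2.1) (OLe.refl _)).sz_in.comp
    fun t : τ => ⟨(t, t.1.2), t.2.2⟩
  have body := cn_cnet_body (𝔅 := (recBud V F hVF : Bud (RecIdx x Post μ cl)))
    (p := fun ρ => ρ.a.1.1) hW hm hs hN (fun ρ => ρ.a.2.1) (OLe.refl _) (RLe.refl _)
    (fun ρ => ρ.T) (fun ρ => ρ.hT) fun β φ g hg hlt hV => by
      have hF := cn_famC hg hV
      refine Impl.intro hF.sz_in fun γ ψ D hD _ => ?_
      exact RecIdx.call (((recBud V F hVF : Bud (RecIdx x Post μ cl)).comap φ).comap ψ)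
        (fun c => φ (ψ c)) (fun _ => rfl) (fun c => (⟨(g (ψ c), D c), hg _, hD c⟩ : τ))
        (fun c => hlt _) fun y hy => sz_bits ((hV.comp ψ).mono_left fun c => (hy c).1.le)
          fun c => hF.smV.one_le _
  obtain ⟨y, hy, hb⟩ := body.apply (fun ρ => ρ) (fun ρ => ρ.a.1.2) fun ρ => ρ.a.2.2
  obtain ⟨c, hc, hfix⟩ := Alg.fix x Post μ cl V F hVF hx
    (fun T t => if m ≤ t.1.1.2.2.2.length then
      r * T (layC.vol (cn_divW W t.1.1) * t.1.1.2.1.length, t.1.1.2.2.2.length / m) else 0) y hy hb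
  obtain ⟨A, hA, hrate⟩ := rate_solve hm hr c hc
  have hA0 : 0 ≤ A := hc.trans hA
  obtain ⟨y', h1, h2⟩ := hfix (fun κ => A * κ.1 * (κ.2 : ℝ) ^ tauE) (fun κ => by positivity)
    fun t => by
      simp only [F, cl]
      split_ifs with hml
      · have h3 := mul_le_mul_of_nonneg_left (hrate t.1.1.2.2.2.length)
          (Nat.cast_nonneg (α := ℝ) (layC.vol (cn_divW W t.1.1) * t.1.1.2.1.length))
        rw [← cn_vol_divW (cn_rich_div hW hm t.2.1).1]
        push_cast at h3 ⊢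
        linarith
      · have h3 := mul_le_mul_of_nonneg_right hA (show 0 ≤ (layC.vol t.1.1 : ℝ) *
          (t.1.1.2.1.length * (t.1.1.2.2.2.length : ℝ) ^ tauE) by positivity)
        push_cast
        linarith
  exact ⟨A, y', hA0, h1, h2.mono fun t => by simp [cl]⟩

/-- Parallel butterflies. -/
theorem Impl.cnet (h : CFam 𝔅 p Λ k 1 Pw K j i iz ℓ)
    (hR : ∀ a, Rich k ((Λ.vol (p a)).size.size + (ℓ (p a)).size) (Λ.r (p a) 1) (Λ.vol (p a))) :
    Impl 𝔅 p (fun a (D : Arr) => D.length = Λ.vol (p a))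
      (fun a => CPost Λ (p a) (Pw (p a)) (K (p a)) (j (p a)) (i (p a)) (iz (p a)) (ℓ (p a)))
      fun _ => 0 := by
  obtain ⟨A, y, hA, hy, halg⟩ := cnet_core k
  have hOK := fun a => cn_ok_toCP h a (hR a)
  have hV := h.fam.vol.mono_left fun a => (cn_vol_toCP h a).le
  have hF := cn_famC hOK hV
  refine Impl.cnet_of_std h (Impl.intro hF.sz_in fun β φ D hD _ => ?_)
  let ψ : β → {t : CP × Arr // t.1.OK k ∧ t.2.length = layC.vol t.1} := fun b =>
    ⟨(toCP Λ Pw K j i iz ℓ (p (φ b)), D b), hOK _, hD b⟩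
  refine ⟨fun b => y (ψ b), fun b => hy (ψ b), halg.l (𝔅.comap φ) ψ
    (sz_bits ((hV.comp φ).mono_left fun b => (hy (ψ b)).1.le) fun b => hF.smV.one_le _)
    (((h.cost.comp φ).const_mul A hA).mono_left fun b => le_of_eq ?_)⟩
  simp only [ψ]
  rw [cn_vol_toCP h, cn_toCP_K, cn_toCP_l]
  ring

end Crest.Agent.R326
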