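/-
R326/RingMul: products of records and of polynomials, by calls to the environment.
-/
import Crest.Agent.R326.Ring

set_option autoImplicit false
set_option linter.unusedSimpArgs false
set_option linter.unusedSectionVars false
set_option linter.unusedVariables false

namespace Crest.Agent.R326

open Function Crest.Agent.Lib.PolyTime

variable {α X P : Type} [Enc X] [Enc P] {𝔅 : Bud α} {x : α → X} {Pw n : α → ℕ} {D D' : α → Arr}
  {Tm : α → ℝ}

@[simp] theorem length_mulBits (x y : Arr) : (mulBits x y).length = 2 * x.length := by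
  simp [mulBits]

theorem ofBits_mulBits {x y : Arr} (h : x.length = y.length) :
    ofBits (mulBits x y) = ofBits x * ofBits y := by
  rw [mulBits, ofBits_map_testBit]
  refine Nat.mod_eq_of_lt ?_
  have h1 := ofBits_lt x
  have h2 := ofBits_lt y
  rw [← h] at h2
  rw [two_mul, pow_add]
  exact Nat.mul_lt_mul'' h1 h2

theorem HM.comap {β : Type} {m : α → ℕ} (h : HM 𝔅 m Tm) (𝔅' : Bud β) (φ : β → α)
    (ho : ∀ c, 𝔅'.o c = 𝔅.o (φ c)) : HM 𝔅' (fun c => m (φ c)) fun c => Tm (φ c) :=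
  fun c x y hx hy => ho c ▸ h (φ c) x y hx hy

namespace RM

/-! ### Numbers and words -/

theorem ofBits_app (l m : Arr) : ofBits (l ++ m) = ofBits l + 2 ^ l.length * ofBits m := by
  induction l with
  | nil => simp
  | cons b l ih =>
    simp only [List.cons_append, ofBits_cons, ih, List.length_cons, Nat.bit_val, pow_succ]
    ring

theorem ofBits_zeros (k : ℕ) : ofBits (List.replicate k false) = 0 := by
  induction k with
  | zero => rfl
  | succ k ih => simp [List.replicate_succ, ih]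

theorem ofBits_split {k : ℕ} {l : Arr} (h : k ≤ l.length) :
    ofBits l = ofBits (l.take k) + 2 ^ k * ofBits (l.drop k) := by
  conv_lhs => rw [← List.take_append_drop k l]
  rw [ofBits_app, List.length_take, min_eq_left h]

theorem ofBits_eq_sum (g c : ℕ) (l : Arr) (h : l.length = g * c) :
    ofBits l = ∑ t ∈ Finset.range c, (2 ^ g) ^ t * ofBits (blk g t l) := by
  induction c generalizing l with
  | zero => simp at h; simp [h]
  | succ c ih =>
    have h1 : g * c ≤ l.length := by rw [h]; exact Nat.mul_le_mul_left _ (Nat.le_succ _)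
    rw [Finset.sum_range_succ, ofBits_split h1, ih (l.take (g * c)) (by simp [h1])]
    congr 1
    · refine Finset.sum_congr rfl fun t ht => ?_
      have ht' := Finset.mem_range.mp ht
      have h2 : g * (t + 1) ≤ g * c := Nat.mul_le_mul_left _ ht'
      congr 2
      simp only [blk, List.drop_take, List.take_take]
      congr 1
      rw [mul_add, mul_one] at h2
      omega
    · rw [← pow_mul]
      congr 2
      rw [blk, List.take_of_length_le]
      simp only [List.length_drop, h, mul_add, mul_one]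
      omega

theorem digit_eq {Q c : ℕ} {u v : ℕ → ℕ} (hu : ∀ t < c, u t < Q) (hv : ∀ t < c, v t < Q)
    (h : ∑ t ∈ Finset.range c, Q ^ t * u t = ∑ t ∈ Finset.range c, Q ^ t * v t) :
    ∀ t < c, u t = v t := by
  refine Val.eq_of_pos_eq (r := fun _ => Q) hu hv ?_
  simpa [pos, wt] using h

theorem two_pow_eq_one (P : ℕ) : ((2 ^ P : ℕ) : ZMod (2 ^ P - 1)) = 1 := by
  have h2 : 2 ^ P = (2 ^ P - 1) + 1 := by have := Nat.two_pow_pos P; omega
  have h4 := congrArg (Nat.cast : ℕ → ZMod (2 ^ P - 1)) h2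
  rwa [Nat.cast_add, ZMod.natCast_self, zero_add, Nat.cast_one] at h4

/-- The value of word `t`. -/
def wv (P : ℕ) (D : Arr) (t : ℕ) : ZMod (2 ^ P - 1) := (ofBits (blk P t D) : ℕ)

theorem rv_eq (P : ℕ) (D : Arr) (t : ℕ) : rv P D t = ⟨wv P D (2 * t), wv P D (2 * t + 1)⟩ := rfl

theorem blk_zero_eq {g : ℕ} (D : Arr) : blk g 0 D = D.take g := by simp [blk]

/-- Reduction of a double word. -/
theorem exists_red2 : ∃ f : List Unit × Arr → Arr, LT f ∧ ∀ (P : ℕ) (B : Arr), B.length = 2 * P →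
    (f (un P, B)).length = P ∧
      ((ofBits (f (un P, B)) : ℕ) : ZMod (2 ^ P - 1)) = (ofBits B : ℕ) := by
  obtain ⟨f, hf, hf'⟩ := exists_addMod
  refine ⟨fun q => f (q.2.take q.1.length, q.2.drop q.1.length), fun _ _ _ _ _ _ h =>
    hf.l ((L.take h.fst.un_length h.snd).pair (L.drop h.fst.un_length h.snd)), fun P B hB => ?_⟩
  have h1 : (B.take P).length = P := by simp [hB]; omega
  have h2 : (B.drop P).length = P := by simp [hB]; omega
  obtain ⟨k1, k2⟩ := hf' (B.take P) (B.drop P) (h1.trans h2.symm)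
  simp only [List.length_replicate]
  refine ⟨k1.trans h1, ?_⟩
  rw [h1] at k2
  rw [k2, ofBits_split (k := P) (l := B) (by omega), Nat.cast_add, Nat.cast_mul, two_pow_eq_one,
    one_mul]

/-- Reduction of a triple word. -/
theorem exists_red3 : ∃ f : List Unit × Arr → Arr, LT f ∧ ∀ (P : ℕ) (B : Arr), B.length = 3 * P →
    (f (un P, B)).length = P ∧
      ((ofBits (f (un P, B)) : ℕ) : ZMod (2 ^ P - 1)) = (ofBits B : ℕ) := by
  obtain ⟨f, hf, hf'⟩ := exists_addMod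
  obtain ⟨g, hg, hg'⟩ := exists_red2
  refine ⟨fun q => f (q.2.take q.1.length, g (q.1, q.2.drop q.1.length)), fun _ _ _ _ _ _ h =>
    hf.l ((L.take h.fst.un_length h.snd).pair (hg.l (h.fst.pair (L.drop h.fst.un_length h.snd)))),
    fun P B hB => ?_⟩
  have h1 : (B.take P).length = P := by simp [hB]; omega
  have h2 : (B.drop P).length = 2 * P := by simp [hB]; omega
  obtain ⟨j1, j2⟩ := hg' P _ h2
  obtain ⟨k1, k2⟩ := hf' (B.take P) (g (un P, B.drop P)) (h1.trans j1.symm)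
  simp only [List.length_replicate]
  refine ⟨k1.trans h1, ?_⟩
  rw [h1] at k2
  rw [k2, j2, ofBits_split (k := P) (l := B) (by omega), Nat.cast_add, Nat.cast_mul,
    two_pow_eq_one, one_mul]

/-! ### Blockwise maps -/

theorem flatten_spec {g n : ℕ} (c : ℕ → Arr) (h : ∀ t < n, (c t).length = g) :
    ((List.range n).map c).flatten.length = g * n ∧
      ∀ t < n, blk g t ((List.range n).map c).flatten = c t := by
  have h1 : ∀ B ∈ (List.range n).map c, B.length = g := by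
    intro B hB
    obtain ⟨t, ht, rfl⟩ := List.mem_map.mp hB
    exact h t (List.mem_range.mp ht)
  refine ⟨?_, fun t ht => ?_⟩
  · rw [List.length_flatten, List.map_map, sum_map_range,
      Finset.sum_congr rfl (f := List.length ∘ c) (g := fun _ => g)
        fun t ht => h t (Finset.mem_range.mp ht)]
    simp [mul_comm]
  · rw [blk_flatten h1 (by simpa using ht)]
    simp [List.getD_eq_getElem?_getD, ht]

theorem length_blk' {g n t : ℕ} {D : Arr} (h : D.length = g * n) (ht : t < n) :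
    (blk g t D).length = g := length_blk (h ▸ Nat.mul_le_mul_left _ ht)

/-- Apply a linear-time function with a unary parameter `k ≤ g` to all blocks. -/
theorem blkMap {g g' k : α → ℕ} {f : List Unit × Arr → Arr} (hf : LT f)
    (hk : L 𝔅 x fun a => un (k a)) (hg : L 𝔅 x fun a => un (g a)) (hg0 : ∀ a, 0 < g a)
    (hkg : ∀ a, k a ≤ g a) (hD : L 𝔅 x D) (hl : ∀ a, (D a).length = g a * n a)
    (hf' : ∀ a (B : Arr), B.length = g a → (f (un (k a), B)).length = g' a) :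
    ∃ E, L 𝔅 x E ∧ ∀ a, (E a).length = g' a * n a ∧
      ∀ t < n a, blk (g' a) t (E a) = f (un (k a), blk (g a) t (D a)) := by
  refine ⟨fun a => ((List.range (n a)).map fun t => f (un (k a), blk (g a) t (D a))).flatten,
    L.with_sz fun hx => ?_, fun a => flatten_spec _ fun t ht => hf' a _ (length_blk' (hl a) ht)⟩
  refine (L.map_par (f := fun u B => f (u, B)) hf hk (L.chunks hg hD hg0 hl) ?_).flatten.congr
    fun a => ?_
  · refine ((length_of_sz (hD.size_le hx)).const_mul 3).mono_left fun a => ?_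
    have := hg0 a
    have := hkg a
    rw [length_chunks, esize_un, hl]
    nlinarith
  · rw [chunks_eq_blk, List.map_map]; rfl

theorem un_two {k : α → ℕ} (hk : L 𝔅 x fun a => un (k a)) : L 𝔅 x fun a => un (2 * k a) :=
  (hk.append hk).congr fun a => by rw [List.replicate_append_replicate, two_mul]

theorem un_three {k : α → ℕ} (hk : L 𝔅 x fun a => un (k a)) : L 𝔅 x fun a => un (3 * k a) :=
  ((un_two hk).append hk).congr fun a => by
    rw [List.replicate_append_replicate]; congr 1; ring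

/-- The real and the imaginary words. -/
theorem split (hP : L 𝔅 x fun a => un (Pw a)) (h1 : ∀ a, 1 ≤ Pw a) (hD : L 𝔅 x D)
    (hl : ∀ a, (D a).length = 2 * Pw a * n a) :
    ∃ A B, L 𝔅 x A ∧ L 𝔅 x B ∧ (∀ a, (A a).length = Pw a * n a) ∧
      (∀ a, (B a).length = Pw a * n a) ∧ ∀ a, ∀ t < n a,
        rv (Pw a) (D a) t = ⟨wv _ (A a) t, wv _ (B a) t⟩ := by
  obtain ⟨A, hA, hA'⟩ := blkMap (g' := Pw) (f := fun q => q.2.take q.1.length)
    (fun _ _ _ _ _ _ h => L.take h.fst.un_length h.snd) hP (un_two hP)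
    (fun a => by have := h1 a; omega) (fun a => by omega) hD hl
    (fun a B hB => by simp [hB]; omega)
  obtain ⟨B, hB, hB'⟩ := blkMap (g' := Pw) (f := fun q => q.2.drop q.1.length)
    (fun _ _ _ _ _ _ h => L.drop h.fst.un_length h.snd) hP (un_two hP)
    (fun a => by have := h1 a; omega) (fun a => by omega) hD hl
    (fun a B hB => by simp [hB]; omega)
  refine ⟨A, B, hA, hB, fun a => (hA' a).1, fun a => (hB' a).1, fun a t ht => ?_⟩
  have e0 := blk_blk (g := Pw a) (c := 2) (t := t) (u := 0) (D a) (by omega)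
  have e1 := blk_blk (g := Pw a) (c := 2) (t := t) (u := 1) (D a) (by omega)
  have hb := length_blk' (hl a) ht
  rw [mul_comm (Pw a) 2] at e0 e1
  rw [rv_eq, wv, wv, wv, wv, (hA' a).2 t ht, (hB' a).2 t ht, add_comm (2 * t) 1, ← e1,
    ← zero_add (2 * t), ← e0]
  simp only [List.length_replicate, blk_zero_eq]
  congr 3
  rw [blk, mul_one, List.take_of_length_le]
  rw [List.length_drop, hb]; omega

/-- Records from two arrays of words. -/
theorem join {A B : α → Arr} (hP : L 𝔅 x fun a => un (Pw a)) (h1 : ∀ a, 1 ≤ Pw a) (hA : L 𝔅 x A)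
    (hB : L 𝔅 x B) (hl : ∀ a, (A a).length = Pw a * n a) (hl' : ∀ a, (B a).length = Pw a * n a) :
    ∃ E, L 𝔅 x E ∧ ∀ a, RArr (Pw a) (n a) (E a) fun t => ⟨wv _ (A a) t, wv _ (B a) t⟩ := by
  refine ⟨fun a => ((List.range (n a)).map fun t =>
    blk (Pw a) t (A a) ++ blk (Pw a) t (B a)).flatten, ?_, fun a => ?_⟩
  · refine (L.zipWith (f := fun u v : Arr => u ++ v) (fun _ _ _ _ _ _ h => h.fst.append h.snd)
      (L.chunks hP hA h1 hl) (L.chunks hP hB h1 hl')).flatten.congr fun a => ?_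
    rw [chunks_eq_blk, chunks_eq_blk, List.zipWith_map, List.zipWith_self]
  · obtain ⟨k1, k2⟩ := flatten_spec (g := 2 * Pw a) (n := n a)
      (fun t => blk (Pw a) t (A a) ++ blk (Pw a) t (B a)) fun t ht => by
        rw [List.length_append, length_blk' (hl a) ht, length_blk' (hl' a) ht, two_mul]
    refine ⟨k1, fun t ht => ?_⟩
    beta_reduce
    generalize ((List.range (n a)).map fun t =>
      blk (Pw a) t (A a) ++ blk (Pw a) t (B a)).flatten = E at k1 k2 ⊢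
    have e0 := blk_blk (g := Pw a) (c := 2) (t := t) (u := 0) E (by omega)
    have e1 := blk_blk (g := Pw a) (c := 2) (t := t) (u := 1) E (by omega)
    have hb := length_blk' (hl a) ht
    have hb' := length_blk' (hl' a) ht
    rw [mul_comm (Pw a) 2, k2 t ht] at e0 e1
    simp only [rv_eq, wv]
    rw [zero_add] at e0
    rw [add_comm (2 * t) 1, ← e1, ← e0]
    congr 3
    · rw [blk_zero_eq, List.take_left' hb]
    · rw [blk, mul_one, List.drop_left' hb, List.take_of_length_le hb'.le]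

/-- Assemble the four real products. -/
theorem combine {A B C E : α → Arr} {e1 e2 e3 e4 : α → ℝ} (hP : L 𝔅 x fun a => un (Pw a))
    (h1 : ∀ a, 1 ≤ Pw a) (hA : Cp 𝔅 x A e1) (hB : Cp 𝔅 x B e2) (hC : Cp 𝔅 x C e3)
    (hE : Cp 𝔅 x E e4) (lA : ∀ a, (A a).length = Pw a * n a) (lB : ∀ a, (B a).length = Pw a * n a)
    (lC : ∀ a, (C a).length = Pw a * n a) (lE : ∀ a, (E a).length = Pw a * n a) :
    ∃ F, Cp 𝔅 x F (fun a => e1 a + e2 a + (e3 a + e4 a)) ∧ ∀ a, RArr (Pw a) (n a) (F a) fun t =>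
      ⟨wv _ (A a) t - wv _ (E a) t, wv _ (B a) t + wv _ (C a) t⟩ := by
  have h0 := hP.pairCp ((hA.pair hB).pair (hC.pair hE))
  have hr := L.refl 𝔅 fun a => (un (Pw a), (A a, B a), (C a, E a))
  obtain ⟨U, hU, hU'⟩ := join hr.fst h1 hr.snd.fst.fst hr.snd.fst.snd lA lB
  obtain ⟨W, hW, hW'⟩ := join hr.fst h1 hr.snd.snd.fst hr.snd.snd.snd lC lE
  obtain ⟨W2, hW2, hW2'⟩ := L.rI hr.fst h1 hW fun a => (hW' a).1
  obtain ⟨F, hF, hF'⟩ := L.radd hr.fst h1 hU hW2 (fun a => (hU' a).1) fun a => (hW2' a).1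
  refine ⟨F, h0.l hF, fun a => ⟨(hF' a).1, fun t ht => ?_⟩⟩
  rw [(hF' a).2 t ht]
  simp only [(hU' a).2 t ht, (hW2' a).2 t ht, (hW' a).2 t ht]
  ext <;> simp [iR, sub_eq_add_neg]

/-- Blockwise products by calls. -/
theorem mulWords {m : α → ℕ} {A B : α → Arr} (hM : HM 𝔅 m Tm) (hm : L 𝔅 x fun a => un (m a))
    (h1 : ∀ a, 1 ≤ m a) (hA : L 𝔅 x A) (hB : L 𝔅 x B) (hl : ∀ a, (A a).length = m a * n a)
    (hl' : ∀ a, (B a).length = m a * n a) :
    ∃ E, Cp 𝔅 x E (fun a => n a * Tm a) ∧ ∀ a, (E a).length = 2 * m a * n a ∧ ∀ t < n a,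
      ofBits (blk (2 * m a) t (E a)) = ofBits (blk (m a) t (A a)) * ofBits (blk (m a) t (B a)) := by
  refine ⟨fun a => ((List.range (n a)).map fun t =>
    mulBits (blk (m a) t (A a)) (blk (m a) t (B a))).flatten, Cp.with_sz fun hx => ?_, fun a => ?_⟩
  · have hV : (fun a => ∑ i ∈ Finset.range (n a), m a) ≼ 𝔅.V :=
      (length_of_sz (hA.size_le hx)).mono_left fun a => by simp [hl, mul_comm]
    have hb : ∀ {C : α → Arr}, (∀ a, (C a).length = m a * n a) →
        sz (fun q : (a : α) × Fin (n a) => blk (m q.1) q.2 (C q.1)) ≼ fun q => m q.1 :=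
      fun hC => sz_bits (OLe.of_le fun q => (length_blk' (hC q.1) q.2.2).le) fun q => h1 q.1
    have h := Cp.mapRange (𝔅 := 𝔅) n (fun _ => ())
      (fun a t => (blk (m a) t (A a), blk (m a) t (B a)))
      (fun a t => mulBits (blk (m a) t (A a)) (blk (m a) t (B a))) (fun a _ => m a)
      (fun a _ => m a) (fun a _ => Tm a) (fun _ _ => le_rfl)
      (sz_pair (OLe.of_le fun q => by simpa using h1 q.1) (sz_pair (hb hl) (hb hl')))
      ((L.refl _ _).snd.cp (Cp.call (fun q => hM q.1 _ _ (length_blk' (hl q.1) q.2.2)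
        (length_blk' (hl' q.1) q.2.2)) (sz_bits (((OLe.refl _).const_mul 2).mono_left fun q => by
          rw [length_mulBits, length_blk' (hl q.1) q.2.2]) fun q => h1 q.1)))
      ((Bud.toF hV).mono_left fun a => by simp) hV
    refine ((((L.const ()).pair (((L.chunks hm hA h1 hl).zip (L.chunks hm hB h1 hl')).congr
      fun a => ?_)).cp h).l (L.refl _ _).flatten).mono fun a => by simp
    rw [chunks_eq_blk, chunks_eq_blk, List.zip_map']
  · obtain ⟨k1, k2⟩ := flatten_spec (g := 2 * m a) (n := n a)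
      (fun t => mulBits (blk (m a) t (A a)) (blk (m a) t (B a))) fun t ht => by
        rw [length_mulBits, length_blk' (hl a) ht]
    refine ⟨k1, fun t ht => ?_⟩
    rw [k2 t ht, ofBits_mulBits ((length_blk' (hl a) ht).trans (length_blk' (hl' a) ht).symm)]

/-- Wordwise products modulo `2 ^ P - 1`. -/
theorem wmul {A B : α → Arr} (hM : HM 𝔅 Pw Tm) (hP : L 𝔅 x fun a => un (Pw a))
    (h1 : ∀ a, 1 ≤ Pw a) (hA : L 𝔅 x A) (hB : L 𝔅 x B) (hl : ∀ a, (A a).length = Pw a * n a)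
    (hl' : ∀ a, (B a).length = Pw a * n a) :
    ∃ E, Cp 𝔅 x E (fun a => n a * Tm a) ∧ ∀ a, (E a).length = Pw a * n a ∧ ∀ t < n a,
      wv (Pw a) (E a) t = wv _ (A a) t * wv _ (B a) t := by
  obtain ⟨E, hE, hE'⟩ := mulWords hM hP h1 hA hB hl hl'
  obtain ⟨f, hf, hf'⟩ := exists_red2
  have hr := L.refl 𝔅 fun a => (un (Pw a), E a)
  obtain ⟨F, hF, hF'⟩ := blkMap (g' := Pw) hf hr.fst (un_two hr.fst)
    (fun a => by have := h1 a; omega) (fun a => by omega) hr.snd (fun a => (hE' a).1)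
    fun a B hB => (hf' _ B hB).1
  refine ⟨F, (hP.pairCp hE).l hF, fun a => ⟨(hF' a).1, fun t ht => ?_⟩⟩
  rw [wv, (hF' a).2 t ht, (hf' _ _ (length_blk' (hE' a).1 ht)).2, (hE' a).2 t ht, Nat.cast_mul]
  rfl

/-- Put the first `Zh` words of each block of `2 Zh` words into slots of `3 P` bits. -/
theorem slots {Zh : α → ℕ} {A : α → Arr} (hP : L 𝔅 x fun a => un (Pw a))
    (hPZ : L 𝔅 x fun a => un (Pw a * Zh a)) (h1 : ∀ a, 1 ≤ Pw a) (h2 : ∀ a, 1 ≤ Zh a)
    (hA : L 𝔅 x A) (hl : ∀ a, (A a).length = Pw a * (2 * Zh a * n a)) :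
    ∃ E, L 𝔅 x E ∧ ∀ a, (E a).length = 3 * Pw a * Zh a * n a ∧ ∀ I < n a,
      ofBits (blk (3 * Pw a * Zh a) I (E a)) = ∑ z ∈ Finset.range (Zh a),
        (2 ^ (3 * Pw a)) ^ z * ofBits (blk (Pw a) (z + 2 * Zh a * I) (A a)) := by
  obtain ⟨U, hU, hU'⟩ := blkMap (n := n) (g' := fun a => Pw a * Zh a)
    (f := fun q => q.2.take q.1.length)
    (fun _ _ _ _ _ _ h => L.take h.fst.un_length h.snd) hPZ (un_two hPZ)
    (fun a => by have := Nat.mul_pos (h1 a) (h2 a); omega) (fun a => by omega) hA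
    (fun a => by rw [hl]; ring) (fun a B hB => by simp [hB]; omega)
  obtain ⟨E, hE, hE'⟩ := blkMap (n := fun a => Zh a * n a) (g' := fun a => 3 * Pw a)
    (f := fun q => q.2 ++ List.replicate (2 * q.1.length) false)
    (fun _ _ _ _ _ _ h => h.snd.append (L.replicate_const (un_two h.fst.un_length) false)) hP hP
    h1 (fun a => le_rfl) hU (fun a => by rw [(hU' a).1, mul_assoc])
    (fun a B hB => by simp [hB]; omega)
  have hlE : ∀ a, (E a).length = 3 * Pw a * Zh a * n a := fun a => by rw [(hE' a).1]; ring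
  refine ⟨E, hE, fun a => ⟨hlE a, fun I hI => ?_⟩⟩
  rw [ofBits_eq_sum (3 * Pw a) (Zh a) _ (length_blk' (hlE a) hI)]
  refine Finset.sum_congr rfl fun z hz => ?_
  have hz' := Finset.mem_range.mp hz
  have hlt : z + Zh a * I < Zh a * n a := by
    have := Nat.mul_le_mul_left (Zh a) (Nat.succ_le_of_lt hI)
    rw [Nat.mul_succ] at this; omega
  rw [blk_blk _ hz', (hE' a).2 _ hlt, ofBits_app, ofBits_zeros, mul_zero, add_zero,
    ← blk_blk _ hz', (hU' a).2 I hI]
  congr 2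
  have e := blk_blk (g := Pw a) (c := 2 * Zh a) (t := I) (u := z) (A a) (by omega)
  rw [← e, show Pw a * (2 * Zh a) = 2 * (Pw a * Zh a) by ring]
  generalize blk (2 * (Pw a * Zh a)) I (A a) = C
  have h3 : Pw a * (z + 1) ≤ Pw a * Zh a := Nat.mul_le_mul_left _ hz'
  simp only [blk, List.length_replicate, List.drop_take, List.take_take]
  congr 1
  rw [mul_add, mul_one] at h3
  omega

/-- The coefficient of the product of two polynomials. -/
def cv (Z : ℕ) (u v : ℕ → ℕ) (z : ℕ) : ℕ :=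
  ∑ z1 ∈ Finset.range Z, ∑ z2 ∈ Finset.range Z, if z1 + z2 = z then u z1 * v z2 else 0

theorem sum_mul_sum (Q Z : ℕ) (u v : ℕ → ℕ) :
    (∑ z ∈ Finset.range Z, Q ^ z * u z) * (∑ z ∈ Finset.range Z, Q ^ z * v z) =
      ∑ z ∈ Finset.range (2 * Z), Q ^ z * cv Z u v z := by
  simp only [cv, Finset.mul_sum]
  rw [Finset.sum_comm]
  simp only [Finset.sum_mul]
  rw [Finset.sum_comm]
  refine Finset.sum_congr rfl fun z1 h1 => ?_
  rw [Finset.sum_comm]
  refine Finset.sum_congr rfl fun z2 h2 => ?_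
  have h1' := Finset.mem_range.mp h1
  have h2' := Finset.mem_range.mp h2
  simp only [mul_ite, mul_zero]
  rw [Finset.sum_ite_eq, if_pos (Finset.mem_range.mpr (by omega))]
  ring

theorem cv_lt {P Z : ℕ} {u v : ℕ → ℕ} (hZ : Z ≤ 2 ^ P) (hu : ∀ z, u z < 2 ^ P)
    (hv : ∀ z, v z < 2 ^ P) (z : ℕ) : cv Z u v z < 2 ^ (3 * P) := by
  have h1 : ∀ z1 ∈ Finset.range Z, (∑ z2 ∈ Finset.range Z,
      if z1 + z2 = z then u z1 * v z2 else 0) ≤ 2 ^ P * 2 ^ P - 1 := by
    intro z1 _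
    have h2 : (∑ z2 ∈ Finset.range Z, if z1 + z2 = z then u z1 * v z2 else 0) ≤
        ∑ z2 ∈ Finset.range Z, if z - z1 = z2 then u z1 * v z2 else 0 := by
      refine Finset.sum_le_sum fun z2 _ => ?_
      split_ifs <;> omega
    rw [Finset.sum_ite_eq] at h2
    have h3 := Nat.mul_lt_mul'' (hu z1) (hv (z - z1))
    split_ifs at h2 <;> omega
  have h4 := Finset.sum_le_card_nsmul _ _ _ h1
  rw [Finset.card_range, smul_eq_mul] at h4
  have h5 : 0 < 2 ^ P := Nat.two_pow_pos P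
  have h6 : 2 ^ (3 * P) = 2 ^ P * (2 ^ P * 2 ^ P) := by ring
  have h7 : 0 < 2 ^ P * 2 ^ P := Nat.mul_pos h5 h5
  calc cv Z u v z ≤ Z * (2 ^ P * 2 ^ P - 1) := h4
    _ ≤ 2 ^ P * (2 ^ P * 2 ^ P - 1) := Nat.mul_le_mul_right _ hZ
    _ < _ := by rw [h6]; exact Nat.mul_lt_mul_of_pos_left (by omega) h5

/-- Products of polynomials with word coefficients. -/
theorem wconv {Zh : α → ℕ} {A B : α → Arr} (hM : HM 𝔅 (fun a => 3 * Pw a * Zh a) Tm)
    (hP : L 𝔅 x fun a => un (Pw a)) (hPZ : L 𝔅 x fun a => un (Pw a * Zh a)) (h1 : ∀ a, 1 ≤ Pw a)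
    (h2 : ∀ a, 1 ≤ Zh a) (h3 : ∀ a, Zh a ≤ 2 ^ Pw a) (hA : L 𝔅 x A) (hB : L 𝔅 x B)
    (hl : ∀ a, (A a).length = Pw a * (2 * Zh a * n a))
    (hl' : ∀ a, (B a).length = Pw a * (2 * Zh a * n a)) :
    ∃ E, Cp 𝔅 x E (fun a => n a * Tm a) ∧ ∀ a, (E a).length = Pw a * (2 * Zh a * n a) ∧
      ∀ z < 2 * Zh a, ∀ I < n a, wv (Pw a) (E a) (z + 2 * Zh a * I) =
        ∑ z1 ∈ Finset.range (Zh a), ∑ z2 ∈ Finset.range (Zh a), if z1 + z2 = z then
          wv _ (A a) (z1 + 2 * Zh a * I) * wv _ (B a) (z2 + 2 * Zh a * I) else 0 := by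
  obtain ⟨U, hU, hU'⟩ := slots hP hPZ h1 h2 hA hl
  obtain ⟨W, hW, hW'⟩ := slots hP hPZ h1 h2 hB hl'
  obtain ⟨E, hE, hE'⟩ := mulWords hM ((un_three hPZ).congr fun a => by rw [mul_assoc])
    (fun a => by have := Nat.mul_pos (h1 a) (h2 a); rw [mul_assoc]; omega) hU hW
    (fun a => (hU' a).1) fun a => (hW' a).1
  obtain ⟨f, hf, hf'⟩ := exists_red3
  have hr := L.refl 𝔅 fun a => (un (Pw a), E a)
  have hlE : ∀ a, (E a).length = 3 * Pw a * (2 * Zh a * n a) := fun a => by rw [(hE' a).1]; ring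
  obtain ⟨F, hF, hF'⟩ := blkMap (g' := Pw) hf hr.fst (un_three hr.fst)
    (fun a => by have := h1 a; omega) (fun a => by omega) hr.snd hlE
    fun a B hB => (hf' _ B hB).1
  refine ⟨F, (hP.pairCp hE).l hF, fun a => ⟨(hF' a).1, fun z hz I hI => ?_⟩⟩
  have hlt : z + 2 * Zh a * I < 2 * Zh a * n a := by
    have := Nat.mul_le_mul_left (2 * Zh a) (Nat.succ_le_of_lt hI)
    rw [Nat.mul_succ] at this; omega
  have e1 := (hE' a).2 I hI
  rw [(hU' a).2 I hI, (hW' a).2 I hI, sum_mul_sum,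
    show 2 * (3 * Pw a * Zh a) = 3 * Pw a * (2 * Zh a) by ring,
    ofBits_eq_sum (3 * Pw a) (2 * Zh a) _ (length_blk' (n := n a) (by rw [hlE]; ring) hI)] at e1
  have e2 := digit_eq (fun t _ => ofBits_blk_lt _ _ _)
    (fun t _ => cv_lt (h3 a) (fun _ => ofBits_blk_lt _ _ _) (fun _ => ofBits_blk_lt _ _ _) t) e1 z hz
  rw [blk_blk _ hz] at e2
  rw [wv, (hF' a).2 _ hlt, (hf' _ _ (length_blk' (hlE a) hlt)).2, e2, cv]
  simp [wv]

end RM

/-- Pointwise product.  Recipe: `Cp.map` over the zipped lists of records with the parameter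
`un P` and `V' = P + 1`; four `Cp.call`s; a product is reduced by adding its halves
(`exists_addMod`); negation is complement. -/
theorem Cp.rmul (hM : HM 𝔅 Pw Tm) (hT : ∀ a, 0 ≤ Tm a) (hP : L 𝔅 x fun a => R326.un (Pw a))
    (h1 : ∀ a, 1 ≤ Pw a) (hD : L 𝔅 x D) (hD' : L 𝔅 x D') (hl : ∀ a, (D a).length = 2 * Pw a * n a)
    (hl' : ∀ a, (D' a).length = 2 * Pw a * n a) :
    ∃ E, Cp 𝔅 x E (fun a => 4 * n a * Tm a) ∧
      ∀ a, RArr (Pw a) (n a) (E a) fun t => rv _ (D a) t * rv _ (D' a) t := by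
  obtain ⟨A, B, hA, hB, lA, lB, e⟩ := RM.split hP h1 hD hl
  obtain ⟨A', B', hA', hB', lA', lB', e'⟩ := RM.split hP h1 hD' hl'
  obtain ⟨E1, c1, s1⟩ := RM.wmul hM hP h1 hA hA' lA lA'
  obtain ⟨E2, c2, s2⟩ := RM.wmul hM hP h1 hA hB' lA lB'
  obtain ⟨E3, c3, s3⟩ := RM.wmul hM hP h1 hB hA' lB lA'
  obtain ⟨E4, c4, s4⟩ := RM.wmul hM hP h1 hB hB' lB lB'
  obtain ⟨F, hF, hF'⟩ := RM.combine hP h1 c1 c2 c3 c4 (fun a => (s1 a).1) (fun a => (s2 a).1)
    (fun a => (s3 a).1) fun a => (s4 a).1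
  refine ⟨F, hF.mono fun a => le_of_eq (by ring), fun a => ⟨(hF' a).1, fun t ht => ?_⟩⟩
  rw [(hF' a).2 t ht]
  simp only [e a t ht, e' a t ht, (s1 a).2 t ht, (s2 a).2 t ht, (s3 a).2 t ht, (s4 a).2 t ht]
  ext <;> simp [sub_eq_add_neg]

/-- Multiply by a coefficient array and divide by `2 ^ s`.
Recipe: `L.constArr`, `Cp.rmul`, `gv_eq`, `L.rshift`. -/
theorem Impl.diag {p : α → P} {Λ : Lay P} {b : ℕ} (hF : Fam 𝔅.V p Λ b) (hb : 1 ≤ b)
    {Pw s : P → ℕ} (hP : PT Pw) (hP' : PB Pw) (hs : PT s) (h1 : ∀ a, 1 ≤ Pw (p a))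
    (h2 : ∀ a, s (p a) ≤ Pw (p a)) (h0 : ∀ a, Λ.r (p a) 0 = 2 * Pw (p a))
    {cf : P × List ℕ → ℤ × ℤ} (hcf : PT cf) (hM : HM 𝔅 (fun a => Pw (p a)) Tm)
    (hT : ∀ a, 0 ≤ Tm a) :
    Impl 𝔅 p (fun a (D : Arr) => D.length = Λ.vol (p a))
      (fun a D (D' : Arr) => D'.length = Λ.vol (p a) ∧ ∀ v, Λ.Val (p a) v → ∀ y : GaussianInt,
        rho (Pw (p a)) y = rho _ ⟨(cf (p a, Λ.od (p a) b v)).1, (cf (p a, Λ.od (p a) b v)).2⟩ *
          rv _ D (Λ.ri (p a) v) → |y.re| < 2 ^ (Pw (p a) - 1) → |y.im| < 2 ^ (Pw (p a) - 1) →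
        |(gv (Pw (p a)) D' (Λ.ri (p a) v)).re * 2 ^ s (p a) - y.re| < 2 ^ s (p a) ∧
        |(gv (Pw (p a)) D' (Λ.ri (p a) v)).im * 2 ^ s (p a) - y.im| < 2 ^ s (p a))
      fun a => 4 * Λ.nrec (p a) * Tm a := by
  refine Impl.intro hF.sz_in fun β φ D hD hsz => ?_
  have hn : ∀ a, 1 ≤ Λ.n (p a) := fun a => hb.trans (hF.base a)
  have hvol : ∀ a, Λ.vol (p a) = 2 * Pw (p a) * Λ.nrec (p a) := fun a => by
    rw [Λ.vol_eq_nrec (hn a), h0]
  obtain ⟨C, hC, hC'⟩ := L.constArr (𝔅 := 𝔅.comap φ) (hF.reindex φ) hb hP hP'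
    (fun c => h1 (φ c)) (fun c => h0 (φ c)) hcf
  have hp := L.in1 (𝔅.comap φ) (fun c => p (φ c)) D
  have hsm : SmIn (𝔅.comap φ).V fun c => p (φ c) := (hF.reindex φ).smV
  have hPV : (fun c => Pw (p (φ c))) ≼ (𝔅.comap φ).V := hsm.pb hP'
  have hu := (hp.pt hsm hP).un hPV
  have hu' := (hp.pt hsm hs).un (hPV.mono_left fun c => h2 (φ c))
  obtain ⟨E, hE, hE'⟩ := Cp.rmul (n := fun c => Λ.nrec (p (φ c)))
    (hM.comap (𝔅.comap φ) φ fun _ => rfl) (fun c => hT (φ c)) hu (fun c => h1 (φ c))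
    (hp.comp hC) (L.in2 _ _ _) (fun c => by rw [(hC' c).1, hvol]) fun c => by rw [hD, hvol]
  have hr := L.refl (𝔅.comap φ) fun c => ((un (Pw (p (φ c))), un (s (p (φ c)))), E c)
  obtain ⟨F, hF1, hF2⟩ := L.rshift hr.fst.fst hr.fst.snd (fun c => h1 (φ c)) (fun c => h2 (φ c))
    hr.snd fun c => (hE' c).1
  refine ⟨F, fun c => ⟨by rw [(hF2 c).1, hvol], fun v hv y hy k1 k2 => ?_⟩,
    ((hu.pair hu').pairCp hE).l hF1⟩
  have ht := hv.ri_lt (hn _)
  have e : gv (Pw (p (φ c))) (E c) (Λ.ri (p (φ c)) v) = y := by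
    refine gv_eq (h1 _) ?_ k1 k2
    rw [hy, (hE' c).2 _ ht, ← (hC' c).2 v hv]
  rw [← e]
  exact (hF2 c).2 _ ht

/-- Products of polynomials by Kronecker substitution: each block of `2 Zh` records holds the
coefficients of a polynomial of degree `< Zh` in its first half.  Recipe: per block, put the real
(imaginary) words of the first `Zh` records into slots of `3 P` bits (`L.resp`), four calls, cut
the products into `2 Zh` slots of `3 P` bits (a slot is a sum of at most `Zh ≤ 2 ^ P` products of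
`P`-bit numbers), reduce each slot by adding its three words. -/
theorem Cp.rconv {Zh : α → ℕ} (hM : HM 𝔅 (fun a => 3 * Pw a * Zh a) Tm) (hT : ∀ a, 0 ≤ Tm a)
    (hP : S 𝔅 x Pw) (hZ : S 𝔅 x Zh) (hV : (fun a => Pw a * Zh a) ≼ 𝔅.V) (h1 : ∀ a, 1 ≤ Pw a)
    (h2 : ∀ a, 1 ≤ Zh a) (h3 : ∀ a, Zh a ≤ 2 ^ Pw a) (hD : L 𝔅 x D) (hD' : L 𝔅 x D')
    (hl : ∀ a, (D a).length = 2 * Pw a * (2 * Zh a * n a))
    (hl' : ∀ a, (D' a).length = 2 * Pw a * (2 * Zh a * n a)) :
    ∃ E, Cp 𝔅 x E (fun a => 4 * n a * Tm a) ∧ ∀ a, (E a).length = 2 * Pw a * (2 * Zh a * n a) ∧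
      ∀ z < 2 * Zh a, ∀ I < n a, rv (Pw a) (E a) (z + 2 * Zh a * I) =
        ∑ z1 ∈ Finset.range (Zh a), ∑ z2 ∈ Finset.range (Zh a), if z1 + z2 = z then
          rv _ (D a) (z1 + 2 * Zh a * I) * rv _ (D' a) (z2 + 2 * Zh a * I) else 0 := by
  have hu := hP.un (hV.mono_left fun a => Nat.le_mul_of_pos_right _ (h2 a))
  have hu' := (hP.mul hZ).un hV
  obtain ⟨A, B, hA, hB, lA, lB, e⟩ := RM.split hu h1 hD hl
  obtain ⟨A', B', hA', hB', lA', lB', e'⟩ := RM.split hu h1 hD' hl'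
  obtain ⟨E1, c1, s1⟩ := RM.wconv hM hu hu' h1 h2 h3 hA hA' lA lA'
  obtain ⟨E2, c2, s2⟩ := RM.wconv hM hu hu' h1 h2 h3 hA hB' lA lB'
  obtain ⟨E3, c3, s3⟩ := RM.wconv hM hu hu' h1 h2 h3 hB hA' lB lA'
  obtain ⟨E4, c4, s4⟩ := RM.wconv hM hu hu' h1 h2 h3 hB hB' lB lB'
  obtain ⟨F, hF, hF'⟩ := RM.combine hu h1 c1 c2 c3 c4 (fun a => (s1 a).1) (fun a => (s2 a).1)
    (fun a => (s3 a).1) fun a => (s4 a).1
  refine ⟨F, hF.mono fun a => le_of_eq (by ring), fun a => ⟨(hF' a).1, fun z hz I hI => ?_⟩⟩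
  have hlt : ∀ z < 2 * Zh a, z + 2 * Zh a * I < 2 * Zh a * n a := fun z hz => by
    have := Nat.mul_le_mul_left (2 * Zh a) (Nat.succ_le_of_lt hI)
    rw [Nat.mul_succ] at this; omega
  rw [(hF' a).2 _ (hlt z hz)]
  simp only [(s1 a).2 z hz I hI, (s2 a).2 z hz I hI, (s3 a).2 z hz I hI, (s4 a).2 z hz I hI]
  have hre : ∀ (s : Finset ℕ) (f : ℕ → RR (Pw a)), (∑ i ∈ s, f i).re = ∑ i ∈ s, (f i).re :=
    fun s f => map_sum (QuadraticAlgebra.reₗ (R := ZMod (2 ^ Pw a - 1)) (-1) 0) f s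
  have him : ∀ (s : Finset ℕ) (f : ℕ → RR (Pw a)), (∑ i ∈ s, f i).im = ∑ i ∈ s, (f i).im :=
    fun s f => map_sum (QuadraticAlgebra.imₗ (R := ZMod (2 ^ Pw a - 1)) (-1) 0) f s
  ext
  · simp only [hre, ← Finset.sum_sub_distrib]
    refine Finset.sum_congr rfl fun z1 k1 => Finset.sum_congr rfl fun z2 k2 => ?_
    have k1' := Finset.mem_range.mp k1
    have k2' := Finset.mem_range.mp k2
    rw [e a _ (hlt z1 (by omega)), e' a _ (hlt z2 (by omega))]
    split_ifs <;> simp [sub_eq_add_neg]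
  · simp only [him, ← Finset.sum_add_distrib]
    refine Finset.sum_congr rfl fun z1 k1 => Finset.sum_congr rfl fun z2 k2 => ?_
    have k1' := Finset.mem_range.mp k1
    have k2' := Finset.mem_range.mp k2
    rw [e a _ (hlt z1 (by omega)), e' a _ (hlt z2 (by omega))]
    split_ifs <;> simp

end Crest.Agent.R326
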