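/-
R326/TrAtom: one step of the program in fixed point arithmetic.
-/
import Crest.Agent.R326.Cnet
import Crest.Agent.R326.RingMul
import Crest.Agent.R326.Approx

set_option autoImplicit false
set_option linter.unusedSimpArgs false
set_option linter.unusedSectionVars false
set_option linter.unusedVariables false

namespace Crest.Agent.R326

open Function Crest.Agent.Lib.PolyTime

variable {α : Type} {𝔅 : Bud α} {p : α → TP} {k : ℕ}

/-- The diagonal values of dimension `i`. -/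
noncomputable def TP.cf (t : TP) (dv : SP × ℕ × ℕ → DV) : ℕ → ℕ → ℕ → ℂ :=
  fun i code x => (dv (t.sp i, code, x)).val

theorem TFam.reindex {β : Type} {V : α → ℕ} (h : TFam V p k) (φ : β → α) :
    TFam (fun c => V (φ c)) (fun c => p (φ c)) k :=
  ⟨fun _ => h.ok _, h.small.comp φ, h.vol.comp φ⟩

/-- The volume itself is a possible size budget (use with `Impl.mono_bud` before entering loops). -/
theorem TFam.self {V : α → ℕ} (h : TFam V p k) : TFam (fun a => layX.vol (p a)) p k :=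
  ⟨h.ok, h.small, OLe.refl _⟩

theorem layX_n (t : TP) : layX.n t = 2 + 2 * t.d + t.d * t.R := rfl
theorem layX_r_zero (t : TP) : layX.r t 0 = 2 * t.P := rfl
theorem layX_r_one (t : TP) : layX.r t 1 = t.Zr := rfl
theorem layX_r_chunk (t : TP) {c : ℕ} (h1 : 2 ≤ c) (h2 : c < 2 + 2 * t.d) :
    layX.r t c = Gam t.K := by
  change (if c = 0 then _ else if c = 1 then _ else if c < 2 + 2 * t.d then _ else _) = _
  rw [if_neg (by omega), if_neg (by omega), if_pos h2]
theorem layX_r_row (t : TP) {c : ℕ} (h2 : 2 + 2 * t.d ≤ c) : layX.r t c = 2 ^ t.K := by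
  change (if c = 0 then _ else if c = 1 then _ else if c < 2 + 2 * t.d then _ else _) = _
  rw [if_neg (by omega), if_neg (by omega), if_neg (by omega)]
theorem layX_wt_two (t : TP) : wt (layX.r t) 2 = 2 * t.P * t.Zr := by
  rw [wt_succ, wt_one]; rfl
theorem layM_wt_two (t : TP) : wt (layM.r t) 2 = 2 * t.P * t.Zt := by
  rw [wt_succ, wt_one]; rfl

theorem TFam.famX {V : α → ℕ} (h : TFam V p k) : Fam V p layX 2 := by
  refine ⟨fun a => by rw [layX_n]; omega, fun a c hc => ?_, h.small.mono (OLe.of_le fun a => ?_),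
    h.vol⟩
  · have h1 := (h.ok a).hP
    have h2 := (h.ok a).hZ
    change 0 < if c = 0 then _ else if c = 1 then _ else if c < 2 + 2 * (p a).d then _ else _
    split_ifs
    · omega
    · exact h2
    · exact Nat.two_pow_pos _
    · exact Nat.two_pow_pos _
  · have h1 := (h.ok a).hP
    rw [layX_wt_two]
    exact (Nat.div_le_self _ _).trans (Nat.le_mul_of_pos_left _ (by omega))

theorem volX_eq (t : TP) : layX.vol t = 2 * t.P * t.Zr * Gam t.K ^ (2 * t.d) * t.h ^ t.d := by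
  rw [Lay.vol, layX_n, wt_add, wt_add, layX_wt_two,
    rwt_const (Q := Gam t.K) fun c hc => layX_r_chunk t (by omega) (by omega),
    rwt_const (Q := 2 ^ t.K) fun c hc => layX_r_row t (by omega), TP.h, ← pow_mul, ← pow_mul]
  congr 2
  ring

theorem volM_eq (t : TP) : layM.vol t = 2 * t.P * t.Zt * t.h ^ t.d := by
  change wt (layM.r t) (2 + t.d) = _
  rw [wt_add, layM_wt_two, rwt_const (Q := t.h) fun c hc => ?_]
  change (if 2 + c = 0 then _ else if 2 + c = 1 then _ else _) = _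
  rw [if_neg (by omega), if_neg (by omega)]

theorem trGam0_le_Gam (K : ℕ) : Gam0 K ≤ Gam K := by
  rw [Gam0, Gam, show 3 * K = 2 * K + K by ring, pow_add]
  exact Nat.mul_le_mul_left _ (Nat.sub_le _ _)

theorem trGam0_pos {K : ℕ} (hK : 1 ≤ K) : 0 < Gam0 K := by
  have : 2 ^ 1 ≤ 2 ^ K := Nat.pow_le_pow_right (by norm_num) hK
  exact Nat.mul_pos (Nat.two_pow_pos _) (by omega)

theorem volM_le_volX (t : TP) : layM.vol t ≤ layX.vol t := by
  rw [volM_eq, volX_eq, TP.Zt, ← mul_assoc]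
  exact Nat.mul_le_mul_right _ (Nat.mul_le_mul_left _ (Nat.pow_le_pow_left (trGam0_le_Gam _) _))

theorem TFam.famM {V : α → ℕ} (h : TFam V p k) : Fam V p layM 2 := by
  have hZ : ∀ a, (p a).Zr ≤ (p a).Zt := fun a =>
    Nat.le_mul_of_pos_right _ (Nat.pow_pos (trGam0_pos (h.ok a).hK))
  refine ⟨fun a => Nat.le_add_right _ _, fun a c hc => ?_, h.small.mono (OLe.of_le fun a => ?_),
    h.vol.mono_left fun a => volM_le_volX _⟩
  · have h1 := (h.ok a).hP
    have h2 := (h.ok a).hZ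
    have h3 := hZ a
    change 0 < if c = 0 then _ else if c = 1 then _ else _
    split_ifs
    · omega
    · omega
    · exact Nat.two_pow_pos _
  · have h1 := (h.ok a).hP
    rw [layM_wt_two]
    exact (Nat.div_le_self _ _).trans ((hZ a).trans (Nat.le_mul_of_pos_left _ (by omega)))

@[fun_prop] theorem TP.pt_sp {β : Type} [Enc β] {t : β → TP} {i : β → ℕ} (ht : PT t) (hi : PT i) :
    PT fun a => (t a).sp (i a) := by
  change PT fun a => (un (2 * (t a).h), un (t a).K, un (t a).R, (t a).s.getD (i a) 1, (t a).inv)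
  fun_prop

theorem add_mul_xor {lo a : ℕ} (h : lo < 2 ^ a) (y j : ℕ) :
    (lo + 2 ^ a * y) ^^^ 2 ^ (a + j) = lo + 2 ^ a * (y ^^^ 2 ^ j) := by
  refine Nat.eq_of_testBit_eq fun n => ?_
  rw [Nat.testBit_xor, add_comm lo, add_comm lo, Nat.testBit_two_pow_mul_add _ h,
    Nat.testBit_two_pow_mul_add _ h, Nat.testBit_two_pow]
  split_ifs with hn
  · rw [decide_eq_false (by omega), Bool.xor_false]
  · rw [Nat.testBit_xor, Nat.testBit_two_pow]
    congr 1
    exact decide_eq_decide.2 (by omega)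

theorem low_xor {x K j : ℕ} (hx : x < 2 ^ K) (hj : j < K) (y : ℕ) :
    (x + 2 ^ K * y) ^^^ 2 ^ j = (x ^^^ 2 ^ j) + 2 ^ K * y := by
  have hx' : x ^^^ 2 ^ j < 2 ^ K := Nat.xor_lt_two_pow hx (Nat.pow_lt_pow_right (by norm_num) hj)
  refine Nat.eq_of_testBit_eq fun n => ?_
  rw [Nat.testBit_xor, add_comm x, add_comm (x ^^^ 2 ^ j), Nat.testBit_two_pow_mul_add _ hx,
    Nat.testBit_two_pow_mul_add _ hx', Nat.testBit_two_pow]
  split_ifs with hn
  · rw [Nat.testBit_xor, Nat.testBit_two_pow]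
  · rw [decide_eq_false (by omega), Bool.xor_false]

theorem sum_digits_lt {K R : ℕ} {u : ℕ → ℕ} (hu : ∀ σ < R, u σ < 2 ^ K) :
    ∑ σ ∈ Finset.range R, (2 ^ K) ^ σ * u σ < 2 ^ (K * R) := by
  induction R with
  | zero => simp
  | succ R ih =>
    have h1 := ih fun σ hσ => hu σ (by omega)
    have h2 := hu R (by omega)
    have h3 : 2 ^ (K * R) * (u R + 1) ≤ 2 ^ (K * R) * 2 ^ K := Nat.mul_le_mul_left _ h2
    rw [Finset.sum_range_succ, ← pow_mul, mul_add, mul_one, pow_add]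
    rw [mul_add, mul_one] at h3
    omega

theorem sum_digits_xor {K R ρ j : ℕ} {u u' : ℕ → ℕ} (hu : ∀ σ < R, u σ < 2 ^ K) (hρ : ρ < R)
    (hj : j < K) (h1 : ∀ σ < R, σ ≠ ρ → u' σ = u σ) (h2 : u' ρ = u ρ ^^^ 2 ^ j) (H : ℕ) :
    (∑ σ ∈ Finset.range R, (2 ^ K) ^ σ * u σ + 2 ^ (K * R) * H) ^^^ 2 ^ (ρ * K + j) =
      ∑ σ ∈ Finset.range R, (2 ^ K) ^ σ * u' σ + 2 ^ (K * R) * H := by
  induction R generalizing H with
  | zero => omega
  | succ R ih =>
    have e : ∀ w : ℕ → ℕ, ∑ σ ∈ Finset.range (R + 1), (2 ^ K) ^ σ * w σ + 2 ^ (K * (R + 1)) * H =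
        ∑ σ ∈ Finset.range R, (2 ^ K) ^ σ * w σ + 2 ^ (K * R) * (w R + 2 ^ K * H) := fun w => by
      rw [Finset.sum_range_succ, ← pow_mul]; ring
    rw [e, e]
    rcases Nat.lt_or_ge ρ R with h | h
    · rw [h1 R (by omega) (by omega)]
      exact ih (fun σ hσ => hu σ (by omega)) h (fun σ hσ => h1 σ (by omega)) _
    · obtain rfl : ρ = R := by omega
      rw [mul_comm ρ K, add_mul_xor (sum_digits_lt fun σ hσ => hu σ (by omega)),
        low_xor (hu ρ hρ) hj, h2]
      congr 1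
      exact Finset.sum_congr rfl fun σ hσ => by
        have := Finset.mem_range.1 hσ
        rw [h1 σ (by omega) (by omega)]

theorem row_lt {t : TP} {i σ : ℕ} (hi : i < t.d) (hσ : σ < t.R) :
    2 + 2 * t.d + i * t.R + σ < layX.n t := by
  rw [layX_n]
  have : (i + 1) * t.R ≤ t.d * t.R := Nat.mul_le_mul_right _ hi
  rw [add_mul, one_mul] at this
  omega

theorem logi_act (t : TP) (ρ : ℕ) (v : ℕ → ℕ) {i : ℕ} (hi : i < t.d) :
    logi t ρ v (2 + i) = (∑ σ ∈ Finset.range t.R, (2 ^ t.K) ^ σ *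
      (if σ = ρ then v (2 + i) % 2 ^ t.K else v (2 + 2 * t.d + i * t.R + σ))) +
    t.h * (if ρ < t.R then v (2 + 2 * t.d + i * t.R + ρ) + 2 ^ t.K * (v (2 + i) / 2 ^ t.K)
      else v (2 + i)) := by
  rw [logi, if_pos (by omega), Nat.add_sub_cancel_left]

/-- Flipping bit `j` of an active chunk flips the logical bit `ρ K + j`. -/
theorem logi_flp {t : TP} {ρ j i : ℕ} {v : ℕ → ℕ} (hv : layX.Val t v) (hρ : ρ ≤ t.R) (hj : j < t.K)
    (hi : i < t.d) :
    logi t ρ (flp j (Pi.single (2 + i) 1) v) = flp (ρ * t.K + j) (Pi.single (2 + i) 1) (logi t ρ v) := by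
  rw [flp_single, flp_single]
  have hrow : ∀ c σ, update v (2 + i) (v (2 + i) ^^^ 2 ^ j) (2 + 2 * t.d + c * t.R + σ) =
      v (2 + 2 * t.d + c * t.R + σ) := fun c σ => update_of_ne (by omega) _ _
  funext c
  by_cases hc : c = 2 + i
  · subst hc
    rw [update_self, logi_act _ _ _ hi, logi_act _ _ _ hi, update_self]
    simp only [hrow]
    have hrlt : ∀ σ < t.R, v (2 + 2 * t.d + i * t.R + σ) < 2 ^ t.K := fun σ hσ => by
      have := hv _ (row_lt hi hσ)
      rwa [layX_r_row t (by omega)] at this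
    have hjK : 2 ^ j < 2 ^ t.K := Nat.pow_lt_pow_right (by norm_num) hj
    rcases hρ.lt_or_eq with h | h
    · rw [if_pos h, if_pos h, Nat.xor_div_two_pow, Nat.div_eq_of_lt hjK, Nat.xor_zero, TP.h]
      refine (sum_digits_xor (fun σ hσ => ?_) h hj (fun σ _ hσ => ?_) ?_ _).symm
      · split_ifs
        · exact Nat.mod_lt _ (Nat.two_pow_pos _)
        · exact hrlt σ hσ
      · rw [if_neg hσ, if_neg hσ]
      · rw [if_pos rfl, if_pos rfl, Nat.xor_mod_two_pow, Nat.mod_eq_of_lt hjK]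
    · have e : ∀ x : ℕ, ∑ σ ∈ Finset.range t.R, (2 ^ t.K) ^ σ *
          (if σ = ρ then x else v (2 + 2 * t.d + i * t.R + σ)) =
          ∑ σ ∈ Finset.range t.R, (2 ^ t.K) ^ σ * v (2 + 2 * t.d + i * t.R + σ) := fun x =>
        Finset.sum_congr rfl fun σ hσ => by
          have := Finset.mem_range.1 hσ
          rw [if_neg (by omega)]
      rw [e, e, if_neg (by omega), if_neg (by omega), TP.h, h, mul_comm t.R t.K,
        add_mul_xor (sum_digits_lt hrlt)]
  · rw [update_of_ne hc]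
    simp only [logi, hrow, update_of_ne hc]

/-- Valid good addresses. -/
def TP.VG (t : TP) (v : ℕ → ℕ) : Prop := layX.Val t v ∧ Good t.K 2 (2 + t.d) t.d v

theorem TP.VG.flp {t : TP} {v : ℕ → ℕ} (hv : t.VG v) {j i : ℕ} (hj : j < t.K) (hi : i < t.d) :
    t.VG (flp j (Pi.single (2 + i) 1) v) := by
  rw [flp_single]
  have h1 : v (2 + i) ^^^ 2 ^ j < Gam0 t.K := by
    have h2 := (hv.2 i hi).1
    rw [Gam0, mul_comm, ← Nat.div_lt_iff_lt_mul (Nat.two_pow_pos _)] at h2 ⊢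
    rwa [Nat.xor_div_two_pow, Nat.div_eq_of_lt (a := 2 ^ j)
      (Nat.pow_lt_pow_right (by norm_num) (by omega)), Nat.xor_zero]
  refine ⟨R326.Val.update hv.1 ?_, fun g hg => ⟨?_, ?_⟩⟩
  · rw [layX_r_chunk t (by omega) (by omega)]
    exact h1.trans_le (trGam0_le_Gam _)
  · by_cases e : g = i
    · rw [e, update_self]; exact h1
    · rw [update_of_ne (by omega)]; exact (hv.2 g hg).1
  · rw [update_of_ne (by omega)]; exact (hv.2 g hg).2

/-- `logi` computed from a digit list. -/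
def logiL (t : TP) (ρ : ℕ) (l : List ℕ) (i : ℕ) : ℕ :=
  (∑ σ ∈ Finset.range t.R, (2 ^ t.K) ^ (min σ t.R) *
    (if σ = ρ then l.getD (2 + i) 0 % 2 ^ t.K else l.getD (2 + 2 * t.d + i * t.R + σ) 0)) +
  t.h * (if ρ < t.R then l.getD (2 + 2 * t.d + i * t.R + ρ) 0 + 2 ^ t.K * (l.getD (2 + i) 0 / 2 ^ t.K)
    else l.getD (2 + i) 0)

@[fun_prop] theorem pt_logiL {β : Type} [Enc β] {t : β → TP} {ρ i : β → ℕ} {l : β → List ℕ}
    (ht : PT t) (hρ : PT ρ) (hl : PT l) (hi : PT i) : PT fun a => logiL (t a) (ρ a) (l a) (i a) := by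
  unfold logiL
  fun_prop

theorem logiL_od (t : TP) (ρ : ℕ) (v : ℕ → ℕ) {i : ℕ} (hi : i < t.d) :
    logiL t ρ (layX.od t 2 v) i = logi t ρ v (2 + i) := by
  rw [logi_act _ _ _ hi, logiL, layX.od_getD t v (by omega) (by rw [layX_n]; omega)]
  congr 1
  · refine Finset.sum_congr rfl fun σ hσ => ?_
    have h := Finset.mem_range.1 hσ
    rw [min_eq_left h.le, layX.od_getD t v (by omega) (row_lt hi h)]
  · split_ifs with h
    · rw [layX.od_getD t v (by omega) (row_lt hi h)]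
    · rfl

theorem atom_num {c z Pr W g : ℂ} {S Lg Q E Mb : ℝ} (hL : 1 ≤ Lg) (hQ : 1 ≤ Q) (hE : 1 ≤ E)
    (hM : 1 ≤ Mb) (hS : Mb ≤ S) (h1 : ‖c - S * Pr‖ ≤ 2) (h2 : ‖Pr‖ ≤ Lg) (h3 : ‖z - W‖ ≤ Q * E)
    (h4 : ‖W‖ ≤ Q * (Mb * E)) :
    ‖c * z‖ ≤ 6 * (S * Mb * E * (Lg * Q)) ∧
      (‖g * S - c * z‖ ≤ 2 * S → ‖g - Pr * W‖ ≤ 7 * (E * (Lg * Q))) ∧
      ‖Pr * W‖ ≤ Mb * E * (Lg * Q) := by
  have hS1 : 1 ≤ S := hM.trans hS
  have hSn : ‖(S : ℂ)‖ = S := by rw [Complex.norm_real, Real.norm_eq_abs, abs_of_nonneg (by linarith)]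
  have hQE : Q * E ≤ Q * (Mb * E) := by
    refine mul_le_mul_of_nonneg_left ?_ (by linarith)
    nlinarith
  have hz : ‖z‖ ≤ 2 * (Q * (Mb * E)) := by
    have := norm_add_le (z - W) W
    rw [sub_add_cancel] at this
    linarith
  have hSL : 1 ≤ S * Lg := one_le_mul_of_one_le_of_one_le hS1 hL
  have hc : ‖c‖ ≤ 3 * (S * Lg) := by
    have h5 := norm_add_le (c - S * Pr) (S * Pr)
    rw [sub_add_cancel, norm_mul, hSn] at h5
    have h6 : S * ‖Pr‖ ≤ S * Lg := mul_le_mul_of_nonneg_left h2 (by linarith)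
    linarith
  refine ⟨?_, fun h5 => ?_, ?_⟩
  · rw [norm_mul]
    exact (mul_le_mul hc hz (norm_nonneg _) (by linarith)).trans (le_of_eq (by ring))
  · have e : (g - Pr * W) * S = (g * S - c * z) + ((c - S * Pr) * z + S * (Pr * (z - W))) := by ring
    have h6 : ‖(c - S * Pr) * z‖ ≤ 2 * (2 * (Q * (S * E))) := by
      rw [norm_mul]
      refine mul_le_mul h1 (hz.trans ?_) (norm_nonneg _) (by norm_num)
      gcongr
    have h7 : ‖(S : ℂ) * (Pr * (z - W))‖ ≤ S * (Lg * (Q * E)) := by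
      rw [norm_mul, norm_mul, hSn]
      exact mul_le_mul_of_nonneg_left (mul_le_mul h2 h3 (norm_nonneg _) (by linarith)) (by linarith)
    have h8 : ‖g - Pr * W‖ * S ≤ 2 * S + (2 * (2 * (Q * (S * E))) + S * (Lg * (Q * E))) := by
      rw [← hSn, ← norm_mul, hSn, e]
      exact (norm_add_le _ _).trans (add_le_add h5 ((norm_add_le _ _).trans (add_le_add h6 h7)))
    refine le_of_mul_le_mul_right (h8.trans ?_) (show 0 < S by linarith)
    have hQE1 : 1 ≤ Q * E := one_le_mul_of_one_le_of_one_le hQ hE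
    have h9 : Q * E ≤ Lg * (Q * E) := le_mul_of_one_le_left (by linarith) hL
    have h10 : 2 + (4 * (Q * E) + Lg * (Q * E)) ≤ 7 * (E * (Lg * Q)) := by nlinarith
    calc _ = (2 + (4 * (Q * E) + Lg * (Q * E))) * S := by ring
      _ ≤ _ := mul_le_mul_of_nonneg_right h10 (by linarith)
  · rw [norm_mul]
    exact (mul_le_mul h2 h4 (norm_nonneg _) (by linarith)).trans (le_of_eq (by ring))

theorem norm_one_add_I_add : ‖(1 + Complex.I : ℂ)‖ + ‖(1 - Complex.I : ℂ)‖ ≤ 4 := by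
  have h1 := norm_add_le (1 : ℂ) Complex.I
  have h2 := norm_sub_le (1 : ℂ) Complex.I
  rw [norm_one, Complex.norm_I] at h1 h2
  linarith

/-- The optional butterfly. -/
def obut {R : Type} [CommRing R] (a b : R) (o : Option ℕ) (s d : ℕ) (f : (ℕ → ℕ) → R)
    (v : ℕ → ℕ) : R := o.elim (f v) fun j => Cten a b (s + j) 2 d f v

theorem norm_obut_le {t : TP} {o : Option ℕ} (hj : ∀ j, o = some j → j < t.K) {f : (ℕ → ℕ) → ℂ}
    {M : ℝ} (hM : 0 ≤ M) (hf : ∀ v, t.VG v → ‖f v‖ ≤ M) {v : ℕ → ℕ} (hv : t.VG v) :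
    ‖obut (1 + Complex.I) (1 - Complex.I) o 0 t.d f v‖ ≤ 4 ^ t.d * M := by
  cases o with
  | none => exact (hf v hv).trans (le_mul_of_one_le_left hM (one_le_pow₀ (by norm_num)))
  | some j =>
    refine (norm_Tens_le _ _ t.VG (fun π hπ u hu => ?_) hf hv).trans ?_
    · obtain ⟨g, hg, rfl⟩ := List.mem_map.1 hπ
      exact hu.flp (by rw [zero_add]; exact hj j rfl) (List.mem_range.1 hg)
    · rw [List.length_map, List.length_range]
      exact mul_le_mul_of_nonneg_right (pow_le_pow_left₀ (by positivity) norm_one_add_I_add _) hM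

theorem obut_sub {R : Type} [CommRing R] (a b : R) (o : Option ℕ) (s d : ℕ) (f g : (ℕ → ℕ) → R)
    (v : ℕ → ℕ) : obut a b o s d (fun u => f u - g u) v = obut a b o s d f v - obut a b o s d g v := by
  cases o with
  | none => rfl
  | some j => exact Tens_sub _ _ _ _ _ _

theorem obut_map {R R' : Type} [CommRing R] [CommRing R'] (φ : R →+* R') (a b : R) (o : Option ℕ)
    (s d : ℕ) (f : (ℕ → ℕ) → R) (v : ℕ → ℕ) :
    φ (obut a b o s d f v) = obut (φ a) (φ b) o s d (fun u => φ (f u)) v := by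
  cases o with
  | none => rfl
  | some j => exact Tens_map _ _ _ _ _ _

theorem obut_scale {R : Type} [CommRing R] (c a b : R) (o : Option ℕ) (s d : ℕ)
    (f : (ℕ → ℕ) → R) (v : ℕ → ℕ) :
    obut (c * a) (c * b) o s d f v = c ^ (cond o.isSome d 0) * obut a b o s d f v := by
  cases o with
  | none => simp [obut]
  | some j =>
    have := Tens_scale a b c ((List.range d).map fun g => flp (s + j) (Pi.single (2 + g) 1)) f v
    rw [List.length_map, List.length_range] at this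
    exact this

theorem obut_logi {t : TP} {ρ : ℕ} (hρ : ρ ≤ t.R) {o : Option ℕ} (hj : ∀ j, o = some j → j < t.K)
    (a b : ℂ) (F : (ℕ → ℕ) → ℂ) {v : ℕ → ℕ} (hv : t.VG v) :
    obut a b o 0 t.d (fun u => F (logi t ρ u)) v = obut a b o (ρ * t.K) t.d F (logi t ρ v) := by
  cases o with
  | none => rfl
  | some j =>
    refine Tens_transport a b t.VG (logi t ρ) ?_ (fun _ _ => rfl) hv
    rw [List.forall₂_map_left_iff, List.forall₂_map_right_iff, List.forall₂_same, zero_add]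
    intro g hg u hu
    have hg' := List.mem_range.1 hg
    exact ⟨hu.flp (hj j rfl) hg', logi_flp hu.1 hρ (hj j rfl) hg'⟩

/-- The numerical analysis of one step. -/
theorem atom_correct {t : TP} {ρ lg mb e : ℕ} {at' : Atom} {cf : ℕ → ℕ → ℕ → ℂ}
    {F : (ℕ → ℕ) → ℂ} {D D1 : Arr} (hd : 1 ≤ t.d) (hP1 : 1 ≤ t.P) (hρ : ρ ≤ t.R)
    (hj : ∀ j, at'.1 = some j → j < t.K) (hmb : mb ≤ t.sh)
    (hP : t.sh + mb + (e + 3 * ((lg + 2) * t.d)) + 2 ≤ t.P)
    (hcf : ∀ i < t.d, ∀ x, ‖cf i at'.2 x‖ ≤ 2 ^ lg) (hD : Apx t ρ mb e F D) {v : ℕ → ℕ}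
    (hv : t.VG v)
    (h1 : rv t.P D1 (layX.ri t v) =
      obut (aR t.P) (bR t.P) at'.1 0 t.d (fun u => rv t.P D (layX.ri t u)) v)
    {c : ℤ × ℤ} (hc : ‖((c.1 : ℂ) + c.2 * Complex.I) -
      2 ^ t.sh * ∏ i ∈ Finset.range t.d, cf i at'.2 (logi t ρ v (2 + i))‖ ≤ 2) {g : GaussianInt}
    (hg : ∀ y : GaussianInt, rho t.P y = rho t.P ⟨2 ^ (cond at'.1.isSome t.d 0) * c.1,
        2 ^ (cond at'.1.isSome t.d 0) * c.2⟩ * rv t.P D1 (layX.ri t v) →
      |y.re| < 2 ^ (t.P - 1) → |y.im| < 2 ^ (t.P - 1) →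
      |g.re * 2 ^ t.sh - y.re| < 2 ^ t.sh ∧ |g.im * 2 ^ t.sh - y.im| < 2 ^ t.sh) :
    ‖GaussianInt.toComplex g - atomD t.K t.d cf ρ at' F (logi t ρ v)‖ ≤
        2 ^ (e + 3 * ((lg + 2) * t.d)) ∧
      ‖atomD t.K t.d cf ρ at' F (logi t ρ v)‖ ≤ 2 ^ (mb + (e + 3 * ((lg + 2) * t.d))) := by
  set z : GaussianInt := obut ⟨1, 1⟩ ⟨1, -1⟩ at'.1 0 t.d (fun u => gv t.P D (layX.ri t u)) v with hz
  set y : GaussianInt := ⟨c.1, c.2⟩ * z with hy
  set W := obut (1 + Complex.I) (1 - Complex.I) at'.1 0 t.d (fun u => F (logi t ρ u)) v with hW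
  set Pr := ∏ i ∈ Finset.range t.d, cf i at'.2 (logi t ρ v (2 + i)) with hPr
  have hT : atomD t.K t.d cf ρ at' F (logi t ρ v) = Pr * W := by
    rw [hW, obut_logi hρ hj _ _ F hv]; rfl
  have hrho : rho t.P y = rho t.P ⟨2 ^ (cond at'.1.isSome t.d 0) * c.1,
      2 ^ (cond at'.1.isSome t.d 0) * c.2⟩ * rv t.P D1 (layX.ri t v) := by
    have e1 : (⟨2 ^ (cond at'.1.isSome t.d 0) * c.1, 2 ^ (cond at'.1.isSome t.d 0) * c.2⟩ :
        GaussianInt) = ((2 ^ (cond at'.1.isSome t.d 0) : ℤ) : GaussianInt) * ⟨c.1, c.2⟩ := by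
      generalize (2 : ℤ) ^ (cond at'.1.isSome t.d 0) = m
      ext <;> simp
    rw [e1, hy, map_mul, map_mul, hz, obut_map, ← two_mul_aR hP1, ← two_mul_bR hP1, obut_scale, h1]
    simp only [rho_gv, map_intCast]
    push_cast
    ring
  have hzC : GaussianInt.toComplex z = obut (1 + Complex.I) (1 - Complex.I) at'.1 0 t.d
      (fun u => gc t.P D (layX.ri t u)) v := by
    rw [hz, obut_map]
    congr 1 <;> simp [GaussianInt.toComplex_def', sub_eq_add_neg]
  have hyC : GaussianInt.toComplex y = ((c.1 : ℂ) + c.2 * Complex.I) * GaussianInt.toComplex z := by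
    rw [hy, map_mul, GaussianInt.toComplex_def']
  have hz1 : ‖GaussianInt.toComplex z - W‖ ≤ 4 ^ t.d * 2 ^ e := by
    rw [hzC, hW, ← obut_sub]
    exact norm_obut_le hj (by positivity) (fun u hu => (hD.2 u hu.1 hu.2).1) hv
  have hW1 : ‖W‖ ≤ 4 ^ t.d * (2 ^ mb * 2 ^ e) := by
    rw [← pow_add]
    exact norm_obut_le hj (by positivity) (fun u hu => (hD.2 u hu.1 hu.2).2) hv
  have hPr1 : ‖Pr‖ ≤ 2 ^ (lg * t.d) := by
    rw [hPr, norm_prod, pow_mul]
    refine (Finset.prod_le_prod (fun _ _ => norm_nonneg _) fun i hi =>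
      hcf i (Finset.mem_range.1 hi) _).trans ?_
    rw [Finset.prod_const, Finset.card_range]
  obtain ⟨n1, n2, n3⟩ := atom_num (g := GaussianInt.toComplex g) (S := 2 ^ t.sh)
    (one_le_pow₀ (by norm_num)) (one_le_pow₀ (by norm_num)) (one_le_pow₀ (by norm_num))
    (one_le_pow₀ (by norm_num)) (pow_le_pow_right₀ (by norm_num) hmb) (by exact_mod_cast hc) hPr1
    hz1 hW1
  rw [← hyC] at n1 n2
  have eX : (2 : ℝ) ^ (lg * t.d) * 4 ^ t.d = 2 ^ ((lg + 2) * t.d) := by
    rw [show (4 : ℝ) = 2 ^ 2 by norm_num, ← pow_mul, ← pow_add]; congr 1; ring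
  have hX : 2 ≤ (lg + 2) * t.d := by nlinarith
  rw [eX] at n1 n2 n3
  generalize (lg + 2) * t.d = X at *
  have hy1 : ‖GaussianInt.toComplex y‖ < 2 ^ (t.P - 1) := by
    rw [← pow_add, ← pow_add, ← pow_add] at n1
    have h3 : (2 : ℝ) ^ (t.sh + mb + e + X + 3) ≤ 2 ^ (t.P - 1) :=
      pow_le_pow_right₀ (by norm_num) (by omega)
    have h4 : (0 : ℝ) < 2 ^ (t.sh + mb + e + X) := by positivity
    rw [pow_add _ _ 3] at h3
    linarith
  obtain ⟨g1, g2⟩ := hg y hrho (by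
      have := (Complex.abs_re_le_norm _).trans_lt hy1
      rw [← GaussianInt.intCast_re] at this
      exact_mod_cast this) (by
      have := (Complex.abs_im_le_norm _).trans_lt hy1
      rw [← GaussianInt.intCast_im] at this
      exact_mod_cast this)
  rw [hT]
  refine ⟨(n2 ?_).trans ?_, n3.trans ?_⟩
  · refine (Complex.norm_le_abs_re_add_abs_im _).trans ?_
    have g1' : |(g.re : ℝ) * 2 ^ t.sh - y.re| < 2 ^ t.sh := by exact_mod_cast g1
    have g2' : |(g.im : ℝ) * 2 ^ t.sh - y.im| < 2 ^ t.sh := by exact_mod_cast g2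
    rw [Complex.sub_re, Complex.sub_im, Complex.re_mul_ofReal, Complex.im_mul_ofReal,
      ← GaussianInt.intCast_re, ← GaussianInt.intCast_re, ← GaussianInt.intCast_im,
      ← GaussianInt.intCast_im]
    linarith
  · rw [← pow_add]
    have h3 : (2 : ℝ) ^ (e + X + 3) ≤ 2 ^ (e + 3 * X) := pow_le_pow_right₀ (by norm_num) (by omega)
    have h4 : (0 : ℝ) < 2 ^ (e + X) := by positivity
    rw [pow_add _ _ 3] at h3
    linarith
  · rw [← pow_add, ← pow_add]
    exact pow_le_pow_right₀ (by norm_num) (by omega)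

/-- One step.  Recipe: if `at'.1 = some j` (`Impl.cases`) run `Impl.cnet` with `i = 2`,
`iz = 2 + d`, `ℓ = d`; then `Impl.diag` with the coefficient `c̃` (times `2 ^ d` after a butterfly),
where `c̃ = apx (un sh, [dv (sp i, code, logi .. (2 + i)) | i < d])` is computed from the digit
list.  The exact product is the Gaussian integer `y = c̃ * Cten (1 + i) (1 - i) (gv ∘ ri) v`
(`Tens_map`, `Tens_scale`, `two_mul_aR`).  With `‖1 + i‖ + ‖1 - i‖ ≤ 4`:
`‖y‖ ≤ (2 ^ (sh + lg d) + 2) 4 ^ d (2 ^ (mb + e) + 2 ^ e) < 2 ^ (P - 1)` and the new error is at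
most `2 ^ ((lg + 2) d + e) + 2 * 4 ^ d (2 ^ (mb + e) + 2 ^ e) / 2 ^ sh + 2 ≤ 2 ^ (e + (lg + 2) d + 3)`. -/
theorem Impl.atom (hT : TFam 𝔅.V p k) {ρ : α → ℕ} {at' : α → Atom}
    (hsm : SmIn (fun a => (p a).Zr) fun a => (ρ a, at' a)) {dv : SP × ℕ × ℕ → DV} (hdv : PT dv)
    {lg mb e : α → ℕ} (F : α → (ℕ → ℕ) → ℂ)
    (hok : ∀ a, ∀ i < (p a).d, ∀ x, (dv ((p a).sp i, (at' a).2, x)).ok ∧
      ‖(dv ((p a).sp i, (at' a).2, x)).val‖ ≤ 2 ^ lg a)
    (hρ : ∀ a, ρ a ≤ (p a).R) (hj : ∀ a j, (at' a).1 = some j → j < (p a).K)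
    (hmb : ∀ a, mb a ≤ (p a).sh)
    (hP : ∀ a, (p a).sh + mb a + (e a + 3 * ((lg a + 2) * (p a).d)) + 2 ≤ (p a).P)
    {Tm : α → ℝ} (hM : HM 𝔅 (fun a => (p a).P) Tm) (hT0 : ∀ a, 0 ≤ Tm a)
    (hc : (fun a => (layX.vol (p a) : ℝ) * ((p a).K * ((p a).d : ℝ) ^ tauE)) ≲ 𝔅.F) :
    Impl 𝔅 (fun a => (p a, ρ a, at' a)) (fun a => Apx (p a) (ρ a) (mb a) (e a) (F a))
      (fun a _ => Apx (p a) (ρ a) (mb a) (e a + 3 * ((lg a + 2) * (p a).d))
        (atomD (p a).K (p a).d ((p a).cf dv) (ρ a) (at' a) (F a)))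
      fun a => 4 * layX.nrec (p a) * Tm a := by
  obtain ⟨apx, hapx, hapx'⟩ := exists_apx
  have hF : Fam 𝔅.V (fun a => (p a, ρ a, at' a)) (layX.ext (ℕ × Atom)) 2 :=
    hT.famX.ext (fun a => a) (fun a => (ρ a, at' a)) (hsm.mono (OLe.of_le fun a => by
      have := (hT.ok a).hP
      rw [layX_wt_two]
      exact Nat.le_mul_of_pos_left _ (by omega)))
  have hP1 : ∀ a, 1 ≤ (p a).P := fun a => by have := (hT.ok a).hP; omega
  have s1 : Impl 𝔅 (fun a => (p a, ρ a, at' a)) (fun a (D : Arr) => D.length = layX.vol (p a))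
      (fun a D (D' : Arr) => D'.length = layX.vol (p a) ∧ ∀ v, (p a).VG v →
        rv (p a).P D' (layX.ri (p a) v) = obut (aR (p a).P) (bR (p a).P) (at' a).1 0 (p a).d
          (fun u => rv (p a).P D (layX.ri (p a) u)) v) fun _ => 0 := by
    refine Impl.cases (fun a => (at' a).1.isSome = true) hF.smV.size_le
      ((L.refl _ _).pt hF.smV (f := fun q : TP × ℕ × Atom => decide (q.2.2.1.isSome = true))
        (by fun_prop)) ?_ ?_
    · have hC : CFam (𝔅.comap (Subtype.val : {a // (at' a).1.isSome = true} → α))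
          (fun a => (p a.1, ρ a.1, at' a.1)) (layX.ext (ℕ × Atom)) k 1 (fun q => q.1.P)
          (fun q => q.1.K) (fun q => q.2.2.1.getD 0) (fun _ => 2) (fun q => 2 + q.1.d)
          (fun q => q.1.d) :=
        { fam := hF.reindex _
          ptP := by fun_prop
          ptK := by fun_prop
          ptj := by fun_prop
          pti := by fun_prop
          ptz := by fun_prop
          ptl := by fun_prop
          hP := fun a => hP1 a.1
          h0 := fun a => rfl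
          hj := fun a => by
            obtain ⟨j, h⟩ := Option.isSome_iff_exists.1 a.2
            have := hj a.1 j h
            simpa [h] using this
          hi := fun a => le_rfl
          hl := fun a => (hT.ok a.1).hd
          hiz := fun a => by simp
          hn := fun a => by
            change 2 + (p a.1).d + 1 * (p a.1).d ≤ 2 + 2 * (p a.1).d + _
            omega
          hr := fun a g hg => by
            change g < 1 * (p a.1).d at hg
            exact ⟨layX_r_chunk (p a.1) (by omega) (by omega),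
              layX_r_chunk (p a.1) (c := 2 + (p a.1).d + g) (by omega) (by omega)⟩
          rich := fun a => (hT.ok a.1).rich.mono (Nat.le_add_right _ _)
            (Nat.div_dvd_of_dvd (hT.ok a.1).dvd) le_rfl
          cost := hc.comp _ }
      refine (Impl.cnet hC fun a => (hT.ok a.1).rich.mono le_rfl
        (Nat.div_dvd_of_dvd (hT.ok a.1).dvd) le_rfl).mono (fun _ _ h => h)
        (fun a D D' _ h => ⟨h.1, fun v hv => ?_⟩) fun _ => le_rfl
      obtain ⟨j, hj'⟩ := Option.isSome_iff_exists.1 a.2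
      have h2 := h.2 v hv.1 hv.2
      simp only [hj', Option.getD_some] at h2
      simp only [hj', obut, Option.elim_some, zero_add]
      exact h2
    · refine (Impl.id (hF.reindex (Subtype.val : {a // ¬ (at' a).1.isSome = true} → α)).sz_in).mono
        (fun _ _ h => h) (fun a D D' hD h => ⟨h ▸ hD, fun v hv => ?_⟩) fun _ => le_rfl
      have h1 : (at' a.1).1 = none := by simpa using a.2
      rw [h, h1]
      rfl
  let cl : (TP × ℕ × Atom) × List ℕ → ℤ × ℤ := fun q => apx (un q.1.1.sh,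
    (List.range q.1.1.d).map fun i => dv (q.1.1.sp i, q.1.2.2.2, logiL q.1.1 q.1.2.1 q.2 i))
  have hcl : PT cl := hapx.comp (by fun_prop)
  have hpw : PT fun q : (TP × ℕ × Atom) × List ℕ =>
      (2 : ℤ) ^ (cond q.1.2.2.1.isSome q.1.1.d 0) := by
    refine PT.int_pow (by fun_prop) (by fun_prop)
      (PB.mono (g' := fun q : (TP × ℕ × Atom) × List ℕ => q.1.1.d) (by fun_prop) fun q => ?_)
    cases q.1.2.2.1.isSome <;> simp
  have s2 := Impl.diag (𝔅 := 𝔅) hF (by norm_num) (Pw := fun q => q.1.P) (s := fun q => q.1.sh)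
    (by fun_prop) (by fun_prop) (by fun_prop) hP1 (fun a => by have := hP a; dsimp only; omega)
    (fun a => rfl) (cf := fun q => (2 ^ (cond q.1.2.2.1.isSome q.1.1.d 0) * (cl q).1,
      2 ^ (cond q.1.2.2.1.isSome q.1.1.d 0) * (cl q).2))
    ((hpw.int_mul hcl.fst).prodMk (hpw.int_mul hcl.snd)) hM hT0
  refine (s1.comp s2 fun _ _ _ _ h => h.1).mono (fun a D h => h.1) ?_ fun a => le_of_eq (zero_add _)
  rintro a D D2 hD ⟨D1, h1, h2⟩
  refine ⟨h2.1, fun v hv hg => ?_⟩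
  refine atom_correct (D1 := D1) (c := cl ((p a, ρ a, at' a), layX.od (p a) 2 v)) (hT.ok a).hd
    (hP1 a) (hρ a) (hj a) (hmb a) (hP a) (fun i hi x => (hok a i hi x).2) hD ⟨hv, hg⟩
    (h1.2 v ⟨hv, hg⟩) ?_ (h2.2 v hv)
  have h3 := hapx' (p a).sh ((List.range (p a).d).map fun i =>
    dv ((p a).sp i, (at' a).2, logiL (p a) (ρ a) (layX.od (p a) 2 v) i)) (fun c hc => by
      obtain ⟨i, hi, rfl⟩ := List.mem_map.1 hc
      exact (hok a i (List.mem_range.1 hi) _).1)
  have h4 : (((List.range (p a).d).map fun i =>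
      dv ((p a).sp i, (at' a).2, logiL (p a) (ρ a) (layX.od (p a) 2 v) i)).map DV.val).prod =
      ∏ i ∈ Finset.range (p a).d, (p a).cf dv i (at' a).2 (logi (p a) (ρ a) v (2 + i)) := by
    rw [List.map_map]
    refine Finset.prod_congr (s₁ := Finset.range (p a).d) rfl fun i hi => ?_
    rw [Function.comp_apply, logiL_od _ _ _ (Finset.mem_range.1 hi)]
    rfl
  rw [h4] at h3
  exact h3

end Crest.Agent.R326
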