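/-
R326/CRT: the Chinese remainder permutation.  Proofs: helper25.
-/
import Crest.Agent.R326.TrAtom

set_option autoImplicit false
set_option linter.unusedSimpArgs false
set_option linter.unusedSectionVars false
set_option linter.unusedVariables false

namespace Crest.Agent.R326

open Function Crest.Agent.Lib.PolyTime

variable {α : Type} {𝔅 : Bud α} {p : α → TP} {k : ℕ}

/-! ### Arithmetic -/

theorem CRT.h_two_le {t : TP} (ht : t.OK k) : 2 ≤ t.h := by
  have h1 : 1 ≤ t.K * t.R := Nat.mul_pos ht.hK ht.hR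
  calc 2 = 2 ^ 1 := rfl
    _ ≤ 2 ^ (t.K * t.R) := Nat.pow_le_pow_right (by omega) h1

theorem CRT.S_coprime {t : TP}
    (hco : ∀ i < t.d, ∀ j < t.d, i ≠ j → (t.sf i).Coprime (t.sf j)) {i : ℕ} (hi : i < t.d) :
    (t.S i).Coprime (t.sf i) := by
  unfold TP.S wt
  refine Nat.Coprime.prod_left fun l hl => ?_
  have := Finset.mem_range.mp hl
  exact hco l (by omega) i hi (by omega)

theorem TP.nu_spec {t : TP} (ht : t.OK k)
    (hco : ∀ i < t.d, ∀ j < t.d, i ≠ j → (t.sf i).Coprime (t.sf j)) {i : ℕ} (hi : i < t.d) :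
    t.nu i * t.S i ≡ 1 [MOD t.sf i] := by
  have hs := ht.hs i hi
  obtain ⟨x, hx, hx'⟩ : ∃ x < t.h, x * t.S i % t.sf i = 1 % t.sf i := by
    obtain ⟨m, -, hm⟩ := Nat.exists_mul_mod_eq_of_coprime 1 (CRT.S_coprime hco hi) (by omega)
    refine ⟨m % t.sf i, (Nat.mod_lt _ (by omega)).trans_le hs.2, ?_⟩
    rw [Nat.mod_mul_mod, mul_comm, hm]
  unfold TP.nu
  cases hf : (List.range t.h).find? fun x => x * t.S i % t.sf i == 1 % t.sf i with
  | none =>
    rw [List.find?_eq_none] at hf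
    exact absurd (by simpa using hx') (hf x (List.mem_range.mpr hx))
  | some y =>
    have := List.find?_some hf
    simpa [Nat.ModEq] using this

theorem TP.nu_coprime {t : TP} (ht : t.OK k)
    (hco : ∀ i < t.d, ∀ j < t.d, i ≠ j → (t.sf i).Coprime (t.sf j)) {i : ℕ} (hi : i < t.d) :
    (t.nu i).Coprime (t.sf i) :=
  Nat.coprime_of_mul_modEq_one _ (TP.nu_spec ht hco hi)

/-- `u` holds the plain index `I < S d` in the fields `2, …`, and `c` holds its residues. -/
def CrtR (t : TP) (c u : ℕ → ℕ) : Prop :=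
  c 0 = u 0 ∧ c 1 = u 1 ∧ rg (layM.r t) u 2 t.d < t.S t.d ∧
    ∀ i < t.d, c (2 + i) = t.nu i * rg (layM.r t) u 2 t.d % t.sf i

namespace CRT

/-- The new digit. -/
theorem nu_step {t : TP} (ht : t.OK k)
    (hco : ∀ i < t.d, ∀ j < t.d, i ≠ j → (t.sf i).Coprime (t.sf j)) {j : ℕ} (hj : j < t.d)
    (y : ℕ → ℕ) : t.nu j * pos t.sf y (j + 1) ≡ y j + t.nu j * pos t.sf y j [MOD t.sf j] := by
  have h := (TP.nu_spec ht hco hj).mul_right (y j)
  rw [pos_succ, mul_add, add_comm (y j), ← mul_assoc]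
  exact Nat.ModEq.add_left _ (by simpa [TP.S] using h)

theorem pos_modEq (r y : ℕ → ℕ) {i m : ℕ} (h : i < m) : pos r y m ≡ pos r y (i + 1) [MOD r i] := by
  obtain ⟨c, rfl⟩ := Nat.exists_eq_add_of_le (Nat.succ_le_of_lt h)
  rw [pos_add, wt_succ]
  have : wt r i * r i * rg r y (i + 1) c ≡ 0 [MOD r i] :=
    (Nat.modEq_zero_iff_dvd).mpr (Dvd.dvd.mul_right (Dvd.intro_left _ rfl) _)
  simpa using (Nat.ModEq.refl (pos r y (i + 1))).add this

/-! ### Polynomial time -/

section pt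
variable {β : Type} [Enc β] {t : β → TP} {i : β → ℕ}

@[fun_prop] theorem pt_sf (ht : PT t) (hi : PT i) : PT fun a => (t a).sf (i a) := by
  unfold TP.sf; fun_prop

theorem pt_S (ht : PT t) (hi : PT i) : PT fun a => (t a).S (min (i a) (t a).d) := by
  unfold TP.S wt
  exact PT.prod_range_nat (f := fun a l => (t a).sf l) (by fun_prop) (by fun_prop)
    (pt_sf (ht.comp PT.fst') PT.snd')

theorem pt_nu (ht : PT t) (hi : PT i) : PT fun a => (t a).nu (min (i a) (t a).d) := by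
  unfold TP.nu
  have h1 : PT fun z : β × ℕ => (t z.1).S (min (i z.1) (t z.1).d) :=
    pt_S (ht.comp PT.fst') (hi.comp PT.fst')
  have h2 : PT fun z : β × ℕ => (t z.1).sf (min (i z.1) (t z.1).d) :=
    pt_sf (ht.comp PT.fst') (by fun_prop)
  refine PT.option_getD (PT.find? (f := fun a x => x * (t a).S (min (i a) (t a).d) %
    (t a).sf (min (i a) (t a).d) == 1 % (t a).sf (min (i a) (t a).d)) (by fun_prop) ?_)
    (by fun_prop)
  exact PT.beq (PT.nat_mod (PT.nat_mul PT.snd' h1) h2) (PT.nat_mod (PT.const _) h2)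

end pt

/-! ### The refined layouts -/

/-- `[2 P (Zr / h) | h | Gam0 ^ (2 d) | sf 0 | … | sf (m - 1) | h × (d - m)]`. -/
def layQ : Lay (TP × ℕ) :=
  ⟨fun q => 3 + q.1.d, fun q k => if k = 0 then 2 * q.1.P * (q.1.Zr / q.1.h) else
      if k = 1 then q.1.h else if k = 2 then Gam0 q.1.K ^ (2 * q.1.d) else
      if k < 3 + q.2 then q.1.sf (k - 3) else q.1.h,
    by fun_prop, by fun_prop, by unfold Gam0; fun_prop⟩

theorem layQ_n (q : TP × ℕ) : layQ.n q = 3 + q.1.d := rfl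
theorem layQ_r0 (q : TP × ℕ) : layQ.r q 0 = 2 * q.1.P * (q.1.Zr / q.1.h) := rfl
theorem layQ_r1 (q : TP × ℕ) : layQ.r q 1 = q.1.h := rfl
theorem layQ_r2 (q : TP × ℕ) : layQ.r q 2 = Gam0 q.1.K ^ (2 * q.1.d) := rfl
theorem layQ_lo (q : TP × ℕ) {i : ℕ} (hi : i < q.2) : layQ.r q (3 + i) = q.1.sf i := by
  simp only [layQ]
  rw [if_neg (by omega), if_neg (by omega), if_neg (by omega), if_pos (by omega),
    Nat.add_sub_cancel_left]
theorem layQ_hi (q : TP × ℕ) {i : ℕ} (hi : q.2 ≤ i) : layQ.r q (3 + i) = q.1.h := by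
  simp only [layQ]
  rw [if_neg (by omega), if_neg (by omega), if_neg (by omega), if_neg (by omega)]
theorem layQ_low (t : TP) (m m' : ℕ) {l : ℕ} (hl : l < 3) : layQ.r (t, m) l = layQ.r (t, m') l := by
  interval_cases l <;> rfl

theorem layQ_ne (t : TP) (m : ℕ) {l : ℕ} (hl : l ≠ 3 + m) :
    layQ.r (t, m) l = layQ.r (t, m + 1) l := by
  by_cases h : l < 3
  · exact layQ_low t _ _ h
  obtain ⟨i, rfl⟩ : ∃ i, l = 3 + i := ⟨l - 3, by omega⟩
  by_cases h' : i < m
  · rw [layQ_lo _ h', layQ_lo (t, m + 1) (by simp only; omega)]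
  · rw [layQ_hi _ (by simp only; omega), layQ_hi (t, m + 1) (by simp only; omega)]

theorem Gam0_pos {K : ℕ} (hK : 1 ≤ K) : 0 < Gam0 K := by
  have : 2 ^ 1 ≤ 2 ^ K := Nat.pow_le_pow_right (by omega) hK
  exact Nat.mul_pos (Nat.two_pow_pos _) (by omega)

theorem div_pos {t : TP} (ht : t.OK k) : 0 < t.Zr / t.h :=
  Nat.div_pos (Nat.le_of_dvd ht.hZ ht.dvd) (Nat.two_pow_pos _)

theorem layQ_pos {t : TP} (ht : t.OK k) (m : ℕ) : ∀ l < layQ.n (t, m), 0 < layQ.r (t, m) l := by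
  intro l hl
  rw [layQ_n] at hl
  by_cases h : l < 3
  · interval_cases l
    · exact Nat.mul_pos (by have := ht.hP; simp only; omega) (div_pos ht)
    · exact Nat.two_pow_pos _
    · exact Nat.pow_pos (Gam0_pos ht.hK)
  obtain ⟨i, rfl⟩ : ∃ i, l = 3 + i := ⟨l - 3, by omega⟩
  by_cases h' : i < m
  · rw [layQ_lo _ h']; exact (ht.hs i (by simp only at hl; omega)).1
  · rw [layQ_hi _ (by simp only; omega)]; exact Nat.two_pow_pos _

theorem layQ_le {t : TP} (ht : t.OK k) (m : ℕ) {l : ℕ} (hl : l < 3 + t.d) :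
    layQ.r (t, m + 1) l ≤ layQ.r (t, m) l := by
  by_cases h : l = 3 + m
  · subst h
    rw [layQ_lo (t, m + 1) (by simp), layQ_hi (t, m) le_rfl]
    exact (ht.hs m (by omega)).2
  · exact (layQ_ne t m h).ge

theorem layQ_val_succ {t : TP} (ht : t.OK k) {m : ℕ} {v : ℕ → ℕ} (hv : layQ.Val (t, m + 1) v) :
    layQ.Val (t, m) v := fun l hl => (hv l hl).trans_le (layQ_le ht m hl)

theorem layQ_wt3 {t : TP} (ht : t.OK k) (m : ℕ) : wt (layQ.r (t, m)) 3 = wt (layM.r t) 2 := by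
  have h1 : t.Zr / t.h * t.h = t.Zr := Nat.div_mul_cancel ht.dvd
  simp only [wt_succ, wt_zero, layQ_r0, layQ_r1, layQ_r2, one_mul]
  show _ = 2 * t.P * t.Zt
  rw [TP.Zt, mul_assoc (2 * t.P), h1, mul_assoc]

theorem layM_hi (t : TP) (i : ℕ) : layM.r t (2 + i) = t.h := by
  simp only [layM]
  rw [if_neg (by omega), if_neg (by omega)]

theorem layQ_vol_le {t : TP} (ht : t.OK k) (m : ℕ) : layQ.vol (t, m) ≤ layX.vol t := by
  refine le_trans ?_ (volM_le_volX t)
  show wt _ (3 + t.d) ≤ wt _ (2 + t.d)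
  rw [wt_add, wt_add (layM.r t), layQ_wt3 ht]
  refine Nat.mul_le_mul_left _ ?_
  unfold rwt wt
  refine Finset.prod_le_prod' fun i hi => ?_
  have hi' := Finset.mem_range.mp hi
  simp only [sh_apply, layM_hi]
  by_cases h' : i < m
  · rw [layQ_lo _ h']; exact (ht.hs i hi').2
  · rw [layQ_hi _ (by simp only; omega)]

theorem layQ_rg (t : TP) {m j : ℕ} (hj : j ≤ m) (v : ℕ → ℕ) :
    rg (layQ.r (t, m)) v 3 j = pos t.sf (sh 3 v) j :=
  pos_congr (fun l hl => layQ_lo (t, m) (by simp only; omega)) fun _ _ => rfl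

theorem famQ {β : Type} {V : β → ℕ} {q : β → TP × ℕ} (hT : TFam V (fun b => (q b).1) k)
    (hq : ∀ b, (q b).2 ≤ (q b).1.d) : Fam V q layQ 1 := by
  refine ⟨fun b => by rw [layQ_n]; omega, fun b => layQ_pos (hT.ok b) _, ?_,
    hT.vol.mono_left fun b => layQ_vol_le (hT.ok b) _⟩
  refine (hT.small.pair ((hT.small.pt (f := fun t : TP => t.d) (by fun_prop)).nat_le hq)).mono
    (OLe.of_le fun b => ?_)
  rw [wt_one, layQ_r0]
  exact Nat.le_mul_of_pos_left _ (by have := (hT.ok b).hP; omega)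

theorem richQ {t : TP} (ht : t.OK k) (m : ℕ) :
    Rich k (layQ.vol (t, m)).size.size (wt (layQ.r (t, m)) 1) (layQ.vol (t, m)) := by
  refine ht.rich.mono ((Nat.size_le_size (Nat.size_le_size (layQ_vol_le ht m))).trans
    (Nat.le_add_right _ _)) ?_ (layQ_vol_le ht m)
  rw [wt_one, layQ_r0]
  exact Dvd.intro_left _ rfl


/-! ### One round -/

/-- The amount of the shift, read from the digit list. -/
def amt (ε : ℤ) (z : (TP × ℕ) × List ℕ) : ℤ :=
  ε * ((z.1.1.nu (min z.1.2 z.1.1.d) *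
    rg (layQ.r z.1) (fun l => z.2.getD l 0) 3 (min z.1.2 (layQ.n z.1)) : ℕ) : ℤ)

theorem pt_amt (ε : ℤ) : PT (amt ε) := by
  unfold amt
  refine PT.int_mul (PT.const _) (PT.int_natCast (PT.nat_mul
    (pt_nu (t := fun z : (TP × ℕ) × List ℕ => z.1.1) (i := fun z => z.1.2) (by fun_prop)
      (by fun_prop)) ?_))
  exact layQ.pt_rg (g := fun z : (TP × ℕ) × List ℕ => z.1) (i := fun _ => 3) (len := fun z => z.1.2)
    (l := fun z => z.2) (by fun_prop) (by fun_prop) (by fun_prop) (by fun_prop)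

theorem amt_od (ε : ℤ) {t : TP} {j : ℕ} (hj : j < t.d) (v : ℕ → ℕ) :
    amt ε ((t, j), layQ.od (t, j) (1 + 1) v) = ε * ((t.nu j * pos t.sf (sh 3 v) j : ℕ) : ℤ) := by
  unfold amt
  simp only [layQ_n]
  rw [min_eq_left hj.le, min_eq_left (by omega), layQ_rg t le_rfl]
  congr 3
  exact pos_congr (fun _ _ => rfl) fun l hl =>
    layQ.od_getD (t, j) v (by omega) (by rw [layQ_n]; simp only; omega)

/-- The relation of the shift of field `3 + j`. -/
def CoreR (ε : ℤ) (t : TP) (j : ℕ) (v w : ℕ → ℕ) : Prop :=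
  (∀ l < 3 + t.d, l ≠ 3 + j → v l = w l) ∧ v (3 + j) < t.sf j ∧
    (w (3 + j) : ℤ) = (v (3 + j) + ε * ((t.nu j * pos t.sf (sh 3 v) j : ℕ) : ℤ)) % t.sf j

/-- Exchange the entries `1` and `i`. -/
def exch (i : ℕ) (v : ℕ → ℕ) : ℕ → ℕ := fun l => if l = 1 then v i else if l = i then v 1 else v l

theorem exch_one (i : ℕ) (v : ℕ → ℕ) : exch i v 1 = v i := by simp [exch]
theorem exch_self {i : ℕ} (hi : i ≠ 1) (v : ℕ → ℕ) : exch i v i = v 1 := by simp [exch, hi]
theorem exch_ne {i l : ℕ} (h1 : l ≠ 1) (hi : l ≠ i) (v : ℕ → ℕ) : exch i v l = v l := by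
  simp [exch, hi, h1]

theorem val_exch {t : TP} {j : ℕ} (hj : j < t.d) {v : ℕ → ℕ} (hv : layQ.Val (t, j) v) :
    layQ.Val (t, j) (exch (3 + j) v) := by
  intro l hl
  by_cases h1 : l = 1
  · subst h1
    have := hv (3 + j) (by rw [layQ_n]; simp only; omega)
    rwa [exch_one, layQ_r1, ← layQ_hi (t, j) le_rfl]
  by_cases h2 : l = 3 + j
  · subst h2
    have := hv 1 (by rw [layQ_n]; omega)
    rwa [exch_self h1, layQ_hi (t, j) le_rfl, ← layQ_r1]
  · rw [exch_ne h1 h2]; exact hv l hl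

theorem core {β : Type} {𝔅 : Bud β} {q : β → TP × ℕ} (ε : ℤ)
    (hT : TFam 𝔅.V (fun b => (q b).1) k) (hq : ∀ b, (q b).2 < (q b).1.d)
    (hc : (fun b => (layX.vol (q b).1 : ℝ) * (((q b).1.K * (q b).1.R + 1 : ℕ) : ℝ) ^ tauE) ≲ 𝔅.F) :
    Gat 𝔅 q layQ layQ (fun b v w => CoreR ε (q b).1 (q b).2 v w) fun _ => 0 := by
  have hF : Fam 𝔅.V q layQ 1 := famQ hT fun b => (hq b).le
  have hsw := Gat.swap k hF (i := fun _ => 1) (j := fun z => 3 + z.2) (len := fun _ => 1)
    (by fun_prop) (by fun_prop) (by fun_prop) (fun _ => le_rfl) (fun _ => by omega)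
    (fun b => by have := hq b; rw [layQ_n]; omega)
    (fun b g hg => by
      obtain rfl : g = 0 := by omega
      rw [add_zero, add_zero, layQ_r1, layQ_hi _ le_rfl])
    (fun b => richQ (hT.ok b) _)
    (hc.mono_left fun b => by
      rw [rwt_one, layQ_r1, TP.h, Nat.size_pow]
      exact mul_le_mul_of_nonneg_right (by exact_mod_cast layQ_vol_le (hT.ok b) _) (by positivity))
  have hsh := Gat.shift hF (i := fun _ => 1) (len := fun _ => 1) (s := fun z => z.1.sf z.2)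
    (g := amt ε) (by fun_prop) (by fun_prop) (by fun_prop) (pt_amt ε) (fun _ => by omega)
    (fun b => by rw [layQ_n]; omega)
    (fun b => by rw [rwt_one, layQ_r1]; exact ((hT.ok b).hs _ (hq b)).2)
  refine ((hsw.comp0 hsh).comp0 hsw).mono fun b v w hv hw h => ?_
  have hj := hq b
  obtain ⟨h1, h2, h3⟩ := h
  generalize q b = z at *
  obtain ⟨t, j⟩ := z
  simp only at hj h1 h2 h3
  have n1 : 3 + j ≠ 1 := by omega
  refine ⟨exch (3 + j) v, val_exch hj hv, ⟨fun g hg => ?_, fun l hl a1 a2 => ?_⟩,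
    exch (3 + j) w, val_exch hj hw, ⟨fun l hl a1 => ?_, ?_, ?_⟩, fun g hg => ?_,
    fun l hl a1 a2 => ?_⟩
  · obtain rfl : g = 0 := by omega
    simp only [add_zero, exch_one, exch_self n1, and_self]
  · rw [exch_ne (by omega) (by omega)]
  · rw [layQ_n] at hl
    by_cases e : l = 3 + j
    · rw [e, exch_self n1, exch_self n1]
      exact h1 1 (by omega) n1.symm
    · rw [exch_ne (by omega) e, exch_ne (by omega) e]
      exact h1 l hl e
  · simpa only [rg_one, exch_one] using h2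
  · simp only [rg_one, exch_one]
    rw [amt_od ε hj, h3]
    congr 5
    exact pos_congr (fun _ _ => rfl) fun l hl => by
      simp only [sh_apply]; rw [exch_ne (by omega) (by omega)]
  · obtain rfl : g = 0 := by omega
    simp only [add_zero, exch_one, exch_self n1, and_self]
  · rw [exch_ne (by omega) (by omega)]


/-! ### The loops -/

theorem pull {P Q : Type} [Enc P] [Enc Q] {p : α → P} {g : P → Q} {Λ Λ' : Lay Q}
    {R : α → (ℕ → ℕ) → (ℕ → ℕ) → Prop} {ex : α → ℝ} (h : Gat 𝔅 (fun a => g (p a)) Λ Λ' R ex)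
    (hg : PT g) (hp : SmIn 𝔅.V p) : Gat 𝔅 p (Λ.comap g hg) (Λ'.comap g hg) R ex :=
  Impl.pull_pt h hg hp

/-- Cut or pad the whole array. -/
theorem recast {P : Type} [Enc P] {p : α → P} {Λ Λ' : Lay P} {b b' : ℕ} (hF : Fam 𝔅.V p Λ b)
    (hF' : Fam 𝔅.V p Λ' b') :
    Gat 𝔅 p Λ Λ' (fun a v w => Λ'.pos (p a) v = Λ.pos (p a) w) fun _ => 0 :=
  (Gat.respace hF hF' Λ.hn Λ'.hn (fun _ => le_rfl) fun _ => le_rfl).mono fun a v w _ _ h =>
    ⟨h, by simp⟩

theorem famQ' {β P : Type} [Enc P] {V : β → ℕ} {q : β → P} {g : P → TP × ℕ} (hg : PT g)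
    (hT : TFam V (fun b => (g (q b)).1) k)
    (hs : SmIn (fun b => (g (q b)).1.Zr / (g (q b)).1.h) q) : Fam V q (layQ.comap g hg) 1 := by
  refine ⟨fun b => show 1 ≤ 3 + _ by omega, fun b => layQ_pos (hT.ok b) _,
    hs.mono (OLe.of_le fun b => ?_), hT.vol.mono_left fun b => layQ_vol_le (hT.ok b) _⟩
  rw [wt_one]
  exact Nat.le_mul_of_pos_left _ (by have := (hT.ok b).hP; omega)

theorem small_round {V : α → ℕ} (hT : TFam V p k) :
    SmIn (fun q : (a : α) × Fin (p a).d => (p q.1).Zr / (p q.1).h) fun q => (p q.1, q.2.1) :=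
  (hT.small.comp _).pair (((hT.small.pt (f := fun t : TP => t.d) (by fun_prop)).comp _).nat_le
    fun q => q.2.2.le)

/-- The time for one round. -/
noncomputable def tm (t : TP) : ℝ := layX.vol t * ((t.K * t.R + 1 : ℕ) : ℝ) ^ tauE

/-- `x` holds residues in the fields `3 + i`, `m1 ≤ i < m2`, where `y` holds digits. -/
def Rel (t : TP) (m1 m2 : ℕ) (x y : ℕ → ℕ) : Prop :=
  (∀ l < 3 + t.d, l < 3 + m1 ∨ 3 + m2 ≤ l → x l = y l) ∧
    ∀ i, m1 ≤ i → i < m2 → x (3 + i) = t.nu i * pos t.sf (sh 3 y) (i + 1) % t.sf i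

theorem pos_sh_congr {t : TP} {j : ℕ} {x y : ℕ → ℕ} (h : ∀ l < j, x (3 + l) = y (3 + l)) :
    pos t.sf (sh 3 x) j = pos t.sf (sh 3 y) j := pos_congr (fun _ _ => rfl) h

theorem loop_fwd (hT : TFam 𝔅.V p k)
    (hco : ∀ a, ∀ i < (p a).d, ∀ j < (p a).d, i ≠ j → ((p a).sf i).Coprime ((p a).sf j))
    (hV : ∀ a, (𝔅.V a : ℝ) ≤ tm (p a)) (hc : (fun a => (p a).d * tm (p a)) ≲ 𝔅.F) :
    Gat 𝔅 p (layQ.comap (fun t => (t, t.d - 0)) (by fun_prop))
      (layQ.comap (fun t => (t, t.d - t.d)) (by fun_prop))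
      (fun a => Rel (p a) ((p a).d - (p a).d) (p a).d) fun _ => 0 := by
  have hg1 : PT fun z : TP × ℕ => (z.1, z.1.d - z.2) := by fun_prop
  have hg2 : PT fun z : TP × ℕ => (z.1, z.1.d - (z.2 + 1)) := by fun_prop
  refine Gat.loop (Λ := layQ.comap _ hg1) (cnt := fun t => t.d) (by fun_prop) (by fun_prop)
    hT.famX.smV (fun a => tm (p a)) hV hc
    (hT.vol.mono_left fun a => layQ_vol_le (hT.ok a) _)
    (fun a r => CoreR (-1) (p a) ((p a).d - (r + 1)))
    (fun a r => Rel (p a) ((p a).d - r) (p a).d) ?_ (fun a v w _ _ h l hl => ?_)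
    fun a r hr v w hv hw h => ?_
  · have hT' := hT.reindex fun q : (a : α) × Fin (p a).d => q.1
    have hF1 := famQ' (q := fun q : (a : α) × Fin (p a).d => (p q.1, q.2.1)) hg1 hT'
      (small_round hT)
    have hF2 := famQ' (q := fun q : (a : α) × Fin (p a).d => (p q.1, q.2.1)) hg2 hT'
      (small_round hT)
    let 𝔅' := 𝔅.sub (fun q : (a : α) × Fin (p a).d => q.1) (fun q => 𝔅.V q.1)
      (fun q => tm (p q.1)) fun q => hV q.1
    have h1 := Gat.resize (𝔅 := 𝔅') hF1 hF2 (i := fun z => 3 + (z.1.d - (z.2 + 1))) (by fun_prop)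
      (fun _ => rfl) (fun q => show _ < 3 + _ by have := q.2.2; simp only; omega)
      fun q l _ hl => by
        have e : (p q.1).d - q.2.1 = (p q.1).d - (q.2.1 + 1) + 1 := by have := q.2.2; omega
        simp only [e]
        exact layQ_ne _ _ hl
    have h2 := pull (𝔅 := 𝔅') (p := fun q : (a : α) × Fin (p a).d => (p q.1, q.2.1))
      (core (𝔅 := 𝔅') (q := fun q : (a : α) × Fin (p a).d =>
      (p q.1, (p q.1).d - (q.2.1 + 1))) (-1) hT' (fun q => by have := q.2.2; simp only; omega)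
      (RLe.refl _)) hg2 hF2.smV
    refine (h1.comp0 h2).mono fun q v w hv hw h => ⟨w, ?_, h, fun _ _ => rfl⟩
    have e : (p q.1).d - q.2.1 = (p q.1).d - (q.2.1 + 1) + 1 := by have := q.2.2; omega
    have hw' : layQ.Val (p q.1, (p q.1).d - q.2.1) w := hw
    rw [e] at hw'
    exact layQ_val_succ (hT.ok q.1) hw'
  · exact h.1 l hl (Or.inl hl)
  · have ht := hT.ok a
    have hco' := hco a
    change layQ.Val (p a, (p a).d - (r + 1)) v at hv
    change layQ.Val (p a, (p a).d - 0) w at hw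
    change ∃ u, layQ.Val (p a, (p a).d - r) u ∧ _
    generalize p a = t at *
    obtain ⟨j, hj, e1, e2⟩ : ∃ j < t.d, t.d - (r + 1) = j ∧ t.d - r = j + 1 :=
      ⟨_, by omega, rfl, by omega⟩
    rw [e1] at hv h ⊢
    rw [e2]
    have hwj : w (3 + j) < t.sf j := by
      have := hw (3 + j) (by rw [layQ_n]; simp only; omega)
      rwa [layQ_lo (t, t.d - 0) hj] at this
    have hvj := h.2 j le_rfl hj
    have hs := (ht.hs j hj).1
    refine ⟨update v (3 + j) (w (3 + j)), fun l hl => ?_, ⟨fun l _ hl => ?_, ?_, ?_⟩,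
      fun l hl a1 => ?_, fun i h1 h2 => ?_⟩
    · by_cases e : l = 3 + j
      · rw [e, update_self, layQ_lo (t, j + 1) (by simp)]; exact hwj
      · rw [update_of_ne e, ← layQ_ne t j e]; exact hv l hl
    · rw [update_of_ne hl]
    · rw [hvj]; exact Nat.mod_lt _ hs
    · rw [update_self, pos_sh_congr (y := w) fun l hl => h.1 _ (by omega) (by omega)]
      have h3 := (Int.natCast_modEq_iff.mpr (((Nat.mod_modEq _ _).trans
        (nu_step ht hco' hj (sh 3 w))))).add_right (-1 * ((t.nu j * pos t.sf (sh 3 w) j : ℕ) : ℤ))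
      rw [← hvj] at h3
      rw [h3.eq, sh_apply, Nat.cast_add, show ∀ x y : ℤ, x + y + -1 * y = x from fun x y => by ring,
        Int.emod_eq_of_lt (by omega) (by exact_mod_cast hwj)]
    · by_cases e : l = 3 + j
      · rw [e, update_self]
      · rw [update_of_ne e]; exact h.1 l hl (by omega)
    · rw [update_of_ne (by omega)]; exact h.2 i (by omega) h2

theorem loop_bwd (hT : TFam 𝔅.V p k)
    (hco : ∀ a, ∀ i < (p a).d, ∀ j < (p a).d, i ≠ j → ((p a).sf i).Coprime ((p a).sf j))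
    (hV : ∀ a, (𝔅.V a : ℝ) ≤ tm (p a)) (hc : (fun a => (p a).d * tm (p a)) ≲ 𝔅.F) :
    Gat 𝔅 p (layQ.comap (fun t => (t, 0)) (by fun_prop))
      (layQ.comap (fun t => (t, t.d)) (by fun_prop))
      (fun a v w => Rel (p a) 0 (p a).d w v) fun _ => 0 := by
  have hg2 : PT fun z : TP × ℕ => (z.1, z.2 + 1) := by fun_prop
  refine Gat.loop (Λ := layQ) (cnt := fun t => t.d) (by fun_prop) (by fun_prop)
    hT.famX.smV (fun a => tm (p a)) hV hc
    (hT.vol.mono_left fun a => layQ_vol_le (hT.ok a) _)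
    (fun a r => CoreR 1 (p a) r)
    (fun a r v w => Rel (p a) 0 r w v) ?_ (fun a v w _ _ h l hl => ?_)
    fun a j hj v w hv hw h => ?_
  · have hT' := hT.reindex fun q : (a : α) × Fin (p a).d => q.1
    have hF1 := famQ (q := fun q : (a : α) × Fin (p a).d => (p q.1, q.2.1)) hT' fun q => q.2.2.le
    have hF2 := famQ' (q := fun q : (a : α) × Fin (p a).d => (p q.1, q.2.1)) hg2 hT'
      (small_round hT)
    let 𝔅' := 𝔅.sub (fun q : (a : α) × Fin (p a).d => q.1) (fun q => 𝔅.V q.1)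
      (fun q => tm (p q.1)) fun q => hV q.1
    have h1 := core (𝔅 := 𝔅') (q := fun q : (a : α) × Fin (p a).d => (p q.1, q.2.1)) 1 hT'
      (fun q => q.2.2) (RLe.refl _)
    have h2 := Gat.resize (𝔅 := 𝔅') hF1 hF2 (i := fun z => 3 + z.2) (by fun_prop)
      (fun _ => rfl) (fun q => show _ < 3 + _ by have := q.2.2; simp only; omega)
      fun q l _ hl => (layQ_ne _ _ hl).symm
    exact (h1.comp0 h2).mono fun q v w hv hw h =>
      ⟨v, layQ_val_succ (hT.ok q.1) hv, fun _ _ => rfl, h⟩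
  · exact (h.1 l hl (by omega)).symm
  · have ht := hT.ok a
    have hco' := hco a
    generalize p a = t at *
    have hvj : v (3 + j) < t.sf j := by
      have := hv (3 + j) (by rw [layQ_n]; simp only; omega)
      rwa [layQ_lo (t, j + 1) (by simp)] at this
    have hwj := h.2 j (Nat.zero_le _) (by omega)
    refine ⟨update v (3 + j) (w (3 + j)), fun l hl => ?_, ⟨fun l _ hl => ?_, hvj, ?_⟩,
      fun l hl a1 => ?_, fun i h1 h2 => ?_⟩
    · by_cases e : l = 3 + j
      · rw [e, update_self, layQ_hi (t, j) le_rfl]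
        have := hw (3 + j) (by rw [layQ_n]; simp only; omega)
        rwa [layQ_hi (t, 0) (Nat.zero_le _)] at this
      · rw [update_of_ne e, layQ_ne t j e]; exact hv l hl
    · rw [update_of_ne hl]
    · rw [update_self, hwj, (nu_step ht hco' hj (sh 3 v)), sh_apply, one_mul]
      push_cast
      rfl
    · by_cases e : l = 3 + j
      · rw [e, update_self]
      · rw [update_of_ne e]; exact h.1 l hl (by omega)
    · rw [h.2 i h1 (by omega), pos_sh_congr (y := update v (3 + j) (w (3 + j)))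
        fun l hl => (update_of_ne (by omega) _ _).symm]


/-! ### The addresses at both ends -/

/-- The address of the plain index. -/
def adrI (t : TP) (u : ℕ → ℕ) : ℕ → ℕ := fun l =>
  if l < 3 then dig (layQ.r (t, 0)) (pos (layM.r t) u 2) l
  else dig t.sf (rg (layM.r t) u 2 t.d) (l - 3)

/-- The address of the residues. -/
def adrC (t : TP) (c : ℕ → ℕ) : ℕ → ℕ := fun l =>
  if l < 3 then dig (layQ.r (t, 0)) (pos (layM.r t) c 2) l else c (l - 1)

theorem adrI_hi (t : TP) (u : ℕ → ℕ) (i : ℕ) :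
    adrI t u (3 + i) = dig t.sf (rg (layM.r t) u 2 t.d) i := by
  simp only [adrI]; rw [if_neg (by omega), Nat.add_sub_cancel_left]

theorem adrC_hi (t : TP) (c : ℕ → ℕ) (i : ℕ) : adrC t c (3 + i) = c (2 + i) := by
  simp only [adrC]; rw [if_neg (by omega), show 3 + i - 1 = 2 + i by omega]

theorem pos_low {t : TP} (ht : t.OK k) (m : ℕ) {u x : ℕ → ℕ} (hu : layM.Val t u)
    (hx : ∀ l < 3, x l = dig (layQ.r (t, 0)) (pos (layM.r t) u 2) l) :
    pos (layQ.r (t, m)) x 3 = pos (layM.r t) u 2 := by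
  rw [pos_congr (r' := layQ.r (t, 0)) (fun l hl => layQ_low t _ _ hl) hx, pos_dig, layQ_wt3 ht]
  exact Nat.mod_eq_of_lt (R326.Val.pos_lt (R326.Val.mono hu (Nat.le_add_right 2 t.d)))

theorem val_low {t : TP} (ht : t.OK k) (m X : ℕ) {l : ℕ} (hl : l < 3) :
    dig (layQ.r (t, 0)) X l < layQ.r (t, m) l := by
  rw [layQ_low t m 0 hl]
  exact dig_lt _ (layQ_pos ht 0 l (by rw [layQ_n]; omega))

theorem val_adrI {t : TP} (ht : t.OK k) (u : ℕ → ℕ) : layQ.Val (t, t.d) (adrI t u) := by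
  intro l hl
  rw [layQ_n] at hl
  by_cases h : l < 3
  · simp only [adrI]; rw [if_pos h]; exact val_low ht _ _ h
  obtain ⟨i, rfl⟩ : ∃ i, l = 3 + i := ⟨l - 3, by omega⟩
  have hi : i < t.d := by simp only at hl; omega
  rw [adrI_hi, layQ_lo (t, t.d) hi]
  exact dig_lt _ (ht.hs i hi).1

theorem val_adrC {t : TP} (ht : t.OK k) {c : ℕ → ℕ} (hc : layM.Val t c) :
    layQ.Val (t, 0) (adrC t c) := by
  intro l hl
  rw [layQ_n] at hl
  by_cases h : l < 3
  · simp only [adrC]; rw [if_pos h]; exact val_low ht _ _ h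
  obtain ⟨i, rfl⟩ : ∃ i, l = 3 + i := ⟨l - 3, by omega⟩
  have hi : i < t.d := by simp only at hl; omega
  rw [adrC_hi, layQ_hi (t, 0) (Nat.zero_le _), ← layM_hi t i]
  exact hc _ (show 2 + i < 2 + t.d by omega)

theorem sh_adrI (t : TP) (u : ℕ → ℕ) : sh 3 (adrI t u) = dig t.sf (rg (layM.r t) u 2 t.d) :=
  funext fun i => adrI_hi t u i

theorem pos_adrI {t : TP} (ht : t.OK k) {u : ℕ → ℕ} (hu : layM.Val t u)
    (hI : rg (layM.r t) u 2 t.d < t.S t.d) : layQ.pos (t, t.d) (adrI t u) = layM.pos t u := by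
  show pos _ _ (3 + t.d) = pos _ _ (2 + t.d)
  rw [pos_add, pos_add (layM.r t), layQ_wt3 ht, layQ_rg t le_rfl, sh_adrI, pos_dig,
    pos_low (x := adrI t u) ht _ hu fun l hl => if_pos hl]
  rw [TP.S] at hI
  rw [Nat.mod_eq_of_lt hI]

theorem pos_adrC {t : TP} (ht : t.OK k) {c : ℕ → ℕ} (hc : layM.Val t c) :
    layQ.pos (t, 0) (adrC t c) = layM.pos t c := by
  show pos _ _ (3 + t.d) = pos _ _ (2 + t.d)
  rw [pos_add, pos_add (layM.r t), layQ_wt3 ht,
    pos_low (x := adrC t c) ht _ hc fun l hl => if_pos hl]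
  congr 2
  exact rg_congr (fun l _ => by rw [layQ_hi (t, 0) (Nat.zero_le _), layM_hi])
    fun l _ => adrC_hi t c l

theorem rel_adr {t : TP} {c u : ℕ → ℕ} (h : CrtR t c u) :
    Rel t 0 t.d (adrC t c) (adrI t u) := by
  obtain ⟨h0, h1, h2, h3⟩ := h
  refine ⟨fun l hl a1 => ?_, fun i _ hi => ?_⟩
  · have hl3 : l < 3 := by omega
    simp only [adrC, adrI]
    rw [if_pos hl3, if_pos hl3, pos_congr (r' := layM.r t) (w := u) (fun _ _ => rfl) fun l hl => by
      interval_cases l <;> assumption]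
  · rw [adrC_hi, h3 i hi, sh_adrI, pos_dig]
    refine Nat.ModEq.mul_left _ (Nat.mod_mod_of_dvd _ ?_).symm
    rw [wt_succ]
    exact Dvd.intro_left _ rfl

/-! ### Budgets -/

theorem one_le_pw (t : TP) : (1 : ℝ) ≤ ((t.K * t.R + 1 : ℕ) : ℝ) ^ tauE :=
  Real.one_le_rpow (by exact_mod_cast Nat.le_add_left 1 _) (by unfold tauE; norm_num)

theorem vol_le_tm (t : TP) : (layX.vol t : ℝ) ≤ tm t :=
  le_mul_of_one_le_right (Nat.cast_nonneg _) (one_le_pw t)

theorem vol_le_dtm {t : TP} (ht : t.OK k) : (layX.vol t : ℝ) ≤ t.d * tm t :=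
  (vol_le_tm t).trans (le_mul_of_one_le_left ((Nat.cast_nonneg _).trans (vol_le_tm t))
    (by exact_mod_cast ht.hd))

theorem dtm_le (t : TP) : t.d * tm t ≤ layX.vol t * t.cost := by
  rw [tm, mul_left_comm, TP.cost]
  refine mul_le_mul_of_nonneg_left ?_ (Nat.cast_nonneg _)
  rw [add_assoc]
  exact le_add_of_nonneg_right (by positivity)

theorem shrink {Λ Λ' : Lay TP} {R : α → (ℕ → ℕ) → (ℕ → ℕ) → Prop} (hT : TFam 𝔅.V p k)
    (hc : (fun a => (layX.vol (p a) : ℝ) * (p a).cost) ≲ 𝔅.F)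
    (h : ∀ 𝔅' : Bud α, TFam 𝔅'.V p k → (∀ a, (𝔅'.V a : ℝ) ≤ tm (p a)) →
      (fun a => (p a).d * tm (p a)) ≲ 𝔅'.F → Gat 𝔅' p Λ Λ' R fun _ => 0) :
    Gat 𝔅 p Λ Λ' R fun _ => 0 :=
  Impl.mono_bud (h ⟨𝔅.o, fun a => layX.vol (p a), fun a => (p a).d * tm (p a),
    fun a => vol_le_dtm (hT.ok a)⟩ hT.self (fun a => vol_le_tm _) (RLe.refl _)) rfl hT.vol
    (hc.mono_left fun a => dtm_le _)

end CRT

open CRT in
/-- Work in the refined layouts `CRT.layQ (t, m)` (base `1`; field `1` is scratch), budget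
`V = volX`.  First the index is written in the mixed radix system `sf 0, …, sf (d - 1)` (one
`Gat.respace`).  For `j = d - 1, …, 0`: enlarge the radix of field `3 + j` to `h`, exchange the field
with the scratch field (`Gat.swap`), `Gat.shift` it modulo `sf j` by `± nu j * b` (`b` = the value
of the digits below), exchange back: the new digit is `(a + nu j * b) % sf j = nu j * I % sf j`. -/
theorem Gat.crt (hT : TFam 𝔅.V p k)
    (hco : ∀ a, ∀ i < (p a).d, ∀ j < (p a).d, i ≠ j → ((p a).sf i).Coprime ((p a).sf j))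
    (hc : (fun a => (layX.vol (p a) : ℝ) * (p a).cost) ≲ 𝔅.F) :
    Gat 𝔅 p layM layM (fun a v w => CrtR (p a) v w) fun _ => 0 := by
  refine shrink hT hc fun 𝔅' hT hV hc => ?_
  have h1 := recast (𝔅 := 𝔅') hT.famM
    (famQ' (g := fun t : TP => (t, t.d - 0)) (by fun_prop) hT hT.small)
  have h3 := recast (𝔅 := 𝔅')
    (famQ' (g := fun t : TP => (t, t.d - t.d)) (by fun_prop) hT hT.small) hT.famM
  refine ((h1.comp0 (loop_fwd hT hco hV hc)).comp0 h3).mono fun a c u hv hw h => ?_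
  have ht := hT.ok a
  refine ⟨adrC (p a) c, ?_, ?_, adrI (p a) u, val_adrI ht u, ?_, pos_adrI ht hw h.2.2.1⟩
  · show layQ.Val (p a, (p a).d - (p a).d) _
    rw [Nat.sub_self]; exact val_adrC ht hv
  · show _ = layQ.pos (p a, (p a).d - (p a).d) _
    rw [Nat.sub_self, pos_adrC ht hv]
  · rw [Nat.sub_self]; exact rel_adr h

open CRT in
/-- The inverse permutation: the inverse steps in the opposite order. -/
theorem Gat.crtInv (hT : TFam 𝔅.V p k)
    (hco : ∀ a, ∀ i < (p a).d, ∀ j < (p a).d, i ≠ j → ((p a).sf i).Coprime ((p a).sf j))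
    (hc : (fun a => (layX.vol (p a) : ℝ) * (p a).cost) ≲ 𝔅.F) :
    Gat 𝔅 p layM layM (fun a v w => CrtR (p a) w v) fun _ => 0 := by
  refine shrink hT hc fun 𝔅' hT hV hc => ?_
  have h1 := recast (𝔅 := 𝔅') hT.famM
    (famQ' (g := fun t : TP => (t, 0)) (by fun_prop) hT hT.small)
  have h3 := recast (𝔅 := 𝔅')
    (famQ' (g := fun t : TP => (t, t.d)) (by fun_prop) hT hT.small) hT.famM
  refine ((h1.comp0 (loop_bwd hT hco hV hc)).comp0 h3).mono fun a u c hv hw h => ?_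
  have ht := hT.ok a
  exact ⟨adrI (p a) u, val_adrI ht u, (pos_adrI ht hv h.2.2.1).symm, adrC (p a) c, val_adrC ht hw,
    rel_adr h, pos_adrC ht hw⟩


end Crest.Agent.R326
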