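/-
R326/ConvMath: the multidimensional Fourier transform, the tensor structure of programs, and the
convolution theorem.
-/
import Crest.Agent.R326.StepsA
import Crest.Agent.R326.Frames

set_option autoImplicit false
set_option linter.unusedSimpArgs false
set_option linter.unusedSectionVars false
set_option linter.unusedVariables false

namespace Crest.Agent.R326

open Function Crest.Agent.Lib.PolyTime

variable {inv : Bool} {s : ℕ → ℕ} {d : ℕ} {F F' : (ℕ → ℕ) → ℂ} {v v' : ℕ → ℕ}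

theorem mrg_in (v : ℕ → ℕ) (J : Fin d → ℕ) (i : Fin d) : mrg v J (2 + i) = J i := by
  have h : 2 ≤ 2 + (i : ℕ) ∧ 2 + (i : ℕ) < 2 + d := ⟨by omega, by omega⟩
  simp only [mrg, dif_pos h]
  congr 1
  ext
  simp

theorem mrg_out (v : ℕ → ℕ) (J : Fin d → ℕ) {c : ℕ} (h : c < 2 ∨ 2 + d ≤ c) : mrg v J c = v c := by
  have h' : ¬ (2 ≤ c ∧ c < 2 + d) := by omega
  simp only [mrg, dif_neg h']

theorem dftD_congr (hv : ∀ i < d, v (2 + i) = v' (2 + i))
    (hF : ∀ J : Fin d → ℕ, (∀ i, J i < s i) → F (mrg v J) = F' (mrg v' J)) :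
    dftD inv s d F v = dftD inv s d F' v' := by
  unfold dftD
  refine Finset.sum_congr rfl fun J hJ => ?_
  rw [hF J fun i => Finset.mem_range.1 (Fintype.mem_piFinset.1 hJ i)]
  congr 1
  exact Finset.prod_congr rfl fun i _ => by rw [hv i i.2]

theorem dftD_sub : dftD inv s d (fun u => F u - F' u) v = dftD inv s d F v - dftD inv s d F' v := by
  simp only [dftD, mul_sub, Finset.sum_sub_distrib]

theorem dftD_smul (c : ℂ) : dftD inv s d (fun u => c * F u) v = c * dftD inv s d F v := by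
  simp only [dftD, Finset.mul_sum]
  exact Finset.sum_congr rfl fun J _ => by ring

theorem cm_wt_eq (s : ℕ → ℕ) (d : ℕ) : wt s d = ∏ i : Fin d, s i :=
  (Fin.prod_univ_eq_prod_range s d).symm

theorem cm_card (s : ℕ → ℕ) (d : ℕ) :
    (Fintype.piFinset fun i : Fin d => Finset.range (s i)).card = wt s d := by
  simp [cm_wt_eq]

theorem cm_norm_ker (inv : Bool) (s j k : ℕ) :
    ‖ker inv s j k‖ = if inv then ((s : ℝ))⁻¹ else 1 := by
  cases inv
  · simp only [ker, Bool.false_eq_true, if_false, norm_ee]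
  · simp only [ker, if_true, norm_div, norm_ee, Complex.norm_natCast, one_div]

theorem norm_dftD_le {M : ℝ} (hM : 0 ≤ M)
    (hF : ∀ J : Fin d → ℕ, (∀ i, J i < s i) → ‖F (mrg v J)‖ ≤ M) :
    ‖dftD inv s d F v‖ ≤ (if inv then 1 else (wt s d : ℝ)) * M := by
  unfold dftD
  have h1 : ∀ J ∈ Fintype.piFinset fun i : Fin d => Finset.range (s i),
      ‖(∏ i : Fin d, ker inv (s i) (J i) (v (2 + i))) * F (mrg v J)‖ ≤
        (∏ i : Fin d, if inv then ((s i : ℝ))⁻¹ else 1) * M := by
    intro J hJ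
    rw [norm_mul, norm_prod]
    simp only [cm_norm_ker]
    refine mul_le_mul_of_nonneg_left
      (hF J fun i => Finset.mem_range.1 (Fintype.mem_piFinset.1 hJ i))
      (Finset.prod_nonneg fun i _ => by split_ifs <;> positivity)
  refine ((norm_sum_le _ _).trans (Finset.sum_le_sum h1)).trans ?_
  rw [Finset.sum_const, cm_card, nsmul_eq_mul, ← mul_assoc]
  refine mul_le_mul_of_nonneg_right ?_ hM
  cases inv
  · simp
  · simp only [if_true, cm_wt_eq, Nat.cast_prod, ← Finset.prod_mul_distrib]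
    exact Finset.prod_le_one (fun i _ => by positivity) fun i _ => mul_inv_le_one

theorem dftD_zero (inv : Bool) (s : ℕ → ℕ) (F : (ℕ → ℕ) → ℂ) (v : ℕ → ℕ) :
    dftD inv s 0 F v = F v := by
  have : ∀ J : Fin 0 → ℕ, mrg v J = v := fun J => funext fun c => mrg_out v J (by omega)
  simp [dftD, this]

theorem mrg_snoc (v : ℕ → ℕ) (J : Fin d → ℕ) (j : ℕ) :
    mrg v (Fin.snoc J j : Fin (d + 1) → ℕ) = mrg (update v (2 + d) j) J := by
  funext c
  by_cases h1 : 2 ≤ c ∧ c < 2 + d
  · obtain ⟨i, rfl⟩ : ∃ i : Fin d, c = 2 + i := ⟨⟨c - 2, by omega⟩, by simp only; omega⟩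
    rw [mrg_in]
    have := mrg_in v (Fin.snoc J j : Fin (d + 1) → ℕ) i.castSucc
    rwa [Fin.snoc_castSucc] at this
  · by_cases h2 : c = 2 + d
    · subst h2
      rw [mrg_out _ J (by omega), update_self]
      have := mrg_in v (Fin.snoc J j : Fin (d + 1) → ℕ) (Fin.last d)
      rwa [Fin.snoc_last] at this
    · rw [mrg_out _ J (by omega), mrg_out _ _ (by omega), update_of_ne h2]

theorem dftD_succ (inv : Bool) (s : ℕ → ℕ) (d : ℕ) (F : (ℕ → ℕ) → ℂ) (v : ℕ → ℕ) :
    dftD inv s (d + 1) F v = ∑ j ∈ Finset.range (s d),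
      ker inv (s d) j (v (2 + d)) * dftD inv s d F (update v (2 + d) j) := by
  simp only [dftD, Finset.mul_sum]
  rw [← Finset.sum_product']
  symm
  refine Finset.sum_nbij' (fun p => (Fin.snoc p.2 p.1 : Fin (d + 1) → ℕ))
    (fun J => (J (Fin.last d), Fin.init J)) ?_ ?_ ?_ ?_ ?_
  · rintro ⟨j, J⟩ hp
    rw [Finset.mem_product] at hp
    refine Fintype.mem_piFinset.2 fun i => ?_
    refine Fin.lastCases ?_ (fun i => ?_) i
    · simpa using hp.1
    · simpa using Fintype.mem_piFinset.1 hp.2 i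
  · intro J hJ
    rw [Finset.mem_product]
    exact ⟨Fintype.mem_piFinset.1 hJ (Fin.last d),
      Fintype.mem_piFinset.2 fun i => Fintype.mem_piFinset.1 hJ i.castSucc⟩
  · rintro ⟨j, J⟩ _
    simp
  · intro J _
    simp
  · rintro ⟨j, J⟩ _
    simp only [Fin.prod_univ_castSucc, Fin.snoc_castSucc, Fin.snoc_last, mrg_snoc, Fin.val_castSucc,
      Fin.val_last]
    have : ∀ i : Fin d, update v (2 + d) j (2 + i) = v (2 + i) := fun i =>
      update_of_ne (by have := i.2; omega) _ _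
    simp only [this]
    ring

/-- The logical address of the input `u` in the block of `y`. -/
def embL (h d : ℕ) (s : ℕ → ℕ) (y u : ℕ → ℕ) : ℕ → ℕ := fun c =>
  if 2 ≤ c ∧ c < 2 + d then (if Even (y c / h) then u c else s (c - 2) - 1 - u c) + h * (y c / h)
  else y c

/-- Apply a one-dimensional operator along coordinate `c`. -/
def along (c : ℕ) (T : (ℕ → ℂ) → ℕ → ℂ) (F : (ℕ → ℕ) → ℂ) : (ℕ → ℕ) → ℂ :=
  fun y => T (fun x => F (update y c x)) (y c)

/-- Linearity. -/
def CLin (T : (ℕ → ℂ) → ℕ → ℂ) : Prop :=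
  ∀ (α β : ℂ) (f g : ℕ → ℂ) (k : ℕ), T (fun x => α * f x + β * g x) k = α * T f k + β * T g k

theorem cLin_atom1 (K : ℕ) (c : ℕ → ℕ → ℂ) (row : ℕ) (at' : Atom) : CLin (atom1 K c row at') := by
  intro α β f g k
  rcases at' with ⟨_ | j, code⟩
  · simp only [atom1, Option.elim]; ring
  · simp only [atom1, Option.elim]; ring

theorem along_along (c : ℕ) (T T' : (ℕ → ℂ) → ℕ → ℂ) (F : (ℕ → ℕ) → ℂ) :
    along c T (along c T' F) = along c (fun f => T (T' f)) F := by
  funext y
  simp only [along, update_idem, update_self]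

theorem Tens_along {c : ℕ} {T : (ℕ → ℂ) → ℕ → ℂ} (hT : CLin T) (α β : ℂ)
    {πs : List ((ℕ → ℕ) → ℕ → ℕ)}
    (h : ∀ π ∈ πs, ∀ y, π y c = y c ∧ ∀ x, π (update y c x) = update (π y) c x)
    (F : (ℕ → ℕ) → ℂ) : Tens α β πs (along c T F) = along c T (Tens α β πs F) := by
  induction πs with
  | nil => rfl
  | cons π πs ih =>
    funext y
    have hπ := h π (List.mem_cons_self ..) y
    rw [Tens_cons, ih fun ρ hρ => h ρ (List.mem_cons_of_mem _ hρ)]
    simp only [along, Tens_cons, hπ.1, hπ.2]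
    rw [hT]

theorem Cten_along {T : (ℕ → ℂ) → ℕ → ℂ} (hT : CLin T) (α β : ℂ) (j d : ℕ) (F : (ℕ → ℕ) → ℂ) :
    Cten α β j 2 d (along (2 + d) T F) = along (2 + d) T (Cten α β j 2 d F) := by
  refine Tens_along hT α β (fun π hπ y => ?_) F
  obtain ⟨g, hg, rfl⟩ := List.mem_map.1 hπ
  have hne : 2 + d ≠ 2 + g := by have := List.mem_range.1 hg; omega
  refine ⟨by rw [flp_single, update_of_ne hne], fun x => ?_⟩
  rw [flp_single, flp_single, update_of_ne hne.symm, update_comm hne]

theorem cm_prod_update (c : ℕ → ℕ → ℕ → ℂ) (code d : ℕ) (y : ℕ → ℕ) (x : ℕ) :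
    ∏ i ∈ Finset.range d, c i code (update y (2 + d) x (2 + i)) =
      ∏ i ∈ Finset.range d, c i code (y (2 + i)) :=
  Finset.prod_congr rfl fun i hi => by
    rw [update_of_ne (by have := Finset.mem_range.1 hi; omega)]

theorem atomD_along {T : (ℕ → ℂ) → ℕ → ℂ} (hT : CLin T) (K d : ℕ) (c : ℕ → ℕ → ℕ → ℂ) (row : ℕ)
    (at' : Atom) (F : (ℕ → ℕ) → ℂ) :
    along (2 + d) T (atomD K d c row at' F) = atomD K d c row at' (along (2 + d) T F) := by
  have hT1 : ∀ (α : ℂ) (f : ℕ → ℂ) (k : ℕ), T (fun x => α * f x) k = α * T f k := by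
    intro α f k
    simpa using hT α 0 f f k
  funext y
  rcases at' with ⟨_ | j, code⟩
  · simp only [along, atomD, Option.elim, cm_prod_update, hT1]
  · simp only [atomD, Option.elim, Cten_along hT]
    simp only [along, atomD, Option.elim, cm_prod_update, hT1]

theorem atomD_succ (K d : ℕ) (c : ℕ → ℕ → ℕ → ℂ) (row : ℕ) (at' : Atom) (F : (ℕ → ℕ) → ℂ) :
    atomD K (d + 1) c row at' F =
      along (2 + d) (atom1 K (c d) row at') (atomD K d c row at' F) := by
  funext y
  rcases at' with ⟨_ | j, code⟩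
  · simp only [along, atomD, atom1, Option.elim, update_eq_self, Finset.prod_range_succ]
    ring
  · simp only [along, atomD, atom1, Option.elim, update_eq_self, Finset.prod_range_succ, Cten_add,
      Cten_one, cm_prod_update]
    ring

theorem runP_eq_foldl {G : Type} (step : ℕ → Atom → G → G) (prog : FProg) (f : G) :
    runP step prog f = (prog.flatMap fun ph => ph.2.map fun a => (ph.1, a)).foldl
      (fun f p => step p.1 p.2 f) f := by
  unfold runP
  induction prog generalizing f with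
  | nil => rfl
  | cons ph prog ih =>
    rw [List.foldl_cons, List.flatMap_cons, List.foldl_append, List.foldl_map, ih]

theorem cm_foldl_comm {G P : Type} (a : G → G) (b : P → G → G) (h : ∀ p f, a (b p f) = b p (a f))
    (l : List P) (f : G) : l.foldl (fun f p => b p f) (a f) = a (l.foldl (fun f p => b p f) f) := by
  induction l generalizing f with
  | nil => rfl
  | cons p l ih => rw [List.foldl_cons, List.foldl_cons, ← h, ih]

theorem cm_foldl_split {G P : Type} (a b : P → G → G) (h : ∀ p q f, a p (b q f) = b q (a p f))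
    (l : List P) (f : G) : l.foldl (fun f p => a p (b p f)) f =
      l.foldl (fun f p => a p f) (l.foldl (fun f p => b p f) f) := by
  induction l generalizing f with
  | nil => rfl
  | cons p l ih =>
    rw [List.foldl_cons, List.foldl_cons, List.foldl_cons, ih, cm_foldl_comm (a p) b (h p)]

theorem cm_foldl_along {P : Type} (c : ℕ) (a : P → (ℕ → ℂ) → ℕ → ℂ) (l : List P)
    (F : (ℕ → ℕ) → ℂ) : l.foldl (fun F p => along c (a p) F) F =
      along c (fun f => l.foldl (fun f p => a p f) f) F := by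
  induction l generalizing F with
  | nil => funext y; simp [along]
  | cons p l ih => rw [List.foldl_cons, ih, along_along]; rfl

theorem runD_succ (K d : ℕ) (c : ℕ → ℕ → ℕ → ℂ) (prog : FProg) (F : (ℕ → ℕ) → ℂ) :
    runP (atomD K (d + 1) c) prog F =
      along (2 + d) (runP (atom1 K (c d)) prog) (runP (atomD K d c) prog F) := by
  have e : runP (atom1 K (c d)) prog = fun f => (prog.flatMap fun ph => ph.2.map fun a =>
      (ph.1, a)).foldl (fun f p => atom1 K (c d) p.1 p.2 f) f := funext (runP_eq_foldl _ _)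
  rw [e, runP_eq_foldl, runP_eq_foldl, ← cm_foldl_along,
    ← cm_foldl_split (fun (p : ℕ × Atom) F => along (2 + d) (atom1 K (c d) p.1 p.2) F)
      (fun p F => atomD K d c p.1 p.2 F)
      (fun p q F => atomD_along (cLin_atom1 _ _ _ _) _ _ _ _ _ _)]
  simp only [atomD_succ]

theorem runD_zero (K : ℕ) (c : ℕ → ℕ → ℕ → ℂ) (prog : FProg) (F : (ℕ → ℕ) → ℂ) :
    runP (atomD K 0 c) prog F = F := by
  have h : ∀ (p : ℕ × Atom) (F : (ℕ → ℕ) → ℂ), atomD K 0 c p.1 p.2 F = F := by
    rintro ⟨row, _ | j, code⟩ F <;> funext y <;> simp [atomD, Cten]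
  rw [runP_eq_foldl]
  simp only [h]
  induction (prog.flatMap fun ph => ph.2.map fun a => (ph.1, a)) with
  | nil => rfl
  | cons p l ih => exact ih

/-- Running a program in all dimensions at once gives the tensor product.  Recipe: let
`along c T F y = T (fun x => F (update y c x)) (y c)`.  `atomD` for `d + 1` is `along (2 + d)` of
`atom1` after `atomD` for `d`, and these commute; hence `runP (atomD (d + 1))` is
`along (2 + d) (runP atom1)` after `runP (atomD d)`; induction on `d`. -/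
theorem runD_spec {K h : ℕ} {c : ℕ → ℕ → ℕ → ℂ} {prog : FProg} (h0 : 0 < h)
    (hs : ∀ i < d, Spec1 h (s i) inv (runP (atom1 K (c i)) prog)) (F : (ℕ → ℕ) → ℂ) {y : ℕ → ℕ}
    (hy : ∀ i < d, y (2 + i) % h < s i) :
    runP (atomD K d c) prog F y =
      dftD inv s d (fun u => F (embL h d s y u)) fun c => y c % h := by
  induction d generalizing y with
  | zero =>
    rw [runD_zero, dftD_zero]
    congr 1
    funext c
    simp only [embL]
    rw [if_neg (by omega)]
  | succ d ih =>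
    rw [runD_succ, dftD_succ, along]
    have e := hs d (Nat.lt_succ_self d) (fun x => runP (atomD K d c) prog F (update y (2 + d) x))
      (y (2 + d) % h) (y (2 + d) / h) (hy d (Nat.lt_succ_self d))
    rw [Nat.mod_add_div] at e
    rw [e]
    refine Finset.sum_congr rfl fun j _ => ?_
    congr 1
    rw [ih (fun i hi => hs i (by omega))
      (fun i hi => by rw [update_of_ne (by omega)]; exact hy i (by omega))]
    refine dftD_congr (fun i hi => ?_) fun J _ => ?_
    · rw [update_of_ne (by omega), update_of_ne (by omega)]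
    · congr 1
      funext c'
      simp only [embL]
      by_cases h1 : 2 ≤ c' ∧ c' < 2 + d
      · obtain ⟨i, rfl⟩ : ∃ i : Fin d, c' = 2 + i := ⟨⟨c' - 2, by omega⟩, by simp only; omega⟩
        rw [if_pos h1, if_pos (show 2 ≤ 2 + (i : ℕ) ∧ 2 + (i : ℕ) < 2 + (d + 1) by omega), mrg_in,
          mrg_in, update_of_ne (by omega)]
      · by_cases h2 : c' = 2 + d
        · subst h2
          rw [if_neg h1, if_pos (show 2 ≤ 2 + d ∧ 2 + d < 2 + (d + 1) by omega), update_self,
            mrg_out _ _ (by omega), update_self, Nat.add_sub_cancel_left]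
        · rw [if_neg h1, if_neg (show ¬ (2 ≤ c' ∧ c' < 2 + (d + 1)) by omega), update_of_ne h2]

theorem cm_modEq (hco : ∀ i < d, ∀ j < d, i ≠ j → (s i).Coprime (s j)) {a b : ℕ} :
    (∀ i < d, a ≡ b [MOD s i]) ↔ a ≡ b [MOD wt s d] := by
  induction d with
  | zero => simp [Nat.modEq_one]
  | succ d ih =>
    have hc : (wt s d).Coprime (s d) :=
      Nat.Coprime.prod_left fun i hi => by
        have := Finset.mem_range.1 hi
        exact hco i (by omega) d (by omega) (by omega)
    rw [wt_succ, ← Nat.modEq_and_modEq_iff_modEq_mul hc,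
      ← ih fun i hi j hj => hco i (by omega) j (by omega)]
    exact ⟨fun h => ⟨fun i hi => h i (by omega), h d (by omega)⟩, fun h i hi => by
      rcases Nat.lt_succ_iff_lt_or_eq.1 hi with hi | rfl
      · exact h.1 i hi
      · exact h.2⟩

theorem cm_modEq_nu {ν : ℕ → ℕ} (hco : ∀ i < d, ∀ j < d, i ≠ j → (s i).Coprime (s j))
    (hν : ∀ i < d, (ν i).Coprime (s i)) {a b : ℕ} :
    (∀ i < d, ν i * a ≡ ν i * b [MOD s i]) ↔ a ≡ b [MOD wt s d] := by
  rw [← cm_modEq hco]
  exact ⟨fun h i hi => Nat.ModEq.cancel_left_of_coprime (hν i hi).symm (h i hi),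
    fun h i hi => (h i hi).mul_left _⟩

theorem cm_bijOn {ν : ℕ → ℕ} (hs : ∀ i < d, 1 ≤ s i)
    (hco : ∀ i < d, ∀ j < d, i ≠ j → (s i).Coprime (s j)) (hν : ∀ i < d, (ν i).Coprime (s i)) :
    Set.BijOn (fun (I : ℕ) (i : Fin d) => ν i * I % s i) (Finset.range (wt s d) : Set ℕ)
      (Fintype.piFinset fun i : Fin d => Finset.range (s i) : Finset (Fin d → ℕ)) := by
  have h1 : Set.MapsTo (fun (I : ℕ) (i : Fin d) => ν i * I % s i) (Finset.range (wt s d) : Set ℕ)
      (Fintype.piFinset fun i : Fin d => Finset.range (s i) : Finset (Fin d → ℕ)) :=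
    fun I _ => Finset.mem_coe.2 (Fintype.mem_piFinset.2 fun i =>
      Finset.mem_range.2 (Nat.mod_lt _ (hs i i.2)))
  have h2 : Set.InjOn (fun (I : ℕ) (i : Fin d) => ν i * I % s i)
      (Finset.range (wt s d) : Set ℕ) := by
    intro I hI I' hI' e
    have := (cm_modEq_nu hco hν).1 fun i hi => congrFun e ⟨i, hi⟩
    exact Nat.ModEq.eq_of_lt_of_lt this (Finset.mem_range.1 hI) (Finset.mem_range.1 hI')
  exact ⟨h1, h2, Finset.surjOn_of_injOn_of_card_le _ h1 h2 (by rw [cm_card, Finset.card_range])⟩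

theorem cm_sum_ker {s : ℕ} (hs : 1 ≤ s) (a a1 a2 : ℕ) :
    ∑ j ∈ Finset.range s, ker true s j a * (ker false s a1 j * ker false s a2 j) =
      if a1 + a2 ≡ a [MOD s] then 1 else 0 := by
  have hs0 : (s : ℂ) ≠ 0 := Nat.cast_ne_zero.2 (by omega)
  have h1 : ∀ j ∈ Finset.range s, ker true s j a * (ker false s a1 j * ker false s a2 j) =
      (s : ℂ)⁻¹ * ee (((j : ℤ) * ((a1 : ℤ) + a2 - a) : ℤ) / s) := by
    intro j _
    have : (((j : ℤ) * ((a1 : ℤ) + a2 - a) : ℤ) : ℚ) / s =
        -((j * a : ℕ) : ℚ) / s + (((a1 * j : ℕ) : ℚ) / s + ((a2 * j : ℕ) : ℚ) / s) := by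
      push_cast; ring
    rw [this, ee_add, ee_add]
    simp only [ker, if_true, Bool.false_eq_true, if_false]
    ring
  rw [Finset.sum_congr rfl h1, ← Finset.mul_sum, sum_ee (by omega)]
  have h2 : (s : ℤ) ∣ (a1 : ℤ) + a2 - a ↔ a1 + a2 ≡ a [MOD s] := by
    rw [Nat.ModEq.comm, Nat.modEq_iff_dvd]
    push_cast
    rfl
  simp only [h2]
  split_ifs
  · exact inv_mul_cancel₀ hs0
  · exact mul_zero _

theorem cm_dft_crt {ν : ℕ → ℕ} (hs : ∀ i < d, 1 ≤ s i)
    (hco : ∀ i < d, ∀ j < d, i ≠ j → (s i).Coprime (s j)) (hν : ∀ i < d, (ν i).Coprime (s i))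
    {Zh : ℕ} {A : ℕ → ℕ → ℂ} {f : (ℕ → ℕ) → ℂ}
    (hf : ∀ u, ∀ I < wt s d, (∀ i < d, u (2 + i) = ν i * I % s i) → u 1 < Zh → f u = A (u 1) I)
    (v : ℕ → ℕ) (J : Fin d → ℕ) {z : ℕ} (hz : z < Zh) :
    dftD false s d f (update (mrg v J) 1 z) = ∑ I ∈ Finset.range (wt s d),
      (∏ i : Fin d, ker false (s i) (ν i * I % s i) (J i)) * A z I := by
  have hb := cm_bijOn hs hco hν
  unfold dftD
  symm
  refine Finset.sum_nbij (fun (I : ℕ) (i : Fin d) => ν i * I % s i) (fun I hI => hb.1 hI) hb.2.1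
    hb.2.2 fun I hI => ?_
  have h1 : mrg (update (mrg v J) 1 z) (fun i : Fin d => ν i * I % s i) 1 = z := by
    rw [mrg_out _ _ (by omega), update_self]
  rw [hf _ I (Finset.mem_range.1 hI) (fun i hi => mrg_in _ _ ⟨i, hi⟩) (by rwa [h1]), h1]
  congr 1
  refine Finset.prod_congr rfl fun i _ => ?_
  rw [update_of_ne (by omega), mrg_in]

/-- The convolution theorem after the Chinese remainder reindexing.  Recipe:
`I ↦ (ν i * I % s i)` is a bijection from `range (wt s d)` onto the index set of `dftD`;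
`sum_ee`. -/
theorem conv_math {ν : ℕ → ℕ} (hs : ∀ i < d, 1 ≤ s i)
    (hco : ∀ i < d, ∀ j < d, i ≠ j → (s i).Coprime (s j)) (hν : ∀ i < d, (ν i).Coprime (s i))
    (Zh : ℕ) (A B : ℕ → ℕ → ℂ) (f g : (ℕ → ℕ) → ℂ)
    (hf : ∀ u, ∀ I < wt s d, (∀ i < d, u (2 + i) = ν i * I % s i) → u 1 < Zh → f u = A (u 1) I)
    (hg : ∀ u, ∀ I < wt s d, (∀ i < d, u (2 + i) = ν i * I % s i) → u 1 < Zh → g u = B (u 1) I)
    {I : ℕ} (hI : I < wt s d) (hv : ∀ i < d, v (2 + i) = ν i * I % s i) :
    dftD true s d (fun u => ∑ z1 ∈ Finset.range Zh, ∑ z2 ∈ Finset.range Zh, if z1 + z2 = u 1 then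
      dftD false s d f (update u 1 z1) * dftD false s d g (update u 1 z2) else 0) v =
    ∑ z1 ∈ Finset.range Zh, ∑ z2 ∈ Finset.range Zh, ∑ I1 ∈ Finset.range (wt s d),
      ∑ I2 ∈ Finset.range (wt s d),
        if z1 + z2 = v 1 ∧ (I1 + I2) % wt s d = I then A z1 I1 * B z2 I2 else 0 := by
  have key : ∀ I1 I2 : ℕ, ∑ J ∈ Fintype.piFinset fun i : Fin d => Finset.range (s i),
      (∏ i : Fin d, ker true (s i) (J i) (v (2 + i))) *
        ((∏ i : Fin d, ker false (s i) (ν i * I1 % s i) (J i)) *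
          ∏ i : Fin d, ker false (s i) (ν i * I2 % s i) (J i)) =
      if (I1 + I2) % wt s d = I then 1 else 0 := by
    intro I1 I2
    simp only [← Finset.prod_mul_distrib]
    rw [← Finset.prod_univ_sum (fun i : Fin d => Finset.range (s i)) fun i j =>
      ker true (s i) j (v (2 + i)) *
        (ker false (s i) (ν i * I1 % s i) j * ker false (s i) (ν i * I2 % s i) j)]
    rw [Finset.prod_congr rfl fun (i : Fin d) _ => cm_sum_ker (hs i i.2) _ _ _, Fintype.prod_boole]
    refine ite_congr (propext ?_) (fun _ => rfl) fun _ => rfl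
    have e : (I1 + I2) % wt s d = I ↔ I1 + I2 ≡ I [MOD wt s d] := by
      rw [Nat.ModEq, Nat.mod_eq_of_lt hI]
    rw [e, ← cm_modEq_nu hco hν]
    have e' : ∀ i < d, (ν i * I1 % s i + ν i * I2 % s i ≡ v (2 + i) [MOD s i] ↔
        ν i * (I1 + I2) ≡ ν i * I [MOD s i]) := by
      intro i hi
      rw [hv i hi, Nat.ModEq, Nat.ModEq, mul_add, ← Nat.add_mod, Nat.mod_mod]
    exact ⟨fun h i hi => (e' i hi).1 (h ⟨i, hi⟩), fun h i => (e' i i.2).2 (h i i.2)⟩
  rw [dftD]
  have h1 : ∀ J : Fin d → ℕ, mrg v J 1 = v 1 := fun J => mrg_out v J (by omega)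
  simp only [h1, Finset.mul_sum]
  rw [Finset.sum_comm]
  refine Finset.sum_congr rfl fun z1 hz1 => ?_
  rw [Finset.sum_comm]
  refine Finset.sum_congr rfl fun z2 hz2 => ?_
  by_cases hz : z1 + z2 = v 1
  · simp only [hz, if_true, true_and, cm_dft_crt hs hco hν hf v _ (Finset.mem_range.1 hz1),
      cm_dft_crt hs hco hν hg v _ (Finset.mem_range.1 hz2), Finset.sum_mul_sum]
    simp only [Finset.mul_sum]
    rw [Finset.sum_comm]
    refine Finset.sum_congr rfl fun I1 _ => ?_
    rw [Finset.sum_comm]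
    refine Finset.sum_congr rfl fun I2 _ => ?_
    rw [← boole_mul, ← key I1 I2, Finset.sum_mul]
    exact Finset.sum_congr rfl fun J _ => by ring
  · simp [hz]

/-- Every address with digits below `s i` comes from an index. -/
theorem exists_crt {ν : ℕ → ℕ} (hs : ∀ i < d, 1 ≤ s i)
    (hco : ∀ i < d, ∀ j < d, i ≠ j → (s i).Coprime (s j)) (hν : ∀ i < d, (ν i).Coprime (s i))
    (hv : InS s d v) : ∃ I < wt s d, ∀ i < d, v (2 + i) = ν i * I % s i := by
  obtain ⟨I, hI, e⟩ := (cm_bijOn hs hco hν).2.2 (show (fun i : Fin d => v (2 + i)) ∈ _ from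
    Finset.mem_coe.2 (Fintype.mem_piFinset.2 fun i => Finset.mem_range.2 (hv i i.2)))
  exact ⟨I, Finset.mem_range.1 hI, fun i hi => (congrFun e ⟨i, hi⟩).symm⟩

end Crest.Agent.R326
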