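/-
R326/Digits: little-endian mixed radix addresses.  Author: helper92.
-/
import Mathlib

set_option autoImplicit false

namespace Crest.Agent.R326

open Function

/-- Weight of field `n`: the product of the radices below it. -/
def wt (r : ℕ → ℕ) (n : ℕ) : ℕ := ∏ i ∈ Finset.range n, r i

/-- The address with digits `v 0, …, v (n - 1)`. -/
def pos (r v : ℕ → ℕ) (n : ℕ) : ℕ := ∑ i ∈ Finset.range n, wt r i * v i

/-- Shift a sequence. -/
def sh (i : ℕ) (r : ℕ → ℕ) : ℕ → ℕ := fun k => r (i + k)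

/-- Radix of the super-field made of the fields `i, …, i + len - 1`. -/
def rwt (r : ℕ → ℕ) (i len : ℕ) : ℕ := wt (sh i r) len

/-- Value of the super-field made of the fields `i, …, i + len - 1`. -/
def rg (r v : ℕ → ℕ) (i len : ℕ) : ℕ := pos (sh i r) (sh i v) len

/-- The digits are in range. -/
def Val (r : ℕ → ℕ) (n : ℕ) (v : ℕ → ℕ) : Prop := ∀ i < n, v i < r i

/-- Digit `i` of the address `j`. -/
def dig (r : ℕ → ℕ) (j i : ℕ) : ℕ := j / wt r i % r i

variable {r r' v w : ℕ → ℕ} {n i j len : ℕ}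

@[simp] theorem sh_apply (i : ℕ) (r : ℕ → ℕ) (k : ℕ) : sh i r k = r (i + k) := rfl
@[simp] theorem sh_zero (r : ℕ → ℕ) : sh 0 r = r := by funext k; simp
theorem sh_sh (i j : ℕ) (r : ℕ → ℕ) : sh j (sh i r) = sh (i + j) r := by
  funext k; simp [add_assoc]

@[simp] theorem wt_zero (r : ℕ → ℕ) : wt r 0 = 1 := rfl
theorem wt_succ (r : ℕ → ℕ) (n : ℕ) : wt r (n + 1) = wt r n * r n := Finset.prod_range_succ _ _
@[simp] theorem wt_one (r : ℕ → ℕ) : wt r 1 = r 0 := by simp [wt_succ]
theorem wt_add (r : ℕ → ℕ) (i len : ℕ) : wt r (i + len) = wt r i * rwt r i len :=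
  Finset.prod_range_add _ _ _
@[simp] theorem pos_zero (r v : ℕ → ℕ) : pos r v 0 = 0 := rfl
theorem pos_succ (r v : ℕ → ℕ) (n : ℕ) : pos r v (n + 1) = pos r v n + wt r n * v n :=
  Finset.sum_range_succ _ _
@[simp] theorem pos_one (r v : ℕ → ℕ) : pos r v 1 = v 0 := by simp [pos_succ]
@[simp] theorem rwt_zero (r : ℕ → ℕ) (i : ℕ) : rwt r i 0 = 1 := rfl
@[simp] theorem rg_zero (r v : ℕ → ℕ) (i : ℕ) : rg r v i 0 = 0 := rfl
@[simp] theorem rwt_one (r : ℕ → ℕ) (i : ℕ) : rwt r i 1 = r i := by simp [rwt]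
@[simp] theorem rg_one (r v : ℕ → ℕ) (i : ℕ) : rg r v i 1 = v i := by simp [rg]
@[simp] theorem rwt_start (r : ℕ → ℕ) (n : ℕ) : rwt r 0 n = wt r n := by simp [rwt]
@[simp] theorem rg_start (r v : ℕ → ℕ) (n : ℕ) : rg r v 0 n = pos r v n := by simp [rg]
theorem rwt_succ (r : ℕ → ℕ) (i len : ℕ) : rwt r i (len + 1) = rwt r i len * r (i + len) := wt_succ _ _
theorem rg_succ (r v : ℕ → ℕ) (i len : ℕ) :
    rg r v i (len + 1) = rg r v i len + rwt r i len * v (i + len) := pos_succ _ _ _

theorem pos_add (r v : ℕ → ℕ) (i len : ℕ) :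
    pos r v (i + len) = pos r v i + wt r i * rg r v i len := by
  induction len with
  | zero => simp
  | succ len ih => rw [← add_assoc, pos_succ, ih, rg_succ, wt_add]; ring

theorem rwt_add (r : ℕ → ℕ) (i a b : ℕ) : rwt r i (a + b) = rwt r i a * rwt r (i + a) b := by
  simp only [rwt, wt_add, sh_sh]

theorem rg_add (r v : ℕ → ℕ) (i a b : ℕ) :
    rg r v i (a + b) = rg r v i a + rwt r i a * rg r v (i + a) b := by
  simp only [rg, rwt, pos_add, sh_sh]

theorem wt_congr (h : ∀ k < n, r k = r' k) : wt r n = wt r' n :=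
  Finset.prod_congr rfl fun k hk => h k (Finset.mem_range.mp hk)

theorem pos_congr (h : ∀ k < n, r k = r' k) (h' : ∀ k < n, v k = w k) : pos r v n = pos r' w n :=
  Finset.sum_congr rfl fun k hk => by
    have hk' := Finset.mem_range.mp hk
    rw [h' k hk', wt_congr fun l hl => h l (hl.trans hk')]

theorem rwt_congr (h : ∀ k < len, r (i + k) = r' (j + k)) : rwt r i len = rwt r' j len := wt_congr h

theorem rg_congr (h : ∀ k < len, r (i + k) = r' (j + k)) (h' : ∀ k < len, v (i + k) = w (j + k)) :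
    rg r v i len = rg r' w j len := pos_congr h h'

theorem wt_pos (h : ∀ k < n, 0 < r k) : 0 < wt r n :=
  Finset.prod_pos fun k hk => h k (Finset.mem_range.mp hk)

theorem rwt_pos (h : ∀ k < len, 0 < r (i + k)) : 0 < rwt r i len := wt_pos h

theorem Val.mono (h : Val r n v) {m : ℕ} (hm : m ≤ n) : Val r m v := fun k hk => h k (by omega)

theorem Val.sh (h : Val r n v) (hi : i + len ≤ n) : Val (sh i r) len (sh i v) :=
  fun k hk => h (i + k) (by omega)

theorem Val.pos_lt (h : Val r n v) : pos r v n < wt r n := by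
  induction n with
  | zero => simp
  | succ n ih =>
    have h1 := ih (h.mono (Nat.le_succ n))
    have h2 := h n (Nat.lt_succ_self n)
    rw [pos_succ, wt_succ]
    nlinarith

theorem Val.rg_lt (h : Val r n v) (hi : i + len ≤ n) : rg r v i len < rwt r i len :=
  (h.sh hi).pos_lt

theorem Val.update (h : Val r n v) {x : ℕ} (hx : x < r i) : Val r n (update v i x) := by
  intro k hk
  by_cases e : k = i
  · subst e; simpa using hx
  · rw [update_of_ne e]; exact h k hk

/-- Three-part decomposition of an address around a super-field. -/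
theorem pos_split (r v : ℕ → ℕ) (hi : i + len ≤ n) :
    pos r v n = pos r v i + wt r i * (rg r v i len +
      rwt r i len * rg r v (i + len) (n - (i + len))) := by
  obtain ⟨c, rfl⟩ := Nat.exists_eq_add_of_le hi
  rw [add_assoc, pos_add, rg_add, ← add_assoc, Nat.add_sub_cancel_left]

theorem wt_split (r : ℕ → ℕ) (hi : i + len ≤ n) :
    wt r n = wt r i * (rwt r i len * rwt r (i + len) (n - (i + len))) := by
  obtain ⟨c, rfl⟩ := Nat.exists_eq_add_of_le hi
  rw [add_assoc, wt_add, rwt_add, ← add_assoc, Nat.add_sub_cancel_left]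

theorem wt_dvd (r : ℕ → ℕ) (h : i ≤ n) : wt r i ∣ wt r n := by
  obtain ⟨c, rfl⟩ := Nat.exists_eq_add_of_le h
  exact ⟨_, wt_add _ _ _⟩

theorem dig_lt (j : ℕ) (h : 0 < r i) : dig r j i < r i := Nat.mod_lt _ h

theorem val_dig (j : ℕ) (h : ∀ k < n, 0 < r k) : Val r n (dig r j) := fun k hk => dig_lt j (h k hk)

theorem pos_dig (r : ℕ → ℕ) (j n : ℕ) : pos r (dig r j) n = j % wt r n := by
  induction n with
  | zero => simp [Nat.mod_one]
  | succ n ih => rw [pos_succ, ih, wt_succ, Nat.mod_mul, dig]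

theorem Val.pos_div (h : Val r n v) (hi : i ≤ n) : pos r v n / wt r i = rg r v i (n - i) := by
  obtain ⟨c, rfl⟩ := Nat.exists_eq_add_of_le hi
  have h1 := (h.mono (Nat.le_add_right i c)).pos_lt
  rw [pos_add, Nat.add_sub_cancel_left, Nat.add_mul_div_left _ _ (by omega), Nat.div_eq_of_lt h1,
    zero_add]

theorem Val.pos_mod (h : Val r n v) (hi : i ≤ n) : pos r v n % wt r i = pos r v i := by
  obtain ⟨c, rfl⟩ := Nat.exists_eq_add_of_le hi
  have h1 := (h.mono (Nat.le_add_right i c)).pos_lt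
  rw [pos_add, Nat.add_mul_mod_self_left, Nat.mod_eq_of_lt h1]

theorem Val.dig_pos (h : Val r n v) (hi : i < n) : dig r (pos r v n) i = v i := by
  rw [dig, h.pos_div hi.le]
  obtain ⟨c, hc⟩ : ∃ c, n - i = 1 + c := ⟨n - i - 1, by omega⟩
  rw [hc, rg_add, rg_one, rwt_one, Nat.add_mul_mod_self_left, Nat.mod_eq_of_lt (h i hi)]

theorem Val.eq_of_pos_eq (h : Val r n v) (h' : Val r n w) (e : pos r v n = pos r w n) :
    ∀ k < n, v k = w k := fun k hk => by rw [← h.dig_pos hk, e, h'.dig_pos hk]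

theorem exists_val_pos (h : ∀ k < n, 0 < r k) (hj : j < wt r n) : ∃ v, Val r n v ∧ pos r v n = j :=
  ⟨dig r j, val_dig j h, by rw [pos_dig, Nat.mod_eq_of_lt hj]⟩

/-- Overwrite the super-field `i, …, i + len - 1` by the digits of `x`. -/
def put (r v : ℕ → ℕ) (i len x : ℕ) : ℕ → ℕ :=
  fun k => if i ≤ k ∧ k < i + len then dig (sh i r) x (k - i) else v k

theorem put_out (r v : ℕ → ℕ) (x : ℕ) {k : ℕ} (hk : k < i ∨ i + len ≤ k) : put r v i len x k = v k := by
  simp only [put]; rw [if_neg (by omega)]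

theorem rg_put (r v : ℕ → ℕ) (x : ℕ) : rg r (put r v i len x) i len = x % rwt r i len := by
  rw [rwt, ← pos_dig]
  refine pos_congr (fun _ _ => rfl) fun k hk => ?_
  simp [put, hk]

theorem Val.put (h : Val r n v) (x : ℕ) : Val r n (put r v i len x) := by
  intro k hk
  simp only [R326.put]
  split_ifs with h1
  · have := dig_lt (r := R326.sh i r) (i := k - i) x (by
      have := h k hk
      simp only [sh_apply, Nat.add_sub_cancel' h1.1]; omega)
    simpa [Nat.add_sub_cancel' h1.1] using this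
  · exact h k hk

/-- Uniform radix. -/
theorem rwt_const {Q : ℕ} (h : ∀ k < len, r (i + k) = Q) : rwt r i len = Q ^ len := by
  rw [rwt, wt_congr (r := sh i r) (r' := fun _ => Q) h]
  simp [wt]

theorem rg_const {Q : ℕ} (h : ∀ k < len, r (i + k) = Q) :
    rg r v i len = ∑ k ∈ Finset.range len, Q ^ k * v (i + k) := by
  rw [rg, pos]
  refine Finset.sum_congr rfl fun k hk => ?_
  have := Finset.mem_range.mp hk
  rw [← rwt, rwt_const fun l hl => h l (by omega)]
  rfl

end Crest.Agent.R326
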