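/-
R326/Pack: cutting numbers into pieces, and adding up the coefficients of the product.
-/
import Crest.Agent.R326.Ring

set_option autoImplicit false
set_option linter.unusedSimpArgs false
set_option linter.unusedSectionVars false
set_option linter.unusedVariables false

namespace Crest.Agent.R326

open Function Crest.Agent.Lib.PolyTime

variable {α X : Type} [Enc X] {𝔅 : Bud α} {x : α → X} {Pw b q Zh N n : α → ℕ}

/-! ### Auxiliary facts -/

theorem piece_lt (b X t : ℕ) : piece b X t < 2 ^ b := Nat.mod_lt _ (Nat.two_pow_pos _)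

theorem pk_sum_range_mul {R : Type} [AddCommMonoid R] (f : ℕ → R) (A B : ℕ) :
    ∑ t ∈ Finset.range (A * B), f t = ∑ I ∈ Finset.range B, ∑ z ∈ Finset.range A, f (z + A * I) := by
  induction B with
  | zero => simp
  | succ B ih =>
    rw [mul_add, mul_one, Finset.sum_range_add, ih, Finset.sum_range_succ]
    simp only [add_comm]

theorem pk_sum_piece (b X T : ℕ) :
    ∑ t ∈ Finset.range T, piece b X t * 2 ^ (b * t) = X % 2 ^ (b * T) := by
  induction T with
  | zero => simp [Nat.mod_one]
  | succ T ih => rw [Finset.sum_range_succ, ih, mul_add, mul_one, pow_add, Nat.mod_mul, piece,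
      mul_comm (2 ^ (b * T))]

theorem pk_piece_eq_zero {b X T t : ℕ} (hX : X < 2 ^ (b * T)) (ht : T ≤ t) : piece b X t = 0 := by
  rw [piece, Nat.div_eq_of_lt (hX.trans_le (Nat.pow_le_pow_right (by norm_num)
    (Nat.mul_le_mul_left _ ht))), Nat.zero_mod]

theorem pk_testBit_piece (b X t j : ℕ) :
    (piece b X t).testBit j = (decide (j < b) && X.testBit (j + b * t)) := by
  rw [piece, Nat.testBit_mod_two_pow, Nat.testBit_div_two_pow]

theorem pk_testBit_ofBits (l : Arr) (j : ℕ) : (ofBits l).testBit j = bit l j := by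
  induction l generalizing j with
  | nil => simp
  | cons c l ih =>
    cases j with
    | zero => simp
    | succ j => rw [ofBits_cons, Nat.testBit_bit_succ, ih]; simp

theorem pk_bit_take (l : Arr) (k j : ℕ) : bit (l.take k) j = (decide (j < k) && bit l j) := by
  by_cases h : j < k <;> simp [List.getD_eq_getElem?_getD, List.getElem?_take, h]

theorem pk_bit_drop (l : Arr) (k j : ℕ) : bit (l.drop k) j = bit l (k + j) := by
  simp [List.getD_eq_getElem?_getD]

theorem pk_bit_blk (g t : ℕ) (D : Arr) (j : ℕ) :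
    bit (blk g t D) j = (decide (j < g) && bit D (j + g * t)) := by
  rw [blk, pk_bit_take, pk_bit_drop, add_comm]

theorem pk_bit_append (l m : Arr) (j : ℕ) :
    bit (l ++ m) j = if j < l.length then bit l j else bit m (j - l.length) := by
  split_ifs with h
  · simp [List.getD_eq_getElem?_getD, List.getElem?_append_left h]
  · simp [List.getD_eq_getElem?_getD, List.getElem?_append_right (not_lt.mp h)]

theorem pk_bit_zeros (k j : ℕ) : bit (List.replicate k false) j = false := by
  by_cases h : j < k <;> simp [List.getD_eq_getElem?_getD, List.getElem?_replicate, h]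

theorem pk_bit_of_le {l : Arr} {j : ℕ} (h : l.length ≤ j) : bit l j = false := by
  simp [List.getD_eq_getElem?_getD, List.getElem?_eq_none h]

theorem pk_bit_shift (k : ℕ) (l : Arr) (j : ℕ) :
    bit (List.replicate k false ++ l) j = (decide (k ≤ j) && bit l (j - k)) := by
  rw [pk_bit_append, List.length_replicate, pk_bit_zeros]
  by_cases h : j < k
  · simp [h, not_le.mpr h]
  · simp [h, not_lt.mp h]

theorem pk_ofBits_shift (k : ℕ) (l : Arr) :
    ofBits (List.replicate k false ++ l) = 2 ^ k * ofBits l :=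
  Nat.eq_of_testBit_eq fun j => by
    rw [pk_testBit_ofBits, pk_bit_shift, Nat.testBit_two_pow_mul, pk_testBit_ofBits]

theorem pk_ofBits_pad (k : ℕ) (l : Arr) : ofBits (l ++ List.replicate k false) = ofBits l :=
  Nat.eq_of_testBit_eq fun j => by
    rw [pk_testBit_ofBits, pk_testBit_ofBits, pk_bit_append, pk_bit_zeros]
    split_ifs with h
    · rfl
    · exact (pk_bit_of_le (not_lt.mp h)).symm

theorem pk_take_pad (k : ℕ) (l : Arr) :
    (l ++ List.replicate k false).take k = (List.range k).map (ofBits l).testBit := by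
  refine List.ext_getElem (by simp) fun j h1 h2 => ?_
  have hj : j < k := by simpa using h2
  have e := pk_bit_take (l ++ List.replicate k false) k j
  rw [← pk_testBit_ofBits (l ++ _), pk_ofBits_pad] at e
  simp only [bit, List.getD_eq_getElem?_getD, List.getElem?_eq_getElem h1, Option.getD_some, hj,
    decide_true, Bool.true_and] at e
  simp [e]

/-- A number from its digits. -/
theorem pk_ofBits_digits {b T : ℕ} {F : Arr} (hF : F.length = b * T) (d : ℕ → ℕ)
    (hd : ∀ t < T, d t < 2 ^ b) (h : ∀ t < T, ∀ j < b, bit F (j + b * t) = (d t).testBit j) :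
    ofBits F = ∑ t ∈ Finset.range T, d t * 2 ^ (b * t) := by
  rw [← Nat.mod_eq_of_lt (hF ▸ ofBits_lt F : ofBits F < 2 ^ (b * T)), ← pk_sum_piece]
  refine Finset.sum_congr rfl fun t ht => ?_
  have ht' := Finset.mem_range.mp ht
  congr 1
  refine Nat.eq_of_testBit_eq fun j => ?_
  rw [pk_testBit_piece, pk_testBit_ofBits]
  by_cases hj : j < b
  · simp only [hj, decide_true, Bool.true_and]
    exact h t ht' j hj
  · simp only [hj, decide_false, Bool.false_and]
    exact (Nat.testBit_lt_two_pow ((hd t ht').trans_le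
      (Nat.pow_le_pow_right (by norm_num) (not_lt.mp hj)))).symm

theorem pk_bit_flatten_replicate (R : Arr) {k t j : ℕ} (ht : t < k) (hj : j < R.length) :
    bit (List.replicate k R).flatten (j + R.length * t) = bit R j := by
  induction k generalizing t with
  | zero => omega
  | succ k ih =>
    rw [List.replicate_succ, List.flatten_cons, pk_bit_append]
    cases t with
    | zero => simp [hj]
    | succ t =>
      rw [if_neg (by rw [mul_add]; omega), ← ih (t := t) (by omega)]
      congr 1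
      rw [mul_add]; omega

theorem pk_sv_small {P : ℕ} {l : Arr} (h : ofBits l < 2 ^ (P - 1)) : sv P l = ofBits l := by
  rw [sv, if_neg (not_le.mpr h)]

theorem pk_abs_sv_lt {P : ℕ} (hP : 1 ≤ P) {l : Arr} (h : ofBits l < 2 ^ P) :
    |sv P l| < 2 ^ (P - 1) := by
  obtain ⟨k, rfl⟩ : ∃ k, P = k + 1 := ⟨P - 1, by omega⟩
  have h' : (ofBits l : ℤ) < 2 ^ (k + 1) := by exact_mod_cast h
  have h0 : (0 : ℤ) < 2 ^ k := by positivity
  rw [sv, Nat.add_sub_cancel, abs_lt]
  rw [pow_succ] at h' ⊢
  split_ifs with h1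
  · have : (2 : ℤ) ^ k ≤ ofBits l := by exact_mod_cast h1
    constructor <;> linarith
  · have : (ofBits l : ℤ) < 2 ^ k := by exact_mod_cast not_le.mp h1
    have := (Int.natCast_nonneg (ofBits l))
    constructor <;> linarith

/-- The number `v a` has a bit list that is computed within the budget. -/
def PkNum (𝔅 : Bud α) (x : α → X) (v : α → ℕ) : Prop := ∃ E, L 𝔅 x E ∧ ∀ a, ofBits (E a) = v a

theorem PkNum.congr {v w : α → ℕ} (h : PkNum 𝔅 x v) (e : ∀ a, v a = w a) : PkNum 𝔅 x w :=
  funext e ▸ h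

theorem PkNum.add {v w : α → ℕ} (h : PkNum 𝔅 x v) (h' : PkNum 𝔅 x w) :
    PkNum 𝔅 x fun a => v a + w a := by
  obtain ⟨E, hE, e⟩ := h
  obtain ⟨E', hE', e'⟩ := h'
  obtain ⟨f, hf, hs⟩ := exists_addBits
  refine ⟨_, hf.l ((hE.append (hE'.un_length.replicate_const false)).pair
    (hE'.append (hE.un_length.replicate_const false))), fun a => ?_⟩
  rw [(hs _ _ (by simp [add_comm])).2, pk_ofBits_pad, pk_ofBits_pad, e, e']

theorem PkNum.shift {v k : α → ℕ} (h : PkNum 𝔅 x v) (hk : L 𝔅 x fun a => R326.un (k a)) :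
    PkNum 𝔅 x fun a => 2 ^ k a * v a := by
  obtain ⟨E, hE, e⟩ := h
  exact ⟨_, (hk.replicate_const false).append hE, fun a => by rw [pk_ofBits_shift, e]⟩

theorem PkNum.out {v k : α → ℕ} (h : PkNum 𝔅 x v) (hk : L 𝔅 x fun a => R326.un (k a)) :
    L 𝔅 x fun a => (List.range (k a)).map (v a).testBit := by
  obtain ⟨E, hE, e⟩ := h
  exact (L.take hk (hE.append (hk.replicate_const false))).congr fun a => by
    rw [pk_take_pad, e]

/-! ### Packing -/

/-- Recipe: `L.resp b (2 P) (Zh N)`, shift the whole array by `q` places, then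
`L.resp (2 P Zh) (2 P (2 Zh)) N`. -/
theorem L.pack {y : α → Arr} (hy : L 𝔅 x y) (hP : S 𝔅 x Pw) (hb : S 𝔅 x b) (hq : S 𝔅 x q)
    (hZ : S 𝔅 x Zh) (hN : S 𝔅 x N) (h1 : ∀ a, 1 ≤ b a) (h2 : ∀ a, q a + b a < Pw a)
    (h3 : ∀ a, 1 ≤ Zh a) (h4 : ∀ a, 1 ≤ N a) (hV : (fun a => Pw a * (Zh a * N a)) ≼ 𝔅.V) :
    ∃ D, L 𝔅 x D ∧ ∀ a, (D a).length = 2 * Pw a * (2 * Zh a * N a) ∧ ∀ z < 2 * Zh a, ∀ I < N a,
      gv (Pw a) (D a) (z + 2 * Zh a * I) = if z < Zh a then
        ((2 ^ q a * piece (b a) (ofBits (y a)) (z + Zh a * I) : ℕ) : GaussianInt) else 0 := by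
  have hb' : b ≼ 𝔅.V := hV.mono_left fun a => by
    have := Nat.mul_le_mul_left (Pw a) (Nat.mul_pos (h3 a) (h4 a))
    have := h2 a; omega
  have hq' : q ≼ 𝔅.V := hV.mono_left fun a => by
    have := Nat.mul_le_mul_left (Pw a) (Nat.mul_pos (h3 a) (h4 a))
    have := h2 a; omega
  have hP2 : S 𝔅 x fun a => 2 * Pw a := (hP.const 2).mul hP
  have hD1 : L 𝔅 x fun a => R326.resp (b a) (2 * Pw a) (Zh a * N a) (y a) :=
    L.resp hb hP2 (hZ.mul hN) hy h1 hb' ((hV.const_mul 2).mono_left fun a =>
      Nat.mul_le_mul_left _ (Nat.le_mul_of_pos_right _ (Nat.mul_pos (h3 a) (h4 a))))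
      ((hV.const_mul 2).mono_left fun a => le_of_eq (by ring))
  have hD2 := ((hq.un hq').replicate_const false).append hD1
  have hW : (fun a => 2 * Pw a * Zh a) ≼ 𝔅.V := (hV.const_mul 2).mono_left fun a => by
    have := Nat.mul_le_mul_left (2 * Pw a * Zh a) (h4 a)
    nlinarith
  have hD := L.resp (g' := fun a => 2 * Pw a * (2 * Zh a)) (hP2.mul hZ)
    (hP2.mul ((hZ.const 2).mul hZ)) hN hD2
    (fun a => Nat.mul_pos (by have := h2 a; omega) (h3 a)) hW
    ((hW.const_mul 2).mono_left fun a => le_of_eq (by ring))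
    ((hV.const_mul 4).mono_left fun a => le_of_eq (by ring))
  refine ⟨_, hD, fun a => ⟨by rw [length_resp]; ring, fun z hz I hI => ?_⟩⟩
  have g1 := h1 a
  have g2 := h2 a
  have g3 := h3 a
  generalize Pw a = P at *
  generalize b a = b at *
  generalize q a = q at *
  generalize Zh a = Zh at *
  generalize N a = N at *
  generalize y a = y
  have hbit : ∀ j < 2 * P, bit (R326.resp (2 * P * Zh) (2 * P * (2 * Zh)) N
      (List.replicate q false ++ R326.resp b (2 * P) (Zh * N) y)) (j + 2 * P * (z + 2 * Zh * I)) =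
      (decide (z < Zh) && (2 ^ q * piece b (ofBits y) (z + Zh * I)).testBit j) := fun j hj => by
    have e1 : j + 2 * P * (z + 2 * Zh * I) = (j + 2 * P * z) + 2 * P * (2 * Zh) * I := by ring
    have l1 : j + 2 * P * z < 2 * P * (2 * Zh) := by
      have := Nat.mul_le_mul_left (2 * P) (Nat.succ_le_of_lt hz)
      rw [Nat.mul_succ] at this; omega
    rw [e1, bit_resp _ _ l1 hI]
    by_cases hzZ : z < Zh
    · have l2 : j + 2 * P * z < 2 * P * Zh := by
        have := Nat.mul_le_mul_left (2 * P) (Nat.succ_le_of_lt hzZ)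
        rw [Nat.mul_succ] at this; omega
      have l3 : z + Zh * I < Zh * N := by
        have := Nat.mul_le_mul_left Zh (Nat.succ_le_of_lt hI)
        rw [Nat.mul_succ] at this; omega
      have e2 : j + 2 * P * z + 2 * P * Zh * I = j + 2 * P * (z + Zh * I) := by ring
      rw [e2, pk_bit_shift, Nat.testBit_two_pow_mul, pk_testBit_piece, pk_testBit_ofBits]
      simp only [l2, hzZ, decide_true, Bool.true_and]
      generalize z + Zh * I = t at *
      by_cases hjq : q ≤ j
      · have e3 : j + 2 * P * t - q = (j - q) + 2 * P * t := by omega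
        rw [e3, bit_resp _ _ (by omega) l3]
        simp [hjq, show q ≤ j + 2 * P * t by omega]
      · simp only [ge_iff_le, hjq, decide_false, Bool.false_and, Bool.and_eq_false_imp,
          decide_eq_true_eq]
        intro hq2
        obtain ⟨s, rfl⟩ : ∃ s, t = s + 1 := ⟨t - 1, by
          rcases Nat.eq_zero_or_pos t with h | h
          · subst h; omega
          · omega⟩
        have e3 : j + 2 * P * (s + 1) - q = (j + 2 * P - q) + 2 * P * s := by
          rw [mul_add]; omega
        rw [e3, bit_resp _ _ (by omega) (by omega)]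
        simp [show ¬ (j + 2 * P - q < b) by omega]
    · have l2 : ¬ j + 2 * P * z < 2 * P * Zh := by
        have := Nat.mul_le_mul_left (2 * P) (not_lt.mp hzZ)
        omega
      simp [l2, hzZ]
  generalize R326.resp (2 * P * Zh) (2 * P * (2 * Zh)) N _ = D at hbit
  generalize z + 2 * Zh * I = t at hbit
  split_ifs with hzZ
  · have hlt : 2 ^ q * piece b (ofBits y) (z + Zh * I) < 2 ^ (P - 1) :=
      calc _ < 2 ^ q * 2 ^ b := Nat.mul_lt_mul_of_pos_left (piece_lt _ _ _) (Nat.two_pow_pos _)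
        _ ≤ _ := by rw [← pow_add]; exact Nat.pow_le_pow_right (by norm_num) (by omega)
    generalize 2 ^ q * piece b (ofBits y) (z + Zh * I) = w at hbit hlt
    have hw : ∀ j, P ≤ j → w.testBit j = false := fun j hj =>
      Nat.testBit_lt_two_pow (hlt.trans_le (Nat.pow_le_pow_right (by norm_num) (by omega)))
    have e1 : ofBits (blk P (2 * t) D) = w := Nat.eq_of_testBit_eq fun j => by
      rw [pk_testBit_ofBits, pk_bit_blk]
      by_cases hj : j < P
      · rw [show j + P * (2 * t) = j + 2 * P * t by ring, hbit j (by omega)]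
        simp [hj, hzZ]
      · simp [hj, hw j (not_lt.mp hj)]
    have e2 : ofBits (blk P (2 * t + 1) D) = 0 := Nat.eq_of_testBit_eq fun j => by
      rw [pk_testBit_ofBits, pk_bit_blk]
      by_cases hj : j < P
      · rw [show j + P * (2 * t + 1) = (j + P) + 2 * P * t by ring, hbit _ (by omega)]
        simp [hw (j + P) (by omega)]
      · simp [hj]
    rw [gv, pk_sv_small (e1 ▸ hlt), pk_sv_small (e2 ▸ Nat.two_pow_pos _), e1, e2]
    ext <;> simp
  · exact gv_eq_zero (by omega) fun j hj => by rw [hbit j hj]; simp [hzZ]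

/-- Recipe: add `2 ^ (q - 1)` to the real parts (`L.radd` with a repeated pattern, `gv_eq`,
`ofBits_of_gv_pos`); then the bits `q, …, q + 3 b - 1` of each record are those of `c z I`.  For
`η < 2`, `e < 3` collect piece `e` of `c (z + η Zh) I` (`z < Zh`, `I < M`) into a number with
digits of `b` bits (`L.drop`, `L.resp`), shift it by `b (η Zh + e)`, pad to a common length and
add the six numbers (`exists_addBits`). -/
theorem L.unpack {D : α → Arr} {M : α → ℕ} (c : α → ℕ → ℕ → ℕ) (hD : L 𝔅 x D) (hP : S 𝔅 x Pw)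
    (hb : S 𝔅 x b) (hq : S 𝔅 x q) (hZ : S 𝔅 x Zh) (hN : S 𝔅 x N) (hM : S 𝔅 x M) (hn : S 𝔅 x n)
    (h1 : ∀ a, 1 ≤ b a) (h1' : ∀ a, 1 ≤ q a) (h2 : ∀ a, q a + 3 * b a + 1 < Pw a)
    (h3 : ∀ a, 1 ≤ Zh a) (h4 : ∀ a, 1 ≤ N a) (h5 : ∀ a, M a ≤ N a) (hV : n ≼ 𝔅.V)
    (hl : ∀ a, (D a).length = 2 * Pw a * (2 * Zh a * N a))
    (hc : ∀ a, ∀ z < 2 * Zh a, ∀ I < M a, c a z I < 2 ^ (3 * b a) ∧
      |(gv (Pw a) (D a) (z + 2 * Zh a * I)).re - 2 ^ q a * c a z I| < 2 ^ (q a - 1)) :
    L 𝔅 x fun a => (List.range (n a)).map (∑ I ∈ Finset.range (M a), ∑ z ∈ Finset.range (2 * Zh a),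
      c a z I * 2 ^ (b a * (z + Zh a * I))).testBit := by
  refine L.with_sz fun hx => ?_
  have hV1 := sz_one_le hx
  have hT : (fun a => 2 * Pw a * (2 * Zh a * N a)) ≼ 𝔅.V :=
    (length_of_sz (hD.size_le hx)).mono_left fun a => (hl a).ge
  have hW : (fun a => 2 * Pw a * (2 * Zh a)) ≼ 𝔅.V := hT.mono_left fun a =>
    Nat.mul_le_mul_left _ (Nat.le_mul_of_pos_right _ (h4 a))
  have hP2' : (fun a => 2 * Pw a) ≼ 𝔅.V := hW.mono_left fun a =>
    Nat.le_mul_of_pos_right _ (by have := h3 a; omega)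
  have hP' : Pw ≼ 𝔅.V := hP2'.mono_left fun a => by omega
  have hP2 : S 𝔅 x fun a => 2 * Pw a := (hP.const 2).mul hP
  have hZ2 : S 𝔅 x fun a => 2 * Zh a := (hZ.const 2).mul hZ
  have hcnt : (fun a => 2 * Zh a * N a) ≼ 𝔅.V := hT.mono_left fun a =>
    Nat.le_mul_of_pos_left _ (by have := h2 a; omega)
  -- the pattern
  let R : α → Arr := fun a => (List.replicate (q a - 1) false ++ [true]) ++
    List.replicate (2 * Pw a - q a) false
  have hRl : ∀ a, (R a).length = 2 * Pw a := fun a => by
    have := h1' a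
    have := h2 a
    simp only [R, List.length_append, List.length_replicate, List.length_singleton]; omega
  have hR : L 𝔅 x R :=
    ((((hq.sub (hq.const 1)).un (hP'.mono_left fun a => by have := h2 a; omega)).replicate_const
      false).append (L.const [true])).append
      (((hP2.sub hq).un (hP2'.mono_left fun a => Nat.sub_le _ _)).replicate_const false)
  have hPat : L 𝔅 x fun a => (List.replicate (2 * Zh a * N a) (R a)).flatten :=
    (L.replicate ((hZ2.mul hN).un hcnt) hR (((hT.const_mul 4).add hcnt).mono_left fun a => by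
      have := Nat.mul_le_mul_left (2 * Zh a * N a) (esize_boolList_le (R a))
      rw [hRl] at this
      refine this.trans (le_of_eq (by ring)))).flatten
  have hRb : ∀ a j, bit (R a) j = (2 ^ (q a - 1)).testBit j := fun a j => by
    rw [← pk_testBit_ofBits]
    simp only [R]
    rw [pk_ofBits_pad, pk_ofBits_shift]
    simp
  have hPv : ∀ a, ∀ t < 2 * Zh a * N a, rv (Pw a) (List.replicate (2 * Zh a * N a) (R a)).flatten t =
      rho (Pw a) ⟨2 ^ (q a - 1), 0⟩ := fun a t ht => by
    have g2 := h2 a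
    have e1 : ofBits (blk (Pw a) (2 * t) (List.replicate (2 * Zh a * N a) (R a)).flatten) =
        2 ^ (q a - 1) := Nat.eq_of_testBit_eq fun j => by
      rw [pk_testBit_ofBits, pk_bit_blk]
      by_cases hj : j < Pw a
      · rw [show j + Pw a * (2 * t) = j + (R a).length * t by rw [hRl]; ring,
          pk_bit_flatten_replicate _ ht (by rw [hRl]; omega), hRb]
        simp [hj]
      · simp [hj, Nat.testBit_two_pow, show q a - 1 ≠ j by omega]
    have e2 : ofBits (blk (Pw a) (2 * t + 1) (List.replicate (2 * Zh a * N a) (R a)).flatten) =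
        0 := Nat.eq_of_testBit_eq fun j => by
      rw [pk_testBit_ofBits, pk_bit_blk]
      by_cases hj : j < Pw a
      · rw [show j + Pw a * (2 * t + 1) = (j + Pw a) + (R a).length * t by rw [hRl]; ring,
          pk_bit_flatten_replicate _ ht (by rw [hRl]; omega), hRb]
        simp [Nat.testBit_two_pow, show q a - 1 ≠ j + Pw a by omega]
      · simp [hj]
    rw [rv, e1, e2]
    ext <;> simp
  obtain ⟨E, hE, hEv⟩ := L.radd (n := fun a => 2 * Zh a * N a) (hP.un hP')
    (fun a => by have := h2 a; omega) hD hPat hl fun a => by simp [hRl, mul_comm]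
  -- the bits of the coefficients
  have hbit : ∀ a, ∀ z < 2 * Zh a, ∀ I < M a, ∀ j < 3 * b a,
      bit (E a) (q a + j + 2 * Pw a * (z + 2 * Zh a * I)) = (c a z I).testBit j := by
    intro a z hz I hI j hj
    obtain ⟨c1, c2⟩ := hc a z hz I hI
    have g1 := h1' a
    have g2 := h2 a
    have ht : z + 2 * Zh a * I < 2 * Zh a * N a := by
      have := Nat.mul_le_mul_left (2 * Zh a) ((Nat.succ_le_of_lt hI).trans (h5 a))
      rw [Nat.mul_succ] at this; omega
    have e0 := (hEv a).2 _ ht
    simp only [hPv a _ ht] at e0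
    generalize z + 2 * Zh a * I = t at *
    generalize c a z I = w at *
    rw [← rho_gv, ← rho_gv _ (D a), ← map_add, rho_gv] at e0
    have p1 : (2 : ℤ) ^ q a = 2 * 2 ^ (q a - 1) := by
      rw [← pow_succ']; congr 1; omega
    have p2 : (2 : ℤ) ^ q a * (w + 1) ≤ 2 ^ (Pw a - 1) :=
      calc _ ≤ (2 : ℤ) ^ q a * 2 ^ (3 * b a) :=
            mul_le_mul_of_nonneg_left (by exact_mod_cast c1) (by positivity)
        _ ≤ _ := by rw [← pow_add]; exact pow_le_pow_right₀ (by norm_num) (by omega)
    have p3 : (0 : ℤ) ≤ 2 ^ q a * w := by positivity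
    have p4 : (0 : ℤ) < 2 ^ (Pw a - 1) := by positivity
    rw [abs_lt] at c2
    have e1 := gv_eq (by omega) e0.symm (by
      rw [abs_lt, Zsqrtd.re_add]; constructor <;> linarith [c2.1, c2.2]) (by
      rw [Zsqrtd.im_add, add_zero]; exact pk_abs_sv_lt (by omega) (ofBits_blk_lt _ _ _))
    have e2 := ofBits_of_gv_pos (P := Pw a) (D := E a) (t := t) (by
      rw [e1, Zsqrtd.re_add]; linarith [c2.1])
    rw [e1, Zsqrtd.re_add] at e2
    have e3 : ofBits (blk (Pw a) (2 * t) (E a)) / 2 ^ q a = w := by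
      refine Nat.div_eq_of_lt_le ?_ ?_
      · zify; rw [e2]; linarith [c2.1]
      · zify; rw [e2]; linarith [c2.2]
    rw [← e3, Nat.testBit_div_two_pow, pk_testBit_ofBits, pk_bit_blk]
    simp only [show j + q a < Pw a by omega, decide_true, Bool.true_and]
    congr 1; ring
  -- the six numbers
  have hnum : ∀ η < 2, ∀ e < 3, PkNum 𝔅 x fun a => 2 ^ (b a * (η * Zh a + e)) *
      ∑ I ∈ Finset.range (M a), ∑ z ∈ Finset.range (Zh a),
        piece (b a) (c a (η * Zh a + z) I) e * 2 ^ (b a * (z + Zh a * I)) := by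
    intro η hη e he
    have hG := L.drop (((hq.add (hb.mul (hb.const e))).add (hP2.mul ((hZ.const η).mul hZ))).un
      ((hP'.add hW).mono_left fun a => by
        have := h2 a
        have := Nat.mul_le_mul_left (b a) he.le
        have := Nat.mul_le_mul_left (2 * Pw a) (Nat.mul_le_mul_right (Zh a) hη.le)
        omega)) hE
    have hH := L.resp (hP2.mul hZ2) (hP2.mul hZ) hM hG
      (fun a => Nat.mul_pos (by have := h2 a; omega) (by have := h3 a; omega)) hW
      (hW.mono_left fun a => Nat.mul_le_mul_left _ (by omega))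
      (hT.mono_left fun a => by
        rw [mul_assoc]; exact Nat.mul_le_mul_left _ (Nat.mul_le_mul (by omega) (h5 a)))
    have hF := L.resp hP2 hb (hZ.mul hM) hH (fun a => by have := h2 a; omega) hP2'
      (hP'.mono_left fun a => by have := h2 a; omega)
      (hT.mono_left fun a => Nat.mul_le_mul (by have := h2 a; omega)
        (Nat.mul_le_mul (by omega) (h5 a)))
    refine PkNum.shift ⟨_, hF, fun a => ?_⟩ ((hb.mul (((hZ.const η).mul hZ).add (hZ.const e))).un
      ((hW.add hP').mono_left fun a => ?_))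
    · have g2 := h2 a
      have g3 := h3 a
      rw [pk_ofBits_digits (length_resp _ _ _ _)
        (fun t => piece (b a) (c a (η * Zh a + t % Zh a) (t / Zh a)) e) (fun t _ => piece_lt _ _ _),
        pk_sum_range_mul]
      · refine Finset.sum_congr rfl fun I _ => Finset.sum_congr rfl fun z hz => ?_
        have hz' := Finset.mem_range.mp hz
        rw [Nat.add_mul_mod_self_left, Nat.mod_eq_of_lt hz', Nat.add_mul_div_left _ _ (h3 a),
          Nat.div_eq_of_lt hz', zero_add]
      · intro t ht j hj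
        have k1 : t % Zh a < Zh a := Nat.mod_lt _ g3
        have k2 : t / Zh a < M a := Nat.div_lt_of_lt_mul ht
        have k3 := Nat.mod_add_div t (Zh a)
        rw [bit_resp _ _ hj ht]
        generalize t % Zh a = z at *
        generalize t / Zh a = I at *
        subst k3
        have l2 : j + 2 * Pw a * z < 2 * Pw a * Zh a := by
          have := Nat.mul_le_mul_left (2 * Pw a) (Nat.succ_le_of_lt k1)
          rw [Nat.mul_succ] at this; omega
        have l3 : j + 2 * Pw a * z < 2 * Pw a * (2 * Zh a) :=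
          l2.trans_le (Nat.mul_le_mul_left _ (by omega))
        have l4 : η * Zh a + z < 2 * Zh a := by
          have := Nat.mul_le_mul_right (Zh a) (Nat.succ_le_of_lt hη)
          rw [Nat.succ_mul] at this; omega
        have l5 : j + b a * e < 3 * b a := by
          have := Nat.mul_le_mul_left (b a) (Nat.succ_le_of_lt he)
          rw [Nat.mul_succ] at this; omega
        rw [show j + 2 * Pw a * (z + Zh a * I) = (j + 2 * Pw a * z) + 2 * Pw a * Zh a * I by ring,
          bit_resp _ _ l2 k2, pk_bit_drop, pk_testBit_piece, ← hbit a _ l4 I k2 _ l5]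
        simp only [hj, l3, show j < 2 * Pw a by omega, decide_true, Bool.true_and]
        congr 1; ring
    · have := h2 a
      have := Nat.mul_le_mul_left (b a) he.le
      have := Nat.mul_le_mul (show b a ≤ 2 * Pw a by omega) (Nat.mul_le_mul_right (Zh a) hη.le)
      rw [mul_add]; omega
  refine PkNum.out (PkNum.congr
    ((((hnum 0 (by omega) 0 (by omega)).add (hnum 0 (by omega) 1 (by omega))).add
      (hnum 0 (by omega) 2 (by omega))).add
    (((hnum 1 (by omega) 0 (by omega)).add (hnum 1 (by omega) 1 (by omega))).add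
      (hnum 1 (by omega) 2 (by omega)))) fun a => ?_) (hn.un hV)
  simp only [Finset.mul_sum, ← Finset.sum_add_distrib]
  refine Finset.sum_congr rfl fun I hI => ?_
  rw [two_mul, Finset.sum_range_add, ← Finset.sum_add_distrib]
  refine Finset.sum_congr rfl fun z hz => ?_
  have hI' := Finset.mem_range.mp hI
  have hz' := Finset.mem_range.mp hz
  have key : ∀ w, w < 2 ^ (3 * b a) → w = piece (b a) w 0 + piece (b a) w 1 * 2 ^ b a +
      piece (b a) w 2 * 2 ^ (b a * 2) := fun w hw => by
    have := pk_sum_piece (b a) w 3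
    rw [mul_comm (b a) 3, Nat.mod_eq_of_lt hw] at this
    simpa [Finset.sum_range_succ] using this.symm
  have k1 := key _ (hc a z (by omega) I hI').1
  have k2 := key _ (hc a (Zh a + z) (by omega) I hI').1
  simp only [zero_mul, zero_add, one_mul]
  conv_rhs => rw [k1, k2]
  ring

/-- The coefficients of the product. -/
def coef (b Zh M X Y z I : ℕ) : ℕ :=
  ∑ z1 ∈ Finset.range Zh, ∑ z2 ∈ Finset.range Zh, ∑ I1 ∈ Finset.range M, ∑ I2 ∈ Finset.range M,
    if z1 + z2 = z ∧ (I1 + I2) % M = I then piece b X (z1 + Zh * I1) * piece b Y (z2 + Zh * I2) else 0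

theorem coef_lt {b Zh M : ℕ} (X Y z I : ℕ) (h : Zh * M ≤ 2 ^ b) : coef b Zh M X Y z I < 2 ^ (3 * b) := by
  have hA : ∀ z1, ∑ z2 ∈ Finset.range Zh, (if z1 + z2 = z then 1 else 0) ≤ 1 := fun z1 => by
    rw [Finset.sum_boole, Nat.cast_id, Finset.card_le_one]
    intro u hu v hv
    simp only [Finset.mem_filter] at hu hv
    omega
  have hB : ∀ I1, ∑ I2 ∈ Finset.range M, (if (I1 + I2) % M = I then 1 else 0) ≤ 1 := fun I1 => by
    rw [Finset.sum_boole, Nat.cast_id, Finset.card_le_one]
    intro u hu v hv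
    simp only [Finset.mem_filter, Finset.mem_range] at hu hv
    have e : I1 + u ≡ I1 + v [MOD M] := hu.2.trans hv.2.symm
    exact (Nat.ModEq.add_left_cancel' I1 e).eq_of_lt_of_lt hu.1 hv.1
  have hp := Nat.two_pow_pos b
  have key : coef b Zh M X Y z I ≤ Zh * M * ((2 ^ b - 1) * (2 ^ b - 1)) := by
    calc coef b Zh M X Y z I ≤ ∑ z1 ∈ Finset.range Zh, ∑ z2 ∈ Finset.range Zh,
          ∑ I1 ∈ Finset.range M, ∑ I2 ∈ Finset.range M, (if z1 + z2 = z then 1 else 0) *
            (((2 ^ b - 1) * (2 ^ b - 1)) * (if (I1 + I2) % M = I then 1 else 0)) := by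
          unfold coef
          gcongr with z1 _ z2 _ I1 _ I2 _
          by_cases h1 : z1 + z2 = z <;> by_cases h2 : (I1 + I2) % M = I <;> simp [h1, h2]
          exact Nat.mul_le_mul (Nat.le_sub_one_of_lt (piece_lt _ _ _))
            (Nat.le_sub_one_of_lt (piece_lt _ _ _))
      _ ≤ ∑ z1 ∈ Finset.range Zh, ∑ z2 ∈ Finset.range Zh, (if z1 + z2 = z then 1 else 0) *
            (M * ((2 ^ b - 1) * (2 ^ b - 1))) := by
          refine Finset.sum_le_sum fun z1 _ => Finset.sum_le_sum fun z2 _ => ?_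
          simp only [← Finset.mul_sum]
          rw [mul_comm M]
          refine Nat.mul_le_mul_left _ (Nat.mul_le_mul_left _ ?_)
          exact (Finset.sum_le_card_nsmul _ _ 1 fun I1 _ => hB I1).trans (by simp)
      _ ≤ _ := by
          simp only [← Finset.sum_mul]
          rw [mul_assoc]
          gcongr
          exact (Finset.sum_le_card_nsmul _ _ 1 fun z1 _ => hA z1).trans (by simp)
  refine key.trans_lt ?_
  calc Zh * M * ((2 ^ b - 1) * (2 ^ b - 1)) ≤ 2 ^ b * ((2 ^ b - 1) * (2 ^ b - 1)) :=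
        Nat.mul_le_mul_right _ h
    _ < 2 ^ b * (2 ^ b * 2 ^ b) := by
        refine Nat.mul_lt_mul_of_pos_left ?_ hp
        exact Nat.mul_lt_mul'' (by omega) (by omega)
    _ = _ := by ring

theorem mul_eq_sum_coef {b Zh M X Y : ℕ} (hX : X < 2 ^ (b * (Zh * (M / 2))))
    (hY : Y < 2 ^ (b * (Zh * (M / 2)))) :
    X * Y = ∑ I ∈ Finset.range M, ∑ z ∈ Finset.range (2 * Zh),
      coef b Zh M X Y z I * 2 ^ (b * (z + Zh * I)) := by
  have hle : 2 ^ (b * (Zh * (M / 2))) ≤ 2 ^ (b * (Zh * M)) :=
    Nat.pow_le_pow_right (by norm_num) (Nat.mul_le_mul_left _ (Nat.mul_le_mul_left _ (Nat.div_le_self _ _)))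
  have ex : ∀ W, W < 2 ^ (b * (Zh * (M / 2))) → W = ∑ z ∈ Finset.range Zh, ∑ I ∈ Finset.range M,
      piece b W (z + Zh * I) * 2 ^ (b * (z + Zh * I)) := fun W hW => by
    rw [Finset.sum_comm, ← pk_sum_range_mul (fun t => piece b W t * 2 ^ (b * t)), pk_sum_piece,
      Nat.mod_eq_of_lt (hW.trans_le hle)]
  have hz : ∀ W, W < 2 ^ (b * (Zh * (M / 2))) → ∀ z I, M / 2 ≤ I → piece b W (z + Zh * I) = 0 :=
    fun W hW z I hI => pk_piece_eq_zero hW ((Nat.mul_le_mul_left _ hI).trans (Nat.le_add_left _ _))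
  have e1 : ∑ I ∈ Finset.range M, ∑ z ∈ Finset.range (2 * Zh),
      coef b Zh M X Y z I * 2 ^ (b * (z + Zh * I)) =
      ∑ z1 ∈ Finset.range Zh, ∑ z2 ∈ Finset.range Zh, ∑ I1 ∈ Finset.range M, ∑ I2 ∈ Finset.range M,
        ∑ I ∈ Finset.range M, ∑ z ∈ Finset.range (2 * Zh),
        (if z1 + z2 = z ∧ (I1 + I2) % M = I then
          piece b X (z1 + Zh * I1) * piece b Y (z2 + Zh * I2) else 0) * 2 ^ (b * (z + Zh * I)) := by
    simp only [coef, Finset.sum_mul]
    simp only [← Finset.sum_product']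
    refine Finset.sum_nbij' (fun p => (p.2.2.1, p.2.2.2.1, p.2.2.2.2.1, p.2.2.2.2.2, p.1, p.2.1))
      (fun p => (p.2.2.2.2.1, p.2.2.2.2.2, p.1, p.2.1, p.2.2.1, p.2.2.2.1)) ?_ ?_ ?_ ?_ ?_ <;>
      simp +contextual
  rw [e1]
  conv_lhs => rw [ex X hX, ex Y hY]
  rw [Finset.sum_mul_sum]
  refine Finset.sum_congr rfl fun z1 hz1 => Finset.sum_congr rfl fun z2 hz2 => ?_
  rw [Finset.sum_mul_sum]
  refine Finset.sum_congr rfl fun I1 hI1 => Finset.sum_congr rfl fun I2 hI2 => ?_
  simp only [Finset.mem_range] at hz1 hz2 hI1 hI2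
  rw [Finset.sum_eq_single ((I1 + I2) % M), Finset.sum_eq_single (z1 + z2)]
  · rcases le_or_gt (M / 2) I1 with h1 | h1
    · simp [hz X hX z1 I1 h1]
    rcases le_or_gt (M / 2) I2 with h2 | h2
    · simp [hz Y hY z2 I2 h2]
    rw [if_pos ⟨rfl, rfl⟩, Nat.mod_eq_of_lt (by omega : I1 + I2 < M)]
    ring
  · intro z _ hne
    rw [if_neg fun h => hne h.1.symm, zero_mul]
  · intro h
    exact absurd (Finset.mem_range.mpr (by omega)) h
  · intro I _ hne
    exact Finset.sum_eq_zero fun z _ => by rw [if_neg fun h => hne h.2.symm, zero_mul]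
  · intro h
    exact absurd (Finset.mem_range.mpr (Nat.mod_lt _ (by omega))) h

end Crest.Agent.R326
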