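/-
R326/Steps: the Fourier transform of arbitrary length `s ≤ h`, in place on pairs of blocks.
-/
import Crest.Agent.R326.StepsA

set_option autoImplicit false
set_option linter.unusedSimpArgs false
set_option linter.unusedSectionVars false
set_option linter.unusedVariables false

namespace Crest.Agent.R326

open Function Crest.Agent.Lib.PolyTime

/-! ### Blocks -/

theorem st_mod {h k : ℕ} (b : ℕ) (hk : k < h) : (k + h * b) % h = k := by
  rw [Nat.add_mul_mod_self_left, Nat.mod_eq_of_lt hk]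

theorem st_div {h k : ℕ} (b : ℕ) (hk : k < h) : (k + h * b) / h = b := by
  rw [Nat.add_mul_div_left _ _ (by omega), Nat.div_eq_of_lt hk, zero_add]

theorem st_ext {h : ℕ} (hh : 0 < h) {f g : ℕ → ℂ}
    (e : ∀ k b, k < h → f (k + h * b) = g (k + h * b)) : f = g := by
  funext x
  have := e (x % h) (x / h) (Nat.mod_lt _ hh)
  rwa [Nat.mod_add_div] at this

theorem st_bodd (b : ℕ) : (b ^^^ 1).bodd = !b.bodd := by
  rcases Nat.even_or_odd b with hb | hb
  · rw [Nat.xor_one_of_even hb, Nat.bodd_succ]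
  · obtain ⟨c, rfl⟩ := hb
    rw [Nat.xor_one_of_odd ⟨c, rfl⟩]; simp

theorem st_xor_xor (b : ℕ) : (b ^^^ 1) ^^^ 1 = b := by
  rw [Nat.xor_assoc]; simp

theorem st_xor {N k : ℕ} (b : ℕ) (hk : k < 2 ^ N) :
    (k + 2 ^ N * b) ^^^ 2 ^ N = k + 2 ^ N * (b ^^^ 1) := by
  apply Nat.eq_of_testBit_eq
  intro i
  rw [Nat.testBit_xor, add_comm k, add_comm k, Nat.testBit_two_pow_mul_add _ hk,
    Nat.testBit_two_pow_mul_add _ hk, Nat.testBit_two_pow]
  split_ifs with hi
  · have : N ≠ i := by omega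
    simp [this]
  · rw [Nat.testBit_xor]
    congr 1
    by_cases h : N = i
    · subst h; simp
    · obtain ⟨m, hm⟩ : ∃ m, i - N = m + 1 := ⟨i - N - 1, by omega⟩
      rw [hm]; simp [h, Nat.testBit_succ]

/-- diagonal operators which depend on the parity of the block and the position in the block -/
noncomputable def dg (h : ℕ) (c : Bool → ℕ → ℂ) (f : ℕ → ℂ) : ℕ → ℂ :=
  fun x => c (x / h).bodd (x % h) * f x

theorem dg_apply {h k : ℕ} (c : Bool → ℕ → ℂ) (f : ℕ → ℂ) (b : ℕ) (hk : k < h) :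
    dg h c f (k + h * b) = c b.bodd k * f (k + h * b) := by
  rw [dg, st_mod b hk, st_div b hk]

/-- the block length -/
def spH (p : SP) : ℕ := p.1.length / 2

@[simp] theorem spH_mk (K R s : ℕ) (inv : Bool) : spH (mkSP K R s inv) = 2 ^ (K * R) := by
  simp [spH, mkSP, un]

@[fun_prop] theorem pt_spH {α : Type} [Enc α] {p : α → SP} (hp : PT p) :
    PT fun a => spH (p a) := by unfold spH; fun_prop

@[fun_prop] theorem pb_spH {α : Type} [Enc α] {p : α → SP} (hp : PT p) :
    PB fun a => spH (p a) := by unfold spH; fun_prop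

theorem real_dg (c : SP × Bool × ℕ → DV) (hc : PT c) (c1 : ℕ)
    (hb : ∀ K R s inv, 1 ≤ K → 1 ≤ R → 1 ≤ s → s ≤ 2 ^ (K * R) → ∀ β k, k < 2 ^ (K * R) →
      (c (mkSP K R s inv, β, k)).ok ∧ ‖(c (mkSP K R s inv, β, k)).val‖ ≤ 2 ^ (c1 * (K * R))) :
    Real1 fun K R s inv => dg (2 ^ (K * R)) fun β k => (c (mkSP K R s inv, β, k)).val := by
  refine (Real1.diag (fun q => c (q.1, (q.2 / spH q.1).bodd, q.2 % spH q.1))
    (hc.comp (g := fun q : SP × ℕ => (q.1, (q.2 / spH q.1).bodd, q.2 % spH q.1)) (by fun_prop))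
    c1 ?_).congr ?_
  · intro K R s inv hK hR h1 h2 x
    exact hb K R s inv hK hR h1 h2 _ _ (by rw [spH_mk]; exact Nat.mod_lt _ (by positivity))
  · intro K R s inv hK hR h1 h2 f
    funext x
    simp only [dg, spH_mk]

theorem st_pow_le {c1 K R : ℕ} (hK : 1 ≤ K) (hR : 1 ≤ R) : (2 : ℝ) ^ c1 ≤ 2 ^ (c1 * (K * R)) :=
  pow_le_pow_right₀ (by norm_num) (Nat.le_mul_of_pos_right _ (Nat.mul_pos hK hR))

theorem real_dgc (e : Bool) (d1 d2 : DV) (h1 : d1.2.2 = false) (h2 : d2.2.2 = false)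
    (n1 : ‖d1.val‖ ≤ 8) (n2 : ‖d2.val‖ ≤ 8) :
    Real1 fun K R _ _ => dg (2 ^ (K * R)) fun β _ => if β = e then d1.val else d2.val := by
  refine (real_dg (fun q => if q.2.1 = e then d1 else d2) (by fun_prop) 3 ?_).congr ?_
  · intro K R s inv hK hR _ _ β k _
    have := st_pow_le (c1 := 3) hK hR
    dsimp only
    split_ifs
    · exact ⟨by simp [DV.ok, h1], by linarith⟩
    · exact ⟨by simp [DV.ok, h2], by linarith⟩
  · intro K R s inv hK hR _ _ f
    congr 1
    funext β k
    dsimp only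
    split_ifs <;> rfl

/-- the butterfly between the blocks of a pair -/
noncomputable def topOp (h : ℕ) (f : ℕ → ℂ) : ℕ → ℂ := fun x =>
  (1 + Complex.I) * f x + (1 - Complex.I) * f (x ^^^ h)

theorem topOp_apply {N k : ℕ} (f : ℕ → ℂ) (b : ℕ) (hk : k < 2 ^ N) :
    topOp (2 ^ N) f (k + 2 ^ N * b) =
      (1 + Complex.I) * f (k + 2 ^ N * b) + (1 - Complex.I) * f (k + 2 ^ N * (b ^^^ 1)) := by
  rw [topOp, st_xor b hk]

theorem real_top : Real1 fun K R _ _ => topOp (2 ^ (K * R)) := Real1.top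

theorem DV.val_mk (q : ℚ) (l : List ℚ) : DV.val (q, l, false) = q * (l.map ee).sum := by
  simp [DV.val]

theorem DV.val_one (q t : ℚ) : DV.val (q, [t], false) = q * ee t := by
  simp [DV.val]

/-- The shear that adds `M` times the partner block to the blocks of parity `e`
(`x = k + h b`, partner `b xor 1`). -/
noncomputable def shearOp (h : ℕ) (e : Bool) (M : ℕ → ℕ → ℂ) (f : ℕ → ℂ) : ℕ → ℂ := fun x =>
  if (x / h).bodd = e then
    f x + ∑ j ∈ Finset.range h, M (x % h) j * f (j + h * ((x / h) ^^^ 1)) else f x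

theorem shearOp_apply {h k : ℕ} (e : Bool) (M : ℕ → ℕ → ℂ) (f : ℕ → ℂ) (b : ℕ) (hk : k < h) :
    shearOp h e M f (k + h * b) = if b.bodd = e then
      f (k + h * b) + ∑ j ∈ Finset.range h, M k j * f (j + h * (b ^^^ 1)) else f (k + h * b) := by
  rw [shearOp, st_mod b hk, st_div b hk]

/-- Shear by the identity.  Recipe: with `H = [[1, 1], [1, -1]]` acting on (block of parity `e`,
partner), `H diag(1, 3) H diag(2, 1) H = [[6, 10], [0, -8]]` and
`diag(1/30, -1/24) [[6, 10], [0, -8]] diag(5, 3) = [[1, 1], [0, 1]]`; directly in terms of the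
symmetric butterfly `C'` of `Real1.top`: `H = (1 + i)⁻¹ diag(1, i) C' diag(1, i)`. -/
theorem real_shear_one (e : Bool) :
    Real1 fun K R _ _ => shearOp (2 ^ (K * R)) e fun k j => if k = j then 1 else 0 := by
  have n1 : ‖(1 + Complex.I : ℂ)‖ ≤ 2 := (norm_add_le _ _).trans (by simp; norm_num)
  have n2 : ‖(Complex.I + -1 : ℂ)‖ ≤ 2 := (norm_add_le _ _).trans (by simp; norm_num)
  have D1 := real_dgc e (5, [0], false) (3, [1 / 4], false) rfl rfl
    (by rw [DV.val_one]; simp; norm_num) (by rw [DV.val_one]; simp; norm_num)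
  have D2 := real_dgc e (2, [0], false) (-1, [0], false) rfl rfl
    (by rw [DV.val_one]; simp; norm_num) (by rw [DV.val_one]; simp)
  have D3 := real_dgc e (1, [0], false) (-3, [0], false) rfl rfl
    (by rw [DV.val_one]; simp) (by rw [DV.val_one]; simp; norm_num)
  have D4 := real_dgc e (-1 / 120, [0, 1 / 4], false) (1 / 96, [1 / 4, 1 / 2], false) rfl rfl
    (by
      rw [DV.val_mk]
      simp only [List.map_cons, List.map_nil, List.sum_cons, List.sum_nil, ee_zero, ee_quarter,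
        add_zero, norm_mul]
      have : ‖((-1 / 120 : ℚ) : ℂ)‖ ≤ 1 := by push_cast; simp; norm_num
      nlinarith [norm_nonneg (1 + Complex.I : ℂ), norm_nonneg ((-1 / 120 : ℚ) : ℂ)])
    (by
      rw [DV.val_mk]
      simp only [List.map_cons, List.map_nil, List.sum_cons, List.sum_nil, ee_half, ee_quarter,
        add_zero, norm_mul]
      have : ‖((1 / 96 : ℚ) : ℂ)‖ ≤ 1 := by push_cast; simp; norm_num
      nlinarith [norm_nonneg (Complex.I + -1 : ℂ), norm_nonneg ((1 / 96 : ℚ) : ℂ)])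
  refine ((((((D1.comp real_top).comp D2).comp real_top).comp D3).comp real_top).comp D4).congr ?_
  intro K R s inv hK hR _ _ f
  refine st_ext (h := 2 ^ (K * R)) (by positivity) fun k b hk => ?_
  simp only [dg_apply _ _ _ hk, topOp_apply _ _ hk, shearOp_apply _ _ _ _ hk, st_bodd, st_xor_xor,
    DV.val_mk, List.map_cons, List.map_nil, List.sum_cons, List.sum_nil, ee_half, ee_quarter,
    ee_zero, add_zero, Bool.not_not, ite_mul, one_mul, zero_mul, Finset.sum_ite_eq,
    Finset.mem_range, hk, if_true]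
  generalize f (k + 2 ^ (K * R) * b) = u
  generalize f (k + 2 ^ (K * R) * (b ^^^ 1)) = v
  have hI := Complex.I_mul_I
  cases e <;> cases b.bodd <;> simp only [Bool.not_true, Bool.not_false, if_true, if_false,
    Bool.false_eq_true, Bool.true_eq_false] <;> push_cast <;> grind

theorem shearOp_congr {h : ℕ} (hh : 0 < h) (e : Bool) {M M' : ℕ → ℕ → ℂ}
    (hM : ∀ k j, k < h → j < h → M k j = M' k j) (f : ℕ → ℂ) :
    shearOp h e M f = shearOp h e M' f := by
  refine st_ext hh fun k b hk => ?_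
  rw [shearOp_apply _ _ _ _ hk, shearOp_apply _ _ _ _ hk,
    Finset.sum_congr rfl fun j hj => by rw [hM k j hk (Finset.mem_range.1 hj)]]

theorem shearOp_add {h : ℕ} (hh : 0 < h) (e : Bool) (M M' : ℕ → ℕ → ℂ) (f : ℕ → ℂ) :
    shearOp h e M' (shearOp h e M f) = shearOp h e (fun k j => M k j + M' k j) f := by
  refine st_ext hh fun k b hk => ?_
  simp only [shearOp_apply _ _ _ _ hk]
  split_ifs with hb
  · have : ∀ j ∈ Finset.range h, M' k j * shearOp h e M f (j + h * (b ^^^ 1)) =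
        M' k j * f (j + h * (b ^^^ 1)) := by
      intro j hj
      rw [shearOp_apply _ _ _ _ (Finset.mem_range.1 hj), st_bodd, hb, if_neg (by simp)]
    rw [Finset.sum_congr rfl this, add_assoc, ← Finset.sum_add_distrib]
    simp only [add_mul]
  · rfl

theorem shearOp_scale {h : ℕ} (hh : 0 < h) (e : Bool) (M : ℕ → ℕ → ℂ) (a a' c c' : ℕ → ℂ)
    (ha : ∀ k < h, a k * a' k = 1) (hc : ∀ k < h, c k * c' k = 1) (f : ℕ → ℂ) :
    dg h (fun β k => if β = e then a k else c' k)
      (shearOp h e M (dg h (fun β k => if β = e then a' k else c k) f)) =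
      shearOp h e (fun k j => a k * M k j * c j) f := by
  refine st_ext hh fun k b hk => ?_
  simp only [shearOp_apply _ _ _ _ hk, dg_apply _ _ _ hk]
  split_ifs with hb
  · rw [mul_add, ← mul_assoc, ha k hk, one_mul, Finset.mul_sum]
    congr 1
    refine Finset.sum_congr rfl fun j hj => ?_
    rw [dg_apply _ _ _ (Finset.mem_range.1 hj), st_bodd, hb, if_neg (by simp)]
    ring
  · rw [← mul_assoc, mul_comm (c' k), hc k hk, one_mul]

/-- the inverse of a symbolic value -/
def DV.inv (d : DV) : DV := (d.1⁻¹, d.2.1, true)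

/-- values which are neither small nor large -/
def DV.Nice (B : ℝ) (d : DV) : Prop :=
  d.2.2 = false ∧ d.1 ≠ 0 ∧ 1 ≤ ‖(d.2.1.map ee).sum‖ ∧ ‖d.val‖ ≤ B ∧ ‖((d.1⁻¹ : ℚ) : ℂ)‖ ≤ B

theorem DV.Nice.ok {B : ℝ} {d : DV} (h : d.Nice B) : d.ok ∧ ‖d.val‖ ≤ B :=
  ⟨fun _ => h.2.2.1, h.2.2.2.1⟩

theorem DV.Nice.ok_inv {B : ℝ} {d : DV} (h : d.Nice B) : d.inv.ok ∧ ‖d.inv.val‖ ≤ B := by
  refine ⟨fun _ => h.2.2.1, ?_⟩
  simp only [DV.val, DV.inv, if_true, norm_mul, norm_inv]
  have h1 : ‖(d.2.1.map ee).sum‖⁻¹ ≤ 1 := inv_le_one_of_one_le₀ h.2.2.1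
  exact (mul_le_of_le_one_right (norm_nonneg _) h1).trans h.2.2.2.2

theorem DV.Nice.mul_inv {B : ℝ} {d : DV} (h : d.Nice B) : d.val * d.inv.val = 1 := by
  have h1 : (d.2.1.map ee).sum ≠ 0 := by
    intro h0
    have := h.2.2.1
    rw [h0, norm_zero] at this
    norm_num at this
  have h2 : (d.1 : ℂ) ≠ 0 := by exact_mod_cast h.2.1
  simp only [DV.val, DV.inv, if_true, h.1, Bool.false_eq_true, if_false]
  push_cast
  field_simp

theorem DV.nice_one {B : ℝ} {q : ℚ} (t : ℚ) (hq : q ≠ 0) (h1 : ‖(q : ℂ)‖ ≤ B)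
    (h2 : ‖((q⁻¹ : ℚ) : ℂ)‖ ≤ B) : DV.Nice B (q, [t], false) :=
  ⟨rfl, hq, by simp, by rw [DV.val_one]; simpa using h1, h2⟩

theorem real_scale (e : Bool) {M : ℕ → ℕ → ℕ → Bool → ℕ → ℕ → ℂ}
    (hM : Real1 fun K R s inv => shearOp (2 ^ (K * R)) e (M K R s inv))
    (a c : SP × ℕ → DV) (ha : PT a) (hc : PT c) (c1 : ℕ)
    (hb : ∀ K R s inv, 1 ≤ K → 1 ≤ R → 1 ≤ s → s ≤ 2 ^ (K * R) → ∀ k, k < 2 ^ (K * R) →
      (a (mkSP K R s inv, k)).Nice (2 ^ (c1 * (K * R))) ∧
      (c (mkSP K R s inv, k)).Nice (2 ^ (c1 * (K * R)))) :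
    Real1 fun K R s inv => shearOp (2 ^ (K * R)) e fun k j =>
      (a (mkSP K R s inv, k)).val * M K R s inv k j * (c (mkSP K R s inv, j)).val := by
  have ha' : PT fun q : SP × Bool × ℕ => a (q.1, q.2.2) :=
    ha.comp (g := fun q : SP × Bool × ℕ => (q.1, q.2.2)) (by fun_prop)
  have hc' : PT fun q : SP × Bool × ℕ => c (q.1, q.2.2) :=
    hc.comp (g := fun q : SP × Bool × ℕ => (q.1, q.2.2)) (by fun_prop)
  have D1 := real_dg (fun q => if q.2.1 = e then (a (q.1, q.2.2)).inv else c (q.1, q.2.2))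
    (by unfold DV.inv; fun_prop) c1 (fun K R s inv hK hR h1 h2 β k hk => by
      dsimp only
      split_ifs
      · exact (hb K R s inv hK hR h1 h2 k hk).1.ok_inv
      · exact (hb K R s inv hK hR h1 h2 k hk).2.ok)
  have D2 := real_dg (fun q => if q.2.1 = e then a (q.1, q.2.2) else (c (q.1, q.2.2)).inv)
    (by unfold DV.inv; fun_prop) c1 (fun K R s inv hK hR h1 h2 β k hk => by
      dsimp only
      split_ifs
      · exact (hb K R s inv hK hR h1 h2 k hk).1.ok
      · exact (hb K R s inv hK hR h1 h2 k hk).2.ok_inv)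
  refine ((D1.comp hM).comp D2).congr fun K R s inv hK hR h1 h2 f => ?_
  simp only [apply_ite DV.val]
  exact shearOp_scale (by positivity) e _ _ _ _ _
    (fun k hk => (hb K R s inv hK hR h1 h2 k hk).1.mul_inv)
    (fun k hk => (hb K R s inv hK hR h1 h2 k hk).2.mul_inv) f

/-- cyclic reindexing -/
theorem st_sum_shift {h l : ℕ} (hl : l < h) (p : ℕ) (c : ℕ → ℂ) :
    ∑ j ∈ Finset.range h, ee (-((j * p : ℕ) : ℚ) / h) * c ((j + h - l) % h) =
      ee (-((l * p : ℕ) : ℚ) / h) * ∑ δ ∈ Finset.range h, ee (-((δ * p : ℕ) : ℚ) / h) * c δ := by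
  have hh : 0 < h := by omega
  have hq : (h : ℚ) ≠ 0 := by positivity
  rw [Finset.mul_sum]
  have m1 : ∀ j, j < h → (j + h - l) % h = if l ≤ j then j - l else j + h - l := by
    intro j hj
    split_ifs with h1
    · rw [show j + h - l = j - l + h by omega, Nat.add_mod_right, Nat.mod_eq_of_lt (by omega)]
    · rw [Nat.mod_eq_of_lt (by omega)]
  refine Finset.sum_nbij' (fun j => (j + h - l) % h) (fun δ => if δ + l < h then δ + l else δ + l - h)
    (fun j _ => Finset.mem_range.2 (Nat.mod_lt _ hh)) (fun δ hδ => ?_) (fun j hj => ?_)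
    (fun δ hδ => ?_) (fun j hj => ?_)
  · rw [Finset.mem_range] at hδ ⊢; split_ifs <;> omega
  · rw [Finset.mem_range] at hj; rw [m1 j hj]; split_ifs <;> omega
  · rw [Finset.mem_range] at hδ
    rw [m1 _ (by split_ifs <;> omega)]; split_ifs <;> omega
  · rw [Finset.mem_range] at hj
    rw [← mul_assoc, ← ee_add]
    congr 1
    rw [m1 j hj]
    split_ifs with h1
    · congr 1
      push_cast [Nat.cast_sub h1]
      ring
    · have : -((j * p : ℕ) : ℚ) / h =
          (-((l * p : ℕ) : ℚ) / h + -(((j + h - l) * p : ℕ) : ℚ) / h) + ((p : ℤ) : ℚ) := by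
        push_cast [Nat.cast_sub (show l ≤ j + h by omega)]
        field_simp
        ring
      rw [this, ee_add, ee_int, mul_one]

theorem st_fft_shear {N : ℕ} (e : Bool) (π : ℕ → ℕ) (U : (ℕ → ℂ) → ℕ → ℂ)
    (hU : ∀ f k b, k < 2 ^ N → U f (k + 2 ^ N * b) =
      ∑ j ∈ Finset.range (2 ^ N), ee (-((j * π k : ℕ) : ℚ) / 2 ^ N) * f (j + 2 ^ N * b))
    (c : ℕ → ℂ) (f : ℕ → ℂ) :
    U (shearOp (2 ^ N) e (fun k j => c ((k + 2 ^ N - j) % 2 ^ N)) f) =
      shearOp (2 ^ N) e (fun k j => (∑ δ ∈ Finset.range (2 ^ N),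
        ee (-((δ * π k : ℕ) : ℚ) / 2 ^ N) * c δ) * (if k = j then 1 else 0) * 1) (U f) := by
  refine st_ext (h := 2 ^ N) (by positivity) fun k b hk => ?_
  rw [hU _ _ _ hk, shearOp_apply _ _ _ _ hk, hU _ _ _ hk,
    Finset.sum_congr rfl fun j hj => by rw [shearOp_apply _ _ _ _ (Finset.mem_range.1 hj)]]
  split_ifs with hb
  · simp only [mul_add, Finset.sum_add_distrib, mul_one, mul_ite, mul_zero, ite_mul, zero_mul,
      Finset.sum_ite_eq, Finset.mem_range, hk, if_true]
    congr 1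
    rw [hU _ _ _ hk]
    simp only [Finset.mul_sum]
    rw [Finset.sum_comm]
    refine Finset.sum_congr rfl fun l hl => ?_
    have := st_sum_shift (Finset.mem_range.1 hl) (π k) c
    push_cast at this ⊢
    simp only [← mul_assoc]
    rw [← Finset.sum_mul, this]
    ring
  · rfl

/-- first column of the circulants -/
noncomputable def stCol (h : ℕ) (a b : ℕ → ℚ) (t0 : ℚ) (δ : ℕ) : ℂ :=
  ee (a δ) + ee (b δ) + if δ = 0 then 4 * h * ee t0 else 0

/-- the phases of an eigenvalue -/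
def stEig (h p : ℕ) (a b : ℕ → ℚ) (t0 : ℚ) : List ℚ :=
  List.replicate (4 * h) t0 ++ ((List.range h).map (fun δ => a δ + -((δ * p : ℕ) : ℚ) / h) ++
    (List.range h).map fun δ => b δ + -((δ * p : ℕ) : ℚ) / h)

theorem st_sum_range (h : ℕ) (g : ℕ → ℚ) :
    (((List.range h).map g).map ee).sum = ∑ δ ∈ Finset.range h, ee (g δ) := by
  induction h with
  | zero => simp
  | succ h ih => rw [List.range_succ, Finset.sum_range_succ, ← ih]; simp

theorem stEig_sum (h p : ℕ) (a b : ℕ → ℚ) (t0 : ℚ) : ((stEig h p a b t0).map ee).sum =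
    4 * h * ee t0 + (∑ δ ∈ Finset.range h, ee (a δ + -((δ * p : ℕ) : ℚ) / h) +
      ∑ δ ∈ Finset.range h, ee (b δ + -((δ * p : ℕ) : ℚ) / h)) := by
  rw [stEig, List.map_append, List.map_append, List.sum_append, List.sum_append, st_sum_range,
    st_sum_range]
  simp

theorem stEig_eq {h : ℕ} (hh : 0 < h) (p : ℕ) (a b : ℕ → ℚ) (t0 : ℚ) :
    ((stEig h p a b t0).map ee).sum =
      ∑ δ ∈ Finset.range h, ee (-((δ * p : ℕ) : ℚ) / h) * stCol h a b t0 δ := by
  rw [stEig_sum]
  simp only [stCol, mul_add, Finset.sum_add_distrib, ee_add, mul_ite, mul_zero, Finset.sum_ite_eq',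
    Finset.mem_range, hh, if_true, mul_comm (ee (a _)), mul_comm (ee (b _))]
  simp
  ring

theorem st_norm_sum (h : ℕ) (g : ℕ → ℚ) : ‖∑ δ ∈ Finset.range h, ee (g δ)‖ ≤ h :=
  (norm_sum_le _ _).trans (by simp)

theorem stEig_nice {N : ℕ} (hN : 1 ≤ N) (p : ℕ) (a b : ℕ → ℚ) (t0 : ℚ) :
    DV.Nice (2 ^ (4 * N)) (1 / 2, stEig (2 ^ N) p a b t0, false) := by
  have h1 := st_norm_sum (2 ^ N) fun δ => a δ + -((δ * p : ℕ) : ℚ) / (2 ^ N : ℕ)
  have h2 := st_norm_sum (2 ^ N) fun δ => b δ + -((δ * p : ℕ) : ℚ) / (2 ^ N : ℕ)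
  have h3 := (norm_add_le _ _).trans (add_le_add h1 h2)
  have h4 : ‖(4 * (2 ^ N : ℕ) * ee t0 : ℂ)‖ = 4 * (2 ^ N : ℕ) := by simp
  have h5 : (1 : ℝ) ≤ (2 ^ N : ℕ) := by exact_mod_cast Nat.one_le_two_pow
  have h6 : (8 : ℝ) * (2 ^ N : ℕ) ≤ 2 ^ (4 * N) := by
    have : (2 : ℝ) ^ (3 + N) ≤ 2 ^ (4 * N) := pow_le_pow_right₀ (by norm_num) (by omega)
    rw [pow_add] at this
    push_cast
    linarith
  refine ⟨rfl, by norm_num, ?_, ?_, ?_⟩
  · rw [stEig_sum]
    have := norm_sub_norm_le (4 * (2 ^ N : ℕ) * ee t0 : ℂ)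
      (-(∑ δ ∈ Finset.range (2 ^ N), ee (a δ + -((δ * p : ℕ) : ℚ) / (2 ^ N : ℕ)) +
      ∑ δ ∈ Finset.range (2 ^ N), ee (b δ + -((δ * p : ℕ) : ℚ) / (2 ^ N : ℕ))))
    rw [norm_neg, sub_neg_eq_add] at this
    linarith
  · rw [DV.val_mk, stEig_sum, norm_mul]
    have := (norm_add_le _ _).trans (add_le_add h4.le h3)
    have h7 : ‖((1 / 2 : ℚ) : ℂ)‖ ≤ 1 := by push_cast; simp; norm_num
    refine (mul_le_of_le_one_left (norm_nonneg _) h7).trans ?_
    linarith
  · have h7 : ‖(((1 / 2 : ℚ)⁻¹ : ℚ) : ℂ)‖ = 2 := by push_cast; simp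
    rw [h7]
    linarith

theorem st_one_le_pow (n : ℕ) : (1 : ℝ) ≤ 2 ^ n := one_le_pow₀ (by norm_num)

theorem real_shear_circ (e : Bool) (a b : SP × ℕ → ℚ) (ha : PT a) (hb : PT b) (t0 : ℚ) :
    Real1 fun K R s inv => shearOp (2 ^ (K * R)) e fun k j => 1 / 2 * stCol (2 ^ (K * R))
      (fun δ => a (mkSP K R s inv, δ)) (fun δ => b (mkSP K R s inv, δ)) t0
      ((k + 2 ^ (K * R) - j) % 2 ^ (K * R)) := by
  obtain ⟨π, U, V, hπ, hU, hV, hVU, hUf⟩ := exists_fft
  have hπ' : PT fun q : (SP × ℕ) × ℕ => π (un (q.1.1.2.1.length * q.1.1.2.2.1.length), q.1.2) :=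
    hπ.comp (g := fun q : (SP × ℕ) × ℕ => (un (q.1.1.2.1.length * q.1.1.2.2.1.length), q.1.2))
      (by fun_prop)
  have ha' : PT fun q : (SP × ℕ) × ℕ => a (q.1.1, q.2) :=
    ha.comp (g := fun q : (SP × ℕ) × ℕ => (q.1.1, q.2)) (by fun_prop)
  have hb' : PT fun q : (SP × ℕ) × ℕ => b (q.1.1, q.2) :=
    hb.comp (g := fun q : (SP × ℕ) × ℕ => (q.1.1, q.2)) (by fun_prop)
  have hS := real_scale e (real_shear_one e)
    (fun q => (1 / 2, stEig (spH q.1) (π (un (q.1.2.1.length * q.1.2.2.1.length), q.2))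
      (fun δ => a (q.1, δ)) (fun δ => b (q.1, δ)) t0, false)) (fun _ => (1, [0], false))
    (by
      unfold stEig
      refine PT.prodMk (by fun_prop) (PT.prodMk (PT.append (by fun_prop) (PT.append
        (PT.map (by fun_prop) ?_) (PT.map (by fun_prop) ?_))) (by fun_prop))
      · fun_prop
      · fun_prop)
    (by fun_prop) 4 (fun K R s inv hK hR h1 h2 k hk => ⟨by
      rw [spH_mk]; exact stEig_nice (Nat.mul_pos hK hR) _ _ _ _,
      DV.nice_one _ one_ne_zero (by simpa using st_one_le_pow _) (by simpa using st_one_le_pow _)⟩)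
  refine ((hU.comp hS).comp hV).congr fun K R s inv hK hR h1 h2 f => ?_
  rw [← hVU (K * R) (shearOp _ _ _ f), st_fft_shear e (fun k => π (un (K * R), k)) _ (hUf (K * R))
    (fun δ => 1 / 2 * stCol (2 ^ (K * R)) (fun δ => a (mkSP K R s inv, δ))
      (fun δ => b (mkSP K R s inv, δ)) t0 δ)]
  congr 1
  refine shearOp_congr (by positivity) e (fun k j _ _ => ?_) _
  rw [DV.val_one, DV.val_mk, spH_mk, stEig_eq (by positivity), Finset.mul_sum]
  have : (mkSP K R s inv).2.1.length * (mkSP K R s inv).2.2.1.length = K * R := by simp [mkSP]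
  rw [this]
  push_cast
  rw [ee_zero, mul_one]
  congr 2
  exact Finset.sum_congr rfl fun δ _ => by ring

/-- Shear by a Toeplitz matrix with unimodular entries `e(θ (k - j + h))`.  Recipe: put
`g δ = e(θ δ)` for `0 < δ < 2 h` and `g 0 = 4 h`.  Then `T = (C + S) / 2` with the circulant `C`
with first column `g (δ + h) + g δ` and the skew circulant `S` with first column
`g (δ + h) - g δ`; `S = W⁻¹ C' W` with `W = diag e(k / 2 h)` and the circulant `C'` with first
column `(g (δ + h) - g δ) e(δ / 2 h)`.  A shear by a circulant is `V ∘ (shear by diag Λ) ∘ U`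
(check `U ∘ shear C = shear Λ ∘ U` and use `V ∘ U = id`); the eigenvalues `Λ` are sums of `6 h - 1`
phases of norm in `[1, 6 h]` (`4 h` equal phases dominate), so
`shear Λ = diag(Λ, 1) ∘ shear 1 ∘ diag(Λ⁻¹, 1)`; shears of the same parity add up. -/
theorem real_shear_toeplitz (e : Bool) (θ : SP × ℕ → ℚ) (hθ : PT θ) :
    Real1 fun K R s inv => shearOp (2 ^ (K * R)) e
      fun k j => ee (θ (mkSP K R s inv, k + 2 ^ (K * R) - j)) := by
  have hθ' : PT fun q : SP × ℕ => θ (q.1, q.2 + spH q.1) :=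
    hθ.comp (g := fun q : SP × ℕ => (q.1, q.2 + spH q.1)) (by fun_prop)
  have C1 := real_shear_circ e (fun q => θ (q.1, q.2 + spH q.1)) θ hθ' hθ 0
  have C2 := real_shear_circ e (fun q => θ (q.1, q.2 + spH q.1) + q.2 / (2 * spH q.1))
    (fun q => θ q + q.2 / (2 * spH q.1) + 1 / 2) (by fun_prop) (by fun_prop) (1 / 2)
  have C3 := real_scale e C2 (fun q => (1, [-(q.2 / (2 * spH q.1))], false))
    (fun q => (1, [q.2 / (2 * spH q.1)], false)) (by fun_prop) (by fun_prop) 0
    (fun K R s inv hK hR h1 h2 k hk =>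
      ⟨DV.nice_one _ one_ne_zero (by simp) (by simp), DV.nice_one _ one_ne_zero (by simp) (by simp)⟩)
  refine (C1.comp C3).congr fun K R s inv hK hR h1 h2 f => ?_
  rw [shearOp_add (by positivity)]
  refine shearOp_congr (by positivity) e (fun k j hk hj => ?_) _
  simp only [DV.val_one, spH_mk, stCol, ee_add, ee_half, ee_zero]
  generalize 2 ^ (K * R) = h at *
  have hq : (h : ℚ) ≠ 0 := by
    have : 0 < h := by omega
    positivity
  by_cases hjk : j ≤ k
  · have m1 : (k + h - j) % h = k - j := by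
      rw [show k + h - j = k - j + h by omega, Nat.add_mod_right, Nat.mod_eq_of_lt (by omega)]
    have e1 : ee (-((k : ℚ) / (2 * h))) * ee (((k - j : ℕ) : ℚ) / (2 * h)) * ee (j / (2 * h)) = 1 := by
      rw [← ee_add, ← ee_add, Nat.cast_sub hjk, ← ee_zero]
      congr 1
      ring
    rw [m1, show k - j + h = k + h - j by omega]
    split_ifs with h0
    · have : k = j := by omega
      subst this
      simp only [Nat.sub_self, Nat.cast_zero, zero_div, ee_zero, mul_one] at e1 ⊢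
      push_cast
      grind
    · push_cast
      grind
  · have m1 : (k + h - j) % h = k + h - j := Nat.mod_eq_of_lt (by omega)
    have e1 : ee (-((k : ℚ) / (2 * h))) * ee (((k + h - j : ℕ) : ℚ) / (2 * h)) * ee (j / (2 * h)) =
        -1 := by
      rw [← ee_add, ← ee_add, Nat.cast_sub (by omega), ← ee_half]
      congr 1
      push_cast
      field_simp
      ring
    rw [m1, if_neg (by omega), if_neg (by omega)]
    push_cast
    grind

/-- Bluestein -/
theorem real_shear_dft (e : Bool) (q τ : SP → ℚ) (hq : PT q) (hτ : PT τ)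
    (hb : ∀ K R s inv, 1 ≤ s → s ≤ 2 ^ (K * R) → q (mkSP K R s inv) ≠ 0 ∧
      ‖(q (mkSP K R s inv) : ℂ)‖ ≤ 2 ^ (K * R) ∧ ‖(((q (mkSP K R s inv))⁻¹ : ℚ) : ℂ)‖ ≤ 2 ^ (K * R)) :
    Real1 fun K R s inv => shearOp (2 ^ (K * R)) e
      fun k j => q (mkSP K R s inv) * ee (τ (mkSP K R s inv) * j * k) := by
  have hq' : PT fun p : SP × ℕ => q p.1 := hq.comp PT.fst'
  have hτ' : PT fun p : SP × ℕ => τ p.1 := hτ.comp PT.fst'
  have T := real_shear_toeplitz e
    (fun p => -(τ p.1 * (((p.2 : ℚ) - spH p.1) * ((p.2 : ℚ) - spH p.1)) / 2)) (by fun_prop)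
  have C := real_scale e T (fun p => (q p.1, [τ p.1 * (p.2 * p.2) / 2], false))
    (fun p => (1, [τ p.1 * (p.2 * p.2) / 2], false)) (by fun_prop) (by fun_prop) 1
    (fun K R s inv hK hR h1 h2 k hk => by
      obtain ⟨b1, b2, b3⟩ := hb K R s inv h1 h2
      rw [one_mul]
      exact ⟨DV.nice_one _ b1 b2 b3, DV.nice_one _ one_ne_zero (by simpa using st_one_le_pow _)
        (by simpa using st_one_le_pow _)⟩)
  refine C.congr fun K R s inv hK hR h1 h2 f => ?_
  refine shearOp_congr (by positivity) e (fun k j hk hj => ?_) _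
  simp only [DV.val_one, spH_mk, Rat.cast_one, one_mul]
  rw [mul_assoc, mul_assoc, ← ee_add, ← ee_add, Nat.cast_sub (by omega)]
  congr 2
  push_cast
  ring

/-- cut the blocks at `s` -/
noncomputable def msk (h s : ℕ) : (ℕ → ℂ) → ℕ → ℂ := dg h fun _ k => if k < s then 1 else 0

theorem real_msk : Real1 fun K R s _ => msk (2 ^ (K * R)) s := by
  refine (real_dg (fun p => (if p.2.2 < p.1.2.2.2.1 then 1 else 0, [0], false)) (by fun_prop) 0
    fun K R s inv hK hR h1 h2 β k hk => ⟨by simp [DV.ok], ?_⟩).congr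
    fun K R s inv hK hR h1 h2 f => ?_
  · rw [DV.val_one]; split_ifs <;> simp
  · unfold msk
    congr 1
    funext β k
    rw [DV.val_one]
    simp only [mkSP]
    split_ifs <;> simp

theorem msk_shear {h s k : ℕ} (hs : s ≤ h) (e : Bool) (M : ℕ → ℕ → ℂ) (f : ℕ → ℂ) (b : ℕ)
    (hk : k < s) : shearOp h e M (msk h s f) (k + h * b) = if b.bodd = e then
      f (k + h * b) + ∑ j ∈ Finset.range s, M k j * f (j + h * (b ^^^ 1)) else f (k + h * b) := by
  have hk' : k < h := by omega
  rw [shearOp_apply _ _ _ _ hk', msk, dg_apply _ _ _ hk', if_pos hk, one_mul]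
  congr 2
  symm
  refine Finset.sum_subset_zero_on_sdiff (Finset.range_mono hs) (fun j hj => ?_) fun j hj => ?_
  · rw [Finset.mem_sdiff] at hj
    rw [dg_apply _ _ _ (Finset.mem_range.1 hj.1), if_neg (by simpa using hj.2)]
    simp
  · rw [Finset.mem_range] at hj
    rw [dg_apply _ _ _ (by omega), if_pos hj, one_mul]

/-- Fourier inversion -/
theorem st_inversion {s k : ℕ} (hk : k < s) (σ : ℤ) (hσ : σ = 1 ∨ σ = -1) (w : ℕ → ℂ) :
    ∑ j ∈ Finset.range s, ee (σ / s * j * k) *
      ∑ l ∈ Finset.range s, ee (-(σ / s) * l * j) * w l = s * w k := by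
  simp only [Finset.mul_sum]
  rw [Finset.sum_comm]
  have : ∀ l ∈ Finset.range s, ∑ j ∈ Finset.range s, ee (σ / s * j * k) *
      (ee (-(σ / s) * l * j) * w l) = if k = l then s * w l else 0 := by
    intro l hl
    rw [Finset.mem_range] at hl
    simp only [← mul_assoc, ← ee_add]
    rw [← Finset.sum_mul]
    have e1 := sum_ee (s := s) (by omega) (σ * (k - l))
    have e2 : ∑ i ∈ Finset.range s, ee ((σ : ℚ) / s * i * k + -(σ / s) * l * i) =
        ∑ i ∈ Finset.range s, ee (((i * (σ * (k - l)) : ℤ) : ℚ) / s) :=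
      Finset.sum_congr rfl fun j _ => by congr 1; push_cast; ring
    rw [e2, e1]
    by_cases hkl : k = l
    · subst hkl; simp
    · rw [if_neg hkl, if_neg, zero_mul]
      intro hd
      have hd' : (s : ℤ) ∣ k - l := by
        rcases hσ with rfl | rfl
        · simpa using hd
        · rw [neg_one_mul, Int.dvd_neg] at hd; exact hd
      have := Int.eq_zero_of_abs_lt_dvd hd' (by rw [abs_lt]; constructor <;> omega)
      omega
  rw [Finset.sum_congr rfl this, Finset.sum_ite_eq, if_pos (Finset.mem_range.2 hk)]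

/-- three shears -/
theorem st_three {h s k : ℕ} (hs : s ≤ h) (σ : ℤ) (hσ : σ = 1 ∨ σ = -1) (f : ℕ → ℂ) (b : ℕ)
    (hk : k < s) :
    shearOp h true (fun k j => ((1 : ℚ) : ℂ) * ee (σ / s * j * k)) (msk h s
      (shearOp h false (fun k j => ((-1 / s : ℚ) : ℂ) * ee (-(σ / s) * j * k)) (msk h s
        (shearOp h true (fun k j => ((1 : ℚ) : ℂ) * ee (σ / s * j * k)) (msk h s f)))))
      (k + h * b) =
    if b.bodd then ∑ j ∈ Finset.range s, ee (σ / s * j * k) * f (j + h * (b ^^^ 1)) else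
      -1 / s * ∑ j ∈ Finset.range s, ee (-(σ / s) * j * k) * f (j + h * (b ^^^ 1)) := by
  have hs0 : (s : ℂ) ≠ 0 := by
    have : 0 < s := by omega
    exact_mod_cast this.ne'
  have even : ∀ k b, k < s → b.bodd = false →
      shearOp h false (fun k j => ((-1 / s : ℚ) : ℂ) * ee (-(σ / s) * j * k)) (msk h s
        (shearOp h true (fun k j => ((1 : ℚ) : ℂ) * ee (σ / s * j * k)) (msk h s f))) (k + h * b) =
      -1 / s * ∑ j ∈ Finset.range s, ee (-(σ / s) * j * k) * f (j + h * (b ^^^ 1)) := by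
    intro k b hk hb
    rw [msk_shear hs _ _ _ _ hk, if_pos hb, msk_shear hs _ _ _ _ hk, if_neg (by simp [hb]),
      Finset.sum_congr rfl fun j hj => by
        rw [msk_shear hs _ _ _ _ (Finset.mem_range.1 hj), if_pos (by simp [st_bodd, hb]),
          st_xor_xor]]
    have e1 := st_inversion hk (-σ) (by omega) fun l => f (l + h * b)
    push_cast at e1 ⊢
    simp only [neg_div (s : ℚ), neg_neg] at e1
    simp only [mul_add, Finset.sum_add_distrib, one_mul, mul_assoc (-1 / s : ℂ), ← Finset.mul_sum]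
    rw [e1]
    have e3 : -1 / (s : ℂ) * (s * f (k + h * b)) = -f (k + h * b) := by field_simp
    rw [e3]
    ring
  rw [msk_shear hs _ _ _ _ hk]
  split_ifs with hb
  · rw [msk_shear hs _ _ _ _ hk, if_neg (by simp [hb]), msk_shear hs _ _ _ _ hk, if_pos hb,
      Finset.sum_congr rfl (s₂ := Finset.range s) (f := fun j => _ * shearOp h false _ _ _)
        fun j hj => by
        rw [even _ _ (Finset.mem_range.1 hj) (by simp [st_bodd, hb]), st_xor_xor]]
    have e1 := st_inversion hk σ hσ fun l => f (l + h * b)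
    push_cast
    simp only [one_mul, mul_left_comm _ (-1 / s : ℂ), ← Finset.mul_sum]
    rw [e1]
    have e3 : -1 / (s : ℂ) * (s * f (k + h * b)) = -f (k + h * b) := by field_simp
    rw [e3]
    ring
  · exact even k b hk (by simpa using hb)

theorem topOp_two {N k : ℕ} (f : ℕ → ℂ) (b : ℕ) (hk : k < 2 ^ N) :
    topOp (2 ^ N) (topOp (2 ^ N) f) (k + 2 ^ N * b) = 4 * f (k + 2 ^ N * (b ^^^ 1)) := by
  simp only [topOp_apply _ _ hk, st_xor_xor]
  have hI := Complex.I_mul_I
  grind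

theorem st_even (b : ℕ) : Even b ↔ b.bodd = false := by
  rw [Nat.even_iff, Nat.mod_two_of_bodd]
  cases b.bodd <;> simp

/-- the sign of the transform -/
def stSg (inv : Bool) : ℤ := if inv then -1 else 1

/-- the scale of the transform -/
def stRho (s : ℕ) (inv : Bool) : ℚ := if inv then 1 / s else 1

theorem st_ker (inv : Bool) (s j k : ℕ) :
    ker inv s j k = stRho s inv * ee (stSg inv / s * j * k) := by
  cases inv
  · simp only [ker, stRho, stSg, Bool.false_eq_true, if_false]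
    push_cast
    rw [one_mul]
    congr 1
    ring
  · simp only [ker, stRho, stSg, if_true]
    push_cast
    rw [div_eq_mul_inv, mul_comm, one_div]
    congr 2
    ring

@[fun_prop] theorem pt_stSg {α : Type} [Enc α] {p : α → Bool} (hp : PT p) :
    PT fun a => ((stSg (p a) : ℤ) : ℚ) :=
  (show PT fun a => (if p a then -1 else 1 : ℚ) by fun_prop).of_eq fun a => by
    cases p a <;> simp [stSg]

@[fun_prop] theorem pt_stRho {α : Type} [Enc α] {s : α → ℕ} {p : α → Bool} (hs : PT s)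
    (hp : PT p) : PT fun a => stRho (s a) (p a) := by
  unfold stRho; fun_prop

/-- The programs exist.  Recipe: let `σ = ± 1`, `F k j = e(σ j k / s)`,
`F = D T D` with `D = diag e(σ k² / 2 s)` and `T k j = e(-σ (k - j)² / 2 s)` (Bluestein).  A shear
by `c * F` on data supported on `k < s` is `mask ∘ diag ∘ shear T ∘ diag` (`mask` = diagonal with
values `0`, `1`).  Start with `mask`; `x1 += F x0`, `x0 -= F⁻¹ x1`, `x1 += F x0` gives
`(-F⁻¹ x1, F x0)`; exchange the blocks (`C' ^ 2 = 4 * swap`), and multiply the odd block by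
`-s e(-σ k / s)`; finally divide by `s` if `inv`. -/
theorem exists_prog : ∃ c0 prog dv lg, ProgOK c0 prog dv lg := by
  have hτ : PT fun p : SP => ((stSg p.2.2.2.2 : ℤ) : ℚ) / p.2.2.2.1 :=
    by fun_prop
  have hτ' : PT fun p : SP × Bool × ℕ => ((stSg p.1.2.2.2.2 : ℤ) : ℚ) / p.1.2.2.2.1 :=
    hτ.comp PT.fst'
  have S1 := real_shear_dft true (fun _ => 1) _ (by fun_prop) hτ
    fun K R s inv h1 h2 => ⟨one_ne_zero, by simpa using st_one_le_pow _,
      by simpa using st_one_le_pow _⟩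
  have S2 := real_shear_dft false (fun p => -1 / p.2.2.2.1)
    (fun p : SP => -(((stSg p.2.2.2.2 : ℤ) : ℚ) / p.2.2.2.1)) (by fun_prop) (by fun_prop)
    fun K R s inv h1 h2 => by
      have h0 : (1 : ℝ) ≤ s := by exact_mod_cast h1
      have h3 : (s : ℝ) ≤ 2 ^ (K * R) := by exact_mod_cast h2
      have h4 := st_one_le_pow (K * R)
      simp only [mkSP]
      refine ⟨?_, ?_, ?_⟩
      · have : (s : ℚ) ≠ 0 := by positivity
        exact div_ne_zero (by norm_num) this
      · push_cast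
        rw [norm_div, norm_neg, norm_one, Complex.norm_natCast]
        exact ((div_le_one (by linarith)).2 h0).trans h4
      · push_cast
        rw [inv_div, norm_div, norm_neg, norm_one, Complex.norm_natCast, div_one]
        exact h3
  have D := real_dg (fun q => if q.2.1 then
      (-(q.1.2.2.2.1 : ℚ) * stRho q.1.2.2.2.1 q.1.2.2.2.2 / 4,
        [-(((stSg q.1.2.2.2.2 : ℤ) : ℚ) / q.1.2.2.2.1 * q.2.2)], false) else
      (stRho q.1.2.2.2.1 q.1.2.2.2.2 / 4, [0], false)) (by fun_prop) 1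
    fun K R s inv hK hR h1 h2 β k hk => by
      have h0 : (1 : ℝ) ≤ s := by exact_mod_cast h1
      have h3 : (s : ℝ) ≤ 2 ^ (K * R) := by exact_mod_cast h2
      have h4 := st_one_le_pow (K * R)
      have h5 : ‖(stRho s inv : ℂ)‖ ≤ 1 := by
        unfold stRho
        split_ifs
        · push_cast
          rw [norm_div, norm_one, Complex.norm_natCast]
          exact (div_le_one (by linarith)).2 h0
        · simp
      have h6 := norm_nonneg (stRho s inv : ℂ)
      simp only [mkSP, one_mul]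
      cases β
      · refine ⟨by simp [DV.ok], ?_⟩
        simp only [Bool.false_eq_true, if_false, DV.val_one, norm_mul, norm_ee, mul_one,
          Rat.cast_div, norm_div, Rat.cast_ofNat, Complex.norm_ofNat]
        linarith
      · refine ⟨by simp [DV.ok], ?_⟩
        simp only [if_true, DV.val_one, norm_mul, norm_ee, mul_one, Rat.cast_div, norm_div,
          Rat.cast_ofNat, Complex.norm_ofNat, Rat.cast_mul, Rat.cast_neg, norm_neg,
          Rat.cast_natCast, Complex.norm_natCast]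
        nlinarith
  refine (((((((((real_msk.comp S1).comp real_msk).comp S2).comp real_msk).comp S1).comp
    real_top).comp real_top).comp D)).progOK fun K R s inv hK hR h1 h2 f k b hk => ?_
  have hk' : k < 2 ^ (K * R) := by omega
  have hs0 : (s : ℂ) ≠ 0 := by
    have : 0 < s := by omega
    exact_mod_cast this.ne'
  have hq0 : (s : ℚ) ≠ 0 := by positivity
  have hσ : stSg inv = 1 ∨ stSg inv = -1 := by cases inv <;> simp [stSg]
  have h3 := st_three h2 (stSg inv) hσ f (b ^^^ 1) hk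
  simp only [mkSP]
  rw [dg_apply _ _ _ hk', topOp_two _ _ hk', h3, st_bodd, st_xor_xor]
  simp only [st_ker, st_even]
  cases hb : b.bodd
  · simp only [Bool.false_eq_true, if_false, Bool.not_false, if_true, DV.val_one, ee_zero,
      mul_assoc (stRho s inv : ℂ), ← Finset.mul_sum]
    push_cast
    ring
  · simp only [Bool.false_eq_true, if_false, Bool.not_true, if_true, DV.val_one,
      mul_assoc (stRho s inv : ℂ), ← Finset.mul_sum, Bool.true_eq_false]
    have e3 : ∑ j ∈ Finset.range s, ee (stSg inv / s * j * k) * f (s - 1 - j + 2 ^ (K * R) * b) =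
        ee (-(stSg inv / s * k)) * ∑ j ∈ Finset.range s,
          ee (-(stSg inv / s) * j * k) * f (j + 2 ^ (K * R) * b) := by
      rw [Finset.mul_sum, ← Finset.sum_range_reflect _ s]
      refine Finset.sum_congr rfl fun j hj => ?_
      rw [Finset.mem_range] at hj
      rw [show s - 1 - (s - 1 - j) = j by omega, ← mul_assoc, ← ee_add]
      congr 1
      have : (stSg inv : ℚ) / s * ((s - 1 - j : ℕ) : ℚ) * k =
          (-(stSg inv / s * k) + -(stSg inv / s) * j * k) + ((stSg inv * k : ℤ) : ℚ) := by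
        rw [Nat.cast_sub (by omega), Nat.cast_sub h1]
        push_cast
        field_simp
        ring
      rw [this, ee_add, ee_int, mul_one]
    rw [e3]
    generalize ∑ j ∈ Finset.range s, ee (-(stSg inv / s) * j * k) * f (j + 2 ^ (K * R) * b) = X
    generalize ee (-(stSg inv / s * k)) = Y
    push_cast
    field_simp

end Crest.Agent.R326
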