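/-
R326/TrRun: running the whole program on the expanded layout.
-/
import Crest.Agent.R326.TrAtom

set_option autoImplicit false
set_option linter.unusedSimpArgs false
set_option linter.unusedSectionVars false
set_option linter.unusedVariables false

namespace Crest.Agent.R326

open Function Crest.Agent.Lib.PolyTime

variable {α : Type} {𝔅 : Bud α} {p : α → TP} {k : ℕ}

namespace TrRun

/-- The field of row `ρ` of dimension `i`. -/
abbrev row (t : TP) (ρ i : ℕ) : ℕ := 2 + 2 * t.d + i * t.R + ρ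

/-- `w` is `v` with row `ρ` and the low bits of the active chunks exchanged in the first `j`
dimensions. -/
def SwRel (t : TP) (ρ j : ℕ) (v w : ℕ → ℕ) : Prop :=
  (∀ i < j, w (2 + i) = v (row t ρ i) + 2 ^ t.K * (v (2 + i) / 2 ^ t.K) ∧
    w (row t ρ i) = v (2 + i) % 2 ^ t.K) ∧
  ∀ c, (∀ i < j, c ≠ 2 + i ∧ c ≠ row t ρ i) → w c = v c

/-- The exchange in dimension `j`. -/
def sw1 (t : TP) (ρ j : ℕ) (v : ℕ → ℕ) : ℕ → ℕ :=
  update (update v (2 + j) (v (row t ρ j) + 2 ^ t.K * (v (2 + j) / 2 ^ t.K))) (row t ρ j)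
    (v (2 + j) % 2 ^ t.K)

variable {t : TP} {ρ j : ℕ} {v w : ℕ → ℕ}

theorem row_inj {σ i i' : ℕ} (hρ : ρ < t.R) (hσ : σ < t.R) (h : row t σ i = row t ρ i') :
    i = i' ∧ σ = ρ := by
  have h1 : σ + t.R * i = ρ + t.R * i' := by
    simp only [row] at h
    rw [mul_comm t.R, mul_comm t.R]; omega
  have h2 := congrArg (· / t.R) h1
  have h3 := congrArg (· % t.R) h1
  have h0 : 0 < t.R := by omega
  simp only [Nat.add_mul_div_left _ _ h0, Nat.div_eq_of_lt hρ, Nat.div_eq_of_lt hσ,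
    Nat.add_mul_mod_self_left, Nat.mod_eq_of_lt hρ, Nat.mod_eq_of_lt hσ, zero_add] at h2 h3
  exact ⟨h2, h3⟩

theorem row_lt {i : ℕ} (hρ : ρ < t.R) (hi : i < t.d) : row t ρ i < layX.n t := by
  have := Nat.mul_le_mul_right t.R (Nat.succ_le_of_lt hi)
  simp only [row, layX, Nat.succ_mul] at this ⊢
  omega

theorem r_row (t : TP) (ρ i : ℕ) : layX.r t (row t ρ i) = 2 ^ t.K := by
  simp only [layX, row]
  rw [if_neg (by omega), if_neg (by omega), if_neg (by omega)]

theorem r_act {i : ℕ} (hi : i < t.d) : layX.r t (2 + i) = Gam t.K := by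
  simp only [layX]
  rw [if_neg (by omega), if_neg (by omega), if_pos (by omega)]

theorem act_lt {i : ℕ} (hi : i < t.d) : 2 + i < layX.n t := by
  simp only [layX]
  omega

theorem mix_lt {Q N x y : ℕ} (hN : Q ∣ N) (hx : x < N) (hy : y < Q) : y + Q * (x / Q) < N := by
  obtain ⟨c, rfl⟩ := hN
  have h1 : x / Q < c := Nat.div_lt_of_lt_mul hx
  have h2 := Nat.mul_le_mul_left Q (Nat.succ_le_of_lt h1)
  rw [Nat.mul_succ] at h2
  omega

theorem sw1_act (hj : j < t.d) : sw1 t ρ j v (2 + j) =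
    v (row t ρ j) + 2 ^ t.K * (v (2 + j) / 2 ^ t.K) := by
  rw [sw1, update_of_ne (by simp only [row]; omega), update_self]

theorem sw1_row : sw1 t ρ j v (row t ρ j) = v (2 + j) % 2 ^ t.K := by
  rw [sw1, update_self]

theorem sw1_ne {c : ℕ} (h1 : c ≠ 2 + j) (h2 : c ≠ row t ρ j) : sw1 t ρ j v c = v c := by
  rw [sw1, update_of_ne h2, update_of_ne h1]

theorem swRel_succ (hρ : ρ < t.R) (hj : j < t.d) :
    SwRel t ρ (j + 1) v w ↔ SwRel t ρ j (sw1 t ρ j v) w := by
  have n1 : ∀ i < j, sw1 t ρ j v (2 + i) = v (2 + i) := fun i hi =>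
    sw1_ne (by omega) (by simp only [row]; omega)
  have n2 : ∀ i < j, sw1 t ρ j v (row t ρ i) = v (row t ρ i) := fun i hi =>
    sw1_ne (by simp only [row]; omega) fun e => by have := (row_inj hρ hρ e).1; omega
  constructor
  · rintro ⟨h1, h2⟩
    refine ⟨fun i hi => ?_, fun c hc => ?_⟩
    · rw [n1 i hi, n2 i hi]
      exact h1 i (by omega)
    · by_cases e1 : c = 2 + j
      · rw [e1, sw1_act hj, (h1 j (by omega)).1]
      · by_cases e2 : c = row t ρ j
        · rw [e2, sw1_row, (h1 j (by omega)).2]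
        · rw [sw1_ne e1 e2]
          refine h2 c fun i hi => ?_
          rcases Nat.lt_succ_iff_lt_or_eq.1 hi with hi | rfl
          · exact hc i hi
          · exact ⟨e1, e2⟩
  · rintro ⟨h1, h2⟩
    refine ⟨fun i hi => ?_, fun c hc => ?_⟩
    · rcases Nat.lt_succ_iff_lt_or_eq.1 hi with hi | rfl
      · rw [← n1 i hi, ← n2 i hi]
        have := h1 i hi
        rw [n1 i hi] at this ⊢
        exact this
      · rw [h2 _ fun i' hi' => ⟨by omega, by simp only [row]; omega⟩,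
          h2 _ fun i' hi' => ⟨by simp only [row]; omega,
            fun e => by have := (row_inj hρ hρ e).1; omega⟩, sw1_act hj, sw1_row]
        exact ⟨rfl, rfl⟩
    · rw [h2 c fun i hi => hc i (by omega), sw1_ne (hc j (by omega)).1 (hc j (by omega)).2]

theorem exists_swRel (h : j = 0 ∨ (ρ < t.R ∧ j ≤ t.d)) (v : ℕ → ℕ) : ∃ w, SwRel t ρ j v w := by
  induction j generalizing v with
  | zero => exact ⟨v, fun i hi => by omega, fun _ _ => rfl⟩
  | succ j ih =>
    obtain ⟨hρ, hj⟩ := h.resolve_left (by omega)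
    obtain ⟨w, hw⟩ := ih (Or.inr ⟨hρ, by omega⟩) (sw1 t ρ j v)
    exact ⟨w, (swRel_succ hρ hj).2 hw⟩

theorem SwRel.unique {w' : ℕ → ℕ} (h : SwRel t ρ j v w) (h' : SwRel t ρ j v w') : w = w' := by
  funext c
  by_cases hc : ∀ i < j, c ≠ 2 + i ∧ c ≠ row t ρ i
  · rw [h.2 c hc, h'.2 c hc]
  · push Not at hc
    obtain ⟨i, hi, hc⟩ := hc
    by_cases e : c = 2 + i
    · rw [e, (h.1 i hi).1, (h'.1 i hi).1]
    · rw [hc e, (h.1 i hi).2, (h'.1 i hi).2]

theorem SwRel.update (h : SwRel t ρ j v w) (x : ℕ) :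
    SwRel t ρ j (Function.update v 0 x) (Function.update w 0 x) := by
  refine ⟨fun i hi => ?_, fun c hc => ?_⟩
  · have e1 : 2 + i ≠ 0 := by omega
    have e2 : row t ρ i ≠ 0 := by simp only [row]; omega
    simp only [update_of_ne e1, update_of_ne e2]
    exact h.1 i hi
  · by_cases e : c = 0
    · rw [e, update_self, update_self]
    · rw [update_of_ne e, update_of_ne e, h.2 c hc]

theorem val_row {i : ℕ} (hv : layX.Val t v) (hρ : ρ < t.R) (hi : i < t.d) :
    v (row t ρ i) < 2 ^ t.K := r_row t ρ i ▸ hv _ (row_lt hρ hi)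

theorem SwRel.symm (h : SwRel t ρ j v w) (hv : layX.Val t v) (hj : j = 0 ∨ (ρ < t.R ∧ j ≤ t.d)) :
    SwRel t ρ j w v := by
  refine ⟨fun i hi => ?_, fun c hc => (h.2 c hc).symm⟩
  obtain ⟨hρ, hj⟩ := hj.resolve_left (by omega)
  have h1 := val_row hv hρ (i := i) (by omega)
  rw [(h.1 i hi).1, (h.1 i hi).2, Nat.add_mul_div_left _ _ (Nat.two_pow_pos _),
    Nat.div_eq_of_lt h1, zero_add, Nat.mod_add_div, Nat.add_mul_mod_self_left, Nat.mod_eq_of_lt h1]
  exact ⟨rfl, rfl⟩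

theorem SwRel.val (h : SwRel t ρ j v w) (hv : layX.Val t v) (hj : j = 0 ∨ (ρ < t.R ∧ j ≤ t.d)) :
    layX.Val t w := by
  intro c hcn
  by_cases hc : ∀ i < j, c ≠ 2 + i ∧ c ≠ row t ρ i
  · rw [h.2 c hc]
    exact hv c hcn
  · push Not at hc
    obtain ⟨i, hi, hc⟩ := hc
    obtain ⟨hρ, hj⟩ := hj.resolve_left (by omega)
    have hid : i < t.d := by omega
    by_cases e : c = 2 + i
    · rw [e, (h.1 i hi).1]
      refine mix_lt ?_ (hv _ (act_lt hid)) (val_row hv hρ hid)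
      rw [r_act hid]
      exact pow_dvd_pow 2 (by omega)
    · rw [hc e, (h.1 i hi).2, r_row]
      exact Nat.mod_lt _ (Nat.two_pow_pos _)

theorem SwRel.good (h : SwRel t ρ j v w) (hv : layX.Val t v) (hj : j = 0 ∨ (ρ < t.R ∧ j ≤ t.d))
    (hg : Good t.K 2 (2 + t.d) t.d v) : Good t.K 2 (2 + t.d) t.d w := by
  intro g hgd
  refine ⟨?_, ?_⟩
  · by_cases hgj : g < j
    · obtain ⟨hρ, hj⟩ := hj.resolve_left (by omega)
      rw [(h.1 g hgj).1]
      exact mix_lt (Dvd.dvd.mul_right (pow_dvd_pow 2 (by omega)) _) (hg g hgd).1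
        (val_row hv hρ hgd)
    · rw [h.2 _ fun i hi => ⟨by omega, by simp only [row]; omega⟩]
      exact (hg g hgd).1
  · rw [h.2 _ fun i hi => ⟨by omega, by simp only [row]; omega⟩]
    exact (hg g hgd).2

theorem SwRel.logi (h : SwRel t ρ t.d v w) (hρ : ρ < t.R) : logi t t.R w = logi t ρ v := by
  funext c
  simp only [R326.logi]
  split_ifs with h1 h2 h3
  · omega
  · obtain ⟨i, rfl⟩ : ∃ i, c = 2 + i := ⟨c - 2, by omega⟩
    have hi : i < t.d := by omega
    rw [Nat.add_sub_cancel_left, (h.1 i hi).1]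
    congr 1
    refine Finset.sum_congr rfl fun σ hσ => ?_
    have hσ' := Finset.mem_range.1 hσ
    rw [if_neg hσ'.ne]
    split_ifs with e
    · rw [e, (h.1 i hi).2]
    · exact congrArg _ (h.2 (row t σ i) fun i' hi' =>
        ⟨by simp only [row]; omega, fun e' => e (row_inj hρ hσ' e').2⟩)
  · exact h.2 _ fun i hi => ⟨by omega, by simp only [row]; omega⟩
  · rfl

theorem val_sw1 (hv : layX.Val t v) (hρ : ρ < t.R) (hj : j < t.d) : layX.Val t (sw1 t ρ j v) := by
  refine R326.Val.update (R326.Val.update hv ?_) ?_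
  · refine mix_lt ?_ (hv _ (act_lt hj)) (val_row hv hρ hj)
    rw [r_act hj]
    exact pow_dvd_pow 2 (by omega)
  · rw [r_row]
    exact Nat.mod_lt _ (Nat.two_pow_pos _)

theorem tauE_nonneg : 0 ≤ tauE := by unfold tauE; norm_num

theorem tauE_le_one : tauE ≤ 1 := by unfold tauE; norm_num

theorem one_le_rpow_tau {n : ℕ} (h : 1 ≤ n) : (1 : ℝ) ≤ (n : ℝ) ^ tauE :=
  Real.one_le_rpow (by exact_mod_cast h) tauE_nonneg

theorem one_le_mul_rpow {m n : ℕ} (hm : 1 ≤ m) (h : 1 ≤ n) : (1 : ℝ) ≤ m * (n : ℝ) ^ tauE :=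
  one_le_mul_of_one_le_of_one_le (by exact_mod_cast hm) (one_le_rpow_tau h)

theorem succ_rpow_le {n : ℕ} (h : 1 ≤ n) : ((n + 1 : ℕ) : ℝ) ^ tauE ≤ 2 * (n : ℝ) ^ tauE := by
  have h1 : ((n + 1 : ℕ) : ℝ) ≤ 2 * n := by exact_mod_cast (by omega : n + 1 ≤ 2 * n)
  refine (Real.rpow_le_rpow (by positivity) h1 tauE_nonneg).trans ?_
  rw [Real.mul_rpow (by norm_num) (by positivity)]
  refine mul_le_mul_of_nonneg_right ?_ (by positivity)
  simpa using Real.rpow_le_rpow_of_exponent_le (x := 2) (by norm_num) tauE_le_one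

theorem wt_two (t : TP) : wt (layX.r t) 2 = 2 * t.P * t.Zr := by
  simp [wt_succ, layX]

theorem Zr_le_vol {V : α → ℕ} (hT : TFam V p k) (a : α) : (p a).Zr ≤ layX.vol (p a) := by
  refine Nat.le_of_dvd (hT.famX.vol_pos a) ((Dvd.intro_left _ (wt_two _).symm).trans ?_)
  exact wt_dvd _ (hT.famX.base a)

theorem Apx.mono_e {t : TP} {ρ mb e e' : ℕ} {F : (ℕ → ℕ) → ℂ} {D : Arr} (h : Apx t ρ mb e F D)
    (he : e ≤ e') : Apx t ρ mb e' F D :=
  ⟨h.1, fun v hv hg => ⟨(h.2 v hv hg).1.trans (pow_le_pow_right₀ (by norm_num) he),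
    (h.2 v hv hg).2.trans (pow_le_pow_right₀ (by norm_num) (by omega))⟩⟩

theorem Apx.len {t : TP} {ρ mb e : ℕ} {F : (ℕ → ℕ) → ℂ} {D : Arr} (h : Apx t ρ mb e F D) :
    D.length = layX.vol t := h.1

theorem sz_apx {Q : Type} [Enc Q] {V : α → ℕ} {q : α → Q} (hq : SmIn V q)
    (hV : (fun a => layX.vol (p a)) ≼ V) {Pre : α → Arr → Prop}
    (h : ∀ a D, Pre a D → D.length = layX.vol (p a)) :
    sz (fun z : {z : α × Arr // Pre z.1 z.2} => (q z.1.1, z.1.2)) ≼ fun z => V z.1.1 :=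
  sz_pair (hq.size_le.comp _) (sz_bits ((hV.comp
    fun z : {z : α × Arr // Pre z.1 z.2} => z.1.1).mono_left fun z => (h _ _ z.2).le)
    fun z => hq.one_le _)

/-- Transport of an approximation along a gather of whole records. -/
theorem Apx.gather {t : TP} {ρ ρ' ρ0 mb e : ℕ} {F : (ℕ → ℕ) → ℂ} {D D' : Arr}
    {sw : (ℕ → ℕ) → ℕ → ℕ} (h : Apx t ρ mb e F D)
    (hG : GPost (layX.ext ℕ) (layX.ext ℕ) (t, ρ0) (fun v w => w = sw v) D D')
    (hsw : ∀ v, layX.Val t v → Good t.K 2 (2 + t.d) t.d v →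
      layX.Val t (sw v) ∧ Good t.K 2 (2 + t.d) t.d (sw v) ∧
      (∀ x, sw (update v 0 x) = update (sw v) 0 x) ∧ logi t ρ (sw v) = logi t ρ' v) :
    Apx t ρ' mb e F D' := by
  refine ⟨hG.1, fun v hv hg => ?_⟩
  obtain ⟨h1, h2, h3, h4⟩ := hsw v hv hg
  have hn : 1 ≤ layX.n t := by simp only [layX]; omega
  have h5 : blk (2 * t.P) (layX.ri t v) D' = blk (2 * t.P) (layX.ri t (sw v)) D :=
    hG.blk_eq h.1 hn hn rfl rfl hv h1 fun x _ => (h3 x).symm
  rw [gc_congr h5, ← h4]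
  exact h.2 _ h1 h2

theorem sum_take_succ {β : Type} [Inhabited β] (f : β → ℕ) (l : List β) {j : ℕ}
    (hj : j < l.length) :
    ((l.take (j + 1)).map f).sum = ((l.take j).map f).sum + f (l.getD j default) := by
  rw [List.take_add_one, List.map_append, List.sum_append]
  simp [List.getD_eq_getElem?_getD, List.getElem?_eq_getElem hj]

theorem sum_take_le {β : Type} (f : β → ℕ) (l : List β) (j : ℕ) :
    ((l.take j).map f).sum ≤ (l.map f).sum := by
  conv_rhs => rw [← List.take_append_drop j l, List.map_append, List.sum_append]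
  exact Nat.le_add_right _ _

theorem foldl_take_succ {β γ : Type} [Inhabited β] (f : γ → β → γ) (x : γ) (l : List β) {j : ℕ}
    (hj : j < l.length) :
    (l.take (j + 1)).foldl f x = f ((l.take j).foldl f x) (l.getD j default) := by
  rw [List.take_add_one, List.foldl_append]
  simp [List.getD_eq_getElem?_getD, List.getElem?_eq_getElem hj]

theorem wt_single (lg : ℕ → ℕ) (ph : ℕ × List Atom) :
    FProg.wt lg [ph] = (ph.2.map fun at' => lg at'.2 + 2).sum := by
  simp [FProg.wt]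

theorem length_le_wt (lg : ℕ → ℕ) (ph : ℕ × List Atom) : ph.2.length ≤ FProg.wt lg [ph] := by
  rw [wt_single]
  induction ph.2 with
  | nil => simp
  | cons b l ih => simp only [List.length_cons, List.map_cons, List.sum_cons]; omega

end TrRun

/-- Exchange TrRun.row `ρ` with the low bits of the active chunks (nothing if `ρ = R`); the exchange is
an involution, so the same gather activates and deactivates.  Recipe: `Gat.loopFix` over `i < d`
of `Gat.swapLow` (fields `2 + i` and `2 + 2 d + i R + ρ`), in the budget with `V = vol`. -/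
theorem Gat.activate (hT : TFam 𝔅.V p k) {ρ : α → ℕ} (hρ : ∀ a, ρ a ≤ (p a).R)
    (hc : (fun a => (layX.vol (p a) : ℝ) * ((p a).d * ((p a).K : ℝ) ^ tauE)) ≲ 𝔅.F) :
    ∃ sw : α → (ℕ → ℕ) → ℕ → ℕ,
      Gat 𝔅 (fun a => (p a, ρ a)) (layX.ext ℕ) (layX.ext ℕ) (fun a v w => w = sw a v) (fun _ => 0) ∧
      ∀ a v, layX.Val (p a) v → Good (p a).K 2 (2 + (p a).d) (p a).d v →
        layX.Val (p a) (sw a v) ∧ Good (p a).K 2 (2 + (p a).d) (p a).d (sw a v) ∧
        (∀ x, sw a (update v 0 x) = update (sw a v) 0 x) ∧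
        logi (p a) (p a).R (sw a v) = logi (p a) (ρ a) v ∧
        logi (p a) (ρ a) (sw a v) = logi (p a) (p a).R v := by
  let cnt : TP × ℕ → ℕ := fun q => if q.2 < q.1.R then q.1.d else 0
  have hcnt : ∀ a, cnt (p a, ρ a) = 0 ∨ (ρ a < (p a).R ∧ cnt (p a, ρ a) ≤ (p a).d) := fun a => by
    by_cases h : ρ a < (p a).R
    · exact Or.inr ⟨h, by simp [cnt, h]⟩
    · exact Or.inl (by simp [cnt, h])
  choose sw hsw using fun a v => TrRun.exists_swRel (hcnt a) v
  refine ⟨sw, ?_, fun a v hv hg => ⟨(hsw a v).val hv (hcnt a), (hsw a v).good hv (hcnt a) hg,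
    fun x => (hsw a _).unique ((hsw a v).update x), ?_⟩⟩
  · have hVF : ∀ a, ((layX.vol (p a) : ℕ) : ℝ) ≤
        (layX.vol (p a) : ℝ) * ((p a).d * ((p a).K : ℝ) ^ tauE) := fun a =>
      le_mul_of_one_le_right (by positivity) (TrRun.one_le_mul_rpow (hT.ok a).hd (hT.ok a).hK)
    refine Impl.mono_bud (𝔅' := ⟨𝔅.o, fun a => layX.vol (p a), _, hVF⟩) ?_ rfl hT.vol hc
    have hF : Fam (fun a => layX.vol (p a)) (fun a => (p a, ρ a)) (layX.ext ℕ) 2 :=
      hT.self.famX.ext (fun a => a) ρ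
        ((hT.famX.small.pt (f := fun t : TP => t.R) (by fun_prop)).nat_le hρ)
    have hc1 : PT cnt := by fun_prop
    have hq : ∀ q : (a : α) × Fin (cnt (p a, ρ a)), ρ q.1 < (p q.1).R ∧ q.2.1 < (p q.1).d :=
      fun q => by
        have h1 := q.2.2
        have h2 := hcnt q.1
        omega
    refine Gat.mono (Gat.loopFix (𝔅 := ⟨𝔅.o, fun a => layX.vol (p a), _, hVF⟩) hF hc1
      (by fun_prop) (fun a => layX.vol (p a) * ((p a).K : ℝ) ^ tauE)
      (fun a => le_mul_of_one_le_right (by positivity) (TrRun.one_le_rpow_tau (hT.ok a).hK))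
      (RLe.of_le fun a => ?_) (fun a j v u => u = TrRun.sw1 (p a) (ρ a) j v)
      (fun a j v w => TrRun.SwRel (p a) (ρ a) j v w) ?_ (fun a v w _ _ h c _ => ?_)
      fun a j hj v w hv hw h => ?_) fun a v w _ _ h => h ▸ hsw a v
    · have h1 : (cnt (p a, ρ a) : ℝ) ≤ (p a).d := by
        have := hcnt a
        exact_mod_cast (by omega : cnt (p a, ρ a) ≤ (p a).d)
      calc _ ≤ ((p a).d : ℝ) * (layX.vol (p a) * ((p a).K : ℝ) ^ tauE) :=
            mul_le_mul_of_nonneg_right h1 (by positivity)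
        _ = _ := by ring
    · refine Gat.mono (Gat.swapLow k (hF.ext_lt hc1) (i := fun q => 2 + q.2)
        (j := fun q => TrRun.row q.1.1 q.1.2 q.2) (by fun_prop) (by fun_prop) (fun q => by omega)
        (fun q => ?_) (fun q => TrRun.row_lt (hq q).1 (hq q).2) (fun q => ?_) (fun q => ?_) ?_)
        fun q v w hv hw h => ?_
      · have := (hq q).2
        simp only [TrRun.row]
        omega
      · change layX.r _ _ ∣ layX.r _ _
        rw [TrRun.r_row, TrRun.r_act (hq q).2]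
        exact pow_dvd_pow 2 (Nat.le_mul_of_pos_left _ (by norm_num))
      · change Rich k (layX.vol (p q.1)).size.size (wt (layX.r (p q.1)) 2) (layX.vol (p q.1))
        refine (hT.ok q.1).rich.mono (by omega) ?_ le_rfl
        rw [TrRun.wt_two]
        exact (Nat.div_dvd_of_dvd (hT.ok q.1).dvd).mul_left _
      · refine ⟨2, by norm_num, fun q => ?_⟩
        change (layX.vol (p q.1) : ℝ) * ((layX.r (p q.1) (TrRun.row _ _ _)).size : ℝ) ^ tauE ≤
          2 * (layX.vol (p q.1) * ((p q.1).K : ℝ) ^ tauE)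
        rw [TrRun.r_row, Nat.size_pow, mul_left_comm]
        exact mul_le_mul_of_nonneg_left (TrRun.succ_rpow_le (hT.ok q.1).hK) (by positivity)
      · have h1 := TrRun.val_row (t := p q.1) hv (hq q).1 (hq q).2
        change v (2 + q.2.1) % layX.r (p q.1) (TrRun.row _ _ _) = w (TrRun.row _ _ _) ∧
          v (TrRun.row _ _ _) = w (2 + q.2.1) % layX.r (p q.1) (TrRun.row _ _ _) ∧
          v (2 + q.2.1) / layX.r (p q.1) (TrRun.row _ _ _) = w (2 + q.2.1) / layX.r (p q.1) (TrRun.row _ _ _) ∧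
          ∀ c < _, c ≠ 2 + q.2.1 → c ≠ TrRun.row _ _ _ → v c = w c
        rw [h, TrRun.r_row, TrRun.sw1_row, TrRun.sw1_act (hq q).2, Nat.add_mul_div_left _ _ (Nat.two_pow_pos _),
          Nat.div_eq_of_lt h1, zero_add, Nat.add_mul_mod_self_left, Nat.mod_eq_of_lt h1]
        exact ⟨rfl, rfl, rfl, fun c _ e1 e2 => (TrRun.sw1_ne e1 e2).symm⟩
    · exact (h.2 c fun i hi => by omega).symm
    · have h2 := hcnt a
      have h3 : ρ a < (p a).R := by omega
      have h4 : j < (p a).d := by omega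
      exact ⟨_, TrRun.val_sw1 hv h3 h4, rfl, (TrRun.swRel_succ h3 h4).1 h⟩
  · have h1 := hsw a v
    have h2 := h1.symm hv (hcnt a)
    by_cases h : ρ a < (p a).R
    · have e : cnt (p a, ρ a) = (p a).d := by simp [cnt, h]
      rw [e] at h1 h2
      exact ⟨h1.logi h, (h2.logi h).symm⟩
    · have e : cnt (p a, ρ a) = 0 := by simp [cnt, h]
      have e' : ρ a = (p a).R := le_antisymm (hρ a) (not_lt.1 h)
      rw [e] at h1
      have e'' : sw a v = v := funext fun c => h1.2 c fun i hi => by omega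
      rw [e'', e']
      exact ⟨rfl, rfl⟩

/-- One phase: activate, loop over the steps (`Impl.loop`, `Impl.atom`), deactivate. -/
theorem Impl.phase (hT : TFam 𝔅.V p k) {ph : α → ℕ × List Atom}
    (hsm : SmIn (fun a => (p a).Zr) ph) {dv : SP × ℕ × ℕ → DV} (hdv : PT dv)
    {lg : α → ℕ → ℕ} {mb e : α → ℕ} (F : α → (ℕ → ℕ) → ℂ)
    (hok : ∀ a, ∀ i < (p a).d, ∀ code x, (dv ((p a).sp i, code, x)).ok ∧
      ‖(dv ((p a).sp i, code, x)).val‖ ≤ 2 ^ lg a code)
    (hρ : ∀ a, (ph a).1 ≤ (p a).R) (hj : ∀ a, ∀ at' ∈ (ph a).2, ∀ j, at'.1 = some j → j < (p a).K)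
    (hmb : ∀ a, mb a ≤ (p a).sh)
    (hP : ∀ a, (p a).sh + mb a + (e a + 3 * (FProg.wt (lg a) [ph a] * (p a).d)) + 2 ≤ (p a).P)
    {Tm : α → ℝ} (hM : HM 𝔅 (fun a => (p a).P) Tm) (hT0 : ∀ a, 0 ≤ Tm a)
    (hc : (fun a => (layX.vol (p a) : ℝ) * ((p a).d * ((p a).K : ℝ) ^ tauE +
      (ph a).2.length * ((p a).K * ((p a).d : ℝ) ^ tauE))) ≲ 𝔅.F) :
    Impl 𝔅 (fun a => (p a, ph a)) (fun a => Apx (p a) (p a).R (mb a) (e a) (F a))
      (fun a _ => Apx (p a) (p a).R (mb a) (e a + 3 * (FProg.wt (lg a) [ph a] * (p a).d))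
        (runP (atomD (p a).K (p a).d ((p a).cf dv)) [ph a] (F a)))
      fun a => (ph a).2.length * (4 * layX.nrec (p a) * Tm a) := by
  have hVF : ∀ a, ((layX.vol (p a) : ℕ) : ℝ) ≤ (layX.vol (p a) : ℝ) *
      ((p a).d * ((p a).K : ℝ) ^ tauE + (ph a).2.length * ((p a).K * ((p a).d : ℝ) ^ tauE)) :=
    fun a => le_mul_of_one_le_right (by positivity)
      ((TrRun.one_le_mul_rpow (hT.ok a).hd (hT.ok a).hK).trans (le_add_of_nonneg_right (by positivity)))
  let 𝔅' : Bud α := ⟨𝔅.o, fun a => layX.vol (p a), _, hVF⟩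
  refine Impl.mono_bud (𝔅' := 𝔅') ?_ rfl hT.vol hc
  have hT' : TFam 𝔅'.V p k := hT.self
  have hs : SmIn 𝔅'.V fun a => (p a, ph a) :=
    hT'.famX.smV.pair (hsm.mono (OLe.of_le (TrRun.Zr_le_vol hT)))
  obtain ⟨sw, hG, hsw⟩ := Gat.activate (𝔅 := 𝔅') hT' hρ (RLe.of_le fun a =>
    mul_le_mul_of_nonneg_left (le_add_of_nonneg_right (by positivity)) (by positivity))
  have hG' := Impl.pull_pt (p' := fun a => (p a, ph a))
    (g := fun q : TP × (ℕ × List Atom) => (q.1, q.2.1)) hG (by fun_prop) hs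
  let ej : α → ℕ → ℕ := fun a j =>
    e a + 3 * ((((ph a).2.take j).map fun at' => lg a at'.2 + 2).sum * (p a).d)
  let Fj : α → ℕ → (ℕ → ℕ) → ℂ := fun a j => ((ph a).2.take j).foldl
    (fun f at' => atomD (p a).K (p a).d ((p a).cf dv) (ph a).1 at' f) (F a)
  let atj : α → ℕ → Atom := fun a j => (ph a).2.getD j default
  have hej : ∀ a j, j < (ph a).2.length →
      ej a (j + 1) = ej a j + 3 * ((lg a (atj a j).2 + 2) * (p a).d) := fun a j hj => by
    simp only [ej, atj, TrRun.sum_take_succ _ _ hj]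
    ring
  have hej' : ∀ a j, ej a j ≤ e a + 3 * (FProg.wt (lg a) [ph a] * (p a).d) := fun a j => by
    have := TrRun.sum_take_le (fun at' : Atom => lg a at'.2 + 2) (ph a).2 j
    simp only [ej, TrRun.wt_single]
    gcongr
  have h1 : Impl 𝔅' (fun a => (p a, ph a)) (fun a => Apx (p a) (p a).R (mb a) (e a) (F a))
      (fun a _ => Apx (p a) (ph a).1 (mb a) (e a) (F a)) fun _ => 0 :=
    hG'.mono (fun a D h => h.1) (fun a D D' h h' => TrRun.Apx.gather h h' fun v hv hg =>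
      let k := hsw a v hv hg; ⟨k.1, k.2.1, k.2.2.1, k.2.2.2.1⟩) fun _ => le_rfl
  have h3 : Impl 𝔅' (fun a => (p a, ph a))
      (fun a => Apx (p a) (ph a).1 (mb a) (ej a (ph a).2.length) (Fj a (ph a).2.length))
      (fun a _ => Apx (p a) (p a).R (mb a) (ej a (ph a).2.length) (Fj a (ph a).2.length))
      fun _ => 0 :=
    hG'.mono (fun a D h => h.1) (fun a D D' h h' => TrRun.Apx.gather h h' fun v hv hg =>
      let k := hsw a v hv hg; ⟨k.1, k.2.1, k.2.2.1, k.2.2.2.2⟩) fun _ => le_rfl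
  have hVF' : ∀ (a : α) (i : ℕ), (𝔅'.V a : ℝ) ≤
      (layX.vol (p a) : ℝ) * ((p a).K * ((p a).d : ℝ) ^ tauE) := fun a _ =>
    le_mul_of_one_le_right (by positivity) (TrRun.one_le_mul_rpow (hT.ok a).hK (hT.ok a).hd)
  have hjs : SmIn (fun q : (a : α) × Fin (ph a).2.length => (p q.1).Zr) fun q => (ph q.1, q.2.1) :=
    (hsm.comp _).pair (((hsm.pt (f := fun q : ℕ × List Atom => q.2.length) (by fun_prop)).comp
      fun q : (a : α) × Fin (ph a).2.length => q.1).nat_le fun q => q.2.2.le)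
  let 𝔅'' : Bud ((a : α) × Fin (ph a).2.length) := 𝔅'.sub (fun q => q.1) (fun q => 𝔅'.V q.1)
    (fun q => (layX.vol (p q.1) : ℝ) * ((p q.1).K * ((p q.1).d : ℝ) ^ tauE)) fun q => hVF' q.1 q.2
  have hT'' : TFam 𝔅''.V (fun q => p q.1) k := hT'.reindex _
  have hM'' : HM 𝔅'' (fun q => (p q.1).P) fun q => Tm q.1 := fun q => hM q.1
  have hjs' : SmIn (fun q : (a : α) × Fin (ph a).2.length => (p q.1).Zr)
      fun q => ((ph q.1).1, atj q.1 q.2) :=
    hjs.pt (f := fun q : (ℕ × List Atom) × ℕ => (q.1.1, q.1.2.getD q.2 default)) (by fun_prop)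
  have b1 := Impl.atom (𝔅 := 𝔅'') hT'' hjs' hdv (lg := fun q => lg q.1 (atj q.1 q.2).2)
    (mb := fun q => mb q.1) (e := fun q => ej q.1 q.2) (fun q => Fj q.1 q.2)
    (fun q i hi x => hok q.1 i hi _ x) (fun q => hρ q.1)
    (fun q j h => hj q.1 _ (getD_mem _ q.2.2) j h) (fun q => hmb q.1)
    (fun q => by
      have h1 := hej q.1 q.2 q.2.2
      have h2 := hej' q.1 (q.2 + 1)
      have h3 := hP q.1
      omega) hM'' (fun q => hT0 q.1) (RLe.refl _)
  have hs'' : SmIn 𝔅''.V fun q => ((p q.1, ph q.1), q.2.1) := (hs.comp _).pair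
    ((hjs.pt (f := Prod.snd) PT.snd').mono (OLe.of_le fun q => TrRun.Zr_le_vol hT q.1))
  have b2 := Impl.pull_pt (𝔅 := 𝔅'') (p' := fun q => ((p q.1, ph q.1), q.2.1))
    (g := fun q : (TP × (ℕ × List Atom)) × ℕ => (q.1.1, q.1.2.1, q.1.2.2.getD q.2 default))
    b1 (by fun_prop) hs''
  have h2 := Impl.loop (𝔅 := 𝔅') (p := fun a => (p a, ph a))
    (Pre := fun a => Apx (p a) (ph a).1 (mb a) (e a) (F a)) (fun a => (ph a).2.length)
    (fun a _ => (layX.vol (p a) : ℝ) * ((p a).K * ((p a).d : ℝ) ^ tauE))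
    (fun a _ => 4 * layX.nrec (p a) * Tm a) hVF'
    (fun a j => Apx (p a) (ph a).1 (mb a) (ej a j) (Fj a j))
    (fun a j _ => Apx (p a) (ph a).1 (mb a) (ej a j + 3 * ((lg a (atj a j).2 + 2) * (p a).d))
      (atomD (p a).K (p a).d ((p a).cf dv) (ph a).1 (atj a j) (Fj a j)))
    (fun a _ j => Apx (p a) (ph a).1 (mb a) (ej a j) (Fj a j)) hs.size_le
    (L.range_pt hs (n := fun q : TP × (ℕ × List Atom) => q.2.2.length) (by fun_prop) (by fun_prop))
    (TrRun.sz_apx (Pre := fun a => Apx (p a) (ph a).1 (mb a) (e a) (F a)) hs hT'.vol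
      fun _ _ h => TrRun.Apx.len h) b2
    (RLe.of_le fun a => by
      simp only [Finset.sum_const, Finset.card_range, nsmul_eq_mul]
      rw [mul_left_comm]
      exact mul_le_mul_of_nonneg_left (le_add_of_nonneg_left (by positivity)) (by positivity))
    (fun a D h => by simpa [ej, Fj] using h) (fun _ _ _ _ _ _ h => h)
    (fun a _ j D D' _ hj _ h => by
      rw [hej a j hj]
      simp only [Fj, TrRun.foldl_take_succ _ _ _ hj]
      exact h)
  refine ((h1.comp h2 fun _ _ _ _ h => h).comp h3 fun _ _ _ _ h => h.choose_spec.2).mono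
    (fun _ _ h => h) (fun a D D' _ h => ?_) fun a => by simp
  have := h.choose_spec.2
  simp only [ej, Fj, List.take_length] at this
  simpa only [TrRun.wt_single, runP, List.foldl_cons, List.foldl_nil] using this

/-- The whole program: loop over the phases; the number of steps is at most the weight. -/
theorem Impl.runProg {c0 : ℕ} {prog : List Unit × List Unit → FProg} {dv : SP × ℕ × ℕ → DV}
    {lg : ℕ → ℕ → ℕ → ℕ} (hprog : ProgOK c0 prog dv lg) (hT : TFam 𝔅.V p k) {mb e : α → ℕ}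
    (F : α → (ℕ → ℕ) → ℂ) (hmb : ∀ a, mb a ≤ (p a).sh)
    (hP : ∀ a, (p a).sh + mb a + (e a + 3 * c0 * ((p a).d * ((p a).K * (p a).R))) + 2 ≤ (p a).P)
    {Tm : α → ℝ} (hM : HM 𝔅 (fun a => (p a).P) Tm) (hT0 : ∀ a, 0 ≤ Tm a)
    (hc : (fun a => (layX.vol (p a) : ℝ) * (p a).cost) ≲ 𝔅.F) :
    Impl 𝔅 p (fun a => Apx (p a) (p a).R (mb a) (e a) (F a))
      (fun a _ => Apx (p a) (p a).R (mb a) (e a + 3 * c0 * ((p a).d * ((p a).K * (p a).R)))
        (runP (atomD (p a).K (p a).d ((p a).cf dv)) (prog (un (p a).K, un (p a).R)) (F a)))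
      fun a => c0 * ((p a).K * (p a).R) * (4 * layX.nrec (p a) * Tm a) := by
  have hcost : ∀ a, 1 ≤ (p a).cost := fun a => by
    have := TrRun.one_le_mul_rpow (hT.ok a).hd (n := (p a).K * (p a).R + 1) (by omega)
    unfold TP.cost
    have h1 : (0 : ℝ) ≤ (p a).R * (p a).d * ((p a).K : ℝ) ^ tauE := by positivity
    have h2 : (0 : ℝ) ≤ (p a).K * (p a).R * (p a).K * ((p a).d : ℝ) ^ tauE := by positivity
    linarith
  have hVF : ∀ a, ((layX.vol (p a) : ℕ) : ℝ) ≤ (layX.vol (p a) : ℝ) * (p a).cost :=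
    fun a => le_mul_of_one_le_right (by positivity) (hcost a)
  let 𝔅' : Bud α := ⟨𝔅.o, fun a => layX.vol (p a), _, hVF⟩
  refine Impl.mono_bud (𝔅' := 𝔅') ?_ rfl hT.vol hc
  have hT' : TFam 𝔅'.V p k := hT.self
  have hs : SmIn 𝔅'.V p := hT'.famX.smV
  have hpt : PT fun t : TP => prog (un t.K, un t.R) :=
    hprog.pt_prog.comp (g := fun t : TP => (un t.K, un t.R)) (by fun_prop)
  have hpg : PT fun q : TP × ℕ => (prog (un q.1.K, un q.1.R)).getD q.2 default :=
    PT.getD (hpt.comp PT.fst') PT.snd' (PT.const _)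
  let pr : α → FProg := fun a => prog (un (p a).K, un (p a).R)
  let lga : α → ℕ → ℕ := fun a => lg (p a).K (p a).R
  let ej : α → ℕ → ℕ := fun a j => e a + 3 * (FProg.wt (lga a) ((pr a).take j) * (p a).d)
  let Fj : α → ℕ → (ℕ → ℕ) → ℂ := fun a j =>
    runP (atomD (p a).K (p a).d ((p a).cf dv)) ((pr a).take j) (F a)
  let phj : α → ℕ → ℕ × List Atom := fun a j => (pr a).getD j default
  have hwt : ∀ a, FProg.wt (lga a) (pr a) ≤ c0 * ((p a).K * (p a).R) := fun a =>
    hprog.wt _ _ (hT.ok a).hK (hT.ok a).hR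
  have hej : ∀ a j, j < (pr a).length →
      ej a (j + 1) = ej a j + 3 * (FProg.wt (lga a) [phj a j] * (p a).d) := fun a j hj => by
    simp only [ej, phj, TrRun.wt_single]
    simp only [FProg.wt, TrRun.sum_take_succ _ _ hj]
    ring
  have hej' : ∀ a j, ej a j ≤ e a + 3 * c0 * ((p a).d * ((p a).K * (p a).R)) := fun a j => by
    have h1 : FProg.wt (lga a) ((pr a).take j) ≤ c0 * ((p a).K * (p a).R) :=
      (TrRun.sum_take_le _ (pr a) j).trans (hwt a)
    calc ej a j ≤ e a + 3 * (c0 * ((p a).K * (p a).R) * (p a).d) := by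
          simp only [ej]
          gcongr
      _ = _ := by ring
  have hlen : ∀ a, ∑ j ∈ Finset.range (pr a).length, ((phj a j).2.length : ℝ) ≤
      c0 * ((p a).K * (p a).R) := fun a => by
    have h1 : ∑ j ∈ Finset.range (pr a).length, (phj a j).2.length ≤ c0 * ((p a).K * (p a).R) := by
      refine le_trans ?_ (hwt a)
      rw [FProg.wt, sum_map_eq_range]
      exact Finset.sum_le_sum fun j _ => (TrRun.length_le_wt (lga a) _).trans (TrRun.wt_single _ _).le
    exact_mod_cast h1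
  have hVF' : ∀ (a : α) (j : ℕ), (𝔅'.V a : ℝ) ≤ (layX.vol (p a) : ℝ) *
      ((p a).d * ((p a).K : ℝ) ^ tauE + (phj a j).2.length * ((p a).K * ((p a).d : ℝ) ^ tauE)) :=
    fun a _ => le_mul_of_one_le_right (by positivity)
      ((TrRun.one_le_mul_rpow (hT.ok a).hd (hT.ok a).hK).trans (le_add_of_nonneg_right (by positivity)))
  have hsZ : SmIn (fun a => (p a).Zr) p := hT.small.mono (OLe.of_le fun a => Nat.div_le_self _ _)
  have hjs : SmIn (fun q : (a : α) × Fin (pr a).length => (p q.1).Zr) fun q => (p q.1, q.2.1) :=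
    (hsZ.comp _).pair (((hsZ.pt hpt.length).comp
      fun q : (a : α) × Fin (pr a).length => q.1).nat_le fun q => q.2.2.le)
  have hrows : ∀ q : (a : α) × Fin (pr a).length, (phj q.1 q.2).1 ≤ (p q.1).R ∧
      ∀ at' ∈ (phj q.1 q.2).2, ∀ j, at'.1 = some j → j < (p q.1).K := fun q =>
    hprog.rows _ _ (hT.ok q.1).hK (hT.ok q.1).hR _ (getD_mem _ q.2.2)
  let 𝔅'' : Bud ((a : α) × Fin (pr a).length) := 𝔅'.sub (fun q => q.1) (fun q => 𝔅'.V q.1)
    (fun q => (layX.vol (p q.1) : ℝ) * ((p q.1).d * ((p q.1).K : ℝ) ^ tauE +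
      (phj q.1 q.2).2.length * ((p q.1).K * ((p q.1).d : ℝ) ^ tauE))) fun q => hVF' q.1 q.2
  have hT'' : TFam 𝔅''.V (fun q => p q.1) k := hT'.reindex _
  have hM'' : HM 𝔅'' (fun q => (p q.1).P) fun q => Tm q.1 := fun q => hM q.1
  have hjs' : SmIn (fun q : (a : α) × Fin (pr a).length => (p q.1).Zr) fun q => phj q.1 q.2 :=
    hjs.pt hpg
  have b1 := Impl.phase (𝔅 := 𝔅'') hT'' hjs' hprog.pt_dv (lg := fun q => lga q.1)
    (mb := fun q => mb q.1) (e := fun q => ej q.1 q.2) (fun q => Fj q.1 q.2)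
    (fun q i hi code x => hprog.ok _ _ _ _ (hT.ok q.1).hK (hT.ok q.1).hR
      ((hT.ok q.1).hs i hi).1 ((hT.ok q.1).hs i hi).2 code x)
    (fun q => (hrows q).1) (fun q => (hrows q).2) (fun q => hmb q.1)
    (fun q => by
      have h1 := hej q.1 q.2 q.2.2
      have h2 := hej' q.1 (q.2 + 1)
      have h3 := hP q.1
      omega) hM'' (fun q => hT0 q.1) (RLe.refl _)
  have hs'' : SmIn 𝔅''.V fun q => (p q.1, q.2.1) := hjs.mono (OLe.of_le fun q => TrRun.Zr_le_vol hT q.1)
  have b2 := Impl.pull_pt (𝔅 := 𝔅'') (p' := fun q => (p q.1, q.2.1))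
    (g := fun q : TP × ℕ => (q.1, (prog (un q.1.K, un q.1.R)).getD q.2 default))
    b1 (PT.fst'.prodMk hpg) hs''
  have h2 := Impl.loop (𝔅 := 𝔅') (p := p)
    (Pre := fun a => Apx (p a) (p a).R (mb a) (e a) (F a)) (fun a => (pr a).length)
    (fun a j => (layX.vol (p a) : ℝ) *
      ((p a).d * ((p a).K : ℝ) ^ tauE + (phj a j).2.length * ((p a).K * ((p a).d : ℝ) ^ tauE)))
    (fun a j => (phj a j).2.length * (4 * layX.nrec (p a) * Tm a)) hVF'
    (fun a j => Apx (p a) (p a).R (mb a) (ej a j) (Fj a j))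
    (fun a j _ => Apx (p a) (p a).R (mb a) (ej a j + 3 * (FProg.wt (lga a) [phj a j] * (p a).d))
      (runP (atomD (p a).K (p a).d ((p a).cf dv)) [phj a j] (Fj a j)))
    (fun a _ j => Apx (p a) (p a).R (mb a) (ej a j) (Fj a j)) hs.size_le
    (L.range_pt hs hpt.length (PB.length hpt))
    (TrRun.sz_apx (Pre := fun a => Apx (p a) (p a).R (mb a) (e a) (F a)) hs hT'.vol
      fun _ _ h => TrRun.Apx.len h) b2
    ⟨c0, by positivity, fun a => by
      have h1 : ((pr a).length : ℝ) ≤ c0 * (p a).R := by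
        exact_mod_cast hprog.len _ _ (hT.ok a).hK (hT.ok a).hR
      have h2 := mul_le_mul_of_nonneg_right h1
        (by positivity : (0 : ℝ) ≤ (p a).d * ((p a).K : ℝ) ^ tauE)
      have h3 := mul_le_mul_of_nonneg_right (hlen a)
        (by positivity : (0 : ℝ) ≤ (p a).K * ((p a).d : ℝ) ^ tauE)
      have h4 : (0 : ℝ) ≤ c0 * ((p a).d * (((p a).K * (p a).R + 1 : ℕ) : ℝ) ^ tauE) := by
        positivity
      change _ ≤ (c0 : ℝ) * ((layX.vol (p a) : ℝ) * (p a).cost)
      beta_reduce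
      rw [← Finset.mul_sum, Finset.sum_add_distrib, Finset.sum_const, ← Finset.sum_mul,
        mul_left_comm (c0 : ℝ)]
      refine mul_le_mul_of_nonneg_left ?_ (Nat.cast_nonneg _)
      simp only [Finset.card_range, nsmul_eq_mul]
      unfold TP.cost
      linarith⟩
    (fun a D h => by simpa [ej, Fj, FProg.wt, runP] using h) (fun _ _ _ _ _ _ h => h)
    (fun a _ j D D' _ hj _ h => by
      rw [hej a j hj]
      simp only [Fj, runP, TrRun.foldl_take_succ _ _ _ hj]
      exact h)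
  refine h2.mono (fun _ _ h => h) (fun a D D' _ h => ?_) fun a => ?_
  · have := TrRun.Apx.mono_e h (hej' a _)
    simpa [Fj] using this
  · have := hT0 a
    have h4 : (0 : ℝ) ≤ 4 * layX.nrec (p a) * Tm a := by positivity
    rw [← Finset.sum_mul]
    exact mul_le_mul_of_nonneg_right (hlen a) h4

end Crest.Agent.R326
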