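/-
R326/Transform: the multidimensional Fourier transform in fixed point arithmetic.
-/
import Crest.Agent.R326.TrRun
import Crest.Agent.R326.Steps
import Crest.Agent.R326.ConvMath

set_option autoImplicit false
set_option linter.unusedSimpArgs false
set_option linter.unusedSectionVars false
set_option linter.unusedVariables false

namespace Crest.Agent.R326

open Function Crest.Agent.Lib.PolyTime

variable {α : Type} {𝔅 : Bud α} {p : α → TP} {k : ℕ}

/-- The index in dimension `i` of an address of the expanded layout. -/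
def TP.ix (t : TP) (v : ℕ → ℕ) (i : ℕ) : ℕ := rg (layX.r t) v (2 + 2 * t.d + i * t.R) t.R

/-- The address `v` of the expanded layout corresponds to the address `w` of the compact one. -/
def ExpR (t : TP) (v w : ℕ → ℕ) : Prop :=
  Good t.K 2 (2 + t.d) t.d v ∧ v 0 = w 0 ∧
    w 1 = v 1 + t.Zr * ∑ g ∈ Finset.range (2 * t.d), Gam0 t.K ^ g * v (2 + g) ∧
    ∀ i < t.d, w (2 + i) = t.ix v i

/-! ### Address arithmetic -/

theorem tf_gam0_le (K : ℕ) : Gam0 K ≤ Gam K := by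
  unfold Gam0 Gam
  rw [show 3 * K = 2 * K + K by ring, pow_add]
  exact Nat.mul_le_mul_left _ (Nat.sub_le _ _)

theorem tf_gam0_pos {K : ℕ} (hK : 1 ≤ K) : 0 < Gam0 K := by
  unfold Gam0
  have : 2 ≤ 2 ^ K := by
    calc 2 = 2 ^ 1 := rfl
      _ ≤ 2 ^ K := Nat.pow_le_pow_right (by omega) hK
  exact Nat.mul_pos (Nat.two_pow_pos _) (by omega)

theorem tf_gam_pos (K : ℕ) : 0 < Gam K := Nat.two_pow_pos _

theorem tf_layX_n (t : TP) : layX.n t = 2 + 2 * t.d + t.d * t.R := rfl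
theorem tf_layM_n (t : TP) : layM.n t = 2 + t.d := rfl
theorem tf_layX_r0 (t : TP) : layX.r t 0 = 2 * t.P := rfl
theorem tf_layM_r0 (t : TP) : layM.r t 0 = 2 * t.P := rfl
theorem tf_layX_r1 (t : TP) : layX.r t 1 = t.Zr := rfl
theorem tf_layM_r1 (t : TP) : layM.r t 1 = t.Zt := rfl

theorem tf_layX_r_row (t : TP) {c : ℕ} (hc : 2 + 2 * t.d ≤ c) : layX.r t c = 2 ^ t.K := by
  simp only [layX]
  rw [if_neg (by omega), if_neg (by omega), if_neg (by omega)]

theorem tf_layX_r_chunk (t : TP) {c : ℕ} (h1 : 2 ≤ c) (h2 : c < 2 + 2 * t.d) :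
    layX.r t c = Gam t.K := by
  simp only [layX]
  rw [if_neg (by omega), if_neg (by omega), if_pos h2]

theorem tf_layM_r_dim (t : TP) {c : ℕ} (h1 : 2 ≤ c) : layM.r t c = t.h := by
  simp only [layM]
  rw [if_neg (by omega), if_neg (by omega)]

theorem TP.tf_h_eq (t : TP) : t.h = (2 ^ t.K) ^ t.R := by rw [TP.h, pow_mul]

theorem TP.tf_h_pos (t : TP) : 0 < t.h := Nat.two_pow_pos _

theorem TP.tf_row_le (t : TP) {i : ℕ} (hi : i < t.d) :
    2 + 2 * t.d + i * t.R + t.R ≤ 2 + 2 * t.d + t.d * t.R := by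
  have : (i + 1) * t.R ≤ t.d * t.R := Nat.mul_le_mul_right _ hi
  rw [add_mul, one_mul] at this
  omega

theorem TP.tf_rwt_row (t : TP) (i : ℕ) : rwt (layX.r t) (2 + 2 * t.d + i * t.R) t.R = t.h := by
  rw [t.tf_h_eq]
  exact rwt_const fun k _ => tf_layX_r_row t (by omega)

theorem TP.tf_ix_eq (t : TP) (v : ℕ → ℕ) (i : ℕ) :
    t.ix v i = ∑ σ ∈ Finset.range t.R, (2 ^ t.K) ^ σ * v (2 + 2 * t.d + i * t.R + σ) :=
  rg_const fun k _ => tf_layX_r_row t (by omega)

theorem TP.tf_ix_lt {t : TP} {v : ℕ → ℕ} (hv : layX.Val t v) {i : ℕ} (hi : i < t.d) :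
    t.ix v i < t.h := by
  rw [← t.tf_rwt_row i]
  exact R326.Val.rg_lt hv (t.tf_row_le hi)

theorem TP.tf_ix_congr (t : TP) {v w : ℕ → ℕ} {i : ℕ}
    (h : ∀ σ < t.R, v (2 + 2 * t.d + i * t.R + σ) = w (2 + 2 * t.d + i * t.R + σ)) :
    t.ix v i = t.ix w i := rg_congr (fun _ _ => rfl) h

/-- Rows grouped by dimension. -/
theorem tf_rg_rows {r v : ℕ → ℕ} {Q i0 R d : ℕ} (h : ∀ k, i0 ≤ k → r k = Q) :
    rg r v i0 (d * R) = ∑ i ∈ Finset.range d, (Q ^ R) ^ i * rg r v (i0 + i * R) R := by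
  induction d with
  | zero => simp
  | succ d ih =>
    rw [add_mul, one_mul, rg_add, ih, Finset.sum_range_succ,
      rwt_const (Q := Q) fun k _ => h _ (by omega), ← pow_mul, mul_comm R d]

/-- The intermediate layouts: the first `j` chunks have radix `A`, the others `B`. -/
def tf_layE (A B : TP → ℕ) (hA : PT A) (hB : PT B) : Lay (TP × ℕ) :=
  ⟨fun q => 2 + 2 * q.1.d + q.1.d * q.1.R, fun q k => if k = 0 then 2 * q.1.P else
      if k = 1 then q.1.Zr else if k < 2 + 2 * q.1.d then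
        (if k < 2 + q.2 then A q.1 else B q.1) else 2 ^ q.1.K,
    by fun_prop, by fun_prop, by fun_prop⟩

/-- The layout with unguarded chunks. -/
def tf_layY : Lay TP :=
  ⟨fun t => 2 + 2 * t.d + t.d * t.R, fun t k => if k = 0 then 2 * t.P else if k = 1 then t.Zr else
      if k < 2 + 2 * t.d then Gam0 t.K else 2 ^ t.K,
    by fun_prop, by fun_prop, by unfold Gam0; fun_prop⟩

theorem tf_layY_n (t : TP) : tf_layY.n t = 2 + 2 * t.d + t.d * t.R := rfl

theorem tf_layY_r_row (t : TP) {c : ℕ} (hc : 2 + 2 * t.d ≤ c) : tf_layY.r t c = 2 ^ t.K := by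
  simp only [tf_layY]
  rw [if_neg (by omega), if_neg (by omega), if_neg (by omega)]

theorem tf_layY_r_chunk (t : TP) {c : ℕ} (h1 : 2 ≤ c) (h2 : c < 2 + 2 * t.d) :
    tf_layY.r t c = Gam0 t.K := by
  simp only [tf_layY]
  rw [if_neg (by omega), if_neg (by omega), if_pos h2]

theorem tf_layY_le (t : TP) (c : ℕ) : tf_layY.r t c ≤ layX.r t c := by
  simp only [layX, tf_layY]
  split_ifs
  · rfl
  · rfl
  · exact tf_gam0_le _
  · rfl

theorem tf_posY_eq (t : TP) (v : ℕ → ℕ) : tf_layY.pos t v = v 0 + 2 * t.P *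
    (v 1 + t.Zr * ∑ g ∈ Finset.range (2 * t.d), Gam0 t.K ^ g * v (2 + g) +
      t.Zt * ∑ i ∈ Finset.range t.d, t.h ^ i * t.ix v i) := by
  have e1 : rg (tf_layY.r t) v (2 + 2 * t.d) (t.d * t.R) =
      ∑ i ∈ Finset.range t.d, t.h ^ i * t.ix v i := by
    rw [tf_rg_rows (Q := 2 ^ t.K) fun k hk => tf_layY_r_row t hk, ← t.tf_h_eq]
    refine Finset.sum_congr rfl fun i _ => ?_
    congr 1
    exact rg_congr (fun k _ => by rw [tf_layY_r_row t (by omega), tf_layX_r_row t (by omega)])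
      fun _ _ => rfl
  have e2 : rg (tf_layY.r t) v 2 (2 * t.d) =
      ∑ g ∈ Finset.range (2 * t.d), Gam0 t.K ^ g * v (2 + g) :=
    rg_const fun k hk => tf_layY_r_chunk t (by omega) (by omega)
  have e3 : rwt (tf_layY.r t) 2 (2 * t.d) = Gam0 t.K ^ (2 * t.d) :=
    rwt_const fun k hk => tf_layY_r_chunk t (by omega) (by omega)
  have e4 : wt (tf_layY.r t) 2 = 2 * t.P * t.Zr := by
    rw [wt_succ, wt_one]; rfl
  have e5 : R326.pos (tf_layY.r t) v 2 = v 0 + 2 * t.P * v 1 := by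
    rw [pos_succ, pos_one, wt_one]; rfl
  rw [Lay.pos, tf_layY_n, add_assoc, pos_add, rg_add, e1, e2, e3, e4, e5, TP.Zt]
  ring

theorem tf_posM_eq (t : TP) (w : ℕ → ℕ) : layM.pos t w = w 0 + 2 * t.P *
    (w 1 + t.Zt * ∑ i ∈ Finset.range t.d, t.h ^ i * w (2 + i)) := by
  have e1 : rg (layM.r t) w 2 t.d = ∑ i ∈ Finset.range t.d, t.h ^ i * w (2 + i) :=
    rg_const fun k hk => tf_layM_r_dim t (by omega)
  have e4 : wt (layM.r t) 2 = 2 * t.P * t.Zt := by
    rw [wt_succ, wt_one]; rfl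
  have e5 : R326.pos (layM.r t) w 2 = w 0 + 2 * t.P * w 1 := by
    rw [pos_succ, pos_one, wt_one]; rfl
  rw [Lay.pos, tf_layM_n, pos_add, e1, e4, e5]
  ring

theorem tf_volY_eq (t : TP) : tf_layY.vol t = layM.vol t := by
  have e1 : rwt (tf_layY.r t) (2 + 2 * t.d) (t.d * t.R) = t.h ^ t.d := by
    rw [rwt_const (Q := 2 ^ t.K) fun k _ => tf_layY_r_row t (by omega), t.tf_h_eq, ← pow_mul,
      ← pow_mul, ← pow_mul, mul_comm t.d t.R]
  have e3 : rwt (tf_layY.r t) 2 (2 * t.d) = Gam0 t.K ^ (2 * t.d) :=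
    rwt_const fun k hk => tf_layY_r_chunk t (by omega) (by omega)
  have e4 : wt (tf_layY.r t) 2 = 2 * t.P * t.Zr := by
    rw [wt_succ, wt_one]; rfl
  have e1' : rwt (layM.r t) 2 t.d = t.h ^ t.d := rwt_const fun k _ => tf_layM_r_dim t (by omega)
  have e4' : wt (layM.r t) 2 = 2 * t.P * t.Zt := by
    rw [wt_succ, wt_one]; rfl
  rw [Lay.vol, Lay.vol, tf_layY_n, tf_layM_n, add_assoc, wt_add, rwt_add, wt_add, e1, e3, e4, e1', e4',
    TP.Zt]
  ring

theorem ExpR.tf_pos_eq {t : TP} {v w : ℕ → ℕ} (h : ExpR t v w) : tf_layY.pos t v = layM.pos t w := by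
  rw [tf_posY_eq, tf_posM_eq, h.2.1, h.2.2.1]
  congr 4
  exact Finset.sum_congr rfl fun i hi => by rw [h.2.2.2 i (Finset.mem_range.mp hi)]

theorem tf_valY_of_good {t : TP} {v : ℕ → ℕ} (hv : layX.Val t v) (hg : Good t.K 2 (2 + t.d) t.d v) :
    tf_layY.Val t v := by
  intro c hc
  have h1 := hv c hc
  simp only [layX, tf_layY] at h1 ⊢
  split_ifs at h1 ⊢ with h2 h3 h4
  · exact h1
  · exact h1
  · by_cases h5 : c < 2 + t.d
    · have := (hg (c - 2) (by omega)).1
      rwa [show 2 + (c - 2) = c by omega] at this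
    · have := (hg (c - 2 - t.d) (by omega)).2
      rwa [show 2 + t.d + (c - 2 - t.d) = c by omega] at this
  · exact h1

theorem tf_valX_of_valY {t : TP} {v : ℕ → ℕ} (hv : tf_layY.Val t v) : layX.Val t v :=
  fun c hc => (hv c hc).trans_le (tf_layY_le t c)

theorem tf_good_of_valY {t : TP} {v : ℕ → ℕ} (hv : tf_layY.Val t v) : Good t.K 2 (2 + t.d) t.d v := by
  intro g hg
  have hn : 2 + 2 * t.d ≤ tf_layY.n t := by rw [tf_layY_n]; omega
  constructor
  · have := hv (2 + g) (by omega)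
    rwa [tf_layY_r_chunk t (by omega) (by omega)] at this
  · have := hv (2 + t.d + g) (by omega)
    rwa [tf_layY_r_chunk t (by omega) (by omega)] at this

/-- The compact address of an address with unguarded chunks. -/
def TP.tf_cmp (t : TP) (v : ℕ → ℕ) : ℕ → ℕ := fun c =>
  if c = 0 then v 0 else if c = 1 then
    v 1 + t.Zr * ∑ g ∈ Finset.range (2 * t.d), Gam0 t.K ^ g * v (2 + g) else t.ix v (c - 2)

theorem tf_one_lt_Zt {t : TP} {v : ℕ → ℕ} (hv : tf_layY.Val t v) :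
    v 1 + t.Zr * ∑ g ∈ Finset.range (2 * t.d), Gam0 t.K ^ g * v (2 + g) < t.Zt := by
  have hn : 1 + (1 + 2 * t.d) ≤ tf_layY.n t := by rw [tf_layY_n]; omega
  have := R326.Val.rg_lt hv hn
  have e2 : rg (tf_layY.r t) v 2 (2 * t.d) =
      ∑ g ∈ Finset.range (2 * t.d), Gam0 t.K ^ g * v (2 + g) :=
    rg_const fun k hk => tf_layY_r_chunk t (by omega) (by omega)
  have e3 : rwt (tf_layY.r t) 2 (2 * t.d) = Gam0 t.K ^ (2 * t.d) :=
    rwt_const fun k hk => tf_layY_r_chunk t (by omega) (by omega)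
  rw [rg_add, rwt_add, rg_one, rwt_one, e2, e3] at this
  exact this

theorem tf_valM_cmp {t : TP} {v : ℕ → ℕ} (hv : tf_layY.Val t v) : layM.Val t (t.tf_cmp v) := by
  intro c hc
  rw [tf_layM_n] at hc
  simp only [TP.tf_cmp]
  split_ifs with h1 h2
  · subst h1
    exact hv 0 (by rw [tf_layY_n]; omega)
  · subst h2
    exact tf_one_lt_Zt hv
  · rw [tf_layM_r_dim t (by omega)]
    exact TP.tf_ix_lt (tf_valX_of_valY hv) (by omega)

theorem tf_expR_cmp {t : TP} {v : ℕ → ℕ} (hv : tf_layY.Val t v) : ExpR t v (t.tf_cmp v) :=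
  ⟨tf_good_of_valY hv, rfl, rfl, fun i _ => by
    simp only [TP.tf_cmp]
    rw [if_neg (by omega), if_neg (by omega), Nat.add_sub_cancel_left]⟩

theorem tf_layY_pos {t : TP} (ht : t.OK k) (c : ℕ) : 0 < tf_layY.r t c := by
  simp only [tf_layY]
  have := ht.hP
  split_ifs
  · omega
  · exact ht.hZ
  · exact tf_gam0_pos ht.hK
  · exact Nat.two_pow_pos _

theorem exists_expR {t : TP} (ht : t.OK k) {w : ℕ → ℕ} (hw : layM.Val t w) :
    ∃ v, layX.Val t v ∧ ExpR t v w := by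
  obtain ⟨v, hv, e⟩ := exists_val_pos (r := tf_layY.r t) (n := tf_layY.n t) (fun c _ => tf_layY_pos ht c)
    (j := layM.pos t w) (by
      have := hw.pos_lt
      rw [← tf_volY_eq] at this
      exact this)
  have h1 := tf_expR_cmp hv
  have h2 := R326.Val.eq_of_pos_eq (tf_valM_cmp hv) hw (h1.tf_pos_eq.symm.trans e)
  rw [tf_layM_n] at h2
  refine ⟨v, tf_valX_of_valY hv, h1.1, ?_, ?_, fun i hi => ?_⟩
  · rw [← h2 0 (by omega)]; exact h1.2.1
  · rw [← h2 1 (by omega)]; exact h1.2.2.1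
  · rw [← h2 (2 + i) (by omega)]; exact h1.2.2.2 i hi

/-! ### Expansion and compaction -/

section resize
variable {A B : TP → ℕ} {hA : PT A} {hB : PT B}

theorem tf_layE_n (q : TP × ℕ) : (tf_layE A B hA hB).n q = 2 + 2 * q.1.d + q.1.d * q.1.R := rfl

theorem tf_layE_le (h1 : ∀ t, A t ≤ Gam t.K) (h2 : ∀ t, B t ≤ Gam t.K) (t : TP) (j c : ℕ) :
    (tf_layE A B hA hB).r (t, j) c ≤ layX.r t c := by
  simp only [layX, tf_layE]
  split_ifs
  · rfl
  · rfl
  · exact h1 _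
  · exact h2 _
  · rfl

theorem tf_layE_pos {t : TP} (ht : t.OK k) (h1 : 0 < A t) (h2 : 0 < B t) (j c : ℕ) :
    0 < (tf_layE A B hA hB).r (t, j) c := by
  simp only [tf_layE]
  have := ht.hP
  split_ifs
  · omega
  · exact ht.hZ
  · exact h1
  · exact h2
  · exact Nat.two_pow_pos _

theorem tf_layE_vol_le (h1 : ∀ t, A t ≤ Gam t.K) (h2 : ∀ t, B t ≤ Gam t.K) (t : TP) (j : ℕ) :
    (tf_layE A B hA hB).vol (t, j) ≤ layX.vol t :=
  Finset.prod_le_prod' (s := Finset.range (layX.n t)) fun c _ => tf_layE_le h1 h2 t j c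

theorem tf_layE_wt_two (t : TP) (j : ℕ) : wt ((tf_layE A B hA hB).r (t, j)) 2 = wt (layX.r t) 2 := by
  rw [wt_succ, wt_succ (layX.r t), wt_one, wt_one]; rfl

/-- Resize all chunks from radix `B` to radix `A`. -/
theorem Gat.tf_resizeAll (hT : TFam 𝔅.V p k) (h1 : ∀ t, A t ≤ Gam t.K) (h2 : ∀ t, B t ≤ Gam t.K)
    (h3 : ∀ a, 0 < A (p a)) (h4 : ∀ a, 0 < B (p a)) (hAB : (∀ t, A t ≤ B t) ∨ ∀ t, B t ≤ A t)
    (hc : (fun a => (layX.vol (p a) : ℝ) * (p a).d) ≲ 𝔅.F) :
    Gat 𝔅 p ((tf_layE A B hA hB).comap (fun t => (t, 0)) (by fun_prop))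
      ((tf_layE A B hA hB).comap (fun t => (t, 2 * t.d)) (by fun_prop))
      (fun a v w => ∀ c < layX.n (p a), v c = w c) fun _ => 0 := by
  have hV : ∀ a, ((layX.vol (p a) : ℕ) : ℝ) ≤ (layX.vol (p a) : ℝ) * (p a).d := fun a =>
    le_mul_of_one_le_right (Nat.cast_nonneg _) (by exact_mod_cast (hT.ok a).hd)
  let 𝔅' : Bud α := 𝔅.sub (fun a => a) (fun a => layX.vol (p a)) (fun a => (layX.vol (p a) : ℝ) * (p a).d) hV
  refine Impl.mono_bud (𝔅' := 𝔅') ?_ rfl hT.vol hc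
  have hX : Fam 𝔅'.V p layX 2 := hT.self.famX
  have hXe := hX.ext_lt (cnt := fun t : TP => 2 * t.d) (by fun_prop)
  have hE : ∀ (g : TP × ℕ → TP × ℕ) (hg : PT g) (hg' : ∀ q, (g q).1 = q.1),
      Fam (fun q : (a : α) × Fin (2 * (p a).d) => 𝔅'.V q.1) (fun q => (p q.1, q.2.1))
        ((tf_layE A B hA hB).comap g hg) 2 := fun g hg hg' => by
    have e : ∀ q, g q = (q.1, (g q).2) := fun q => Prod.ext (hg' q) rfl
    refine ⟨fun q => ?_, fun q c _ => ?_, hXe.small.mono (OLe.of_le fun q => ?_),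
      OLe.of_le fun q => ?_⟩
    · show 2 ≤ (tf_layE A B hA hB).n (g _)
      rw [tf_layE_n]; omega
    · show 0 < (tf_layE A B hA hB).r (g _) c
      rw [e]
      exact tf_layE_pos (hT.ok _) (h3 _) (h4 _) _ _
    · show wt (layX.r (p q.1)) 2 ≤ wt ((tf_layE A B hA hB).r (g _)) 2
      rw [e, tf_layE_wt_two]
    · show (tf_layE A B hA hB).vol (g _) ≤ layX.vol (p q.1)
      rw [e]
      exact tf_layE_vol_le h1 h2 _ _
  refine Gat.loop (𝔅 := 𝔅') (Λ := tf_layE A B hA hB) (cnt := fun t : TP => 2 * t.d) (by fun_prop)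
    (by fun_prop) hX.smV (fun a => layX.vol (p a)) (fun a => le_rfl) ?_
    (OLe.of_le fun a => tf_layE_vol_le h1 h2 _ _) (fun a _ v w => ∀ c < layX.n (p a), v c = w c)
    (fun a _ v w => ∀ c < layX.n (p a), v c = w c) ?_ (fun a v w _ _ h => h) ?_
  · refine ((RLe.refl _).const_mul 2 (by norm_num)).mono_left fun a => le_of_eq ?_
    show ((2 * (p a).d : ℕ) : ℝ) * (layX.vol (p a) : ℝ) = 2 * ((layX.vol (p a) : ℝ) * (p a).d)
    push_cast; ring
  · refine Gat.resize (hE (fun q => q) PT.id' fun _ => rfl) (hE _ _ fun _ => rfl)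
      (i := fun q : TP × ℕ => 2 + q.2) (by fun_prop) (fun _ => rfl) (fun q => ?_) fun q c _ hc => ?_
    · have := q.2.2
      show 2 + q.2.1 < 2 + 2 * (p q.1).d + (p q.1).d * (p q.1).R
      omega
    · simp only [tf_layE] at hc ⊢
      by_cases h5 : c < 2 + q.2.1
      · simp only [h5, show c < 2 + (q.2.1 + 1) by omega]
      · simp only [h5, show ¬ c < 2 + (q.2.1 + 1) by omega]
  · intro a j hj v w hv hw h
    refine ⟨v, fun c hc => ?_, fun _ _ => rfl, h⟩
    have k1 := hv c hc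
    have k2 := hw c hc
    rw [← h c hc] at k2
    simp only [tf_layE] at k1 k2 ⊢
    have k3 := hAB.imp (fun h => h (p a)) (fun h => h (p a))
    split_ifs at k1 k2 ⊢ <;> omega

end resize

theorem tf_pt_gam : PT fun t : TP => Gam t.K := by unfold Gam; fun_prop
theorem tf_pt_gam0 : PT fun t : TP => Gam0 t.K := by unfold Gam0; fun_prop

theorem TFam.tf_famY {V : α → ℕ} (hT : TFam V p k) : Fam V p tf_layY 2 := by
  have hX := hT.famX
  refine ⟨hX.base, fun a c _ => tf_layY_pos (hT.ok a) c, hX.small.mono (OLe.of_le fun a => ?_),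
    hX.vol.mono_left fun a => (tf_volY_eq _).trans_le (volM_le_volX _)⟩
  rw [wt_succ, wt_succ (tf_layY.r _), wt_one, wt_one]; rfl

theorem Gat.tf_yToX (hT : TFam 𝔅.V p k) (hc : (fun a => (layX.vol (p a) : ℝ) * (p a).d) ≲ 𝔅.F) :
    Gat 𝔅 p tf_layY layX (fun a v w => ∀ c < layX.n (p a), v c = w c) fun _ => 0 := by
  refine (Gat.tf_resizeAll (hA := tf_pt_gam) (hB := tf_pt_gam0) hT (fun _ => le_rfl)
    (fun _ => tf_gam0_le _) (fun _ => tf_gam_pos _) (fun a => tf_gam0_pos (hT.ok a).hK)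
    (Or.inr fun _ => tf_gam0_le _) hc).congr_lay (fun _ => rfl) (fun a c _ => ?_) (fun _ => rfl)
    fun a c _ => ?_
  · simp only [tf_layE, tf_layY]
    split_ifs <;> first | rfl | omega
  · simp only [tf_layE, layX]
    split_ifs <;> rfl

theorem Gat.tf_xToY (hT : TFam 𝔅.V p k) (hc : (fun a => (layX.vol (p a) : ℝ) * (p a).d) ≲ 𝔅.F) :
    Gat 𝔅 p layX tf_layY (fun a v w => ∀ c < layX.n (p a), v c = w c) fun _ => 0 := by
  refine (Gat.tf_resizeAll (hA := tf_pt_gam0) (hB := tf_pt_gam) hT (fun _ => tf_gam0_le _)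
    (fun _ => le_rfl) (fun a => tf_gam0_pos (hT.ok a).hK) (fun _ => tf_gam_pos _)
    (Or.inl fun _ => tf_gam0_le _) hc).congr_lay (fun _ => rfl) (fun a c _ => ?_) (fun _ => rfl)
    fun a c _ => ?_
  · simp only [tf_layE, layX]
    split_ifs <;> first | rfl | omega
  · simp only [tf_layE, tf_layY]
    split_ifs <;> rfl

/-- Recipe: view the array in the layout `layX` with `Gam0` in place of `Gam`; `Gat.loop` of
`Gat.resize` over the `2 d` chunks (budget `V = volX`). -/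
theorem Gat.expand (hT : TFam 𝔅.V p k)
    (hc : (fun a => (layX.vol (p a) : ℝ) * (p a).d) ≲ 𝔅.F) :
    Gat 𝔅 p layM layX (fun a v w => ExpR (p a) v w) fun _ => 0 :=
  ((Gat.view (Λ' := tf_layY) hT.famM fun a => tf_volY_eq _).comp0 (Gat.tf_yToX hT hc)).mono
    fun a v w hv hw h => ⟨v, tf_valY_of_good hv h.1, fun _ _ => rfl, h.tf_pos_eq⟩

theorem Gat.compact (hT : TFam 𝔅.V p k)
    (hc : (fun a => (layX.vol (p a) : ℝ) * (p a).d) ≲ 𝔅.F) :
    Gat 𝔅 p layX layM (fun a v w => ExpR (p a) w v) fun _ => 0 :=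
  ((Gat.tf_xToY hT hc).comp0 (Gat.view (Λ' := layM) hT.tf_famY fun a => (tf_volY_eq _).symm)).mono
    fun a v w hv hw h => ⟨w, tf_valY_of_good hw h.1, h.tf_pos_eq.symm, fun _ _ => rfl⟩

/-! ### Conditional reversal -/

@[fun_prop] theorem TP.tf_pt_sf {β : Type} [Enc β] {t : β → TP} {i : β → ℕ} (ht : PT t) (hi : PT i) :
    PT fun a => (t a).sf (i a) := by
  unfold TP.sf; fun_prop

/-- Reverse dimension `i` where the active chunk `i` is odd.  Recipe: `Gat.loopFix` over `i < d`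
of a `Gat.select` between the identity and `Gat.rev` followed by `Gat.zadd`. -/
theorem Gat.condRev (hT : TFam 𝔅.V p k)
    (hc : (fun a => (layX.vol (p a) : ℝ) * (p a).d) ≲ 𝔅.F) :
    Gat 𝔅 p layX layX (fun a v w => (∀ c < 2 + 2 * (p a).d, v c = w c) ∧ ∀ i < (p a).d,
      (p a).ix v i < (p a).sf i ∧ (p a).ix w i =
        if Even (v (2 + i)) then (p a).ix v i else (p a).sf i - 1 - (p a).ix v i) fun _ => 0 := by
  have hV : ∀ a, ((layX.vol (p a) : ℕ) : ℝ) ≤ (layX.vol (p a) : ℝ) * (p a).d := fun a =>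
    le_mul_of_one_le_right (Nat.cast_nonneg _) (by exact_mod_cast (hT.ok a).hd)
  let 𝔅' : Bud α := 𝔅.sub (fun a => a) (fun a => layX.vol (p a))
    (fun a => (layX.vol (p a) : ℝ) * (p a).d) hV
  refine Impl.mono_bud (𝔅' := 𝔅') ?_ rfl hT.vol hc
  have hX : Fam 𝔅'.V p layX 2 := hT.self.famX
  have hXe := hX.ext_lt (cnt := fun t : TP => t.d) (by fun_prop)
  refine (Gat.loopFix (𝔅 := 𝔅') hX (cnt := fun t : TP => t.d) (by fun_prop) (by fun_prop)
    (fun a => layX.vol (p a)) (fun a => le_rfl) (RLe.of_le fun a => le_of_eq (mul_comm _ _))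
    (fun a i v w => Out (layX.n (p a)) (2 + 2 * (p a).d + i * (p a).R) (p a).R v w ∧
      (p a).ix v i < (p a).sf i ∧ (p a).ix w i =
        if Even (v (2 + i)) then (p a).ix v i else (p a).sf i - 1 - (p a).ix v i)
    (fun a j v w => (∀ c < layX.n (p a), c < 2 + 2 * (p a).d ∨
        2 + 2 * (p a).d + j * (p a).R ≤ c → v c = w c) ∧ ∀ i < j,
      (p a).ix v i < (p a).sf i ∧ (p a).ix w i =
        if Even (v (2 + i)) then (p a).ix v i else (p a).sf i - 1 - (p a).ix v i)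
    ?_ (fun a v w _ _ h c hc => h.1 c hc (by omega)) ?_).mono fun a v w _ _ h => ⟨fun c hc hc' =>
      h.1 c (by rw [tf_layX_n] at hc; omega), h.2⟩
  · have hn : ∀ q : (a : α) × Fin (p a).d, 2 + 2 * (p q.1).d + q.2.1 * (p q.1).R + (p q.1).R ≤
        layX.n (p q.1) := fun q => (p q.1).tf_row_le q.2.2
    have h1 := Gat.rev (𝔅 := 𝔅'.sub (fun q : (a : α) × Fin (p a).d => q.1) (fun q => 𝔅'.V q.1)
      (fun q => layX.vol (p q.1)) fun q => le_rfl) hXe
      (i := fun q : TP × ℕ => 2 + 2 * q.1.d + q.2 * q.1.R) (len := fun q : TP × ℕ => q.1.R)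
      (by fun_prop) (by fun_prop) (fun q => by omega) hn
    have h2 := Gat.zadd (𝔅 := 𝔅'.sub (fun q : (a : α) × Fin (p a).d => q.1) (fun q => 𝔅'.V q.1)
      (fun q => layX.vol (p q.1)) fun q => le_rfl) hXe
      (i := fun q : TP × ℕ => 2 + 2 * q.1.d + q.2 * q.1.R) (len := fun q : TP × ℕ => q.1.R)
      (g := fun z : (TP × ℕ) × List ℕ => -((z.1.1.sf z.1.2 : ℕ) : ℤ))
      (by fun_prop) (by fun_prop) (by fun_prop) (fun q => by omega) hn
    have h3 := Gat.select (Gat.id hXe) (h1.comp0 h2) hXe (i := fun _ => 2)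
      (c := fun z : (TP × ℕ) × List ℕ => decide (Even (z.2.getD (2 + z.1.2) 0)))
      (by fun_prop) (by fun_prop) (fun _ => le_rfl) (fun q => hXe.base q)
    refine (h3.mono_ex fun _ => by simp).mono fun q v w hv hw h => ?_
    have hi := q.2.2
    have hn' := hn q
    have hs := (hT.ok q.1).hs _ hi
    rw [Lay.od_getD _ _ _ (by omega) (by show 2 + q.2.1 < layX.n (p q.1); rw [tf_layX_n]; omega)]
    obtain ⟨k1, k2, k3⟩ := h
    by_cases he : Even (v (2 + q.2.1))
    · rw [if_pos (by simpa using he)]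
      rw [if_pos he] at k3
      intro c hc
      by_cases h5 : c < 2 + 2 * (p q.1).d + q.2.1 * (p q.1).R ∨
          2 + 2 * (p q.1).d + q.2.1 * (p q.1).R + (p q.1).R ≤ c
      · exact k1 c hc h5
      · have := R326.Val.eq_of_pos_eq (R326.Val.sh hv hn') (R326.Val.sh hw hn') k3.symm
          (c - (2 + 2 * (p q.1).d + q.2.1 * (p q.1).R)) (by omega)
        simp only [sh_apply] at this
        rwa [Nat.add_sub_cancel' (by omega)] at this
    · rw [if_neg (by simpa using he)]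
      rw [if_neg he] at k3
      have e1 := rg_put (i := 2 + 2 * (p q.1).d + q.2.1 * (p q.1).R) (len := (p q.1).R)
        (layX.r (p q.1)) v ((p q.1).ix v q.2.1 + ((p q.1).h - (p q.1).sf q.2.1))
      rw [TP.tf_rwt_row, Nat.mod_eq_of_lt (by omega)] at e1
      refine ⟨put (layX.r (p q.1)) v (2 + 2 * (p q.1).d + q.2.1 * (p q.1).R) (p q.1).R
        ((p q.1).ix v q.2.1 + ((p q.1).h - (p q.1).sf q.2.1)), R326.Val.put hv _,
        ⟨fun c _ hc => (put_out _ _ _ hc).symm, ?_⟩, fun c hc hc' => ?_, ?_⟩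
      · show ((rg (layX.r (p q.1)) _ _ _ : ℕ) : ℤ) ≡ ((p q.1).ix v q.2.1 : ℕ) +
          -(((p q.1).sf q.2.1 : ℕ) : ℤ) [ZMOD (rwt (layX.r (p q.1)) _ _ : ℕ)]
        rw [e1, TP.tf_rwt_row]
        refine Int.modEq_iff_dvd.mpr ⟨-1, ?_⟩
        rw [Nat.cast_add, Nat.cast_sub hs.2]
        ring
      · rw [put_out _ _ _ hc']
        exact k1 c hc hc'
      · show rg (layX.r (p q.1)) _ _ _ + (p q.1).ix w q.2.1 + 1 = rwt (layX.r (p q.1)) _ _
        rw [e1, TP.tf_rwt_row, k3]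
        omega
  · intro a j hj v w hv hw h
    have hn := (p a).tf_row_le hj
    have e1 : ∀ i < j, ∀ σ < (p a).R, ¬ (2 + 2 * (p a).d + j * (p a).R ≤
        2 + 2 * (p a).d + i * (p a).R + σ) := fun i hi σ hσ => by
      have : (i + 1) * (p a).R ≤ j * (p a).R := Nat.mul_le_mul_right _ hi
      rw [add_mul, one_mul] at this
      omega
    have e2 : (j + 1) * (p a).R = j * (p a).R + (p a).R := by ring
    let u : ℕ → ℕ := fun c => if 2 + 2 * (p a).d + j * (p a).R ≤ c ∧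
      c < 2 + 2 * (p a).d + j * (p a).R + (p a).R then w c else v c
    have u1 : ∀ i < j, (p a).ix u i = (p a).ix v i := fun i hi =>
      (p a).tf_ix_congr fun σ hσ => if_neg fun hh => e1 i hi σ hσ hh.1
    have u2 : (p a).ix u j = (p a).ix w j :=
      (p a).tf_ix_congr fun σ hσ => if_pos ⟨by omega, by omega⟩
    refine ⟨u, fun c hc => ?_, ⟨fun c _ hc => (if_neg (by omega)).symm, (h.2 j (by omega)).1,
      u2.trans (h.2 j (by omega)).2⟩, fun c hc hc' => ?_, fun i hi => ?_⟩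
    · simp only [u]
      split_ifs
      · exact hw c hc
      · exact hv c hc
    · simp only [u]
      split_ifs with h5
      · rfl
      · exact h.1 c hc (by omega)
    · rw [u1 i hi, show u (2 + i) = v (2 + i) from if_neg (by omega)]
      exact h.2 i (by omega)

/-! ### Preparation of the input -/

/-- The address `v` of the prepared array holds the record `w` of the input. -/
def tf_PrepR (t : TP) (v w : ℕ → ℕ) : Prop :=
  Good t.K 2 (2 + t.d) t.d v ∧ v 0 = w 0 ∧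
    w 1 = v 1 + t.Zr * ∑ g ∈ Finset.range (2 * t.d), Gam0 t.K ^ g * v (2 + g) ∧
    ∀ i < t.d, t.ix v i < t.sf i ∧
      w (2 + i) = if Even (v (2 + i)) then t.ix v i else t.sf i - 1 - t.ix v i

theorem tf_rgY_one (t : TP) (v : ℕ → ℕ) : rg (tf_layY.r t) v 1 (1 + 2 * t.d) =
    v 1 + t.Zr * ∑ g ∈ Finset.range (2 * t.d), Gam0 t.K ^ g * v (2 + g) := by
  have e2 : rg (tf_layY.r t) v 2 (2 * t.d) =
      ∑ g ∈ Finset.range (2 * t.d), Gam0 t.K ^ g * v (2 + g) :=
    rg_const fun k hk => tf_layY_r_chunk t (by omega) (by omega)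
  rw [rg_add, rg_one, rwt_one, e2]
  rfl

theorem TP.tf_ix_update (t : TP) (v : ℕ → ℕ) (x i : ℕ) : t.ix (update v 0 x) i = t.ix v i :=
  t.tf_ix_congr fun _ _ => update_of_ne (by omega) _ _

theorem tf_good_update {K i iz ℓ : ℕ} {v : ℕ → ℕ} (h : Good K i iz ℓ v) (hi : 1 ≤ i) (hz : 1 ≤ iz)
    (x : ℕ) : Good K i iz ℓ (update v 0 x) := fun g hg => by
  rw [update_of_ne (by omega), update_of_ne (by omega)]
  exact h g hg

theorem tf_sum_update_zero (t : TP) (v : ℕ → ℕ) (x : ℕ) :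
    ∑ g ∈ Finset.range (2 * t.d), Gam0 t.K ^ g * update v 0 x (2 + g) =
      ∑ g ∈ Finset.range (2 * t.d), Gam0 t.K ^ g * v (2 + g) :=
  Finset.sum_congr rfl fun g _ => by rw [update_of_ne (by omega)]

theorem ExpR.tf_update {t : TP} {v w : ℕ → ℕ} (h : ExpR t v w) (x : ℕ) :
    ExpR t (update v 0 x) (update w 0 x) := by
  refine ⟨tf_good_update h.1 (by omega) (by omega) x, by simp, ?_, fun i hi => ?_⟩
  · rw [tf_sum_update_zero, update_of_ne (by omega), update_of_ne (by omega)]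
    exact h.2.2.1
  · rw [TP.tf_ix_update, update_of_ne (by omega)]
    exact h.2.2.2 i hi

theorem tf_PrepR.tf_update {t : TP} {v w : ℕ → ℕ} (h : tf_PrepR t v w) (x : ℕ) :
    tf_PrepR t (update v 0 x) (update w 0 x) := by
  refine ⟨tf_good_update h.1 (by omega) (by omega) x, by simp, ?_, fun i hi => ?_⟩
  · rw [tf_sum_update_zero, update_of_ne (by omega), update_of_ne (by omega)]
    exact h.2.2.1
  · rw [TP.tf_ix_update, update_of_ne (by omega), update_of_ne (by omega)]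
    exact h.2.2.2 i hi

theorem Gat.tf_prep (hT : TFam 𝔅.V p k)
    (hc : (fun a => (layX.vol (p a) : ℝ) * (p a).d) ≲ 𝔅.F) :
    Gat 𝔅 p layM layX (fun a v w => tf_PrepR (p a) v w) fun _ => 0 := by
  refine ((Gat.expand hT hc).comp0 (Gat.condRev hT hc)).mono fun a v w hv hw h => ?_
  obtain ⟨u, hu, e⟩ := exists_expR (hT.ok a) hw
  refine ⟨u, hu, ⟨fun c hc => ?_, fun i hi => ⟨(h.2.2.2 i hi).1, ?_⟩⟩, e⟩
  · rcases Nat.eq_zero_or_pos c with rfl | h0
    · rw [h.2.1, e.2.1]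
    · have hn : 1 + (1 + 2 * (p a).d) ≤ tf_layY.n (p a) := by rw [tf_layY_n]; omega
      have := R326.Val.eq_of_pos_eq (R326.Val.sh (tf_valY_of_good hv h.1) hn)
        (R326.Val.sh (tf_valY_of_good hu e.1) hn)
        (((tf_rgY_one _ _).trans h.2.2.1.symm).trans (e.2.2.1.trans (tf_rgY_one _ _).symm))
        (c - 1) (by omega)
      simp only [sh_apply] at this
      rwa [Nat.add_sub_cancel' h0] at this
  · rw [← e.2.2.2 i hi]
    exact (h.2.2.2 i hi).2

/-- The test of the mask. -/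
def tf_inTest (z : TP × List ℕ) : Bool := (List.range z.1.d).all fun i =>
  decide (rg (layX.r z.1) (fun c => z.2.getD c 0) (2 + 2 * z.1.d + i * z.1.R)
    (min z.1.R (layX.n z.1)) < z.1.sf i)

theorem tf_pt_inTest : PT tf_inTest := by
  unfold tf_inTest
  refine PT.all (by fun_prop) (PT.decide (PT.nat_lt ?_ (by fun_prop)))
  exact layX.pt_rg (g := fun z : (TP × List ℕ) × ℕ => z.1.1) (l := fun z => z.1.2)
    (i := fun z => 2 + 2 * z.1.1.d + z.2 * z.1.1.R) (len := fun z => z.1.1.R)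
    (by fun_prop) (by fun_prop) (by fun_prop) (by fun_prop)

theorem tf_inTest_iff (t : TP) (v : ℕ → ℕ) :
    tf_inTest (t, layX.od t 2 v) = true ↔ ∀ i < t.d, t.ix v i < t.sf i := by
  simp only [tf_inTest, List.all_eq_true, List.mem_range, decide_eq_true_eq]
  refine forall₂_congr fun i hi => ?_
  have h1 := t.tf_row_le hi
  rw [min_eq_left (by rw [tf_layX_n]; omega), TP.ix,
    rg_congr (r' := layX.r t) (w := v) (j := 2 + 2 * t.d + i * t.R) (fun _ _ => rfl)
      fun c hc => layX.od_getD t v (by omega) (by rw [tf_layX_n]; omega)]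

/-- The prepared array in terms of records. -/
theorem Impl.tf_prep (hT : TFam 𝔅.V p k)
    (hc : (fun a => (layX.vol (p a) : ℝ) * (p a).d) ≲ 𝔅.F) :
    Impl 𝔅 p (fun a (D : Arr) => D.length = layM.vol (p a))
      (fun a D (D' : Arr) => D'.length = layX.vol (p a) ∧ ∀ v, layX.Val (p a) v →
        (∀ w, layM.Val (p a) w → tf_PrepR (p a) v w →
          gc (p a).P D' (layX.ri (p a) v) = gc (p a).P D (layM.ri (p a) w)) ∧
        ((¬ ∀ i < (p a).d, (p a).ix v i < (p a).sf i) → gc (p a).P D' (layX.ri (p a) v) = 0))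
      fun _ => 0 := by
  refine (Impl.comp (Gat.tf_prep hT hc) (Impl.mask hT.famX (i := fun _ => 2) (by fun_prop) tf_pt_inTest
    (fun _ => le_rfl) hT.famX.base) fun _ _ _ _ h => h.1).mono (fun _ _ h => h) ?_ fun _ => by simp
  rintro a D D'' hD ⟨D', h1, h2⟩
  have hn : 1 ≤ layX.n (p a) := by rw [tf_layX_n]; omega
  have hn' : 1 ≤ layM.n (p a) := by rw [tf_layM_n]; omega
  refine ⟨h2.1, fun v hv => ⟨fun w hw h => ?_, fun h => ?_⟩⟩
  · have h3 : GPost layM layX (p a) (tf_PrepR (p a)) D D'' := ⟨h2.1, fun v w hv hw h => by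
      rw [h2.2 v hv, (tf_inTest_iff _ _).mpr fun i hi => (h.2.2.2 i hi).1, Bool.true_and]
      exact h1.2 v w hv hw h⟩
    exact gc_congr (h3.blk_eq hD hn' hn rfl rfl hv hw fun x _ => h.tf_update x)
  · have hP := (hT.ok a).hP
    rw [gc, gv_eq_zero (by omega) fun j hj => ?_, map_zero]
    have hv' : layX.Val (p a) (update v 0 j) := R326.Val.update hv hj
    have h3 := h2.2 _ hv'
    rw [layX.pos_eq_ri hn, update_self, layX.ri_congr (p a) (w := v)
      (fun c _ hc => update_of_ne (by omega) _ _), tf_layX_r0] at h3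
    have h4 : tf_inTest (p a, layX.od (p a) 2 (update v 0 j)) = false :=
      Bool.eq_false_iff.mpr fun hh => h (by simpa only [TP.tf_ix_update] using (tf_inTest_iff _ _).mp hh)
    rw [h3, h4, Bool.false_and]

/-! ### The logical function -/

/-- The compact address read off from a logical address. -/
def TP.tf_src (t : TP) (y : ℕ → ℕ) : ℕ → ℕ := fun c =>
  if c = 0 then 0 else if c = 1 then y 1 + t.Zr * ∑ g ∈ Finset.range (2 * t.d),
    Gam0 t.K ^ g * (if g < t.d then y (2 + g) / t.h else y (2 + g))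
  else if Even (y c / t.h) then y c % t.h else t.sf (c - 2) - 1 - y c % t.h

open Classical in
/-- The input as a function on logical addresses. -/
noncomputable def TP.tf_inF (t : TP) (D : Arr) (y : ℕ → ℕ) : ℂ :=
  if ∀ i < t.d, y (2 + i) % t.h < t.sf i then gc t.P D (layM.ri t (t.tf_src y)) else 0

theorem TP.tf_src_dim (t : TP) (y : ℕ → ℕ) (i : ℕ) : t.tf_src y (2 + i) =
    if Even (y (2 + i) / t.h) then y (2 + i) % t.h else t.sf i - 1 - y (2 + i) % t.h := by
  simp only [TP.tf_src]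
  rw [if_neg (by omega), if_neg (by omega), Nat.add_sub_cancel_left]

theorem tf_logiR_dim (t : TP) (v : ℕ → ℕ) {i : ℕ} (hi : i < t.d) :
    logi t t.R v (2 + i) = t.ix v i + t.h * v (2 + i) := by
  simp only [logi]
  rw [if_pos ⟨by omega, by omega⟩, if_neg (lt_irrefl _), TP.tf_ix_eq, Nat.add_sub_cancel_left]
  congr 1
  exact Finset.sum_congr rfl fun σ hσ => by rw [if_neg (Finset.mem_range.mp hσ).ne]

theorem tf_logiR_out (t : TP) (v : ℕ → ℕ) {c : ℕ} (h1 : c = 1 ∨ 2 + t.d ≤ c) (h2 : c < 2 + 2 * t.d) :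
    logi t t.R v c = v c := by
  simp only [logi]
  rw [if_neg (by omega), if_pos ⟨by omega, h2⟩]

theorem tf_logiR_mod {t : TP} {v : ℕ → ℕ} (hv : layX.Val t v) {i : ℕ} (hi : i < t.d) :
    logi t t.R v (2 + i) % t.h = t.ix v i := by
  rw [tf_logiR_dim t v hi, Nat.add_mul_mod_self_left, Nat.mod_eq_of_lt (TP.tf_ix_lt hv hi)]

theorem tf_logiR_div {t : TP} {v : ℕ → ℕ} (hv : layX.Val t v) {i : ℕ} (hi : i < t.d) :
    logi t t.R v (2 + i) / t.h = v (2 + i) := by
  rw [tf_logiR_dim t v hi, Nat.add_mul_div_left _ _ t.tf_h_pos, Nat.div_eq_of_lt (TP.tf_ix_lt hv hi),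
    zero_add]

theorem tf_src_logiR_one {t : TP} {v : ℕ → ℕ} (hv : layX.Val t v) : t.tf_src (logi t t.R v) 1 =
    v 1 + t.Zr * ∑ g ∈ Finset.range (2 * t.d), Gam0 t.K ^ g * v (2 + g) := by
  simp only [TP.tf_src]
  rw [if_neg (by omega), if_pos trivial, tf_logiR_out t v (Or.inl rfl) (by omega)]
  congr 2
  refine Finset.sum_congr rfl fun g hg => ?_
  have := Finset.mem_range.mp hg
  split_ifs with h
  · rw [tf_logiR_div hv h]
  · rw [tf_logiR_out t v (Or.inr (by omega)) (by omega)]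

theorem tf_apx_inF {t : TP} (ht : t.OK k) {mb : ℕ} {D D' : Arr}
    (hD : ∀ v, layM.Val t v → InS t.sf t.d v → ‖gc t.P D (layM.ri t v)‖ ≤ 2 ^ mb)
    (hl : D'.length = layX.vol t)
    (h : ∀ v, layX.Val t v → (∀ w, layM.Val t w → tf_PrepR t v w →
        gc t.P D' (layX.ri t v) = gc t.P D (layM.ri t w)) ∧
      ((¬ ∀ i < t.d, t.ix v i < t.sf i) → gc t.P D' (layX.ri t v) = 0)) :
    Apx t t.R mb 0 (t.tf_inF D) D' := by
  refine ⟨hl, fun v hv hg => ?_⟩
  have e1 : (∀ i < t.d, logi t t.R v (2 + i) % t.h < t.sf i) ↔ ∀ i < t.d, t.ix v i < t.sf i :=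
    forall₂_congr fun i hi => by rw [tf_logiR_mod hv hi]
  by_cases hc : ∀ i < t.d, t.ix v i < t.sf i
  · have e2 : ∀ i < t.d, update (t.tf_src (logi t t.R v)) 0 (v 0) (2 + i) =
        if Even (v (2 + i)) then t.ix v i else t.sf i - 1 - t.ix v i := fun i hi => by
      rw [update_of_ne (by omega), TP.tf_src_dim, tf_logiR_mod hv hi, tf_logiR_div hv hi]
    have e3 : update (t.tf_src (logi t t.R v)) 0 (v 0) 1 =
        v 1 + t.Zr * ∑ g ∈ Finset.range (2 * t.d), Gam0 t.K ^ g * v (2 + g) := by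
      rw [update_of_ne (by omega), tf_src_logiR_one hv]
    have hin : InS t.sf t.d (update (t.tf_src (logi t t.R v)) 0 (v 0)) := fun i hi => by
      have := hc i hi
      rw [e2 i hi]
      split_ifs <;> omega
    have hw : layM.Val t (update (t.tf_src (logi t t.R v)) 0 (v 0)) := fun c hc' => by
      rw [tf_layM_n] at hc'
      rcases c with _ | _ | c
      · rw [update_self]
        exact hv 0 (by rw [tf_layX_n]; omega)
      · rw [zero_add, e3]
        exact tf_one_lt_Zt (tf_valY_of_good hv hg)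
      · rw [show c + 1 + 1 = 2 + c by omega, tf_layM_r_dim t (by omega)]
        exact (hin c (by omega)).trans_le (ht.hs c (by omega)).2
    have e4 : t.tf_inF D (logi t t.R v) =
        gc t.P D (layM.ri t (update (t.tf_src (logi t t.R v)) 0 (v 0))) := by
      rw [TP.tf_inF, if_pos (e1.mpr hc), layM.ri_congr t (v := update _ _ _)
        fun c _ hc => update_of_ne (by omega) _ _]
    rw [e4, (h v hv).1 _ hw ⟨hg, by simp, e3, fun i hi => ⟨hc i hi, e2 i hi⟩⟩, sub_self, norm_zero,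
      add_zero]
    exact ⟨by positivity, hD _ hw hin⟩
  · rw [TP.tf_inF, if_neg (mt e1.mp hc), (h v hv).2 hc, sub_self, norm_zero]
    exact ⟨by positivity, by positivity⟩

theorem tf_inF_embL {t : TP} (ht : t.OK k) {v w : ℕ → ℕ} (hv : layX.Val t v) (h : ExpR t v w)
    (D : Arr) (J : Fin t.d → ℕ) (hJ : ∀ i, J i < t.sf i) :
    t.tf_inF D (embL t.h t.d t.sf (logi t t.R v) (mrg (fun c => logi t t.R v c % t.h) J)) =
      gc t.P D (layM.ri t (mrg w J)) := by
  set y := logi t t.R v with hy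
  set z := embL t.h t.d t.sf y (mrg (fun c => y c % t.h) J) with hz
  have e1 : ∀ i : Fin t.d, z (2 + i) =
      (if Even (v (2 + i)) then J i else t.sf i - 1 - J i) + t.h * v (2 + i) := fun i => by
    have := i.2
    simp only [hz, embL]
    rw [if_pos ⟨by omega, by omega⟩, mrg_in, hy, tf_logiR_div hv i.2, Nat.add_sub_cancel_left]
  have e2 : ∀ i : Fin t.d, (if Even (v (2 + i)) then J i else t.sf i - 1 - J i) < t.sf i :=
    fun i => by
      have := hJ i
      split_ifs <;> omega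
  have e3 : ∀ i : Fin t.d, z (2 + i) % t.h =
      if Even (v (2 + i)) then J i else t.sf i - 1 - J i := fun i => by
    rw [e1, Nat.add_mul_mod_self_left, Nat.mod_eq_of_lt ((e2 i).trans_le (ht.hs i i.2).2)]
  have e4 : ∀ i : Fin t.d, z (2 + i) / t.h = v (2 + i) := fun i => by
    rw [e1, Nat.add_mul_div_left _ _ t.tf_h_pos,
      Nat.div_eq_of_lt ((e2 i).trans_le (ht.hs i i.2).2), zero_add]
  have e5 : ∀ c, c < 2 ∨ 2 + t.d ≤ c → z c = y c := fun c hc => by
    simp only [hz, embL]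
    rw [if_neg (by omega)]
  rw [TP.tf_inF, if_pos fun i hi => (e3 ⟨i, hi⟩).trans_lt (e2 ⟨i, hi⟩)]
  congr 1
  refine layM.ri_congr t fun c hc h1 => ?_
  rw [tf_layM_n] at hc
  rcases c with _ | _ | c
  · omega
  · rw [zero_add, mrg_out _ _ (Or.inl (by omega)), h.2.2.1, ← tf_src_logiR_one hv]
    simp only [TP.tf_src]
    rw [if_neg (by omega), if_pos trivial, if_neg (by omega), if_pos trivial, e5 1 (by omega)]
    congr 2
    refine Finset.sum_congr rfl fun g hg => ?_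
    split_ifs with h2
    · rw [e4 ⟨g, h2⟩, tf_logiR_div hv h2]
    · rw [e5 _ (by omega)]
  · have hc' : c < t.d := by omega
    have := hJ ⟨c, hc'⟩
    rw [show c + 1 + 1 = 2 + c by omega, TP.tf_src_dim, e3 ⟨c, hc'⟩, e4 ⟨c, hc'⟩, mrg_in w J ⟨c, hc'⟩]
    dsimp only at this ⊢
    split_ifs <;> omega

theorem TP.tf_d_le_cost {t : TP} (ht : t.OK k) : (t.d : ℝ) ≤ t.cost := by
  have h0 : 0 ≤ tauE := by unfold tauE; norm_num
  have h1 : (1 : ℝ) ≤ ((t.K * t.R + 1 : ℕ) : ℝ) ^ tauE :=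
    Real.one_le_rpow (by exact_mod_cast Nat.le_add_left _ _) h0
  have h2 : (t.d : ℝ) ≤ t.d * ((t.K * t.R + 1 : ℕ) : ℝ) ^ tauE :=
    le_mul_of_one_le_right (Nat.cast_nonneg _) h1
  have h3 : (0 : ℝ) ≤ t.R * t.d * (t.K : ℝ) ^ tauE := by positivity
  have h4 : (0 : ℝ) ≤ t.K * t.R * t.K * (t.d : ℝ) ^ tauE := by positivity
  unfold TP.cost
  linarith

/-- The transform.  Recipe: `Gat.expand`, `Gat.condRev`, `Impl.mask` (zero where some
`ix v i ≥ sf i`), `Impl.runProg` with `e = 0`, `Gat.compact`; `runD_spec`, `dftD_congr`.  The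
function `F` on logical addresses `y` is `0` unless all `y (2 + i) % h < sf i`, and otherwise the
record of the input at the compact address read off from `y` (`logi t R v (2 + i) =
ix v i + h * v (2 + i)`).  `c0 = 3 * c + 2` (or larger) for the constant `c` of `exists_prog`. -/
theorem Impl.transform : ∃ c0 : ℕ, 1 ≤ c0 ∧ ∀ (k : ℕ) {α : Type} (𝔅 : Bud α) (p : α → TP)
    (mb : α → ℕ) (Tm : α → ℝ), TFam 𝔅.V p k → (∀ a, mb a ≤ (p a).sh) →
    (∀ a, (p a).sh + mb a + c0 * ((p a).d * ((p a).K * (p a).R)) ≤ (p a).P) →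
    HM 𝔅 (fun a => (p a).P) Tm → (∀ a, 0 ≤ Tm a) →
    ((fun a => (layX.vol (p a) : ℝ) * (p a).cost) ≲ 𝔅.F) →
    Impl 𝔅 p (fun a (D : Arr) => D.length = layM.vol (p a) ∧ ∀ v, layM.Val (p a) v →
        InS (p a).sf (p a).d v → ‖gc (p a).P D (layM.ri (p a) v)‖ ≤ 2 ^ mb a)
      (fun a D (D' : Arr) => D'.length = layM.vol (p a) ∧ ∀ v, layM.Val (p a) v →
        InS (p a).sf (p a).d v → ‖gc (p a).P D' (layM.ri (p a) v) - dftD (p a).inv (p a).sf (p a).d
          (fun u => gc (p a).P D (layM.ri (p a) u)) v‖ ≤ 2 ^ (c0 * ((p a).d * ((p a).K * (p a).R))))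
      fun a => c0 * ((p a).K * (p a).R) * layX.nrec (p a) * Tm a := by
  obtain ⟨c, prog, dv, lg, hprog⟩ := exists_prog
  refine ⟨4 * c + 2, by omega, fun k α 𝔅 p mb Tm hT hmb hP hM hT0 hc => ?_⟩
  have hc' : (fun a => (layX.vol (p a) : ℝ) * (p a).d) ≲ 𝔅.F := hc.mono_left fun a =>
    mul_le_mul_of_nonneg_left (TP.tf_d_le_cost (hT.ok a)) (Nat.cast_nonneg _)
  have hpos : ∀ a, 1 ≤ (p a).d * ((p a).K * (p a).R) := fun a =>
    Nat.mul_pos (hT.ok a).hd (Nat.mul_pos (hT.ok a).hK (hT.ok a).hR)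
  have hx : sz (fun q : {q : α × Arr // q.2.length = layM.vol (p q.1) ∧ ∀ v, layM.Val (p q.1) v →
      InS (p q.1).sf (p q.1).d v → ‖gc (p q.1).P q.2 (layM.ri (p q.1) v)‖ ≤ 2 ^ mb q.1} =>
      (p q.1.1, q.1.2)) ≼ fun q => 𝔅.V q.1.1 :=
    hT.famM.sz_in.comp fun q : {q : α × Arr // q.2.length = layM.vol (p q.1) ∧
      ∀ v, layM.Val (p q.1) v → InS (p q.1).sf (p q.1).d v →
        ‖gc (p q.1).P q.2 (layM.ri (p q.1) v)‖ ≤ 2 ^ mb q.1} => ⟨q.1, q.2.1⟩
  refine Impl.intro hx fun β φ D hD hs => ?_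
  obtain ⟨D1, k1, k2⟩ := (Impl.tf_prep hT hc').apply φ D fun b => (hD b).1
  have hP' : ∀ a, (p a).sh + mb a + (0 + 3 * c * ((p a).d * ((p a).K * (p a).R))) + 2 ≤ (p a).P :=
    fun a => by
      have := hP a
      have := hpos a
      generalize (p a).d * ((p a).K * (p a).R) = x at *
      nlinarith
  have hr := Impl.runProg (𝔅 := 𝔅.comap φ) (p := fun b => p (φ b)) hprog
    (hT.reindex φ) (mb := fun b => mb (φ b)) (e := fun _ => 0) (fun b => (p (φ b)).tf_inF (D b))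
    (fun b => hmb _) (fun b => hP' _)
    (Tm := fun b => Tm (φ b)) (fun b => hM (φ b)) (fun b => hT0 _) (hc.comp φ)
  obtain ⟨D2, k3, k4⟩ := hr.apply (fun b => b) D1
    fun b => tf_apx_inF (hT.ok _) (hD b).2 (k1 b).1 (k1 b).2
  obtain ⟨D3, k5, k6⟩ := (Gat.compact hT hc').apply φ D2 fun b => (k3 b).1
  refine ⟨D3, fun b => ⟨(k5 b).1, fun w hw hin => ?_⟩, ((k2.chain k4).chain k6).mono fun b => ?_⟩
  · have ht := hT.ok (φ b)
    obtain ⟨v, hv, e⟩ := exists_expR ht hw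
    have hn : 1 ≤ layX.n (p (φ b)) := by rw [tf_layX_n]; omega
    have hn' : 1 ≤ layM.n (p (φ b)) := by rw [tf_layM_n]; omega
    have h1 := ((k3 b).2 v hv e.1).1
    rw [gc_congr (GPost.blk_eq (k5 b) (k3 b).1 hn hn' rfl rfl hw hv fun x _ => e.tf_update x)]
    rw [runD_spec (inv := (p (φ b)).inv) (s := (p (φ b)).sf) (c := (p (φ b)).cf dv)
      (y := logi (p (φ b)) (p (φ b)).R v) (p (φ b)).tf_h_pos
      (fun i hi => hprog.spec _ _ _ _ ht.hK ht.hR (ht.hs i hi).1 (ht.hs i hi).2) _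
      (fun i hi => by rw [tf_logiR_mod hv hi, ← e.2.2.2 i hi]; exact hin i hi),
      dftD_congr (v' := w) (F' := fun u => gc (p (φ b)).P (D b) (layM.ri (p (φ b)) u))
        (fun i hi => by rw [tf_logiR_mod hv hi, e.2.2.2 i hi])
        fun J hJ => tf_inF_embL ht hv e _ J hJ] at h1
    refine h1.trans (pow_le_pow_right₀ (by norm_num) ?_)
    generalize (p (φ b)).d * ((p (φ b)).K * (p (φ b)).R) = x
    nlinarith
  · have := hT0 (φ b)
    have h2 : (0 : ℝ) ≤ ((p (φ b)).K * (p (φ b)).R) * layX.nrec (p (φ b)) * Tm (φ b) := by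
      positivity
    push_cast
    nlinarith

end Crest.Agent.R326
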