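/-
R326/Level: one level of the multiplication algorithm.  Author: helper92.
-/
import Crest.Agent.R326.Transform
import Crest.Agent.R326.CRT
import Crest.Agent.R326.Pack

set_option autoImplicit false
set_option linter.unusedSimpArgs false
set_option linter.unusedSectionVars false
set_option linter.unusedVariables false

namespace Crest.Agent.R326

open Function Crest.Agent.Lib.PolyTime

/-! ### The compact layout -/

section layM
variable {t : TP} {k c0 n : ℕ}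

theorem layM_r0 (t : TP) : layM.r t 0 = 2 * t.P := rfl
theorem layM_r1 (t : TP) : layM.r t 1 = t.Zt := rfl
theorem layM_r2 (t : TP) (i : ℕ) : layM.r t (2 + i) = t.h := by
  simp [layM, show 2 + i ≠ 1 by omega]

theorem riM (t : TP) (v : ℕ → ℕ) : layM.ri t v = v 1 + t.Zt * rg (layM.r t) v 2 t.d := by
  show rg _ v 1 (2 + t.d - 1) = _
  rw [show 2 + t.d - 1 = 1 + t.d by omega, rg_add, rg_one, rwt_one, layM_r1]

theorem rwtM (t : TP) : rwt (layM.r t) 2 t.d = t.h ^ t.d := rwt_const fun i _ => layM_r2 t i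

theorem TP.OK.two_Zh (h : t.OK k) : 2 * t.Zh = t.Zt := by
  refine Nat.mul_div_cancel' (Dvd.dvd.mul_right (Dvd.dvd.trans ?_ h.dvd) _)
  exact dvd_pow_self 2 (Nat.mul_pos h.hK h.hR).ne'

theorem TP.OK.Zt_pos (h : t.OK k) : 0 < t.Zt := by
  refine Nat.mul_pos h.hZ (pow_pos (Nat.mul_pos (Nat.two_pow_pos _) ?_) _)
  have : 2 ^ 1 ≤ 2 ^ t.K := Nat.pow_le_pow_right (by omega) h.hK
  omega

theorem TP.OK.Zh_pos (h : t.OK k) : 1 ≤ t.Zh := by
  have := h.two_Zh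
  have := h.Zt_pos
  omega

theorem TP.OK.volM (h : t.OK k) : layM.vol t = 2 * t.P * (2 * t.Zh * t.h ^ t.d) := by
  rw [volM_eq, h.two_Zh, mul_assoc]

theorem TP.OK.S_le (h : t.OK k) : t.S t.d ≤ t.h ^ t.d := by
  have := Finset.prod_le_pow_card (Finset.range t.d) t.sf t.h
    fun i hi => (h.hs i (Finset.mem_range.mp hi)).2
  rwa [Finset.card_range] at this

theorem TP.OK.S_pos (h : t.OK k) : 0 < t.S t.d := wt_pos fun i hi => (h.hs i hi).1

theorem TP.OK.valM (h : t.OK k) {v : ℕ → ℕ} (h0 : v 0 < 2 * t.P) (h1 : v 1 < t.Zt)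
    (h2 : InS t.sf t.d v) : layM.Val t v := by
  intro c hc
  obtain rfl | rfl | ⟨i, rfl⟩ : c = 0 ∨ c = 1 ∨ ∃ i, c = 2 + i := by
    rcases c with _ | _ | c
    · simp
    · simp
    · exact Or.inr (Or.inr ⟨c, by omega⟩)
  · exact h0
  · exact h1
  · have hi : i < t.d := by have : 2 + i < 2 + t.d := hc; omega
    rw [layM_r2]
    exact (h2 i hi).trans_le (h.hs i hi).2

theorem rgM_update (t : TP) (v : ℕ → ℕ) {c : ℕ} (hc : c < 2) (x : ℕ) :
    rg (layM.r t) (update v c x) 2 t.d = rg (layM.r t) v 2 t.d :=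
  rg_congr (fun _ _ => rfl) fun i _ => update_of_ne (by omega) _ _

theorem InS.update {s : ℕ → ℕ} {d : ℕ} {v : ℕ → ℕ} (h : InS s d v) {c : ℕ} (hc : c < 2) (x : ℕ) :
    InS s d (update v c x) := fun i hi => by
  rw [update_of_ne (by omega)]; exact h i hi

/-- The two addresses related by the Chinese remainder permutation. -/
theorem exists_crtR (h : t.OK k) {u : ℕ → ℕ} {I : ℕ} (hI : I < t.S t.d) (h1 : u 1 < t.Zt)
    (hu : ∀ i < t.d, u (2 + i) = t.nu i * I % t.sf i) :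
    ∃ v w, layM.Val t v ∧ layM.Val t w ∧ layM.ri t v = layM.ri t u ∧
      layM.ri t w = u 1 + 2 * t.Zh * I ∧ ∀ x, CrtR t (update v 0 x) (update w 0 x) := by
  have hP := h.hP
  have hv : layM.Val t (update u 0 0) := h.valM (by simp; omega) (by simpa using h1)
    (InS.update (fun i hi => by rw [hu i hi]; exact Nat.mod_lt _ (h.hs i hi).1) (by omega) 0)
  have e : rg (layM.r t) (put (layM.r t) (update u 0 0) 2 t.d I) 2 t.d = I := by
    rw [rg_put, rwtM, Nat.mod_eq_of_lt (hI.trans_le h.S_le)]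
  refine ⟨_, put (layM.r t) (update u 0 0) 2 t.d I, hv, R326.Val.put hv I,
    layM.ri_congr _ fun c _ hc => update_of_ne (by omega) _ _, ?_, fun x => ⟨by simp, ?_, ?_, ?_⟩⟩
  · rw [riM, e, put_out _ _ _ (by omega), h.two_Zh]; simp
  · simp [put_out]
  · rw [rgM_update _ _ (by omega), e]; exact hI
  · intro i hi
    rw [rgM_update _ _ (by omega), e, update_of_ne (by omega), update_of_ne (by omega), hu i hi]

theorem TP.Fit.S_le (hf : t.Fit c0 n) (h : t.OK k) : t.S t.d ≤ 2 ^ n.size :=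
  (Nat.le_mul_of_pos_left _ h.Zh_pos).trans hf.sm

theorem TP.Fit.Zh_le (hf : t.Fit c0 n) (h : t.OK k) : t.Zh ≤ 2 ^ n.size :=
  (Nat.le_mul_of_pos_right _ h.S_pos).trans hf.sm

end layM

theorem norm_conv_le {Zh z : ℕ} {F : ℕ → ℕ → ℂ} {B : ℝ} (hB : 0 ≤ B)
    (h : ∀ z1 < Zh, ∀ z2 < Zh, ‖F z1 z2‖ ≤ B) :
    ‖∑ z1 ∈ Finset.range Zh, ∑ z2 ∈ Finset.range Zh, if z1 + z2 = z then F z1 z2 else 0‖ ≤
      Zh * B := by
  refine (norm_sum_le _ _).trans ((Finset.sum_le_card_nsmul _ _ B fun z1 h1 => ?_).trans (by simp))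
  have : ∀ z2, (z1 + z2 = z) ↔ (z1 ≤ z ∧ z - z1 = z2) := fun z2 => by omega
  simp only [this, ite_and]
  split_ifs
  · rw [Finset.sum_ite_eq]
    split_ifs with h2
    · exact h _ (Finset.mem_range.mp h1) _ (Finset.mem_range.mp h2)
    · simpa using hB
  · simpa using hB

theorem abs_re_lt {y : GaussianInt} {B : ℕ} (h : ‖(y : ℂ)‖ < 2 ^ B) :
    |y.re| < 2 ^ B ∧ |y.im| < 2 ^ B := by
  have h1 := (Complex.abs_re_le_norm (y : ℂ)).trans_lt h
  have h2 := (Complex.abs_im_le_norm (y : ℂ)).trans_lt h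
  rw [← GaussianInt.intCast_re] at h1
  rw [← GaussianInt.intCast_im] at h2
  exact ⟨by exact_mod_cast h1, by exact_mod_cast h2⟩

theorem norm_shift_le {x y : GaussianInt} {q : ℕ} (h1 : |x.re * 2 ^ q - y.re| < 2 ^ q)
    (h2 : |x.im * 2 ^ q - y.im| < 2 ^ q) : ‖(x : ℂ) - (2 ^ q)⁻¹ * (y : ℂ)‖ ≤ 2 := by
  have e : (x : ℂ) - (2 ^ q)⁻¹ * (y : ℂ) = (2 ^ q)⁻¹ *
      (((x.re * 2 ^ q - y.re : ℤ) : ℂ) + ((x.im * 2 ^ q - y.im : ℤ) : ℂ) * Complex.I) := by
    rw [GaussianInt.toComplex_def, GaussianInt.toComplex_def]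
    push_cast
    field_simp
    ring
  have h1' : |((x.re * 2 ^ q - y.re : ℤ) : ℝ)| ≤ 2 ^ q := by exact_mod_cast h1.le
  have h2' : |((x.im * 2 ^ q - y.im : ℤ) : ℝ)| ≤ 2 ^ q := by exact_mod_cast h2.le
  have h3 := norm_add_le (((x.re * 2 ^ q - y.re : ℤ) : ℂ))
    (((x.im * 2 ^ q - y.im : ℤ) : ℂ) * Complex.I)
  rw [norm_mul, Complex.norm_I, mul_one, Complex.norm_intCast, Complex.norm_intCast] at h3
  rw [e, norm_mul, norm_inv, norm_pow, Complex.norm_ofNat, inv_mul_le_iff₀ (by positivity)]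
  linarith

theorem two_pow_le {a b : ℕ} (h : a ≤ b) : (2 : ℝ) ^ a ≤ 2 ^ b := pow_le_pow_right₀ one_le_two h

/-! ### The three parts of a level -/

/-- The specification of the transform. -/
def TrOK (c0 : ℕ) : Prop := ∀ (k : ℕ) {α : Type} (𝔅 : Bud α) (p : α → TP)
    (mb : α → ℕ) (Tm : α → ℝ), TFam 𝔅.V p k → (∀ a, mb a ≤ (p a).sh) →
    (∀ a, (p a).sh + mb a + c0 * ((p a).d * ((p a).K * (p a).R)) ≤ (p a).P) →
    HM 𝔅 (fun a => (p a).P) Tm → (∀ a, 0 ≤ Tm a) →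
    ((fun a => (layX.vol (p a) : ℝ) * (p a).cost) ≲ 𝔅.F) →
    Impl 𝔅 p (fun a (D : Arr) => D.length = layM.vol (p a) ∧ ∀ v, layM.Val (p a) v →
        InS (p a).sf (p a).d v → ‖gc (p a).P D (layM.ri (p a) v)‖ ≤ 2 ^ mb a)
      (fun a D (D' : Arr) => D'.length = layM.vol (p a) ∧ ∀ v, layM.Val (p a) v →
        InS (p a).sf (p a).d v → ‖gc (p a).P D' (layM.ri (p a) v) - dftD (p a).inv (p a).sf (p a).d
          (fun u => gc (p a).P D (layM.ri (p a) u)) v‖ ≤ 2 ^ (c0 * ((p a).d * ((p a).K * (p a).R))))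
      fun a => c0 * ((p a).K * (p a).R) * layX.nrec (p a) * Tm a

/-- The assumptions of a level. -/
structure LvH {α : Type} (c0 k : ℕ) (𝔅 : Bud α) (p : α → TP) (n : α → ℕ) (Tm Tm2 : α → ℝ) : Prop where
  tr : TrOK c0
  T : TFam 𝔅.V p k
  fit : ∀ a, (p a).Fit c0 (n a)
  b8 : ∀ a, 8 ≤ (n a).size
  nV : n ≼ 𝔅.V
  hM : HM 𝔅 (fun a => (p a).P) Tm
  hT : ∀ a, 0 ≤ Tm a
  hM2 : HM 𝔅 (fun a => (p a).m2) Tm2
  hT2 : ∀ a, 0 ≤ Tm2 a
  cost : (fun a => (layX.vol (p a) : ℝ) * (p a).cost) ≲ 𝔅.F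

variable {α X : Type} [Enc X] {c0 k : ℕ} {𝔅 : Bud α} {p : α → TP} {n : α → ℕ} {Tm Tm2 : α → ℝ}
  {x : α → X}

@[fun_prop] theorem TP.pt_Zh {β : Type} [Enc β] {t : β → TP} (ht : PT t) : PT fun a => (t a).Zh := by
  unfold TP.Zh TP.Zt Gam0; fun_prop

theorem TP.pt_S : PT fun t : TP => t.S t.d := by
  unfold TP.S wt TP.sf; fun_prop

theorem TP.pt_rev : PT TP.rev :=
  PT.of_enc_eq_out (f := fun t : TP => (t.tup.1, t.tup.2.1, t.tup.2.2.1, t.tup.2.2.2.1,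
    t.tup.2.2.2.2.1, true)) (by have := TP.pt_tup (PT.id' (α := TP)); fun_prop) fun _ => rfl

namespace LvH
variable (H : LvH c0 k 𝔅 p n Tm Tm2) (hp : L 𝔅 x p)
include H hp

theorem sp : S 𝔅 x p := ⟨hp, H.T.famM.smV⟩
theorem sP : S 𝔅 x fun a => (p a).P := (H.sp hp).pt (TP.pt_P PT.id')
theorem sb : S 𝔅 x fun a => (n a).size :=
  ((H.sp hp).pt (f := fun t => t.P / (3 * c0 + 22)) (by fun_prop)).congr fun a => by
    rw [(H.fit a).hP, Nat.mul_div_cancel_left _ (by omega)]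
theorem sq : S 𝔅 x fun a => (c0 + 5) * (n a).size := ((H.sp hp).const _).mul (H.sb hp)
theorem sZ : S 𝔅 x fun a => (p a).Zh := (H.sp hp).pt (TP.pt_Zh PT.id')
theorem sN : S 𝔅 x fun a => (p a).h ^ (p a).d :=
  (H.sp hp).pt (f := fun t => t.h ^ t.d) (by fun_prop)

omit hp in
theorem vV : (fun a => (p a).P * ((p a).Zh * (p a).h ^ (p a).d)) ≼ 𝔅.V :=
  H.T.famM.vol.mono_left fun a => by
    rw [(H.T.ok a).volM]
    nlinarith [Nat.zero_le ((p a).P * ((p a).Zh * (p a).h ^ (p a).d))]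

omit hp in
theorem hd_pos (a : α) : 1 ≤ (p a).h ^ (p a).d := Nat.pos_of_ne_zero (by simp [TP.h])

omit hp in
theorem pzV : (fun a => (p a).P * (p a).Zh) ≼ 𝔅.V :=
  H.vV.mono_left fun a => Nat.mul_le_mul_left _ (Nat.le_mul_of_pos_right _ (H.hd_pos a))

omit hp in
theorem pV : (fun a => (p a).P) ≼ 𝔅.V :=
  H.pzV.mono_left fun a => Nat.le_mul_of_pos_right _ (H.T.ok a).Zh_pos

omit hp in
theorem err_le (a : α) : (2 : ℝ) ^ (c0 * ((p a).d * ((p a).K * (p a).R))) ≤ 2 ^ (c0 * (n a).size) :=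
  two_pow_le (Nat.mul_le_mul_left _ (H.fit a).dim)

/-- Pack, permute, transform. -/
theorem fwd {y : α → Arr} (hy : L 𝔅 x y) : ∃ (D : α → Arr) (f : α → (ℕ → ℕ) → ℂ),
    Cp 𝔅 x D (fun a => c0 * ((p a).K * (p a).R) * layX.nrec (p a) * Tm a) ∧ ∀ a,
      (D a).length = layM.vol (p a) ∧
      (∀ u, ∀ I < (p a).S (p a).d, (∀ i < (p a).d, u (2 + i) = (p a).nu i * I % (p a).sf i) →
        u 1 < (p a).Zh → f a u = ((2 ^ ((c0 + 5) * (n a).size) *
          piece (n a).size (ofBits (y a)) (u 1 + (p a).Zh * I) : ℕ) : ℂ)) ∧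
      ∀ v, layM.Val (p a) v → InS (p a).sf (p a).d v →
        ‖gc (p a).P (D a) (layM.ri (p a) v) - dftD false (p a).sf (p a).d (f a) v‖ ≤
          2 ^ (c0 * (n a).size) ∧
        ‖dftD false (p a).sf (p a).d (f a) v‖ ≤ 2 ^ ((c0 + 7) * (n a).size) := by
  obtain ⟨D0, l0, s0⟩ := L.pack hy (H.sP hp) (H.sb hp) (H.sq hp) (H.sZ hp) (H.sN hp)
    (fun a => by have := H.b8 a; omega)
    (fun a => by have := H.b8 a; rw [(H.fit a).hP]; nlinarith)
    (fun a => (H.T.ok a).Zh_pos) H.hd_pos H.vV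
  have e0 : ∀ a, (D0 a).length = layM.vol (p a) := fun a => by rw [(s0 a).1, (H.T.ok a).volM]
  obtain ⟨D1, s1, l1⟩ := Impl.useL (Gat.crt H.T (fun a => (H.fit a).cop) H.cost) (fun a => a) e0 hp l0
  have key : ∀ a u, ∀ I < (p a).S (p a).d,
      (∀ i < (p a).d, u (2 + i) = (p a).nu i * I % (p a).sf i) → u 1 < (p a).Zt →
      gc (p a).P (D1 a) (layM.ri (p a) u) = if u 1 < (p a).Zh then
        ((2 ^ ((c0 + 5) * (n a).size) *
          piece (n a).size (ofBits (y a)) (u 1 + (p a).Zh * I) : ℕ) : ℂ) else 0 := by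
    intro a u I hI hu h1
    obtain ⟨v, w, hv, hw, r1, r2, r3⟩ := exists_crtR (H.T.ok a) hI h1 hu
    rw [← r1, gc_congr ((s1 a).blk_eq (e0 a) (Nat.le_add_right_of_le one_le_two)
      (Nat.le_add_right_of_le one_le_two) rfl rfl hv hw fun x _ => r3 x), r2, gc,
      (s0 a).2 _ (by rwa [(H.T.ok a).two_Zh]) _ (hI.trans_le (H.T.ok a).S_le)]
    split_ifs
    · exact map_natCast _ _
    · exact map_zero _
  have bd : ∀ a v, layM.Val (p a) v → InS (p a).sf (p a).d v →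
      ‖gc (p a).P (D1 a) (layM.ri (p a) v)‖ ≤ 2 ^ ((c0 + 6) * (n a).size) := by
    intro a v hv hs
    obtain ⟨I, hI, hu⟩ := exists_crt (ν := (p a).nu) (fun i hi => ((H.T.ok a).hs i hi).1)
      (H.fit a).cop (fun i hi => TP.nu_coprime (H.T.ok a) (H.fit a).cop hi) hs
    rw [key a v I hI hu (hv 1 (Nat.lt_add_right _ one_lt_two))]
    split_ifs
    · rw [Complex.norm_natCast, show (c0 + 6) * (n a).size = (c0 + 5) * (n a).size + (n a).size by
        ring, pow_add]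
      exact_mod_cast Nat.mul_le_mul_left _ (piece_lt _ _ _).le
    · simp
  obtain ⟨D2, s2, l2⟩ := (H.tr k 𝔅 p (fun a => (c0 + 6) * (n a).size) Tm H.T
    (fun a => by rw [(H.fit a).hsh]; nlinarith)
    (fun a => by
      have := Nat.mul_le_mul_left c0 (H.fit a).dim
      rw [(H.fit a).hsh, (H.fit a).hP]; nlinarith)
    H.hM H.hT H.cost).use (fun a => a) (fun a => ⟨(s1 a).1, bd a⟩) hp l1
  refine ⟨D2, fun a u => gc (p a).P (D1 a) (layM.ri (p a) u), l2.mono fun a => by simp,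
    fun a => ⟨(s2 a).1, fun u I hI hu h1 => ?_, fun v hv hs => ⟨?_, ?_⟩⟩⟩
  · have := (H.T.ok a).two_Zh
    exact (key a u I hI hu (by omega)).trans (if_pos h1)
  · have := (s2 a).2 v hv hs
    rw [(H.fit a).inv] at this
    exact this.trans (H.err_le a)
  · refine (norm_dftD_le (M := 2 ^ ((c0 + 6) * (n a).size)) (by positivity) fun J hJ => ?_).trans ?_
    · have hs' : InS (p a).sf (p a).d (mrg v J) := fun i hi => by
        rw [mrg_in v J ⟨i, hi⟩]; exact hJ ⟨i, hi⟩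
      refine bd a _ ((H.T.ok a).valM ?_ ?_ hs') hs'
      · rw [mrg_out _ _ (by omega)]; exact hv 0 (Nat.lt_add_right _ two_pos)
      · rw [mrg_out _ _ (by omega)]; exact hv 1 (Nat.lt_add_right _ one_lt_two)
    · rw [show (c0 + 7) * (n a).size = (n a).size + (c0 + 6) * (n a).size by ring, pow_add]
      refine mul_le_mul_of_nonneg_right ?_ (by positivity)
      exact_mod_cast (H.fit a).S_le (H.T.ok a)

/-- Products of polynomials, and rescaling. -/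
theorem mid {D D' : α → Arr} (hD : L 𝔅 x D) (hD' : L 𝔅 x D') (f g : α → (ℕ → ℕ) → ℂ)
    (sD : ∀ a, (D a).length = layM.vol (p a) ∧ ∀ v, layM.Val (p a) v → InS (p a).sf (p a).d v →
      ‖gc (p a).P (D a) (layM.ri (p a) v) - f a v‖ ≤ 2 ^ (c0 * (n a).size) ∧
      ‖f a v‖ ≤ 2 ^ ((c0 + 7) * (n a).size))
    (sD' : ∀ a, (D' a).length = layM.vol (p a) ∧ ∀ v, layM.Val (p a) v → InS (p a).sf (p a).d v →
      ‖gc (p a).P (D' a) (layM.ri (p a) v) - g a v‖ ≤ 2 ^ (c0 * (n a).size) ∧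
      ‖g a v‖ ≤ 2 ^ ((c0 + 7) * (n a).size)) :
    ∃ E : α → Arr, Cp 𝔅 x E (fun a => 4 * ((p a).h ^ (p a).d : ℕ) * Tm2 a) ∧ ∀ a,
      (E a).length = layM.vol (p a) ∧ ∀ v, layM.Val (p a) v → InS (p a).sf (p a).d v →
        ‖gc (p a).P (E a) (layM.ri (p a) v)‖ ≤ 2 ^ (p a).sh ∧
        ‖gc (p a).P (E a) (layM.ri (p a) v) - (2 ^ ((c0 + 5) * (n a).size))⁻¹ *
          ∑ z1 ∈ Finset.range (p a).Zh, ∑ z2 ∈ Finset.range (p a).Zh, if z1 + z2 = v 1 then
            f a (update v 1 z1) * g a (update v 1 z2) else 0‖ ≤ 2 ^ ((c0 + 3) * (n a).size + 3) := by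
  have hP1 : ∀ a, 1 ≤ (p a).P := fun a => by have := (H.T.ok a).hP; omega
  obtain ⟨E0, l0, s0⟩ := Cp.rconv (n := fun a => (p a).h ^ (p a).d) H.hM2 H.hT2 (H.sP hp) (H.sZ hp)
    H.pzV hP1 (fun a => (H.T.ok a).Zh_pos)
    (fun a => ((H.fit a).Zh_le (H.T.ok a)).trans (Nat.pow_le_pow_right two_pos (by
      rw [(H.fit a).hP]; nlinarith))) hD hD'
    (fun a => (sD a).1.trans (H.T.ok a).volM) fun a => (sD' a).1.trans (H.T.ok a).volM
  have hp' : L 𝔅 (fun a => (x a, E0 a)) p := (L.in1 _ _ _).comp hp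
  have hq : ∀ a, (c0 + 5) * (n a).size ≤ (p a).P := fun a => by rw [(H.fit a).hP]; nlinarith
  obtain ⟨E1, l1, s1⟩ := L.rshift (n := fun a => 2 * (p a).Zh * (p a).h ^ (p a).d)
    ((H.sP hp').un H.pV) ((H.sq hp').un (H.pV.mono_left hq)) hP1 hq (L.in2 _ _ _) fun a => (s0 a).1
  refine ⟨E1, (l0.bind l1).mono fun a => by simp, fun a => ⟨(s1 a).1.trans (H.T.ok a).volM.symm,
    fun v hv hs => ?_⟩⟩
  have ok := H.T.ok a
  have hb := H.b8 a
  have hz : v 1 < 2 * (p a).Zh := by rw [ok.two_Zh]; exact hv 1 (Nat.lt_add_right _ one_lt_two)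
  have hI : rg (layM.r (p a)) v 2 (p a).d < (p a).h ^ (p a).d := by
    rw [← rwtM]; exact R326.Val.rg_lt hv le_rfl
  generalize hI' : rg (layM.r (p a)) v 2 (p a).d = I at hI
  have hri : ∀ z, layM.ri (p a) (update v 1 z) = z + 2 * (p a).Zh * I := fun z => by
    rw [riM, rgM_update _ _ one_lt_two, hI', ok.two_Zh, update_self]
  have hval : ∀ z < (p a).Zh, layM.Val (p a) (update v 1 z) := fun z h =>
    R326.Val.update hv (show z < (p a).Zt by have := ok.two_Zh; omega)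
  have hri' : layM.ri (p a) v = v 1 + 2 * (p a).Zh * I := by rw [← hri, update_eq_self]
  generalize hb' : (n a).size = b at *
  let y : GaussianInt := ∑ z1 ∈ Finset.range (p a).Zh, ∑ z2 ∈ Finset.range (p a).Zh,
    if z1 + z2 = v 1 then gv (p a).P (D a) (z1 + 2 * (p a).Zh * I) *
      gv (p a).P (D' a) (z2 + 2 * (p a).Zh * I) else 0
  have hy : (y : ℂ) = ∑ z1 ∈ Finset.range (p a).Zh, ∑ z2 ∈ Finset.range (p a).Zh,
      if z1 + z2 = v 1 then gc (p a).P (D a) (layM.ri (p a) (update v 1 z1)) *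
        gc (p a).P (D' a) (layM.ri (p a) (update v 1 z2)) else 0 := by
    simp only [y, map_sum, apply_ite GaussianInt.toComplex, map_mul, map_zero, hri, gc]
  have hZ : ((p a).Zh : ℝ) ≤ 2 ^ b := by exact_mod_cast hb' ▸ (H.fit a).Zh_le ok
  have b1 : ∀ {u w : ℂ}, ‖u - w‖ ≤ 2 ^ (c0 * b) → ‖w‖ ≤ 2 ^ ((c0 + 7) * b) →
      ‖u‖ ≤ 2 ^ ((c0 + 7) * b + 1) := fun {u w} h1 h2 => by
    have h3 := norm_add_le (u - w) w
    have h4 : (2 : ℝ) ^ (c0 * b) ≤ 2 ^ ((c0 + 7) * b) := two_pow_le (by nlinarith)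
    rw [sub_add_cancel] at h3
    rw [pow_succ]; linarith
  have sf : ∀ z < (p a).Zh, _ := fun z h => hb' ▸ (sD a).2 _ (hval z h) (hs.update one_lt_two z)
  have sg : ∀ z < (p a).Zh, _ := fun z h => hb' ▸ (sD' a).2 _ (hval z h) (hs.update one_lt_two z)
  have n1 : ‖(y : ℂ)‖ ≤ 2 ^ ((2 * c0 + 15) * b + 2) := by
    rw [hy]
    refine (norm_conv_le (B := 2 ^ ((c0 + 7) * b + 1) * 2 ^ ((c0 + 7) * b + 1)) (by positivity)
      fun z1 h1 z2 h2 => ?_).trans ?_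
    · rw [norm_mul]
      exact mul_le_mul (b1 (sf z1 h1).1 (sf z1 h1).2) (b1 (sg z2 h2).1 (sg z2 h2).2) (norm_nonneg _)
        (by positivity)
    · refine (mul_le_mul_of_nonneg_right hZ (by positivity)).trans (le_of_eq ?_)
      rw [← pow_add, ← pow_add]; congr 1; ring
  have n2 := abs_re_lt (B := (p a).P - 1) (n1.trans_lt (pow_lt_pow_right₀ one_lt_two (by
    have := (H.fit a).hP
    rw [hb'] at this
    have h3 : (2 * c0 + 15) * b + 2 + 1 < (p a).P := by rw [this]; nlinarith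
    omega)))
  have e1 : gv (p a).P (E0 a) (v 1 + 2 * (p a).Zh * I) = y := gv_eq (hP1 a) (by
    rw [(s0 a).2 _ hz _ hI]
    simp only [y, map_sum, apply_ite (rho (p a).P), map_mul, map_zero, rho_gv]) n2.1 n2.2
  have e2 := (s1 a).2 (v 1 + 2 * (p a).Zh * I) (by nlinarith)
  rw [e1, hb'] at e2
  have n3 := norm_shift_le e2.1 e2.2
  rw [hri', gc]
  generalize (gv (p a).P (E1 a) (v 1 + 2 * (p a).Zh * I) : ℂ) = w at n3 ⊢
  have hq0 : (0 : ℝ) < 2 ^ ((c0 + 5) * b) := by positivity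
  constructor
  · have h3 := norm_add_le (w - (2 ^ ((c0 + 5) * b))⁻¹ * (y : ℂ)) ((2 ^ ((c0 + 5) * b))⁻¹ * (y : ℂ))
    rw [sub_add_cancel, norm_mul, norm_inv, norm_pow, Complex.norm_ofNat] at h3
    have h4 : ((2 : ℝ) ^ ((c0 + 5) * b))⁻¹ * ‖(y : ℂ)‖ ≤ 2 ^ ((c0 + 10) * b + 2) := by
      rw [inv_mul_le_iff₀ hq0, ← pow_add]
      exact n1.trans (two_pow_le (by nlinarith))
    have h5 : (2 : ℝ) ^ 1 ≤ 2 ^ ((c0 + 10) * b + 2) := two_pow_le (by omega)
    have h6 : (2 : ℝ) ^ ((c0 + 10) * b + 2 + 1) ≤ 2 ^ (p a).sh :=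
      two_pow_le (by rw [(H.fit a).hsh, hb']; nlinarith)
    rw [pow_succ] at h6
    linarith
  · have h3 : ‖(y : ℂ) - ∑ z1 ∈ Finset.range (p a).Zh, ∑ z2 ∈ Finset.range (p a).Zh,
        if z1 + z2 = v 1 then f a (update v 1 z1) * g a (update v 1 z2) else 0‖ ≤
        2 ^ ((c0 + 5) * b) * 2 ^ ((c0 + 3) * b + 2) := by
      rw [hy, ← Finset.sum_sub_distrib]
      simp only [← Finset.sum_sub_distrib, ite_sub_ite, sub_zero]
      refine (norm_conv_le (B := 2 ^ (c0 * b) * 2 ^ ((c0 + 7) * b + 1) +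
        2 ^ ((c0 + 7) * b) * 2 ^ (c0 * b)) (by positivity) fun z1 h1 z2 h2 => ?_).trans ?_
      · have : ∀ u u' w w' : ℂ, u * w - u' * w' = (u - u') * w + u' * (w - w') := by intros; ring
        rw [this]
        refine (norm_add_le _ _).trans (add_le_add ?_ ?_) <;> rw [norm_mul]
        · exact mul_le_mul (sf z1 h1).1 (b1 (sg z2 h2).1 (sg z2 h2).2) (norm_nonneg _)
            (by positivity)
        · exact mul_le_mul (sf z1 h1).2 (sg z2 h2).1 (norm_nonneg _) (by positivity)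
      · refine (mul_le_mul_of_nonneg_right hZ (by positivity)).trans ?_
        have : (2 : ℝ) ^ ((c0 + 5) * b) * 2 ^ ((c0 + 3) * b + 2) =
            4 * (2 ^ b * (2 ^ ((c0 + 7) * b) * 2 ^ (c0 * b))) := by
          rw [← pow_add, ← pow_add, ← pow_add, show (4 : ℝ) = 2 ^ 2 by norm_num, ← pow_add]
          congr 1; ring
        rw [this, pow_succ]
        have h7 : (0 : ℝ) ≤ 2 ^ b * (2 ^ ((c0 + 7) * b) * 2 ^ (c0 * b)) := by positivity
        nlinarith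
    generalize (∑ z1 ∈ Finset.range (p a).Zh, ∑ z2 ∈ Finset.range (p a).Zh,
      if z1 + z2 = v 1 then f a (update v 1 z1) * g a (update v 1 z2) else 0) = s at h3 ⊢
    have h4 := norm_add_le (w - (2 ^ ((c0 + 5) * b))⁻¹ * (y : ℂ))
      ((2 ^ ((c0 + 5) * b))⁻¹ * ((y : ℂ) - s))
    rw [norm_mul, norm_inv, norm_pow, Complex.norm_ofNat, mul_sub, sub_add_sub_cancel] at h4
    rw [← inv_mul_le_iff₀ hq0] at h3
    have h5 : (2 : ℝ) ^ 1 ≤ 2 ^ ((c0 + 3) * b + 2) := two_pow_le (by omega)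
    rw [pow_succ _ ((c0 + 3) * b + 2)]
    linarith

/-- Inverse transform, inverse permutation, and evaluation. -/
theorem bwd {E : α → Arr} (hE : L 𝔅 x E) (hn : S 𝔅 x n) (G : α → (ℕ → ℕ) → ℂ)
    (c : α → ℕ → ℕ → ℕ) (hc : ∀ a z I, c a z I < 2 ^ (3 * (n a).size))
    (sE : ∀ a, (E a).length = layM.vol (p a) ∧ ∀ v, layM.Val (p a) v → InS (p a).sf (p a).d v →
      ‖gc (p a).P (E a) (layM.ri (p a) v)‖ ≤ 2 ^ (p a).sh ∧
      ‖gc (p a).P (E a) (layM.ri (p a) v) - G a v‖ ≤ 2 ^ ((c0 + 3) * (n a).size + 3))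
    (hG : ∀ a v, ∀ I < (p a).S (p a).d, (∀ i < (p a).d, v (2 + i) = (p a).nu i * I % (p a).sf i) →
      dftD true (p a).sf (p a).d (G a) v = ((2 ^ ((c0 + 5) * (n a).size) * c a (v 1) I : ℕ) : ℂ)) :
    Cp 𝔅 x (fun a => (List.range (2 * n a)).map (∑ I ∈ Finset.range ((p a).S (p a).d),
        ∑ z ∈ Finset.range (2 * (p a).Zh), c a z I * 2 ^ ((n a).size * (z + (p a).Zh * I))).testBit)
      fun a => c0 * ((p a).K * (p a).R) * layX.nrec (p a) * Tm a := by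
  have hT' : TFam 𝔅.V (fun a => (p a).rev) k :=
    ⟨fun a => ⟨(H.T.ok a).hK, (H.T.ok a).hR, (H.T.ok a).hd, (H.T.ok a).hP, (H.T.ok a).hZ,
      (H.T.ok a).hs, (H.T.ok a).dvd, (H.T.ok a).rich⟩, H.T.small.pt TP.pt_rev, H.T.vol⟩
  obtain ⟨E1, s1, l1⟩ := (H.tr k 𝔅 (fun a => (p a).rev) (fun a => (p a).sh) Tm hT' (fun a => le_rfl)
    (fun a => by
      have := Nat.mul_le_mul_left c0 (H.fit a).dim
      show (p a).sh + (p a).sh + c0 * ((p a).d * ((p a).K * (p a).R)) ≤ (p a).P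
      rw [(H.fit a).hsh, (H.fit a).hP]; nlinarith)
    H.hM H.hT H.cost).use (fun a => a) (fun a => ⟨(sE a).1, fun v hv hs => ((sE a).2 v hv hs).1⟩)
    ((H.sp hp).pt TP.pt_rev).l hE
  have hp' : L 𝔅 (fun a => (x a, E1 a)) p := (L.in1 _ _ _).comp hp
  obtain ⟨E2, s2, l2⟩ := Impl.useL (Gat.crtInv H.T (fun a => (H.fit a).cop) H.cost) (fun a => a)
    (fun a => (s1 a).1) hp' (L.in2 _ _ _)
  refine (Cp.bind l1 (L.unpack c l2 (H.sP hp') (H.sb hp') (H.sq hp') (H.sZ hp') (H.sN hp')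
    ((H.sp hp').pt TP.pt_S) (((H.sp hp').const 2).mul (S.of_l (L.in1 _ _ _) hn))
    (fun a => by have := H.b8 a; omega) (fun a => by have := H.b8 a; nlinarith)
    (fun a => by have := H.b8 a; rw [(H.fit a).hP]; nlinarith) (fun a => (H.T.ok a).Zh_pos) H.hd_pos
    (fun a => (H.T.ok a).S_le) (H.nV.const_mul 2) (fun a => (s2 a).1.trans (H.T.ok a).volM)
    fun a z hz I hI => ⟨hc a z I, ?_⟩)).mono fun a => by simp; rfl
  have ok := H.T.ok a
  have hb := H.b8 a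
  obtain ⟨v, w, hv, hw, r1, r2, r3⟩ := exists_crtR ok
    (u := fun j => if j < 2 then z else (p a).nu (j - 2) * I % (p a).sf (j - 2)) hI
    (by simpa [← ok.two_Zh] using hz) fun i _ => by simp [show ¬ (2 + i < 2) by omega]
  have r4 := r3 (v 0)
  rw [update_eq_self] at r4
  have r5 : layM.ri (p a) w = z + 2 * (p a).Zh * I := by simpa using r2
  have hI' : rg (layM.r (p a)) w 2 (p a).d = I ∧ w 1 = z := by
    rw [riM, ← ok.two_Zh] at r5
    have h1 : w 1 < 2 * (p a).Zh := by rw [ok.two_Zh]; exact hw 1 (Nat.lt_add_right _ one_lt_two)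
    have h2 := congrArg (· / (2 * (p a).Zh)) r5
    have h0 : 0 < 2 * (p a).Zh := by omega
    simp only [Nat.add_mul_div_left _ _ h0, Nat.div_eq_of_lt h1, Nat.div_eq_of_lt hz,
      zero_add] at h2
    rw [h2] at r5
    exact ⟨h2, by omega⟩
  have hv1 : v 1 = z := by rw [r4.2.1, update_of_ne (by omega), hI'.2]
  have hv2 : ∀ i < (p a).d, v (2 + i) = (p a).nu i * I % (p a).sf i := fun i hi => by
    rw [r4.2.2.2 i hi, rgM_update _ _ two_pos, hI'.1]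
  have hs : InS (p a).sf (p a).d v := fun i hi => by
    rw [hv2 i hi]; exact Nat.mod_lt _ (ok.hs i hi).1
  rw [← r5, gv_congr ((s2 a).blk_eq (s1 a).1 (Nat.le_add_right_of_le one_le_two)
    (Nat.le_add_right_of_le one_le_two) rfl rfl hw hv fun x _ => r3 x)]
  have n1 : ‖gc (p a).P (E1 a) (layM.ri (p a) v) - dftD true (p a).sf (p a).d
      (fun u => gc (p a).P (E a) (layM.ri (p a) u)) v‖ ≤ 2 ^ (c0 * (n a).size) :=
    ((s1 a).2 v hv hs).trans (H.err_le a)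
  have n2 := norm_dftD_le (inv := true) (s := (p a).sf) (d := (p a).d) (v := v)
    (F := fun u => gc (p a).P (E a) (layM.ri (p a) u) - G a u)
    (M := 2 ^ ((c0 + 3) * (n a).size + 3)) (by positivity) fun J hJ => by
      have hs' : InS (p a).sf (p a).d (mrg v J) := fun i hi => by
        rw [mrg_in v J ⟨i, hi⟩]; exact hJ ⟨i, hi⟩
      refine ((sE a).2 _ (ok.valM ?_ ?_ hs') hs').2
      · rw [mrg_out _ _ (by omega)]; exact hv 0 (Nat.lt_add_right _ two_pos)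
      · rw [mrg_out _ _ (by omega)]; exact hv 1 (Nat.lt_add_right _ one_lt_two)
  rw [dftD_sub, hG a v I hI hv2, hv1, if_pos rfl, one_mul] at n2
  have n3 := (norm_sub_le_norm_sub_add_norm_sub _ _ _).trans (add_le_add n1 n2)
  have n4 : (2 : ℝ) ^ (c0 * (n a).size) < 2 ^ ((c0 + 3) * (n a).size + 3) :=
    pow_lt_pow_right₀ one_lt_two (by nlinarith)
  have n5 : (2 : ℝ) ^ ((c0 + 3) * (n a).size + 3 + 1) ≤ 2 ^ ((c0 + 5) * (n a).size - 1) :=
    two_pow_le (by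
      have : (c0 + 3) * (n a).size + 3 + 1 + 1 ≤ (c0 + 5) * (n a).size := by nlinarith
      omega)
  rw [pow_succ] at n5
  have n6 := abs_re_lt (y := gv (p a).P (E1 a) (layM.ri (p a) v) -
    ((2 ^ ((c0 + 5) * (n a).size) * c a z I : ℕ) : GaussianInt)) (B := (c0 + 5) * (n a).size - 1)
    (by rw [map_sub, map_natCast]; exact n3.trans_lt (by linarith))
  have n7 := n6.1
  rw [Zsqrtd.re_sub, Zsqrtd.re_natCast] at n7
  exact_mod_cast n7

end LvH

theorem LvH.level (H : LvH c0 k 𝔅 p n Tm Tm2) {xy : α → Arr × Arr}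
    (hl : ∀ a, (xy a).1.length = n a ∧ (xy a).2.length = n a) :
    Cp 𝔅 (fun a => (p a, xy a)) (fun a => mulBits (xy a).1 (xy a).2)
      fun a => 3 * c0 * ((p a).K * (p a).R) * layX.nrec (p a) * Tm a +
        4 * ((p a).h ^ (p a).d : ℕ) * Tm2 a := Cp.with_sz fun hx => by
  have hp := L.in1 𝔅 p xy
  have hxy := L.in2 𝔅 p xy
  have hn : S 𝔅 (fun a => (p a, xy a)) n := (S.length hxy.fst hx).congr fun a => (hl a).1
  obtain ⟨D1, f, l1, s1⟩ := H.fwd hp hxy.fst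
  obtain ⟨D2, g, l2, s2⟩ := H.fwd hp hxy.snd
  have i1 := L.in1 𝔅 (fun a => (p a, xy a)) fun a => (D1 a, D2 a)
  have i2 := L.in2 𝔅 (fun a => (p a, xy a)) fun a => (D1 a, D2 a)
  obtain ⟨E, l3, s3⟩ := H.mid (i1.comp hp) i2.fst i2.snd _ _ (fun a => ⟨(s1 a).1, (s1 a).2.2⟩)
    fun a => ⟨(s2 a).1, (s2 a).2.2⟩
  have i3 := L.in1 𝔅 (fun a => (p a, xy a)) E
  have l4 := H.bwd (i3.comp hp) (L.in2 _ _ _) (S.of_l i3 hn) _
    (fun a => coef (n a).size (p a).Zh ((p a).S (p a).d) (ofBits (xy a).1) (ofBits (xy a).2))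
    (fun a z I => coef_lt _ _ _ _ (H.fit a).sm) s3 fun a v I hI hv => by
      have ok := H.T.ok a
      rw [dftD_smul, conv_math (ν := (p a).nu) (fun i hi => (ok.hs i hi).1) (H.fit a).cop
        (fun i hi => TP.nu_coprime ok (H.fit a).cop hi) _
        (fun z I => ((2 ^ ((c0 + 5) * (n a).size) *
          piece (n a).size (ofBits (xy a).1) (z + (p a).Zh * I) : ℕ) : ℂ))
        (fun z I => ((2 ^ ((c0 + 5) * (n a).size) *
          piece (n a).size (ofBits (xy a).2) (z + (p a).Zh * I) : ℕ) : ℂ))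
        _ _ (s1 a).2.1 (s2 a).2.1 hI hv,
        inv_mul_eq_iff_eq_mul₀ (pow_ne_zero _ two_ne_zero)]
      simp only [coef, Nat.cast_mul, Nat.cast_sum, Nat.cast_ite, Nat.cast_zero, Finset.mul_sum,
        mul_ite, mul_zero, Nat.cast_pow, Nat.cast_ofNat, TP.S]
      refine Finset.sum_congr rfl fun _ _ => Finset.sum_congr rfl fun _ _ =>
        Finset.sum_congr rfl fun _ _ => Finset.sum_congr rfl fun _ _ => ?_
      split_ifs
      · ring
      · rfl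
  refine ((((l1.pair l2).bind l3).bind l4).congr fun a => ?_).mono fun a => le_of_eq (by ring)
  have hb : ∀ l : Arr, l.length = n a →
      ofBits l < 2 ^ ((n a).size * ((p a).Zh * ((p a).S (p a).d / 2))) := fun l h =>
    (ofBits_lt l).trans_le (Nat.pow_le_pow_right two_pos (h ▸ (H.fit a).big))
  rw [mulBits, (hl a).1, mul_eq_sum_coef (hb _ (hl a).1) (hb _ (hl a).2)]

/-- One level.  With `b = size n`, `q = (c0 + 5) b`: `L.pack`, `Gat.crt`, `Impl.transform`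
(`mb = q + b`) for both factors; the results have norm `≤ 2 ^ (q + 2 b + 1)`; `Cp.rconv` is exact
(`gv_eq`, norm `≤ 2 ^ (2 q + 5 b + 2)`); `L.rshift q`; inverse transform (`TP.rev`, `mb = sh`);
`Gat.crtInv`; the total error is below `2 ^ (q - 1)`; `conv_math`, `L.unpack`,
`mul_eq_sum_coef`. -/
theorem Impl.level : ∃ c0 : ℕ, 1 ≤ c0 ∧ ∀ (k : ℕ) {α : Type} (𝔅 : Bud α) (p : α → TP) (n : α → ℕ)
    (Tm Tm2 : α → ℝ), TFam 𝔅.V p k → (∀ a, (p a).Fit c0 (n a)) → (∀ a, 8 ≤ (n a).size) → n ≼ 𝔅.V →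
    HM 𝔅 (fun a => (p a).P) Tm → (∀ a, 0 ≤ Tm a) → HM 𝔅 (fun a => (p a).m2) Tm2 →
    (∀ a, 0 ≤ Tm2 a) → ((fun a => (layX.vol (p a) : ℝ) * (p a).cost) ≲ 𝔅.F) →
    Impl 𝔅 p (fun a (xy : Arr × Arr) => xy.1.length = n a ∧ xy.2.length = n a)
      (fun _ xy z => z = mulBits xy.1 xy.2)
      fun a => 3 * c0 * ((p a).K * (p a).R) * layX.nrec (p a) * Tm a +
        4 * ((p a).h ^ (p a).d : ℕ) * Tm2 a := by
  obtain ⟨c0, h1, htr⟩ := Impl.transform
  refine ⟨c0, h1, fun k α 𝔅 p n Tm Tm2 hT hfit b8 nV hM hT0 hM2 hT2 hc => ?_⟩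
  have h1V := hT.famM.smV.one_le
  refine Impl.intro (sz_pair (hT.famM.smV.size_le.comp _) ?_) fun β φ xy hl _ =>
    ⟨_, fun _ => rfl, LvH.level (𝔅 := 𝔅.comap φ) ⟨htr, hT.reindex φ, fun _ => hfit _, fun _ => b8 _,
      nV.comp φ, hM.comap _ φ fun _ => rfl, fun _ => hT0 _, hM2.comap _ φ fun _ => rfl,
      fun _ => hT2 _, hc.comp φ⟩ hl⟩
  exact sz_pair (sz_bits ((nV.comp fun q : {q : α × Arr × Arr // _} => q.1.1).mono_left
    fun q => q.2.1.le) fun q => h1V _) (sz_bits ((nV.comp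
      fun q : {q : α × Arr × Arr // _} => q.1.1).mono_left fun q => q.2.2.le) fun q => h1V _)

end Crest.Agent.R326
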