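/-
R326/ParamsAux: the arithmetic behind the choice of the parameters.  Author: helper93.
-/
import Crest.Agent.R326.Defs

set_option autoImplicit false
set_option linter.unusedSimpArgs false
set_option linter.unusedSectionVars false
set_option linter.unusedVariables false

namespace Crest.Agent.R326

open Function Crest.Agent.Lib.PolyTime

/-- bits per chunk -/
def pK (N1 L : ℕ) : ℕ := ((Finset.range (L + 1)).filter fun k => k ^ N1 ≤ L).card - 1
/-- spare factors two -/
def pe (L d : ℕ) : ℕ := 71 * (L.size + 1 + d.size)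
/-- chunks per dimension -/
def pR (L K d : ℕ) : ℕ := (L - (1 + L.size + 6 * K * d + pe L d)) / (d * K + K ^ 2 + K)
/-- factors two of `Zr` -/
def pE (L K d : ℕ) : ℕ := (K ^ 2 + K) * pR L K d + pe L d
/-- the lengths -/
def ps (h d : ℕ) : List ℕ :=
  (List.range d).map fun i => ((h - 1) / d.factorial - i) * d.factorial + 1
/-- the unit -/
def pU (L K d : ℕ) : ℕ :=
  L * (2 ^ (pE L K d - 1) * Gam0 K ^ (2 * d) * ((ps (2 ^ (K * pR L K d)) d).prod / 2))
/-- the parameters -/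
def mkTP (c0 n K d : ℕ) : TP :=
  ⟨K, pR n.size K d, d, (3 * c0 + 22) * n.size, 2 ^ pE n.size K d * (n / pU n.size K d + 1),
    (c0 + 11) * n.size, ps (2 ^ (K * pR n.size K d)) d, false⟩

theorem pK_eq {N1 : ℕ} (h : N1 ≠ 0) (L : ℕ) : pK N1 L = Nat.nthRoot N1 L := by
  have e : ((Finset.range (L + 1)).filter fun k => k ^ N1 ≤ L) =
      Finset.range (Nat.nthRoot N1 L + 1) := by
    ext k
    simp only [Finset.mem_filter, Finset.mem_range, Nat.lt_succ_iff, Nat.le_nthRoot_iff h]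
    exact ⟨fun H => H.2, fun H => ⟨(Nat.le_self_pow h k).trans H, H⟩⟩
  simp [pK, e]

theorem pK_pow_le {N1 : ℕ} (h : N1 ≠ 0) (L : ℕ) : pK N1 L ^ N1 ≤ L := by
  rw [pK_eq h]; exact Nat.pow_nthRoot_le_iff.mpr (Or.inl h)

theorem lt_pK_pow {N1 : ℕ} (h : N1 ≠ 0) (L : ℕ) : L < (pK N1 L + 1) ^ N1 := by
  rw [pK_eq h]; exact Nat.lt_pow_nthRoot_add_one h L

theorem le_pK {N1 : ℕ} (h : N1 ≠ 0) {L k : ℕ} (hk : k ^ N1 ≤ L) : k ≤ pK N1 L := by
  rw [pK_eq h]; exact (Nat.le_nthRoot_iff h).mpr hk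

theorem pK_le (N1 L : ℕ) : pK N1 L ≤ L := by
  have := Finset.card_filter_le (Finset.range (L + 1)) fun k => k ^ N1 ≤ L
  rw [Finset.card_range] at this
  unfold pK; omega

theorem succ_pow_le_two_pow (N : ℕ) : ∃ K0 : ℕ, ∀ K ≥ K0, (K + 1) ^ N ≤ 2 ^ K := by
  refine ⟨(N + 1).factorial * 2 ^ (N + 1), fun K hK => ?_⟩
  have h3 : (K + 1) ^ (N + 1) ≤ (N + 1).factorial * 2 ^ (K + (N + 1)) := by
    have e1 := Nat.pow_succ_le_ascFactorial (K + 1) (N + 1)
    rw [Nat.ascFactorial_eq_factorial_mul_choose] at e1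
    exact e1.trans (Nat.mul_le_mul_left _ (Nat.choose_le_two_pow _ _))
  have h4 : (K + 1) ^ N * (K + 1) ≤ 2 ^ K * (K + 1) := by
    calc (K + 1) ^ N * (K + 1) ≤ (N + 1).factorial * 2 ^ (K + (N + 1)) := by
          rw [← pow_succ]; exact h3
      _ = 2 ^ K * ((N + 1).factorial * 2 ^ (N + 1)) := by ring
      _ ≤ 2 ^ K * (K + 1) := Nat.mul_le_mul_left _ (by omega)
  exact Nat.le_of_mul_le_mul_right h4 (by omega)

/-- The standing assumptions. -/
structure PF (c L K d : ℕ) : Prop where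
  hK : 100 * c + 300 ≤ K
  hKd : K ≤ d
  hm : (K * d) ^ 8 ≤ L
  hL : L < 2 ^ K

theorem exists_PF (c N1 N2 : ℕ) (h1 : 1 ≤ N2) (h2 : 8 * N2 + 8 ≤ N1) (K1 : ℕ) : ∃ n0 : ℕ,
    ∀ n ≥ n0, PF c n.size (pK N1 n.size) (pK N1 n.size ^ N2) ∧ K1 ≤ pK N1 n.size := by
  obtain ⟨K0, hK0⟩ := succ_pow_le_two_pow N1
  have hN : N1 ≠ 0 := by omega
  refine ⟨2 ^ ((K0 + K1 + (100 * c + 300)) ^ N1), fun n hn => ?_⟩
  have h3 : K0 + K1 + (100 * c + 300) ≤ pK N1 n.size := le_pK hN (Nat.lt_size.mpr hn).le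
  clear hn
  refine ⟨⟨(Nat.le_add_left _ _).trans h3, Nat.le_self_pow (by omega) _, ?_, ?_⟩, by omega⟩
  · refine le_trans ?_ (pK_pow_le hN n.size)
    rw [← pow_succ', ← pow_mul]
    exact Nat.pow_le_pow_right (by omega) (by omega)
  · exact (lt_pK_pow hN _).trans_le (hK0 _ (by omega))

/-- Bernoulli. -/
theorem pow_le_two_mul_sub (a b k : ℕ) (h : 2 * k * b ≤ a) : a ^ k ≤ 2 * (a - b) ^ k := by
  rcases Nat.eq_zero_or_pos k with rfl | hk
  · simp
  rcases Nat.eq_zero_or_pos a with rfl | ha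
  · simp [hk.ne']
  have hb : b ≤ a := by nlinarith
  have ha' : (0 : ℝ) < a := by exact_mod_cast ha
  have hb' : (b : ℝ) ≤ a := by exact_mod_cast hb
  have h' : 2 * (k : ℝ) * b ≤ a := by exact_mod_cast h
  have e : ((a - b : ℕ) : ℝ) = a * (1 + -(b / a)) := by
    rw [Nat.cast_sub hb]; field_simp; ring
  have h1 : (1 : ℝ) + k * -(b / a) ≤ (1 + -(b / a)) ^ k :=
    one_add_mul_le_pow (by have : (b : ℝ) / a ≤ 1 := (div_le_one ha').mpr hb'; linarith) k
  have h2 : (k : ℝ) * (b / a) ≤ 1 / 2 := by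
    rw [← mul_div_assoc, div_le_iff₀ ha']; linarith
  have h3 : (a : ℝ) ^ k ≤ 2 * ((a - b : ℕ) : ℝ) ^ k := by
    rw [e, mul_pow]
    have : (0 : ℝ) < (a : ℝ) ^ k := by positivity
    nlinarith
  exact_mod_cast h3

namespace PF
variable {c L K d : ℕ} (H : PF c L K d)
include H

theorem K_pos : 300 ≤ K := by have := H.hK; omega
theorem d_pos : 300 ≤ d := H.K_pos.trans H.hKd
theorem K_le_m : K ≤ K * d := Nat.le_mul_of_pos_right _ (by have := H.d_pos; omega)
theorem d_le_m : d ≤ K * d := Nat.le_mul_of_pos_left _ (by have := H.K_pos; omega)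
theorem m_pow {j : ℕ} (hj : j ≤ 8) : (K * d) ^ j ≤ L :=
  (Nat.pow_le_pow_right (by have := H.K_pos; have := H.K_le_m; omega) hj).trans H.hm
theorem m_sq : K * d * (K * d) ≤ L := by have := H.m_pow (j := 2) (by omega); rwa [sq] at this
theorem m_le : 300 * (K * d) ≤ L :=
  (Nat.mul_le_mul_right _ (H.K_pos.trans H.K_le_m)).trans H.m_sq
theorem sizeL : L.size ≤ K := Nat.size_le.mpr H.hL
theorem d_lt : 300 * d < 2 ^ K := by have := H.m_le; have := H.d_le_m; have := H.hL; omega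
theorem sized : d.size ≤ K := Nat.size_le.mpr (by have := H.d_lt; omega)
theorem pe_le : pe L d ≤ 71 * (2 * K + 1) := by
  have := H.sizeL; have := H.sized; unfold pe; omega
theorem A_le : 1 + L.size + 6 * K * d + pe L d ≤ 221 * (K * d) := by
  have := H.sizeL; have := H.pe_le; have := H.K_le_m; have := H.K_pos
  rw [mul_assoc]; omega
theorem D_le : d * K + K ^ 2 + K ≤ 3 * (K * d) := by
  have := H.K_le_m
  have : K * K ≤ K * d := Nat.mul_le_mul_left _ H.hKd
  rw [sq, mul_comm d K]; omega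
theorem R_up : pR L K d * (d * K + K ^ 2 + K) + (1 + L.size + 6 * K * d + pe L d) ≤ L := by
  have h1 := H.A_le; have h2 := H.m_le
  have := Nat.div_mul_le_self (L - (1 + L.size + 6 * K * d + pe L d)) (d * K + K ^ 2 + K)
  unfold pR; omega
theorem R_lo : L < pR L K d * (d * K + K ^ 2 + K) + 224 * (K * d) := by
  have h1 := H.A_le; have h2 := H.D_le
  have h3 : 0 < d * K + K ^ 2 + K := by have := H.K_pos; omega
  have := Nat.lt_div_mul_add (a := L - (1 + L.size + 6 * K * d + pe L d)) h3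
  unfold pR; omega
theorem R12 : L ≤ 12 * (K * d) * pR L K d := by
  have h1 := H.R_lo; have h2 := H.m_le
  have h3 := Nat.mul_le_mul_left (pR L K d) H.D_le
  have e : pR L K d * (3 * (K * d)) = 3 * (K * d * pR L K d) := by ring
  rw [mul_assoc]; omega
theorem dim : d * (K * pR L K d) ≤ L := by
  have h1 := H.R_up
  have e : pR L K d * (d * K + K ^ 2 + K) = d * (K * pR L K d) + pR L K d * (K ^ 2 + K) := by ring
  omega
theorem R_big : d + 3 ≤ pR L K d := by
  by_contra hc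
  have h1 := H.R12; have h2 := H.m_pow (j := 3) (by omega)
  have h3 : 12 * (K * d) * pR L K d ≤ 12 * (K * d) * (2 * d) :=
    Nat.mul_le_mul_left _ (by have := H.d_pos; omega)
  have h4 := H.K_pos; have h5 := H.d_pos; have h6 := H.d_le_m; have h7 := H.K_le_m
  generalize K * d = m at *
  have h8 : m * d ≤ m * m := Nat.mul_le_mul_left _ h6
  have h9 : m * m * 300 ≤ m * m * m := Nat.mul_le_mul_left _ (by omega)
  have h10 : 0 < m * m := Nat.mul_pos (by omega) (by omega)
  have e1 : 12 * m * (2 * d) = 24 * (m * d) := by ring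
  have e2 : m ^ 3 = m * m * m := by ring
  omega
theorem R_pos : 1 ≤ pR L K d := by have := H.R_big; omega
theorem K_le_KR : K ≤ K * pR L K d := Nat.le_mul_of_pos_right _ H.R_pos
theorem KR_le : K * pR L K d ≤ L :=
  (Nat.le_mul_of_pos_left _ (by have := H.d_pos; omega)).trans H.dim
theorem L_lt_h : L < 2 ^ (K * pR L K d) :=
  H.hL.trans_le (Nat.pow_le_pow_right (by omega) H.K_le_KR)
theorem R_cube : 2 * L ≤ pR L K d ^ 3 := by
  have h1 := Nat.pow_le_pow_left H.R12 3
  have h2 := H.m_pow (j := 3) (by omega)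
  have h3 := H.m_le; have h4 := H.K_pos; have h7 := H.K_le_m
  have h5 : L * L * (2 * L) ≤ L * L * pR L K d ^ 3 := by
    have h6 : 3456 * (K * d) ^ 3 ≤ L * L := Nat.mul_le_mul (by omega) h2
    calc L * L * (2 * L) = 2 * L ^ 3 := by ring
      _ ≤ 2 * (12 * (K * d) * pR L K d) ^ 3 := by omega
      _ = 3456 * (K * d) ^ 3 * pR L K d ^ 3 := by ring
      _ ≤ _ := Nat.mul_le_mul_right _ h6
  exact Nat.le_of_mul_le_mul_left h5 (Nat.mul_pos (by omega) (by omega))
theorem fact_le : 2 * d * (d * d.factorial) ≤ 2 ^ (K * pR L K d) := by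
  have h1 : d ≤ 2 ^ K := by have := H.d_lt; omega
  have h2 : 2 * d ≤ 2 ^ K := by have := H.d_lt; omega
  calc 2 * d * (d * d.factorial) ≤ 2 ^ K * (2 ^ K * (2 ^ K) ^ d) := by
        gcongr
        exact (Nat.factorial_le_pow d).trans (Nat.pow_le_pow_left h1 d)
    _ = 2 ^ (K * (d + 2)) := by rw [← pow_mul, ← pow_add, ← pow_add]; congr 1; ring
    _ ≤ _ := Nat.pow_le_pow_right (by omega) (Nat.mul_le_mul_left _ (by have := H.R_big; omega))
theorem E_add : pE L K d + d * (K * pR L K d) + (1 + L.size + 6 * K * d) ≤ L := by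
  have h1 := H.R_up
  have e : pR L K d * (d * K + K ^ 2 + K) = d * (K * pR L K d) + (K ^ 2 + K) * pR L K d := by ring
  unfold pE; omega
theorem E_eq : pE L K d = K * pR L K d + (K ^ 2 * pR L K d + pe L d) := by unfold pE; ring
theorem E_pos : 1 ≤ pE L K d := by have := H.E_eq; have := H.K_le_KR; have := H.K_pos; omega
theorem Gam_le : Gam K ^ (2 * d) ≤ 2 * Gam0 K ^ (2 * d) := by
  have h1 := pow_le_two_mul_sub (2 ^ K) 1 (2 * d) (by have := H.d_lt; omega)
  have e : Gam K = 2 ^ (2 * K) * 2 ^ K := by unfold Gam; rw [← pow_add]; congr 1; ring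
  rw [e, Gam0, mul_pow, mul_pow, mul_left_comm]
  exact Nat.mul_le_mul_left _ h1
theorem Gam0_pos : 0 < Gam0 K :=
  Nat.mul_pos (by positivity) (by have := H.d_lt; have := H.d_pos; omega)
end PF

theorem Gam0_le (K : ℕ) : Gam0 K ≤ 2 ^ (3 * K) := by
  have e : 2 ^ (3 * K) = 2 ^ (2 * K) * 2 ^ K := by rw [← pow_add]; congr 1; ring
  rw [e, Gam0]; exact Nat.mul_le_mul_left _ (Nat.sub_le _ _)

theorem ps_getD {h d i : ℕ} (hi : i < d) :
    (ps h d).getD i 1 = ((h - 1) / d.factorial - i) * d.factorial + 1 := by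
  simp [ps, List.getD_eq_getElem?_getD, hi]

theorem ps_prod (h d : ℕ) : (ps h d).prod = wt (fun i => (ps h d).getD i 1) d := by
  rw [wt_congr (r' := fun i => ((h - 1) / d.factorial - i) * d.factorial + 1) fun k hk => ps_getD hk]
  rfl

theorem ps_le {h d i : ℕ} (hh : 1 ≤ h) (hi : i < d) : (ps h d).getD i 1 ≤ h := by
  rw [ps_getD hi]
  have h1 := Nat.div_mul_le_self (h - 1) d.factorial
  have h2 : ((h - 1) / d.factorial - i) * d.factorial ≤ (h - 1) / d.factorial * d.factorial :=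
    Nat.mul_le_mul_right _ (Nat.sub_le _ _)
  omega

theorem ps_ge {h d i : ℕ} (hi : i < d) : h - d * d.factorial ≤ (ps h d).getD i 1 := by
  rw [ps_getD hi, Nat.sub_mul]
  have h1 := Nat.lt_div_mul_add (a := h - 1) d.factorial_pos
  have h2 : (i + 1) * d.factorial ≤ d * d.factorial := Nat.mul_le_mul_right _ hi
  rw [add_mul] at h2
  omega

theorem ps_cop {h d i j : ℕ} (hh : d * d.factorial < h) (hi : i < d) (hj : j < d) (hij : i ≠ j) :
    ((ps h d).getD i 1).Coprime ((ps h d).getD j 1) := by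
  have hq : d ≤ (h - 1) / d.factorial := (Nat.le_div_iff_mul_le d.factorial_pos).mpr (by omega)
  rw [ps_getD hi, ps_getD hj]
  rcases lt_or_gt_of_ne hij with h1 | h1
  · exact (Nat.coprime_mul_succ (Nat.dvd_factorial (by omega) (by omega))).symm
  · exact Nat.coprime_mul_succ (Nat.dvd_factorial (by omega) (by omega))

theorem ps_prod_le {h d : ℕ} (hh : 1 ≤ h) : (ps h d).prod ≤ h ^ d := by
  rw [ps_prod, wt]
  simpa using Finset.prod_le_pow_card (Finset.range d) _ h fun i hi => ps_le hh (Finset.mem_range.mp hi)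

theorem ps_prod_ge {h d : ℕ} (hh : 2 * d * (d * d.factorial) ≤ h) : h ^ d ≤ 2 * (ps h d).prod := by
  refine (pow_le_two_mul_sub _ _ _ hh).trans (Nat.mul_le_mul_left _ ?_)
  rw [ps_prod, wt]
  simpa using Finset.pow_card_le_prod (Finset.range d) _ (h - d * d.factorial)
    fun i hi => ps_ge (Finset.mem_range.mp hi)

theorem two_pow_size_le {n : ℕ} (hn : 1 ≤ n.size) : 2 ^ (n.size - 1) ≤ n :=
  Nat.lt_size.mp (by omega)

namespace PF
variable {c L K d : ℕ} (H : PF c L K d)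
include H

theorem h_le_S : 2 ^ (K * pR L K d) ≤ 2 * (ps (2 ^ (K * pR L K d)) d).prod :=
  (Nat.le_self_pow (by have := H.d_pos; omega) _).trans (ps_prod_ge H.fact_le)
theorem S_big : 75 * K ≤ (ps (2 ^ (K * pR L K d)) d).prod / 2 := by
  have h1 := H.h_le_S; have h2 := H.L_lt_h; have h3 := H.m_le; have h4 := H.K_le_m
  have h5 := H.hK
  omega
theorem L_big : 300 * K ≤ L := by have := H.m_le; have := H.K_le_m; omega
theorem U_pos : 0 < pU L K d := by
  have h1 := H.S_big; have h2 := H.L_big; have h3 := H.K_pos; have h4 := H.Gam0_pos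
  have h5 : 0 < (ps (2 ^ (K * pR L K d)) d).prod / 2 := by omega
  have h6 : 0 < L := by omega
  unfold pU; positivity
theorem U_le : pU L K d ≤ 2 ^ (L - 1) := by
  have h1 : (ps (2 ^ (K * pR L K d)) d).prod / 2 ≤ (2 ^ (K * pR L K d)) ^ d :=
    (Nat.div_le_self _ _).trans (ps_prod_le Nat.one_le_two_pow)
  calc pU L K d ≤ 2 ^ L.size * (2 ^ (pE L K d - 1) * (2 ^ (3 * K)) ^ (2 * d) *
        (2 ^ (K * pR L K d)) ^ d) := by
        unfold pU
        gcongr
        · exact (Nat.lt_size_self L).le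
        · exact Gam0_le K
    _ = 2 ^ (L.size + (pE L K d - 1 + 6 * K * d + d * (K * pR L K d))) := by
        rw [← pow_mul, ← pow_mul, ← pow_add, ← pow_add, ← pow_add]; congr 1; ring
    _ ≤ _ := Nat.pow_le_pow_right (by omega) (by have := H.E_add; omega)
/-- `c' L < 2 ^ (L - 1)`. -/
theorem lin_lt {c' : ℕ} (hc : c' ≤ L) : c' * L < 2 ^ (L - 1) := by
  have h1 := H.hL; have h2 := H.L_big; have h3 := H.K_pos
  calc c' * L < 2 ^ K * 2 ^ K := Nat.mul_lt_mul'' (by omega) h1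
    _ = 2 ^ (K + K) := (pow_add _ _ _).symm
    _ ≤ _ := Nat.pow_le_pow_right (by omega) (by omega)
end PF

theorem mkTP_S (c0 n K d : ℕ) :
    (mkTP c0 n K d).S (mkTP c0 n K d).d = (ps (2 ^ (K * pR n.size K d)) d).prod := (ps_prod _ _).symm

namespace PF
variable {c n K d : ℕ} (H : PF c n.size K d)
include H

theorem le_n : 2 ^ (n.size - 1) ≤ n :=
  two_pow_size_le (by have := H.L_big; have := H.K_pos; omega)
theorem two_Zh : (mkTP c n K d).Zt = 2 * (2 ^ (pE n.size K d - 1) * (n / pU n.size K d + 1) *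
    Gam0 K ^ (2 * d)) := by
  have e : 2 ^ pE n.size K d = 2 * 2 ^ (pE n.size K d - 1) := by
    rw [← pow_succ']; congr 1; have := H.E_pos; omega
  show 2 ^ pE n.size K d * (n / pU n.size K d + 1) * Gam0 K ^ (2 * d) = _
  rw [e]; ring
theorem Zh_eq : (mkTP c n K d).Zh = 2 ^ (pE n.size K d - 1) * (n / pU n.size K d + 1) *
    Gam0 K ^ (2 * d) := by
  rw [TP.Zh, H.two_Zh]; omega
theorem Zt_eq : (mkTP c n K d).Zt = 2 * (mkTP c n K d).Zh := by rw [H.Zh_eq, H.two_Zh]
theorem unit_eq : n.size * ((mkTP c n K d).Zh * ((mkTP c n K d).S (mkTP c n K d).d / 2)) =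
    (n / pU n.size K d + 1) * pU n.size K d := by
  rw [H.Zh_eq, mkTP_S]
  generalize n / pU n.size K d + 1 = Z
  unfold pU; ring
theorem big : n ≤ n.size * ((mkTP c n K d).Zh * ((mkTP c n K d).S (mkTP c n K d).d / 2)) := by
  rw [H.unit_eq, add_mul, one_mul]
  exact (Nat.lt_div_mul_add H.U_pos).le
theorem small : n.size * ((mkTP c n K d).Zh * ((mkTP c n K d).S (mkTP c n K d).d / 2)) ≤ 2 * n := by
  rw [H.unit_eq, add_mul, one_mul]
  have h1 := Nat.div_mul_le_self n (pU n.size K d)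
  have h2 := H.U_le.trans H.le_n
  omega
theorem S_le : (mkTP c n K d).S (mkTP c n K d).d ≤ 3 * ((mkTP c n K d).S (mkTP c n K d).d / 2) := by
  have h1 := H.S_big; have h2 := H.K_pos
  rw [mkTP_S]; omega
theorem hd_le : (mkTP c n K d).h ^ d ≤ 6 * ((mkTP c n K d).S (mkTP c n K d).d / 2) := by
  have h1 := H.S_le
  have h2 : (mkTP c n K d).h ^ d ≤ 2 * (mkTP c n K d).S (mkTP c n K d).d := by
    rw [mkTP_S]; exact ps_prod_ge H.fact_le
  omega

theorem fit : (mkTP c n K d).Fit c n := by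
  refine ⟨rfl, fun i hi j hj hij => ps_cop ?_ hi hj hij, H.big, ?_, H.dim, rfl, rfl⟩
  · have h1 := H.fact_le
    have h2 : 0 < d * d.factorial := Nat.mul_pos (by have := H.d_pos; omega) d.factorial_pos
    have h3 : 2 * (d * d.factorial) ≤ 2 * d * (d * d.factorial) :=
      Nat.mul_le_mul_right _ (by have := H.d_pos; omega)
    omega
  · have h1 := H.small
    have h2 := Nat.mul_le_mul_left (mkTP c n K d).Zh H.S_le
    have h3 := Nat.lt_size_self n
    have h4 := Nat.mul_le_mul_right ((mkTP c n K d).Zh * ((mkTP c n K d).S (mkTP c n K d).d / 2))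
      (show 6 ≤ n.size by have := H.L_big; have := H.K_pos; omega)
    rw [mul_left_comm] at h2
    omega

theorem vol_le : 2 * (mkTP c n K d).P * (mkTP c n K d).Zr * Gam K ^ (2 * d) * (mkTP c n K d).h ^ d ≤
    96 * (3 * c + 22) * n := by
  calc _ ≤ 2 * (mkTP c n K d).P * (mkTP c n K d).Zr * (2 * Gam0 K ^ (2 * d)) *
        (6 * ((mkTP c n K d).S (mkTP c n K d).d / 2)) := by
        gcongr
        · exact H.Gam_le
        · exact H.hd_le
    _ = 24 * (mkTP c n K d).P * (mkTP c n K d).Zt * ((mkTP c n K d).S (mkTP c n K d).d / 2) := by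
        rw [show (mkTP c n K d).Zt = (mkTP c n K d).Zr * Gam0 K ^ (2 * d) from rfl]; ring
    _ = 48 * (3 * c + 22) * (n.size * ((mkTP c n K d).Zh *
          ((mkTP c n K d).S (mkTP c n K d).d / 2))) := by
        rw [H.Zt_eq, show (mkTP c n K d).P = (3 * c + 22) * n.size from rfl]; ring
    _ ≤ 48 * (3 * c + 22) * (2 * n) := Nat.mul_le_mul_left _ H.small
    _ = _ := by ring

theorem m2_mul : (mkTP c n K d).m2 * ((mkTP c n K d).S (mkTP c n K d).d / 2) ≤
    6 * (3 * c + 22) * n := by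
  calc _ = 3 * (3 * c + 22) * (n.size * ((mkTP c n K d).Zh *
          ((mkTP c n K d).S (mkTP c n K d).d / 2))) := by
        rw [TP.m2, show (mkTP c n K d).P = (3 * c + 22) * n.size from rfl]; ring
    _ ≤ 3 * (3 * c + 22) * (2 * n) := Nat.mul_le_mul_left _ H.small
    _ = _ := by ring

theorem n_pos : 0 < n := lt_of_lt_of_le (by positivity) H.le_n

theorem m2_lt : (mkTP c n K d).m2 < n := by
  by_contra hc
  have h1 := H.m2_mul
  have h2 : n * (6 * (3 * c + 22) + 1) ≤ (mkTP c n K d).m2 * ((mkTP c n K d).S (mkTP c n K d).d / 2) :=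
    Nat.mul_le_mul (by omega) (by rw [mkTP_S]; have := H.S_big; have := H.hK; omega)
  have h3 := H.n_pos
  rw [mul_add, mul_comm n] at h2
  omega

theorem P_lt : (mkTP c n K d).P < n :=
  (H.lin_lt (by have := H.L_big; have := H.hK; omega)).trans_le H.le_n

theorem Zr_div : (mkTP c n K d).Zr / (mkTP c n K d).h =
    2 ^ (K ^ 2 * pR n.size K d + pe n.size d) * (n / pU n.size K d + 1) := by
  show 2 ^ pE n.size K d * (n / pU n.size K d + 1) / 2 ^ (K * pR n.size K d) = _
  rw [H.E_eq, pow_add, mul_assoc, Nat.mul_div_cancel_left _ (by positivity)]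

theorem size_vol {V : ℕ} (hV : V ≤ 96 * (3 * c + 22) * n) : V.size ≤ 2 * n.size := by
  have h1 := Nat.lt_size_self n
  have h2 : 96 * (3 * c + 22) < 2 ^ n.size :=
    lt_of_le_of_lt (by have := H.L_big; have := H.hK; omega) Nat.lt_two_pow_self
  refine Nat.size_le.mpr (hV.trans_lt ?_)
  rw [two_mul, pow_add]
  exact Nat.mul_lt_mul'' h2 h1

theorem rich {V : ℕ} (hV : V ≤ 96 * (3 * c + 22) * n) :
    Rich 3 (V.size.size + d.size) ((mkTP c n K d).Zr / (mkTP c n K d).h) V := by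
  have h1 := H.size_vol hV
  refine ⟨K ^ 2 * pR n.size K d, ?_, h1.trans (H.R_cube.trans (Nat.pow_le_pow_left ?_ 3))⟩
  · rw [H.Zr_div]
    refine Dvd.dvd.mul_right (pow_dvd_pow _ ?_) _
    have h2 : V.size.size ≤ n.size.size + 1 := by
      refine Nat.size_le.mpr ?_
      have := Nat.lt_size_self n.size
      rw [pow_succ]; omega
    unfold pe; omega
  · have : pR n.size K d ≤ K ^ 2 * pR n.size K d :=
      Nat.le_mul_of_pos_left _ (by have := H.K_pos; positivity)
    omega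
end PF

end Crest.Agent.R326
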