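/-
R326/ParamsAux2: the cost estimates for the choice of the parameters.  Author: helper93.
-/
import Crest.Agent.R326.ParamsAux

set_option autoImplicit false
set_option linter.unusedSimpArgs false
set_option linter.unusedSectionVars false
set_option linter.unusedVariables false

namespace Crest.Agent.R326

open Function Crest.Agent.Lib.PolyTime

theorem pm_mu_le : muE ≤ 1 := by unfold muE; norm_num
theorem pm_mu_ge : 1 / 2 ≤ muE := by unfold muE; norm_num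
theorem pm_tau_le : tauE ≤ 1 := by unfold tauE; norm_num
theorem pm_tau_ge : 0 ≤ tauE := by unfold tauE; norm_num
theorem pm_tau_mu : 1 / 2 ^ 58 + tauE ≤ muE := by unfold tauE muE; norm_num
theorem pm_mu_160 : 1 - 1 / 2 ^ 160 ≤ muE := by unfold muE; norm_num
theorem pm_tau_add : tauE + 1 / 2 ^ 50 = 1 := by unfold tauE; ring

theorem pm_logb_le {m j : ℕ} (h : m + 2 ≤ 2 ^ j) : Real.logb 2 (m + 2) ≤ j := by
  rw [Real.logb_le_iff_le_rpow (by norm_num) (by positivity), Real.rpow_natCast]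
  exact_mod_cast h

theorem pm_one_le_logb (m : ℕ) : 1 ≤ Real.logb 2 (m + 2) := by
  rw [Real.le_logb_iff_rpow_le (by norm_num) (by positivity), Real.rpow_one]
  have : (0 : ℝ) ≤ m := Nat.cast_nonneg m
  linarith

theorem pm_ell_le {m j : ℕ} (h : m + 2 ≤ 2 ^ j) : ell m ≤ (j : ℝ) ^ muE :=
  Real.rpow_le_rpow (zero_le_one.trans (pm_one_le_logb m)) (pm_logb_le h)
    (by have := pm_mu_ge; linarith)

theorem pm_ell_le' {m j : ℕ} (h : m + 2 ≤ 2 ^ j) : ell m ≤ j :=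
  (Real.rpow_le_self_of_one_le (pm_one_le_logb m) pm_mu_le).trans (pm_logb_le h)

theorem pm_ell_nonneg (m : ℕ) : 0 ≤ ell m :=
  Real.rpow_nonneg (zero_le_one.trans (pm_one_le_logb m)) _

theorem pm_two_rpow {e : ℝ} (he : e ≤ 1) : (2 : ℝ) ^ e ≤ 2 :=
  Real.rpow_le_self_of_one_le (by norm_num) he

theorem pm_ell_ge {n : ℕ} (hn : 2 ≤ n.size) : (n.size : ℝ) ^ muE ≤ 2 * ell n := by
  have h1 : 2 ^ (n.size - 1) ≤ n := two_pow_size_le (by omega)
  have h2 : ((n.size - 1 : ℕ) : ℝ) ≤ Real.logb 2 (n + 2) := by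
    rw [Real.le_logb_iff_rpow_le (by norm_num) (by positivity), Real.rpow_natCast]
    exact_mod_cast h1.trans (Nat.le_add_right _ _)
  have h3 : (n.size : ℝ) ≤ 2 * ((n.size - 1 : ℕ) : ℝ) := by
    exact_mod_cast (show n.size ≤ 2 * (n.size - 1) by omega)
  have h4 := pm_one_le_logb n
  calc (n.size : ℝ) ^ muE ≤ (2 * Real.logb 2 (n + 2)) ^ muE :=
        Real.rpow_le_rpow (Nat.cast_nonneg _) (by linarith) (by have := pm_mu_ge; linarith)
    _ = 2 ^ muE * ell n := Real.mul_rpow (by norm_num) (by linarith)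
    _ ≤ _ := mul_le_mul_of_nonneg_right (pm_two_rpow pm_mu_le) (pm_ell_nonneg n)

theorem pm_rp (K N : ℕ) (e : ℝ) : ((K ^ N : ℕ) : ℝ) ^ e = (K : ℝ) ^ ((N : ℝ) * e) := by
  rw [Nat.cast_pow, Real.rpow_mul (Nat.cast_nonneg _), Real.rpow_natCast]

section real
variable {N1 N2 L K : ℕ} (h1 : (N1 : ℝ) = 2 ^ 110) (h2 : (N2 : ℝ) = 2 ^ 52)
include h1 h2

theorem pm_d_le (hK : K ^ N1 ≤ L) : ((K ^ N2 : ℕ) : ℝ) ≤ (L : ℝ) ^ (1 / 2 ^ 58 : ℝ) := by
  have e0 : (N1 : ℝ) * (1 / 2 ^ 58) = N2 := by rw [h1, h2]; norm_num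
  have e : ((K ^ N2 : ℕ) : ℝ) = ((K ^ N1 : ℕ) : ℝ) ^ (1 / 2 ^ 58 : ℝ) := by
    rw [pm_rp, e0, Real.rpow_natCast, Nat.cast_pow]
  rw [e]
  exact Real.rpow_le_rpow (Nat.cast_nonneg _) (Nat.cast_le.mpr hK) (by positivity)

theorem pm_d_root : ((K ^ N2 : ℕ) : ℝ) ^ (1 / 2 ^ 50 : ℝ) = (K : ℝ) ^ 4 := by
  have e0 : (N2 : ℝ) * (1 / 2 ^ 50) = (4 : ℕ) := by rw [h2]; norm_num
  rw [pm_rp, e0, Real.rpow_natCast]

theorem pm_L_le (hK1 : 1 ≤ K) (hL1 : 1 ≤ L) (hK : L < (K + 1) ^ N1) :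
    (L : ℝ) ≤ (K : ℝ) ^ (1 / 2 ^ 50 : ℝ) * (2 * (L : ℝ) ^ muE) := by
  have hL : (1 : ℝ) ≤ L := by exact_mod_cast hL1
  have hL0 : (0 : ℝ) < L := by linarith
  have h3 : L ≤ (2 * K) ^ N1 := hK.le.trans (Nat.pow_le_pow_left (by omega) _)
  have e0 : (N1 : ℝ) * (1 / 2 ^ 160) = 1 / 2 ^ 50 := by rw [h1]; norm_num
  have e : (((2 * K) ^ N1 : ℕ) : ℝ) ^ (1 / 2 ^ 160 : ℝ) =
      2 ^ (1 / 2 ^ 50 : ℝ) * (K : ℝ) ^ (1 / 2 ^ 50 : ℝ) := by
    rw [pm_rp, e0, Nat.cast_mul, Nat.cast_ofNat, Real.mul_rpow (by norm_num) (Nat.cast_nonneg _)]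
  have h4 : (L : ℝ) ^ (1 / 2 ^ 160 : ℝ) ≤ 2 * (K : ℝ) ^ (1 / 2 ^ 50 : ℝ) := by
    refine (Real.rpow_le_rpow (Nat.cast_nonneg _) (Nat.cast_le.mpr h3) (by positivity)).trans ?_
    rw [e]
    exact mul_le_mul_of_nonneg_right (pm_two_rpow (by norm_num)) (by positivity)
  have h5 : (L : ℝ) ^ (1 - 1 / 2 ^ 160 : ℝ) ≤ (L : ℝ) ^ muE :=
    Real.rpow_le_rpow_of_exponent_le hL pm_mu_160
  calc (L : ℝ) = (L : ℝ) ^ (1 / 2 ^ 160 : ℝ) * (L : ℝ) ^ (1 - 1 / 2 ^ 160 : ℝ) := by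
        rw [← Real.rpow_add hL0, add_sub_cancel, Real.rpow_one]
    _ ≤ (2 * (K : ℝ) ^ (1 / 2 ^ 50 : ℝ)) * (L : ℝ) ^ muE :=
        mul_le_mul h4 h5 (by positivity) (by positivity)
    _ = _ := by rw [mul_comm 2, mul_assoc]

/-- The real-number facts about `K`, `d`, `L` in terms of `x = K ^ (1 / 2 ^ 50)`. -/
theorem pm_facts (hK1 : 1 ≤ K) (hK : K ^ N1 ≤ L) (hK' : L < (K + 1) ^ N1) : ∃ x : ℝ, 1 ≤ x ∧ x ≤ K ∧
    (L : ℝ) ≤ x * (2 * (L : ℝ) ^ muE) ∧ (K : ℝ) ^ tauE * x = K ∧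
    ((K ^ N2 : ℕ) : ℝ) ^ tauE * (K : ℝ) ^ 4 = (K ^ N2 : ℕ) ∧
    ((K ^ N2 : ℕ) : ℝ) * (L : ℝ) ^ tauE ≤ (L : ℝ) ^ muE := by
  have hL1 : 1 ≤ L := (Nat.one_le_pow _ _ hK1).trans hK
  have hL : (1 : ℝ) ≤ L := by exact_mod_cast hL1
  have hK2 : (1 : ℝ) ≤ K := by exact_mod_cast hK1
  have hd : (0 : ℝ) < (K ^ N2 : ℕ) := Nat.cast_pos.mpr (Nat.pow_pos hK1)
  refine ⟨(K : ℝ) ^ (1 / 2 ^ 50 : ℝ), Real.one_le_rpow hK2 (by positivity),
    Real.rpow_le_self_of_one_le hK2 (by norm_num), pm_L_le h1 h2 hK1 hL1 hK', ?_, ?_, ?_⟩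
  · rw [← Real.rpow_add (by linarith), pm_tau_add, Real.rpow_one]
  · rw [← pm_d_root h1 h2, ← Real.rpow_add hd, pm_tau_add, Real.rpow_one]
  · refine (mul_le_mul_of_nonneg_right (pm_d_le h1 h2 hK) (by positivity)).trans ?_
    rw [← Real.rpow_add (by linarith)]
    exact Real.rpow_le_rpow_of_exponent_le hL pm_tau_mu

end real

namespace PF
variable {c n K d : ℕ} (H : PF c n.size K d)
include H

theorem P_log : (mkTP c n K d).P + 2 ≤ 2 ^ (2 * K) := by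
  have h1 := H.hL; have h2 := H.hK
  have h3 : K < 2 ^ K := Nat.lt_two_pow_self
  have h4 : (3 * c + 22) * n.size ≤ (3 * c + 22) * 2 ^ K := Nat.mul_le_mul_left _ h1.le
  have h5 : (3 * c + 22 + 1) * 2 ^ K ≤ 2 ^ K * 2 ^ K := Nat.mul_le_mul_right _ (by omega)
  rw [two_mul, pow_add, show (mkTP c n K d).P = (3 * c + 22) * n.size from rfl]
  rw [add_mul _ 1] at h5
  omega

theorem m2_log : (mkTP c n K d).m2 + 2 ≤ 2 ^ (K + (n.size - d * (K * pR n.size K d))) := by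
  have e : 2 ^ n.size = 2 ^ (n.size - d * (K * pR n.size K d)) * (mkTP c n K d).h ^ d := by
    rw [show (mkTP c n K d).h = 2 ^ (K * pR n.size K d) from rfl, ← pow_mul, ← pow_add]
    congr 1; have := H.dim; rw [mul_comm _ d]; omega
  have h1 : (mkTP c n K d).m2 * (mkTP c n K d).h ^ d ≤
      36 * (3 * c + 22) * 2 ^ (n.size - d * (K * pR n.size K d)) * (mkTP c n K d).h ^ d := by
    calc _ ≤ (mkTP c n K d).m2 * (6 * ((mkTP c n K d).S (mkTP c n K d).d / 2)) :=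
          Nat.mul_le_mul_left _ H.hd_le
      _ ≤ 6 * (6 * (3 * c + 22) * n) := by rw [mul_left_comm]; exact Nat.mul_le_mul_left _ H.m2_mul
      _ ≤ 6 * (6 * (3 * c + 22) * 2 ^ n.size) := by gcongr; exact (Nat.lt_size_self n).le
      _ = _ := by rw [e]; ring
  have h2 := Nat.le_of_mul_le_mul_right h1 (Nat.pow_pos (Nat.two_pow_pos _))
  have h3 : (36 * (3 * c + 22) + 2) * 2 ^ (n.size - d * (K * pR n.size K d)) ≤
      2 ^ K * 2 ^ (n.size - d * (K * pR n.size K d)) :=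
    Nat.mul_le_mul_right _ (by have := H.d_lt; have := H.hK; have := H.hKd; omega)
  have h4 := Nat.two_pow_pos (n.size - d * (K * pR n.size K d))
  rw [add_mul] at h3
  rw [pow_add]; omega

theorem m2_exp (hd : K ^ 3 ≤ d) : K * (K + (n.size - d * (K * pR n.size K d))) ≤ 4 * n.size := by
  have h1 := H.R_lo; have h2 := H.dim; have h3 := H.m_sq; have h4 := H.K_le_m; have h5 := H.K_pos
  have h6 := H.m_pow (j := 3) (by omega)
  generalize pR n.size K d = R at *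
  have e : R * (d * K + K ^ 2 + K) = d * (K * R) + R * (K ^ 2 + K) := by ring
  have h7 : n.size - d * (K * R) ≤ R * (K ^ 2 + K) + 224 * (K * d) := by omega
  have h8 : K * K ≤ n.size := (Nat.mul_le_mul h4 h4).trans h3
  have h9 : K * (224 * (K * d)) ≤ n.size := by
    calc K * (224 * (K * d)) ≤ (K * d) * ((K * d) * (K * d)) := by gcongr; omega
      _ = (K * d) ^ 3 := by ring
      _ ≤ _ := h6
  have h10 : K * (R * (K ^ 2 + K)) ≤ 2 * n.size := by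
    have h11 : K ^ 2 + K ≤ 2 * d := by
      have : K ^ 2 ≤ K ^ 3 := Nat.pow_le_pow_right (by omega) (by omega)
      have := H.hKd; omega
    calc K * (R * (K ^ 2 + K)) ≤ K * (R * (2 * d)) := by gcongr
      _ = 2 * (d * (K * R)) := by ring
      _ ≤ _ := by omega
  have h12 := Nat.mul_le_mul_left K h7
  rw [mul_add] at h12 ⊢
  omega

section cost
variable {x : ℝ} (hx1 : 1 ≤ x) (hxK : x ≤ K) (hL : (n.size : ℝ) ≤ x * (2 * (n.size : ℝ) ^ muE))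
  (hτ : (K : ℝ) ^ tauE * x = K) (hd : (d : ℝ) ^ tauE * (K : ℝ) ^ 4 = d)
  (hdL : (d : ℝ) * (n.size : ℝ) ^ tauE ≤ (n.size : ℝ) ^ muE) (hd3 : K ^ 3 ≤ d)
include hx1 hxK hL hτ hd hdL hd3

theorem cost_le : (mkTP c n K d).cost ≤ 12 * ell n := by
  have h0 := pm_ell_ge (n := n) (by have := H.L_big; have := H.K_pos; omega)
  have hK1 : (1 : ℝ) ≤ K := by exact_mod_cast (show 1 ≤ K by have := H.K_pos; omega)
  have hdim : (d : ℝ) * (K * pR n.size K d) ≤ n.size := by exact_mod_cast H.dim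
  have hx0 : 0 < x := by linarith
  have hd0 : (0 : ℝ) ≤ d := Nat.cast_nonneg _
  have h1 : (d : ℝ) * ((K * pR n.size K d + 1 : ℕ) : ℝ) ^ tauE ≤ 2 * (n.size : ℝ) ^ muE := by
    have h2 : ((K * pR n.size K d + 1 : ℕ) : ℝ) ≤ 2 * n.size := by
      exact_mod_cast (show K * pR n.size K d + 1 ≤ 2 * n.size by
        have := H.KR_le; have := H.L_big; have := H.K_pos; omega)
    have h3 := Real.rpow_le_rpow (Nat.cast_nonneg _) h2 pm_tau_ge
    rw [Real.mul_rpow (by norm_num) (Nat.cast_nonneg _)] at h3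
    have h4 : (0 : ℝ) ≤ (n.size : ℝ) ^ tauE := Real.rpow_nonneg (Nat.cast_nonneg _) _
    calc _ ≤ (d : ℝ) * (2 * (n.size : ℝ) ^ tauE) := mul_le_mul_of_nonneg_left
          (h3.trans (mul_le_mul_of_nonneg_right (pm_two_rpow pm_tau_le) h4)) hd0
      _ = 2 * (d * (n.size : ℝ) ^ tauE) := mul_left_comm _ _ _
      _ ≤ _ := by linarith
  have h2 : (pR n.size K d : ℝ) * d * (K : ℝ) ^ tauE ≤ 2 * (n.size : ℝ) ^ muE := by
    refine le_of_mul_le_mul_left (le_trans ?_ (hdim.trans hL)) hx0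
    refine le_of_eq ?_
    calc _ = (pR n.size K d : ℝ) * d * ((K : ℝ) ^ tauE * x) := by ring
      _ = _ := by rw [hτ]; ring
  have h3 : (K : ℝ) * pR n.size K d * K * (d : ℝ) ^ tauE ≤ 2 * (n.size : ℝ) ^ muE := by
    refine le_of_mul_le_mul_left (le_trans ?_ (hdim.trans hL)) hx0
    have h4 : x * K ≤ (K : ℝ) ^ 4 := by
      calc x * K ≤ K * K := by gcongr
        _ = (K : ℝ) ^ 2 := by ring
        _ ≤ _ := pow_le_pow_right₀ hK1 (by norm_num)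
    calc _ = (d : ℝ) ^ tauE * (x * K) * (K * pR n.size K d) := by ring
      _ ≤ (d : ℝ) ^ tauE * (K : ℝ) ^ 4 * (K * pR n.size K d) := by gcongr
      _ = _ := by rw [hd]
  show (d : ℝ) * ((K * pR n.size K d + 1 : ℕ) : ℝ) ^ tauE + (pR n.size K d : ℝ) * d * (K : ℝ) ^ tauE +
    (K : ℝ) * pR n.size K d * K * (d : ℝ) ^ tauE ≤ _
  linarith

theorem cost2 {ε : ℝ} (hε : 8 ≤ ε * K) :
    (K : ℝ) * pR n.size K d * ell (mkTP c n K d).P ≤ ε * ell n := by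
  have h0 := pm_ell_ge (n := n) (by have := H.L_big; have := H.K_pos; omega)
  have hK1 : (1 : ℝ) ≤ K := by exact_mod_cast (show 1 ≤ K by have := H.K_pos; omega)
  have hdim : (d : ℝ) * (K * pR n.size K d) ≤ n.size := by exact_mod_cast H.dim
  have hd3' : (K : ℝ) ^ 3 ≤ d := by exact_mod_cast hd3
  have h1 := pm_ell_le' H.P_log
  have h2 := pm_ell_nonneg n
  have h3 : (0 : ℝ) ≤ (n.size : ℝ) ^ muE := by positivity
  push_cast at h1
  refine le_of_mul_le_mul_left ?_ (show (0 : ℝ) < K * K by positivity)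
  calc _ ≤ (K : ℝ) * K * (K * pR n.size K d * (2 * K)) := by gcongr
    _ = 2 * (K ^ 3 * (K * pR n.size K d)) := by ring
    _ ≤ 2 * (d * (K * pR n.size K d)) := by gcongr
    _ ≤ 2 * (x * (2 * (n.size : ℝ) ^ muE)) := by linarith
    _ ≤ 2 * (K * (2 * (2 * ell n))) := by gcongr
    _ = K * (8 * ell n) := by ring
    _ ≤ K * (ε * K * ell n) := by gcongr
    _ = _ := by ring

theorem cost3 {ε : ℝ} (hε0 : 0 < ε) (hε : 16 ≤ ε ^ 2 * K) : ell (mkTP c n K d).m2 ≤ ε * ell n := by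
  have h0 := pm_ell_ge (n := n) (by have := H.L_big; have := H.K_pos; omega)
  have hK4 : (4 : ℝ) ≤ K := by exact_mod_cast (show 4 ≤ K by have := H.K_pos; omega)
  have hK0 : (0 : ℝ) < K := by linarith
  have h1 := pm_ell_le H.m2_log
  have h2 := H.m2_exp hd3
  generalize K + (n.size - d * (K * pR n.size K d)) = j at h1 h2
  have h3 : (j : ℝ) ≤ 4 / K * n.size := by
    rw [div_mul_eq_mul_div, le_div_iff₀ hK0, mul_comm]; exact_mod_cast h2
  have h4 : (4 / K : ℝ) ^ muE ≤ ε / 2 := by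
    calc (4 / K : ℝ) ^ muE ≤ (4 / K : ℝ) ^ (1 / 2 : ℝ) :=
          Real.rpow_le_rpow_of_exponent_ge (by positivity) ((div_le_one hK0).mpr hK4) pm_mu_ge
      _ = √(4 / K) := (Real.sqrt_eq_rpow _).symm
      _ ≤ ε / 2 := Real.sqrt_le_iff.mpr ⟨by positivity, by rw [div_le_iff₀ hK0]; linarith⟩
  calc _ ≤ (j : ℝ) ^ muE := h1
    _ ≤ (4 / K * n.size) ^ muE :=
        Real.rpow_le_rpow (Nat.cast_nonneg _) h3 (by have := pm_mu_ge; linarith)
    _ = (4 / K : ℝ) ^ muE * (n.size : ℝ) ^ muE := Real.mul_rpow (by positivity) (Nat.cast_nonneg _)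
    _ ≤ ε / 2 * (2 * ell n) := by gcongr
    _ = _ := by ring
end cost
end PF

end Crest.Agent.R326
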