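/-
R326/Params: the choice of the parameters.
-/
import Crest.Agent.R326.TrAtom
import Crest.Agent.R326.ParamsAux2

set_option autoImplicit false
set_option linter.unusedSimpArgs false
set_option linter.unusedSectionVars false
set_option linter.unusedVariables false

namespace Crest.Agent.R326

open Function Crest.Agent.Lib.PolyTime

/-- The parameters for exponents `N1 ≥ N2` (later `N1 = 2 ^ 110`, `N2 = 2 ^ 52`; never let Lean
evaluate these powers). -/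
def tpOf (c0 N1 N2 n : ℕ) : TP :=
  let L := n.size
  let K := ((Finset.range (L + 1)).filter fun k => k ^ N1 ≤ L).card - 1
  let d := K ^ N2
  let e1 := 71 * (L.size + 1 + d.size)
  let R := (L - (1 + L.size + 6 * K * d + e1)) / (d * K + K ^ 2 + K)
  let E := (K ^ 2 + K) * R + e1
  let h := 2 ^ (K * R)
  let s := (List.range d).map fun i => ((h - 1) / d.factorial - i) * d.factorial + 1
  let Zq := n / (L * (2 ^ (E - 1) * Gam0 K ^ (2 * d) * (s.prod / 2))) + 1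
  ⟨K, R, d, (3 * c0 + 22) * L, 2 ^ E * Zq, (c0 + 11) * L, s, false⟩

theorem tpOf_eq (c0 N1 N2 n : ℕ) :
    tpOf c0 N1 N2 n = mkTP c0 n (pK N1 n.size) (pK N1 n.size ^ N2) := rfl

theorem PF.ok {c n K d : ℕ} (H : PF c n.size K d) : (mkTP c n K d).OK 3 ∧
    layX.vol (mkTP c n K d) ≤ 96 * (3 * c + 22) * n := by
  have hv : layX.vol (mkTP c n K d) ≤ 96 * (3 * c + 22) * n := by
    rw [volX_eq]; exact H.vol_le
  have hK := H.K_pos; have hd := H.d_pos; have hL := H.L_big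
  refine ⟨⟨show 1 ≤ K by omega, H.R_pos, show 1 ≤ d by omega, ?_, ?_, fun i hi => ⟨?_, ?_⟩, ?_,
    H.rich hv⟩, hv⟩
  · exact (Nat.mul_le_mul (show 2 ≤ 3 * c + 22 by omega) (show 1 ≤ n.size by omega))
  · exact Nat.mul_pos (Nat.two_pow_pos _) (Nat.succ_pos _)
  · exact (Nat.le_add_left _ _).trans (ps_getD hi).ge
  · exact ps_le Nat.one_le_two_pow hi
  · exact Dvd.dvd.mul_right (pow_dvd_pow _ (H.E_eq ▸ Nat.le_add_right _ _)) _

theorem PF.two_h_le {c n K d : ℕ} (H : PF c n.size K d) : 2 * (mkTP c n K d).h ≤ n := by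
  refine le_trans ?_ H.le_n
  rw [show (mkTP c n K d).h = 2 ^ (K * pR n.size K d) from rfl, ← pow_succ']
  refine Nat.pow_le_pow_right (by omega) ?_
  have h1 := H.dim; have h2 := H.K_le_KR; have h3 := H.K_pos
  have h4 := Nat.mul_le_mul_right (K * pR n.size K d) H.d_pos
  omega

theorem PF.h_small {c n K d : ℕ} (H : PF c n.size K d) (k : ℕ) :
    (2 * (2 * (mkTP c n K d).h) + 1 + 1) ^ k ≤
      (2 ^ 2 ^ (4 * k)) ^ (4 * k) * ((mkTP c n K d).Zr / (mkTP c n K d).h) := by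
  have h1 : n.size < (mkTP c n K d).h := H.L_lt_h
  have h2 := H.L_big; have h3 := H.K_pos
  have h4 : (2 * (2 * (mkTP c n K d).h) + 1 + 1) ^ k ≤ (mkTP c n K d).h ^ (4 * k) := by
    rw [pow_mul]
    refine Nat.pow_le_pow_left (le_trans ?_ (Nat.pow_le_pow_right (by omega) (show 2 ≤ 4 by omega))) k
    have := Nat.mul_le_mul_right (mkTP c n K d).h (show 6 ≤ (mkTP c n K d).h by omega)
    rw [sq]; omega
  have h5 : 2 ^ (K ^ 2 * pR n.size K d) ≤ (mkTP c n K d).Zr / (mkTP c n K d).h := by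
    rw [H.Zr_div]
    exact (Nat.pow_le_pow_right (by omega) (Nat.le_add_right _ _)).trans
      (Nat.le_mul_of_pos_right _ (Nat.succ_pos _))
  refine h4.trans ?_
  rcases le_total (4 * k) K with h6 | h6
  · refine le_trans ?_ (h5.trans (Nat.le_mul_of_pos_left _ (by positivity)))
    rw [show (mkTP c n K d).h = 2 ^ (K * pR n.size K d) from rfl, ← pow_mul]
    refine Nat.pow_le_pow_right (by omega) ((Nat.mul_le_mul_left _ h6).trans (le_of_eq (by ring)))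
  · refine le_trans ?_ (Nat.le_mul_of_pos_right _ (lt_of_lt_of_le (Nat.two_pow_pos _) h5))
    refine Nat.pow_le_pow_left (Nat.pow_le_pow_right (by omega) ?_) _
    exact (H.KR_le.trans H.hL.le).trans (Nat.pow_le_pow_right (by omega) h6)

/-- The part of the code that is polynomial-time in the binary number `n`. -/
def tpRest (c0 N1 N2 n : ℕ) : (List Unit × List Unit × List Unit) ×
    (List Unit × ℕ × List Unit × List ℕ × Bool) × ℕ :=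
  (((tpOf c0 N1 N2 n).tup.1.2), (tpOf c0 N1 N2 n).tup.2, 2 * (tpOf c0 N1 N2 n).h)

section pt
variable {α : Type} [Enc α] {L K d h : α → ℕ}

theorem pt_pe (hL : PT L) (hd : PT d) : PT fun a => pe (L a) (d a) := by unfold pe; fun_prop
theorem pb_pe (hL : PT L) (hd : PT d) : PB fun a => pe (L a) (d a) := by unfold pe; fun_prop
theorem pt_pR (hL : PT L) (hK : PT K) (hd : PT d) : PT fun a => pR (L a) (K a) (d a) :=
  (hL.nat_sub (PT.nat_add (by fun_prop) (pt_pe hL hd))).nat_div (by fun_prop)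
theorem pb_pR (hL' : PB L) : PB fun a => pR (L a) (K a) (d a) := hL'.sub.div
theorem pt_pE (hL : PT L) (hK : PT K) (hd : PT d) : PT fun a => pE (L a) (K a) (d a) :=
  (PT.nat_mul (by fun_prop) (pt_pR hL hK hd)).nat_add (pt_pe hL hd)
theorem pb_pE (hL : PT L) (hL' : PB L) (hK' : PB K) (hd : PT d) :
    PB fun a => pE (L a) (K a) (d a) :=
  (PB.mul (by fun_prop) (pb_pR hL')).add (pb_pe hL hd)
theorem pt_ps (hh : PT h) (hd : PT d) (hd' : PB d) : PT fun a => ps (h a) (d a) := by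
  have hf : PT fun a => (d a).factorial := hd.factorial hd'
  unfold ps
  exact (PT.range hd hd').map (f := fun a i => ((h a - 1) / (d a).factorial - i) * (d a).factorial + 1)
    (by fun_prop)
theorem pt_ph (hL : PT L) (hL' : PB L) (hK : PT K) (hK' : PB K) (hd : PT d) :
    PT fun a => 2 ^ (K a * pR (L a) (K a) (d a)) :=
  (PT.const 2).nat_pow (hK.nat_mul (pt_pR hL hK hd)) (hK'.mul (pb_pR hL'))
theorem pt_pU (hL : PT L) (hL' : PB L) (hK : PT K) (hK' : PB K) (hd : PT d) (hd' : PB d) :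
    PT fun a => pU (L a) (K a) (d a) :=
  hL.nat_mul ((((PT.const 2).nat_pow ((pt_pE hL hK hd).nat_sub (PT.const 1))
    (pb_pE hL hL' hK' hd).sub).nat_mul (by unfold Gam0; fun_prop)).nat_mul
    ((pt_ps (pt_ph hL hL' hK hK' hd) hd hd').nat_prod.nat_div (PT.const 2)))
theorem pt_un (hK : PT K) (hK' : PB K) : PT fun a => un (K a) := hK.replicate hK' (PT.const _)
end pt

theorem pt_tpRest (c0 N1 N2 : ℕ) : PT (tpRest c0 N1 N2) := by
  have hL : PT fun n : ℕ => n.size := by fun_prop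
  have hL' : PB fun n : ℕ => n.size := by fun_prop
  have hK : PT fun n : ℕ => pK N1 n.size :=
    (PT.card_filter_range (n := fun n : ℕ => n.size + 1) (p := fun n k => k ^ N1 ≤ n.size)
      (by fun_prop) (by fun_prop) (by fun_prop)).nat_sub (PT.const 1)
  have hK' : PB fun n : ℕ => pK N1 n.size := hL'.mono fun _ => pK_le _ _
  have hd : PT fun n : ℕ => pK N1 n.size ^ N2 := hK.nat_pow (PT.const _) (PB.const _)
  have hd' : PB fun n : ℕ => pK N1 n.size ^ N2 := hK'.pow _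
  have hh := pt_ph hL hL' hK hK' hd
  refine PT.prodMk ((pt_un hK hK').prodMk ((pt_un (pt_pR hL hK hd) (pb_pR hL')).prodMk
    (pt_un hd hd'))) (PT.prodMk (PT.prodMk ?_ (PT.prodMk ?_ (PT.prodMk ?_ (PT.prodMk ?_ ?_)))) ?_)
  · exact pt_un ((PT.const _).nat_mul hL) ((PB.const _).mul hL')
  · exact ((PT.const 2).nat_pow (pt_pE hL hK hd) (pb_pE hL hL' hK' hd)).nat_mul
      ((PT.id'.nat_div (pt_pU hL hL' hK hK' hd hd')).nat_add (PT.const 1))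
  · exact pt_un ((PT.const _).nat_mul hL) ((PB.const _).mul hL')
  · exact pt_ps hh hd hd'
  · exact PT.const false
  · exact (PT.const 2).nat_mul hh

/-- The arithmetic facts.  Recipe: `K ^ N1 ≤ L < (K + 1) ^ N1`, so for large `n` `K` is large and
`d`, `K d`, `d ^ 3` are tiny compared with `L`; `d K R ≤ L`; `s i > h - (i + 1) d!`, coprime by
`Nat.coprime_mul_succ`, `2 * ∏ s i ≥ h ^ d`; the unit `L * 2 ^ (E - 1) * Gam0 ^ (2 d) * (S / 2)` is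
at most `2 ^ (L - 1) ≤ n`, so `n ≤ L * Zh * (S / 2) ≤ 2 n`; `(Gam / Gam0) ^ (2 d) ≤ e ^ 4` because
`d ≤ 2 ^ K`; `K ^ 2 R ≥ √L`. -/
theorem tpOf_ok (c0 N1 N2 : ℕ) (h1 : 1 ≤ N2) (h2 : 8 * N2 + 8 ≤ N1) : ∃ C n0 : ℕ, ∀ n ≥ n0,
    (tpOf c0 N1 N2 n).OK 3 ∧ (tpOf c0 N1 N2 n).Fit c0 n ∧ layX.vol (tpOf c0 N1 N2 n) ≤ C * n ∧
    8 ≤ n.size ∧ (tpOf c0 N1 N2 n).P < n ∧ (tpOf c0 N1 N2 n).m2 < n := by
  obtain ⟨n0, hn0⟩ := exists_PF c0 N1 N2 h1 h2 0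
  refine ⟨96 * (3 * c0 + 22), n0, fun n hn => ?_⟩
  have H := (hn0 n hn).1
  exact ⟨H.ok.1, H.fit, H.ok.2, by have := H.L_big; have := H.K_pos; omega, H.P_lt, H.m2_lt⟩

/-- Smallness: the code has size `O(h ^ 2)` and `h ^ j ≤ 2 ^ (K ^ 2 R)` as soon as `j ≤ K`. -/
theorem tpOf_small (c0 N1 N2 : ℕ) (h1 : 1 ≤ N2) (h2 : 8 * N2 + 8 ≤ N1) : ∃ n0 : ℕ,
    SmIn (fun n : {n // n0 ≤ n} => (tpOf c0 N1 N2 n).Zr / (tpOf c0 N1 N2 n).h)
      fun n => tpOf c0 N1 N2 n := by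
  obtain ⟨n0, hn0⟩ := exists_PF c0 N1 N2 h1 h2 0
  refine ⟨n0, ?_⟩
  have hu : SmIn (fun n : {n // n0 ≤ n} => (tpOf c0 N1 N2 n).Zr / (tpOf c0 N1 N2 n).h)
      fun n => un (2 * (tpOf c0 N1 N2 n).h) := fun k =>
    ⟨(2 ^ 2 ^ (4 * k)) ^ (4 * k), fun n => by
      simp only [esize_un]
      exact (hn0 n n.2).1.h_small k⟩
  have hn : SmIn (fun n : {n // n0 ≤ n} => (tpOf c0 N1 N2 n).Zr / (tpOf c0 N1 N2 n).h)
      fun n => n.1 := hu.of_poly 2 fun n => by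
    have h3 : n.1.size < (tpOf c0 N1 N2 n).h := (hn0 n n.2).1.L_lt_h
    rw [esize_un, esize_nat]
    nlinarith
  have hr := hn.pt (pt_tpRest c0 N1 N2)
  exact ((hu.pair (hr.pt PT.fst')).pair ((hr.pt PT.snd').pt PT.fst')).of_le fun _ => le_rfl

/-- The parameters are computed in linear time: the numbers in polynomial time from the binary
number `n` (bound the exponents by `min · (size n)`), the unary parts by `L.un`. -/
theorem tpOf_L (c0 N1 N2 : ℕ) (h1 : 1 ≤ N2) (h2 : 8 * N2 + 8 ≤ N1) : ∃ n0 : ℕ,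
    ∀ {α X : Type} [Enc X] (𝔅 : Bud α) (x : α → X) (n : α → ℕ), (∀ a, n0 ≤ n a) → S 𝔅 x n →
      n ≼ 𝔅.V → L 𝔅 x fun a => tpOf c0 N1 N2 (n a) := by
  obtain ⟨n0, hn0⟩ := exists_PF c0 N1 N2 h1 h2 0
  refine ⟨n0, fun 𝔅 x n hn hS hV => ?_⟩
  have hr := hS.pt (pt_tpRest c0 N1 N2)
  have hu : L 𝔅 x fun a => un (2 * (tpOf c0 N1 N2 (n a)).h) :=
    hr.snd.snd.un (hV.mono_left fun a => (hn0 _ (hn a)).1.two_h_le)
  exact ((hu.pair hr.fst.l).pair hr.snd.fst.l).of_enc_eq fun _ => rfl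

/-- The costs.  Recipe: `R d K ≤ L`; `K ≥ L ^ (1 / N1) / 2`; `d ≤ L ^ (2 ^ (-58))`;
`K d ^ (τ - 1) = K ^ (-3)`; `L ≤ 2 * logb 2 (n + 2)`.  For the last two: `K R ≤ L / d`,
`log P = O(log L)`; `m2 ≤ C n / h ^ d` and `L - d K R = o(L)`. -/
theorem tpOf_cost (c0 N1 N2 : ℕ) (h1 : (N1 : ℝ) = 2 ^ 110) (h2 : (N2 : ℝ) = 2 ^ 52) : ∃ C : ℝ, 0 ≤ C ∧
    ∀ ε : ℝ, 0 < ε → ∃ n0 : ℕ, ∀ n ≥ n0, (tpOf c0 N1 N2 n).cost ≤ C * ell n ∧
      (tpOf c0 N1 N2 n).K * (tpOf c0 N1 N2 n).R * ell (tpOf c0 N1 N2 n).P ≤ ε * ell n ∧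
      ell (tpOf c0 N1 N2 n).m2 ≤ ε * ell n := by
  have h3 : 4 ≤ N2 := by
    have : ((4 : ℕ) : ℝ) ≤ N2 := by rw [h2]; norm_num
    exact Nat.cast_le.mp this
  have h4 : 8 * N2 + 8 ≤ N1 := by
    have : ((8 * N2 + 8 : ℕ) : ℝ) ≤ N1 := by push_cast; rw [h1, h2]; norm_num
    exact Nat.cast_le.mp this
  refine ⟨12, by norm_num, fun ε hε => ?_⟩
  obtain ⟨n0, hn0⟩ := exists_PF c0 N1 N2 (by omega) h4 (⌈8 / ε⌉₊ + ⌈16 / ε ^ 2⌉₊)
  refine ⟨n0, fun n hn => ?_⟩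
  obtain ⟨H, hK⟩ := hn0 n hn
  have hK1 : 1 ≤ pK N1 n.size := by have := H.K_pos; omega
  obtain ⟨x, hx1, hxK, hL, hτ, hd, hdL⟩ := pm_facts h1 h2 hK1 (pK_pow_le (by omega) n.size)
    (lt_pK_pow (by omega) n.size)
  have hd3 : pK N1 n.size ^ 3 ≤ pK N1 n.size ^ N2 := Nat.pow_le_pow_right hK1 (by omega)
  refine ⟨H.cost_le hx1 hxK hL hτ hd hdL hd3, H.cost2 hx1 hxK hL hτ hd hdL hd3 ?_,
    H.cost3 hx1 hxK hL hτ hd hdL hd3 hε ?_⟩
  · rw [mul_comm, ← div_le_iff₀ hε]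
    exact Nat.ceil_le.mp ((Nat.le_add_right _ _).trans hK)
  · rw [mul_comm, ← div_le_iff₀ (pow_pos hε 2)]
    exact Nat.ceil_le.mp ((Nat.le_add_left _ _).trans hK)

/-- Summary. -/
theorem params (c0 : ℕ) : ∃ (k C : ℕ) (tp : ℕ → TP), ∀ ε : ℝ, 0 < ε → ∃ n0 : ℕ,
    (∀ n ≥ n0, (tp n).OK k ∧ (tp n).Fit c0 n ∧ layX.vol (tp n) ≤ C * n ∧ 8 ≤ n.size ∧
      (tp n).P < n ∧ (tp n).m2 < n ∧ (tp n).cost ≤ C * ell n ∧
      (tp n).K * (tp n).R * ell (tp n).P ≤ ε * ell n ∧ ell (tp n).m2 ≤ ε * ell n) ∧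
    SmIn (fun n : {n // n0 ≤ n} => (tp n).Zr / (tp n).h) (fun n => tp n) ∧
    ∀ {α X : Type} [Enc X] (𝔅 : Bud α) (x : α → X) (n : α → ℕ), (∀ a, n0 ≤ n a) → S 𝔅 x n →
      n ≼ 𝔅.V → L 𝔅 x fun a => tp (n a) := by
  obtain ⟨N1, h1⟩ : ∃ N : ℕ, (N : ℝ) = 2 ^ 110 := ⟨2 ^ 110, by push_cast; norm_num⟩
  obtain ⟨N2, h2⟩ : ∃ N : ℕ, (N : ℝ) = 2 ^ 52 := ⟨2 ^ 52, by push_cast; norm_num⟩
  have h3 : 1 ≤ N2 := by
    have : ((1 : ℕ) : ℝ) ≤ N2 := by rw [h2]; norm_num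
    exact Nat.cast_le.mp this
  have h4 : 8 * N2 + 8 ≤ N1 := by
    have : ((8 * N2 + 8 : ℕ) : ℝ) ≤ N1 := by push_cast; rw [h1, h2]; norm_num
    exact Nat.cast_le.mp this
  obtain ⟨C1, n1, H1⟩ := tpOf_ok c0 N1 N2 h3 h4
  obtain ⟨n2, H2⟩ := tpOf_small c0 N1 N2 h3 h4
  obtain ⟨n3, H3⟩ := tpOf_L c0 N1 N2 h3 h4
  obtain ⟨C4, hC4, H4⟩ := tpOf_cost c0 N1 N2 h1 h2
  refine ⟨3, C1 + ⌈C4⌉₊, tpOf c0 N1 N2, fun ε hε => ?_⟩
  obtain ⟨n4, H4⟩ := H4 ε hε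
  refine ⟨n1 + n2 + n3 + n4, fun n hn => ?_, ?_, fun 𝔅 x n hn => H3 𝔅 x n fun a => ?_⟩
  · obtain ⟨a1, a2, a3, a4, a5, a6⟩ := H1 n (by omega)
    obtain ⟨b1, b2, b3⟩ := H4 n (by omega)
    refine ⟨a1, a2, a3.trans (Nat.mul_le_mul_right _ (Nat.le_add_right _ _)), a4, a5, a6,
      b1.trans (mul_le_mul_of_nonneg_right ?_ (pm_ell_nonneg n)), b2, b3⟩
    exact (Nat.le_ceil C4).trans (Nat.cast_le.mpr (Nat.le_add_left _ _))
  · exact H2.comp fun n : {n // n1 + n2 + n3 + n4 ≤ n} => ⟨n.1, by have := n.2; omega⟩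
  · have := hn a; omega

end Crest.Agent.R326
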