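/-
R326/Main: the recursion on the length, and the bridge to machines.  Author: helper92.
-/
import Crest.Agent.R326.Level
import Crest.Agent.R326.Params
import Crest.Prelude.Def_IntMul

set_option autoImplicit false
set_option linter.unusedSimpArgs false
set_option linter.unusedSectionVars false
set_option linter.unusedVariables false

namespace Crest.Agent.R326

open Function Crest.Agent.Lib.PolyTime

theorem one_le_ell (n : ℕ) : 1 ≤ ell n := by
  refine Real.one_le_rpow ?_ (by unfold muE; norm_num)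
  rw [Real.le_logb_iff_rpow_le (by norm_num) (by positivity), Real.rpow_one]
  linarith [(Nat.cast_nonneg n : (0 : ℝ) ≤ n)]

theorem pt_mulBits : PT fun q : Arr × Arr => mulBits q.1 q.2 := by
  have : PT fun q : Arr × Arr =>
      (List.range (2 * q.1.length)).map fun i => (ofBits q.1 * ofBits q.2).testBit i := by fun_prop
  exact this

theorem nrec_le {t : TP} (h : 1 ≤ t.P) : layX.nrec t * (t.P + 1) ≤ layX.vol t := by
  rw [layX.vol_eq_nrec (show 1 ≤ 2 + 2 * t.d + t.d * t.R by omega), mul_comm]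
  exact Nat.mul_le_mul_right _ (show t.P + 1 ≤ 2 * t.P by omega)

theorem hd_m2_le {t : TP} {k : ℕ} (h : t.OK k) : t.h ^ t.d * (t.m2 + 1) ≤ 2 * layX.vol t := by
  refine le_trans ?_ (Nat.mul_le_mul_left 2 (volM_le_volX t))
  rw [volM_eq, mul_comm, ← mul_assoc]
  refine Nat.mul_le_mul_right _ ?_
  have h1 : 2 * t.Zh ≤ t.Zt := Nat.mul_div_le _ _
  have h2 : 0 < t.Zt := by
    have := h.hK
    refine Nat.mul_pos h.hZ (pow_pos (Nat.mul_pos (Nat.two_pow_pos _) ?_) _)
    have : 2 ^ 1 ≤ 2 ^ t.K := Nat.pow_le_pow_right (by omega) this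
    omega
  have h3 := h.hP
  rw [TP.m2]
  nlinarith

/-- Pairs of numbers of the same length. -/
abbrev MT := {xy : Arr × Arr // xy.1.length = xy.2.length}

/-- The exact cost of the recursive calls. -/
noncomputable def exCost (c0 : ℕ) (t : TP) (T : ℕ → ℝ) : ℝ :=
  3 * c0 * (t.K * t.R) * layX.nrec t * T t.P + 4 * (t.h ^ t.d : ℕ) * T t.m2

theorem mul_big : ∃ (c0 C : ℕ) (tp : ℕ → TP), ∀ ε : ℝ, 0 < ε → ∃ n0 : ℕ,
    (∀ n ≥ n0, ∀ A : ℝ, 0 ≤ A → exCost c0 (tp n) (fun m => A * ((m + 1) * ell m)) ≤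
      C * ε * (A * ((n + 1) * ell n))) ∧
    ∀ {α : Type} (𝔅 : Bud α) (xy : α → Arr × Arr) (n : α → ℕ) (T : α → ℕ → ℝ), (∀ a, n0 ≤ n a) →
      (∀ a, (xy a).1.length = n a ∧ (xy a).2.length = n a) → (fun a => n a + 1) ≼ 𝔅.V →
      ((fun a => ((n a : ℝ) + 1) * ell (n a)) ≲ 𝔅.F) → (∀ a m, 0 ≤ T a m) →
      (∀ a (x y : Arr), x.length = y.length → x.length < n a →
        Handles (𝔅.o a) (enc (x, y)) (enc (mulBits x y)) (T a x.length)) →
      Cp 𝔅 xy (fun a => mulBits (xy a).1 (xy a).2) fun a => exCost c0 (tp (n a)) (T a) := by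
  obtain ⟨c0, hc0, hlev⟩ := Impl.level
  obtain ⟨k, C, tp, hpar⟩ := params c0
  refine ⟨c0, 3 * c0 * C + 8 * C, tp, fun ε hε => ?_⟩
  obtain ⟨n0, h1, h2, h3⟩ := hpar ε hε
  have b0 : ∀ n ≥ n0, (layX.vol (tp n) : ℝ) ≤ C * (n + 1) := fun n h => by
    have := (h1 n h).2.2.1.trans (Nat.mul_le_mul_left C (Nat.le_succ _))
    exact_mod_cast this
  refine ⟨n0, fun n h A hA => ?_, fun 𝔅 xy n T hn hl hV hF hT hM => Cp.with_sz fun hx => ?_⟩
  · obtain ⟨ok, -, a1, -, -, -, -, a2, a3⟩ := h1 _ h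
    have b1 : (layX.nrec (tp n) : ℝ) * ((tp n).P + 1) ≤ C * (n + 1) :=
      le_trans (by exact_mod_cast nrec_le (by have := ok.hP; omega)) (b0 n h)
    have b2 : (((tp n).h ^ (tp n).d : ℕ) : ℝ) * ((tp n).m2 + 1) ≤ 2 * (C * (n + 1)) :=
      le_trans (by exact_mod_cast hd_m2_le ok) (mul_le_mul_of_nonneg_left (b0 n h) zero_le_two)
    have b3 := one_le_ell (tp n).P
    have b4 := one_le_ell (tp n).m2
    have b5 := one_le_ell n
    calc _ = 3 * c0 * A * ((layX.nrec (tp n) * ((tp n).P + 1)) *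
          ((tp n).K * (tp n).R * ell (tp n).P)) +
          4 * A * ((((tp n).h ^ (tp n).d : ℕ) * ((tp n).m2 + 1)) * ell (tp n).m2) := by
          rw [exCost]; ring
      _ ≤ 3 * c0 * A * ((C * (n + 1)) * (ε * ell n)) + 4 * A * ((2 * (C * (n + 1))) * (ε * ell n)) := by
          gcongr
      _ = _ := by push_cast; ring
  · have hM' : ∀ m : ℕ → ℕ, (∀ n ≥ n0, m n < n) → HM 𝔅 (fun a => m (n a)) fun a => T a (m (n a)) := by
      intro m hm a x y e1 e2
      have := hM a x y (e1.trans e2.symm) (e1 ▸ hm _ (hn a))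
      rwa [e1] at this
    have hn' : n ≼ 𝔅.V := hV.mono_left fun _ => Nat.le_succ _
    have hv : (fun a => layX.vol (tp (n a))) ≼ 𝔅.V :=
      OLe.trans ⟨C, fun a => (h1 _ (hn a)).2.2.1⟩ hn'
    have hc : (fun a => (layX.vol (tp (n a)) : ℝ) * (tp (n a)).cost) ≲ 𝔅.F := by
      refine RLe.trans ⟨C * C, by positivity, fun a => ?_⟩ hF
      have e1 := b0 _ (hn a)
      have e2 := (h1 _ (hn a)).2.2.2.2.2.2.1
      have e3 := one_le_ell (n a)
      calc _ ≤ (layX.vol (tp (n a)) : ℝ) * (C * ell (n a)) :=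
            mul_le_mul_of_nonneg_left e2 (Nat.cast_nonneg _)
        _ ≤ C * (n a + 1) * (C * ell (n a)) := by gcongr
        _ = _ := by ring
    have hl' := hlev k 𝔅 (fun a => tp (n a)) n _ _
      ⟨fun a => (h1 _ (hn a)).1, h2.comp fun a => ⟨n a, hn a⟩, hv⟩ (fun a => (h1 _ (hn a)).2.1)
      (fun a => (h1 _ (hn a)).2.2.2.1) hn' (hM' (fun n => (tp n).P) fun n h => (h1 n h).2.2.2.2.1)
      (fun a => hT _ _) (hM' (fun n => (tp n).m2) fun n h => (h1 n h).2.2.2.2.2.1)
      (fun a => hT _ _) hc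
    have hS : S 𝔅 xy n := (S.length (L.refl _ _).fst hx).congr fun a => (hl a).1
    obtain ⟨z, k1, k2⟩ := hl'.use (fun a => a) (x := xy) (D := xy) hl (h3 _ _ _ hn hS hn')
      (L.refl _ _)
    exact (k2.congr k1).mono fun q => by simp [exCost]

theorem mul_small (n0 : ℕ) {α : Type} (𝔅 : Bud α) (xy : α → Arr × Arr)
    (hl : ∀ a, (xy a).1.length < n0 ∧ (xy a).2.length < n0) :
    L 𝔅 xy fun a => mulBits (xy a).1 (xy a).2 := L.with_sz fun hx => by
  refine L.pt (L.refl _ _) (fun j => ?_) pt_mulBits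
  refine (OLe.const (sz_one_le hx) ((8 * n0 + 4) ^ j)).mono_left fun a => Nat.pow_le_pow_left ?_ j
  have e1 := esize_boolList_le (xy a).1
  have e2 := esize_boolList_le (xy a).2
  have e3 := hl a
  rw [esize_prod]
  omega

/-- The multiplication algorithm on little-endian bit lists. -/
theorem mul_alg : ∃ A : ℝ, 0 ≤ A ∧
    Alg (fun xy : MT => xy.1) (fun xy => mulBits xy.1.1 xy.1.2)
      fun xy => A * ((xy.1.1.length + 1) * ell xy.1.1.length) := by
  obtain ⟨c0, C, tp, hbig⟩ := mul_big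
  obtain ⟨ε, hε, hε'⟩ : ∃ ε : ℝ, 0 < ε ∧ C * ε ≤ 1 / 2 :=
    ⟨1 / (2 * (C + 1)), by positivity, by
      rw [mul_one_div, div_le_div_iff₀ (by positivity) (by positivity)]; linarith⟩
  obtain ⟨n0, h1, h2⟩ := hbig ε hε
  have hVF : ∀ t : MT, ((t.1.1.length + 1 : ℕ) : ℝ) ≤ (t.1.1.length + 1) * ell t.1.1.length :=
    fun t => by
      push_cast
      exact le_mul_of_one_le_right (by positivity) (one_le_ell _)
  have hx : sz (fun t : MT => t.1) ≼ fun t => t.1.1.length + 1 :=
    sz_pair (sz_bits (OLe.of_le fun t => Nat.le_succ _) fun _ => by omega)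
      (sz_bits (OLe.of_le fun t => t.2.symm.le.trans (Nat.le_succ _)) fun _ => by omega)
  obtain ⟨c, hc, hfix⟩ := Alg.fix (fun t : MT => t.1) (fun t (z : Arr) => z = mulBits t.1.1 t.1.2)
    (fun t => t.1.1.length) (fun t => t.1.1.length) _ _ hVF hx
    (fun T t => if n0 ≤ t.1.1.length then exCost c0 (tp t.1.1.length) T else 0)
    (fun q => mulBits q.a.1.1 q.a.1.2) (fun _ => rfl) (Cp.with_sz fun hx' => by
      have hS := S.length (L.refl _ _).fst hx'
      refine Cp.cases (fun q => n0 ≤ q.a.1.1.length) ((hS.const n0).le hS).l ?_ ?_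
      · refine (h2 _ _ (fun q => q.1.a.1.1.length) (fun q => q.1.T) (fun q => q.2)
          (fun q => ⟨rfl, q.1.a.2.symm⟩) (OLe.refl _) (RLe.refl _) (fun q => q.1.hT)
          fun q x y e1 e2 => ?_).mono fun q => (if_pos q.2).ge
        obtain ⟨z, rfl, hz⟩ := q.1.h ⟨(x, y), e1⟩ e2
        exact hz
      · exact (mul_small n0 _ _ fun q => ⟨not_le.mp q.2, q.1.a.2 ▸ not_le.mp q.2⟩).toCp
          fun q => (if_neg q.2).ge)
  obtain ⟨y, k1, k2⟩ := hfix (fun n => 2 * c * ((n + 1) * ell n))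
    (fun n => by have := one_le_ell n; positivity) fun t => by
      have e0 := one_le_ell t.1.1.length
      have e1 : 0 ≤ c * ((t.1.1.length + 1) * ell t.1.1.length) := by positivity
      split_ifs with h
      · have := h1 _ h (2 * c) (by positivity)
        nlinarith
      · linarith
  exact ⟨2 * c, by positivity, (funext k1 : y = _) ▸ k2⟩

/-! ### The bridge to machines -/

open Crest.LogicCS.IntMul

theorem bitsVal_eq (x : Arr) : bitsVal x = ofBits x.reverse := by
  induction x using List.reverseRecOn with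
  | nil => rfl
  | append_singleton x b ih =>
    rw [bitsVal, List.foldl_append, ← bitsVal, ih]
    cases b <;> simp [Nat.bit_val, mul_comm]

/-- The input tape, as read by the machine. -/
def inBits (p : EqLenPair) : Arr :=
  (p.enc.flatMap fun g => [g.elim id id, g.elim id id]).reverse

theorem enc_eq (p : EqLenPair) : p.enc = p.1.1.map Sum.inl ++ p.1.2.map Sum.inr := rfl

theorem inBits_eq (p : EqLenPair) :
    inBits p = ((p.1.2.reverse ++ p.1.1.reverse).map fun b => [b, b]).flatten := by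
  simp [inBits, enc_eq, List.flatMap_def, List.reverse_flatten, List.map_reverse, Function.comp_def]

theorem L.parse {α : Type} (𝔅 : Bud α) (p : α → EqLenPair)
    (hV : (fun a => (p a).1.1.length) ≼ 𝔅.V) :
    L 𝔅 (fun a => inBits (p a)) fun a => ((p a).1.1.reverse, (p a).1.2.reverse) :=
  L.with_sz fun hx => by
    have h0 : L 𝔅 (fun a => inBits (p a))
        fun a => ((p a).1.2.reverse ++ (p a).1.1.reverse).map fun b => [b, b] :=
      L.unflatten (g := fun _ => 2) (L.const _) ((L.refl _ _).congr fun a => inBits_eq (p a))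
        (fun _ => by omega) fun q b hb => by obtain ⟨c, -, rfl⟩ := List.mem_map.mp hb; rfl
    have h1 : L 𝔅 (fun a => inBits (p a)) fun a => (p a).1.2.reverse ++ (p a).1.1.reverse :=
      (h0.map_lt (f := fun l => l.headD false) fun _ _ _ _ _ _ h => h.headD (L.const _)).congr
        fun q => by simp [Function.comp_def]
    have h2 : S 𝔅 (fun a => inBits (p a)) fun a => (p a).1.1.length :=
      ((S.length h1 hx).pt (f := fun n => n / 2) (by fun_prop)).congr fun a => by
        have := (p a).2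
        simp only [List.length_append, List.length_reverse]; omega
    have h3 := h2.un hV
    exact ((L.drop h3 h1).pair (L.take h3 h1)).congr fun a => by
      rw [(p a).2, ← List.length_reverse, List.drop_left, List.take_left]

theorem mul_algT : ∃ A : ℝ, 0 ≤ A ∧ AlgT (fun p : EqLenPair => bitsTr (inBits p))
    (fun p => bitsTr (mulOutput p).reverse)
    fun p => A * ((p.1.1.length + 1) * ell p.1.1.length) := by
  obtain ⟨A, hA, h⟩ := mul_alg
  have hVF : ∀ p : EqLenPair, ((p.1.1.length + 1 : ℕ) : ℝ) ≤ (p.1.1.length + 1) * ell p.1.1.length :=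
    fun t => by
      push_cast
      exact le_mul_of_one_le_right (by positivity) (one_le_ell _)
  have hx : sz inBits ≼ fun p => p.1.1.length + 1 :=
    sz_bits ⟨4, fun p => by
      have := p.2
      simp [inBits, enc_eq, List.length_flatMap, Function.comp_def]; omega⟩ fun _ => by omega
  obtain ⟨c, hc, h'⟩ := Alg.ofL inBits (fun p => mulBits p.1.1.reverse p.1.2.reverse) _ _ hVF hx
    ((L.parse _ _ (OLe.of_le fun _ => Nat.le_succ _)).comp
      (h.l _ (fun q : RProg × EqLenPair =>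
        ⟨(q.2.1.1.reverse, q.2.1.2.reverse), by simpa using q.2.2⟩)
        (sz_bits ⟨2, fun q => by simp⟩ fun _ => Nat.succ_pos _) ⟨A, hA, fun q => by simp⟩))
  refine ⟨c, hc, ?_⟩
  have e : ∀ p : EqLenPair, (mulOutput p).reverse = mulBits p.1.1.reverse p.1.2.reverse := fun p => by
    simp [mulOutput, toBits, mulBits, bitsVal_eq]
  simp only [e]
  exact h'

theorem ell_bound (n : ℕ) : ((n : ℝ) + 1) * ell n ≤
    2 * (⌈((2 * n : ℕ) : ℝ) * Real.logb 2 (2 * n : ℕ) ^ muE⌉₊ : ℝ) + 4 := by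
  have h0 : 0 ≤ muE := by unfold muE; norm_num
  have h1 : muE ≤ 1 := by unfold muE; norm_num
  by_cases hn : n ≤ 1
  · have e1 : ell n ≤ 2 := by
      have e2 : Real.logb 2 (n + 2) ≤ 2 := by
        rw [Real.logb_le_iff_le_rpow (by norm_num) (by positivity)]
        have : (n : ℝ) ≤ 1 := by exact_mod_cast hn
        norm_num; linarith
      have e3 : 1 ≤ Real.logb 2 (n + 2) := by
        rw [Real.le_logb_iff_rpow_le (by norm_num) (by positivity), Real.rpow_one]
        linarith [(Nat.cast_nonneg n : (0 : ℝ) ≤ n)]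
      exact ((Real.rpow_le_rpow_of_exponent_le e3 h1).trans_eq (Real.rpow_one _)).trans e2
    have e4 : (n : ℝ) ≤ 1 := by exact_mod_cast hn
    have e5 := one_le_ell n
    have e6 : (0 : ℝ) ≤ (⌈((2 * n : ℕ) : ℝ) * Real.logb 2 (2 * n : ℕ) ^ muE⌉₊ : ℝ) := Nat.cast_nonneg _
    nlinarith
  · have e1 : (2 : ℝ) ≤ n := by exact_mod_cast not_le.mp hn
    have e2 : ell n ≤ Real.logb 2 (2 * n : ℕ) ^ muE := by
      refine Real.rpow_le_rpow (Real.logb_nonneg (by norm_num) (by linarith)) ?_ h0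
      push_cast
      exact Real.logb_le_logb_of_le (by norm_num) (by linarith) (by linarith)
    have e3 := Nat.le_ceil (((2 * n : ℕ) : ℝ) * Real.logb 2 (2 * n : ℕ) ^ muE)
    have e5 := one_le_ell n
    generalize Real.logb 2 (2 * n : ℕ) ^ muE = u at *
    push_cast at e3 ⊢
    nlinarith

theorem intMul_timeBound : ∃ c : ℕ, Crest.DTime.TimeBoundComputable EqLenPair.enc
    (Computability.encodingList Bool).encode mulOutput
    fun N => c * ⌈(N : ℝ) * Real.logb 2 N ^ muE⌉₊ + c := by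
  obtain ⟨A, hA, h⟩ := mul_algT
  refine ⟨4 * (⌈A⌉₊ + 50), timeBoundComputable_of_algT _ _ _ _ _ _ _ h fun p => ?_⟩
  have e1 : p.enc.length = 2 * p.1.1.length := by have := p.2; simp [enc_eq]; omega
  have e2 : ((Computability.encodingList Bool).encode (mulOutput p)).length = 2 * p.1.1.length := by
    simp [Computability.encodingList, mulOutput, toBits]
  rw [e1, e2]
  have e3 := ell_bound p.1.1.length
  have e4 := one_le_ell p.1.1.length
  have e5 := Nat.le_ceil A
  have e6 : (0 : ℝ) ≤ p.1.1.length := Nat.cast_nonneg _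
  generalize ⌈((2 * p.1.1.length : ℕ) : ℝ) * Real.logb 2 (2 * p.1.1.length : ℕ) ^ muE⌉₊ = u at *
  have e7 : (p.1.1.length + 1 : ℝ) ≤ (p.1.1.length + 1) * ell p.1.1.length :=
    le_mul_of_one_le_right (by positivity) e4
  generalize ((p.1.1.length : ℝ) + 1) * ell p.1.1.length = w at *
  have e8 : (0 : ℝ) ≤ u := Nat.cast_nonneg _
  push_cast
  nlinarith

end Crest.Agent.R326
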